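import Vale.Agent.P164.MathlibUsed
import Vale.Agent.P164.Defs

set_option linter.all false

namespace AFasteda4dcx5a
theorem a0 : ContinuousSMul ℝ ℂ := inferInstance
@[reducible] noncomputable def a1 : SMulZeroClass ℝ ℂ := inferInstance
@[reducible] noncomputable def a2 : DistribMulAction ℝ ℂ := inferInstance
theorem a3 : CharZero ℝ := inferInstance
@[reducible] noncomputable def a4 : DistribSMul ℝ ℂ := inferInstance
@[reducible] noncomputable def a5 : NormedSpace ℝ ℝ := inferInstance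
@[reducible] noncomputable def a6 : Module ℝ ℂ := inferInstance
@[reducible] noncomputable def a7 : NormedSpace ℝ ℂ := inferInstance
theorem a8 : PosMulReflectLT ℝ := inferInstance
@[reducible] def a9 : SMulZeroClass ℝ ℝ := inferInstance
theorem a10 : PosMulReflectLE ℝ := inferInstance
theorem a11 : PosMulStrictMono ℝ := inferInstance
theorem a12 : ContinuousSMul ℝ ℝ := inferInstance
@[reducible] def a13 : DistribMulAction ℝ ℝ := inferInstance
theorem a14 : AddRightReflectLE ℝ := inferInstance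
theorem a15 : IsOrderedModule ℝ ℝ := inferInstance
theorem a16 : ContinuousSub ℂ := inferInstance
@[reducible] noncomputable def a17 : MeasureTheory.MeasureSpace ℂ := inferInstance
theorem a18 : IsBoundedSMul ℝ ℂ := inferInstance
theorem a19 : PosSMulMono ℝ ℝ := inferInstance
theorem a20 : IsTopologicalSemiring ℂ := inferInstance
theorem a21 : IsScalarTower ℝ ℝ ℂ := inferInstance
theorem a22 : IsModuleTopology ℝ ℝ := inferInstance
theorem a23 : ContinuousSub ℝ := inferInstance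
theorem a24 : ContinuousMul ℂ := inferInstance
theorem a25 : IsRightCancelAdd ℝ := inferInstance
theorem a26 : ExistsAddOfLE ℝ := inferInstance
theorem a27 : IsTopologicalRing ℂ := inferInstance
theorem a28 : IsTopologicalAddGroup ℂ := inferInstance
theorem a29 : AddRightStrictMono ℝ := inferInstance
theorem a30 : IsCancelMulZero ℝ := inferInstance
theorem a31 : IsCancelMulZero ℂ := inferInstance
@[reducible] noncomputable def a32 : SMul ℝ ℂ := inferInstance
theorem a33 : AddLeftReflectLE ℝ := inferInstance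
theorem a34 : IsLeftCancelAdd ℝ := inferInstance
theorem a35 : IsLeftCancelMulZero ℂ := inferInstance
theorem a36 : IsLeftCancelMulZero ℝ := inferInstance
theorem a37 : OpensMeasurableSpace (ℝ × ℂ) := inferInstance
@[reducible] noncomputable def a38 : MulAction ℝ ℂ := inferInstance
theorem a39 : SecondCountableTopologyEither ℝ ℂ := inferInstance
theorem a40 : IsBoundedSMul ℝ ℝ := inferInstance
theorem a41 : ContinuousInv₀ ℂ := inferInstance
theorem a42 : SecondCountableTopology ℂ := inferInstance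
end AFasteda4dcx5a
attribute [local instance] AFasteda4dcx5a.a0 AFasteda4dcx5a.a1 AFasteda4dcx5a.a2 AFasteda4dcx5a.a3
  AFasteda4dcx5a.a4 AFasteda4dcx5a.a5 AFasteda4dcx5a.a6 AFasteda4dcx5a.a7 AFasteda4dcx5a.a8
  AFasteda4dcx5a.a9 AFasteda4dcx5a.a10 AFasteda4dcx5a.a11 AFasteda4dcx5a.a12 AFasteda4dcx5a.a13
  AFasteda4dcx5a.a14 AFasteda4dcx5a.a15 AFasteda4dcx5a.a16 AFasteda4dcx5a.a17 AFasteda4dcx5a.a18
  AFasteda4dcx5a.a19 AFasteda4dcx5a.a20 AFasteda4dcx5a.a21 AFasteda4dcx5a.a22 AFasteda4dcx5a.a23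
  AFasteda4dcx5a.a24 AFasteda4dcx5a.a25 AFasteda4dcx5a.a26 AFasteda4dcx5a.a27 AFasteda4dcx5a.a28
  AFasteda4dcx5a.a29 AFasteda4dcx5a.a30 AFasteda4dcx5a.a31 AFasteda4dcx5a.a32 AFasteda4dcx5a.a33
  AFasteda4dcx5a.a34 AFasteda4dcx5a.a35 AFasteda4dcx5a.a36 AFasteda4dcx5a.a37 AFasteda4dcx5a.a38
  AFasteda4dcx5a.a39 AFasteda4dcx5a.a40 AFasteda4dcx5a.a41 AFasteda4dcx5a.a42
section

namespace Vale.Agent.P164

open Set Metric Filter Topology
open scoped NNReal

lemma im_le_norm_sub (x : ℂ) (w : ℝ) : x.im ≤ ‖x - (w : ℂ)‖ := by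
  have h := Complex.abs_im_le_norm (x - (w : ℂ))
  simp only [Complex.sub_im, Complex.ofReal_im, sub_zero] at h
  exact le_trans (le_abs_self _) h

lemma sub_ne_zero_of_im {x : ℂ} (hx : 0 < x.im) (w : ℝ) : x - (w : ℂ) ≠ 0 := by
  intro h
  have := im_le_norm_sub x w
  rw [h, norm_zero] at this
  linarith only [hx, this]

/-- The Loewner vector field is Lipschitz on `{Im ≥ c}`. -/
lemma lip_field {c : ℝ} (hc : 0 < c) {x y : ℂ} (hx : c ≤ x.im) (hy : c ≤ y.im) (w : ℝ) :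
    ‖(2 : ℂ) / (x - (w : ℂ)) - 2 / (y - (w : ℂ))‖ ≤ 2 / c ^ 2 * ‖x - y‖ := by
  have hx0 := sub_ne_zero_of_im (hc.trans_le hx) w
  have hy0 := sub_ne_zero_of_im (hc.trans_le hy) w
  have e : (2 : ℂ) / (x - (w : ℂ)) - 2 / (y - (w : ℂ))
      = 2 * (y - x) / ((x - (w : ℂ)) * (y - (w : ℂ))) := by
    field_simp
    ring
  rw [e, norm_div, norm_mul, norm_mul]
  have h1 : c ≤ ‖x - (w : ℂ)‖ := hx.trans (im_le_norm_sub x w)
  have h2 : c ≤ ‖y - (w : ℂ)‖ := hy.trans (im_le_norm_sub y w)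
  have h3 : c ^ 2 ≤ ‖x - (w : ℂ)‖ * ‖y - (w : ℂ)‖ := by
    nlinarith only [hc, h1, h2]
  rw [norm_sub_rev y x]
  have h4 : ‖(2 : ℂ)‖ = 2 := by simp
  rw [h4, div_mul_eq_mul_div]
  exact div_le_div_of_nonneg_left (by (clear * -; positivity)) (by positivity) h3

/-- The Loewner vector field varies in a Lipschitz way with the driving value on `{Im ≥ c}`. -/
lemma lip_field_w {c : ℝ} (hc : 0 < c) {x : ℂ} (hx : c ≤ x.im) (w w' : ℝ) :
    ‖(2 : ℂ) / (x - (w : ℂ)) - 2 / (x - (w' : ℂ))‖ ≤ 2 / c ^ 2 * |w - w'| := by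
  have hx0 := sub_ne_zero_of_im (hc.trans_le hx) w
  have hy0 := sub_ne_zero_of_im (hc.trans_le hx) w'
  have e : (2 : ℂ) / (x - (w : ℂ)) - 2 / (x - (w' : ℂ))
      = 2 * ((w : ℂ) - w') / ((x - (w : ℂ)) * (x - (w' : ℂ))) := by
    field_simp
    ring
  rw [e, norm_div, norm_mul, norm_mul]
  have h1 : c ≤ ‖x - (w : ℂ)‖ := hx.trans (im_le_norm_sub x w)
  have h2 : c ≤ ‖x - (w' : ℂ)‖ := hx.trans (im_le_norm_sub x w')
  have h3 : c ^ 2 ≤ ‖x - (w : ℂ)‖ * ‖x - (w' : ℂ)‖ := by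
    nlinarith only [hc, h1, h2]
  have h5 : ‖(w : ℂ) - w'‖ = |w - w'| := by
    rw [← Complex.ofReal_sub, Complex.norm_real, Real.norm_eq_abs]
  have h4 : ‖(2 : ℂ)‖ = 2 := by simp
  rw [h4, h5, div_mul_eq_mul_div]
  exact div_le_div_of_nonneg_left (by (clear * -; positivity)) (by positivity) h3

lemma norm_field_le {c : ℝ} (hc : 0 < c) {x : ℂ} (hx : c ≤ x.im) (w : ℝ) :
    ‖(2 : ℂ) / (x - (w : ℂ))‖ ≤ 2 / c := by
  rw [norm_div]
  have h1 : c ≤ ‖x - (w : ℂ)‖ := hx.trans (im_le_norm_sub x w)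
  have h4 : ‖(2 : ℂ)‖ = 2 := by simp
  rw [h4]
  exact div_le_div_of_nonneg_left (by positivity) (by positivity) h1

namespace IsLoewnerSol

variable {W : ℝ → ℝ} {z : ℂ} {t s : ℝ} {g : ℝ → ℂ}

lemma restrict (hg : IsLoewnerSol W z t g) (hst : s ≤ t) : IsLoewnerSol W z s g := by
  refine ⟨hg.1, fun u hu => ⟨(hg.2 u ⟨hu.1, hu.2.trans hst⟩).1, ?_⟩⟩
  exact (hg.2 u ⟨hu.1, hu.2.trans hst⟩).2.mono (Icc_subset_Icc_right hst)

lemma continuousOn (hg : IsLoewnerSol W z t g) : ContinuousOn g (Icc 0 t) :=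
  fun u hu => (hg.2 u hu).2.continuousWithinAt

lemma hasDerivWithinAt_Ici (hg : IsLoewnerSol W z t g) (hs : s ∈ Ico 0 t) :
    HasDerivWithinAt g (2 / (g s - (W s : ℂ))) (Ici s) s := by
  have h1 := (hg.2 s ⟨hs.1, hs.2.le⟩).2
  have h2 : Icc s t ∈ 𝓝[Ici s] s := Icc_mem_nhdsGE hs.2
  exact (h1.mono (Icc_subset_Icc_left hs.1)).mono_of_mem_nhdsWithin h2

lemma im_antitone (hg : IsLoewnerSol W z t g) : AntitoneOn (fun s => (g s).im) (Icc 0 t) := by
  refine antitoneOn_of_hasDerivWithinAt_nonpos (convex_Icc 0 t)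
    (f' := fun s => (2 / (g s - (W s : ℂ))).im) ?_ ?_ ?_
  · exact Complex.continuous_im.comp_continuousOn hg.continuousOn
  · intro s hs
    have h1 := (hg.2 s (interior_subset hs)).2
    exact Complex.imCLM.hasFDerivAt.comp_hasDerivWithinAt s (h1.mono interior_subset)
  · intro s hs
    have h1 := (hg.2 s (interior_subset hs)).1
    rw [Complex.div_im]
    have e : (g s - (W s : ℂ)).im = (g s).im := by simp
    rw [e]
    have h2 : 0 < Complex.normSq (g s - (W s : ℂ)) :=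
      Complex.normSq_pos.2 (sub_ne_zero_of_im h1 _)
    have : (2 : ℂ).im = 0 := by simp
    rw [this]
    have h3 : (2 : ℂ).re = 2 := by simp
    rw [h3]
    have : 0 ≤ 2 * (g s).im / Complex.normSq (g s - (W s : ℂ)) := by positivity
    rw [zero_mul, zero_div]
    linarith only [this]

lemma im_le (hg : IsLoewnerSol W z t g) (hs : s ∈ Icc 0 t) : (g t).im ≤ (g s).im :=
  hg.im_antitone hs ⟨hs.1.trans hs.2, le_rfl⟩ hs.2

lemma im_pos (hg : IsLoewnerSol W z t g) (ht : 0 ≤ t) : 0 < z.im := by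
  have := (hg.2 0 ⟨le_rfl, ht⟩).1
  rwa [hg.1] at this

/-- Forward Lipschitz bound for two solutions. -/
lemma dist_le {z' : ℂ} {g' : ℝ → ℂ} (hg : IsLoewnerSol W z t g) (hg' : IsLoewnerSol W z' t g')
    {c : ℝ} (hc : 0 < c) (h1 : c ≤ (g t).im) (h2 : c ≤ (g' t).im) (hs : s ∈ Icc 0 t) :
    dist (g s) (g' s) ≤ dist z z' * Real.exp (2 / c ^ 2 * s) := by
  have hK : (0 : ℝ) ≤ 2 / c ^ 2 := by positivity
  have key := dist_le_of_trajectories_ODE_of_mem (v := fun s x => 2 / (x - (W s : ℂ)))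
    (s := fun _ => {x : ℂ | c ≤ x.im}) (K := ⟨2 / c ^ 2, hK⟩) (f := g) (g := g') (a := 0) (b := t)
    (δ := dist z z') ?_ hg.continuousOn (fun u hu => hg.hasDerivWithinAt_Ici hu)
    (fun u hu => h1.trans (hg.im_le ⟨hu.1, hu.2.le⟩)) hg'.continuousOn
    (fun u hu => hg'.hasDerivWithinAt_Ici hu)
    (fun u hu => h2.trans (hg'.im_le ⟨hu.1, hu.2.le⟩)) (by rw [hg.1, hg'.1]) s hs
  · rw [sub_zero] at key
    exact key
  · intro u _
    refine LipschitzOnWith.of_dist_le_mul fun x hx y hy => ?_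
    rw [dist_eq_norm, dist_eq_norm]
    exact lip_field hc hx hy (W u)

lemma unique {g' : ℝ → ℂ} (hg : IsLoewnerSol W z t g) (hg' : IsLoewnerSol W z t g')
    (hs : s ∈ Icc 0 t) : g s = g' s := by
  have ht : (0 : ℝ) ≤ t := hs.1.trans hs.2
  have p1 := (hg.2 t ⟨ht, le_rfl⟩).1
  have p2 := (hg'.2 t ⟨ht, le_rfl⟩).1
  have := hg.dist_le hg' (c := min (g t).im (g' t).im) (lt_min p1 p2) (min_le_left _ _)
    (min_le_right _ _) hs
  rw [dist_self, zero_mul] at this
  exact dist_le_zero.1 this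

/-- Restarting the flow at time `s`. -/
lemma shift (hg : IsLoewnerSol W z t g) (hs : 0 ≤ s) :
    IsLoewnerSol (fun u => W (s + u) - W s) (g s - (W s : ℂ)) (t - s)
      (fun u => g (s + u) - (W s : ℂ)) := by
  refine ⟨by simp, fun u hu => ?_⟩
  have hm : s + u ∈ Icc 0 t := ⟨by linarith only [hs, hu.1], by linarith only [hu.2]⟩
  obtain ⟨h1, h2⟩ := hg.2 (s + u) hm
  refine ⟨by simpa only [Complex.sub_im, Complex.ofReal_im, sub_zero] using h1, ?_⟩
  have h3 : HasDerivWithinAt (fun v : ℝ => s + v) 1 (Icc 0 (t - s)) u :=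
    ((hasDerivAt_id u).const_add s).hasDerivWithinAt
  have h4 : MapsTo (fun v : ℝ => s + v) (Icc 0 (t - s)) (Icc 0 t) := fun v hv =>
    ⟨by linarith [hv.1], by linarith only [hv.2]⟩
  have h5 := (h2.scomp u h3 h4).sub_const (W s : ℂ)
  refine h5.congr_deriv ?_
  rw [one_smul]
  congr 1
  push_cast
  ring

/-- Concatenation of a solution on `[0,s]` with a solution of the restarted flow. -/
lemma concat {t' : ℝ} {g' : ℝ → ℂ} (hg : IsLoewnerSol W z s g) (hs : 0 ≤ s) (ht' : 0 ≤ t')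
    (hg' : IsLoewnerSol (fun u => W (s + u) - W s) (g s - (W s : ℂ)) t' g') :
    IsLoewnerSol W z (s + t') (fun u => if u ≤ s then g u else g' (u - s) + (W s : ℂ)) := by
  set G : ℝ → ℂ := fun u => if u ≤ s then g u else g' (u - s) + (W s : ℂ) with hG
  have hG1 : ∀ u ≤ s, G u = g u := fun u hu => by simp only [hG, hu, ↓reduceIte]
  have hG2 : ∀ u, s ≤ u → G u = g' (u - s) + (W s : ℂ) := by
    intro u hu
    rcases eq_or_lt_of_le hu with h | h
    · subst h
      simp only [hG, Std.le_refl, ↓reduceIte, sub_self, hg'.1, sub_add_cancel]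
    · simp only [hG, not_le.2 h, ↓reduceIte]
  have hleft : ∀ u ∈ Icc 0 s, HasDerivWithinAt G (2 / (G u - (W u : ℂ))) (Icc 0 s) u := by
    intro u hu
    rw [hG1 u hu.2]
    exact (hg.2 u hu).2.congr (fun v hv => hG1 v hv.2) (hG1 u hu.2)
  have hright : ∀ u ∈ Icc s (s + t'),
      HasDerivWithinAt G (2 / (G u - (W u : ℂ))) (Icc s (s + t')) u := by
    intro u hu
    have hm : u - s ∈ Icc 0 t' := ⟨by linarith only [hu.1], by linarith only [hu.2]⟩
    obtain ⟨_, h2⟩ := hg'.2 (u - s) hm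
    have h3 : HasDerivWithinAt (fun v : ℝ => v - s) 1 (Icc s (s + t')) u :=
      ((hasDerivAt_id u).sub_const s).hasDerivWithinAt
    have h4 : MapsTo (fun v : ℝ => v - s) (Icc s (s + t')) (Icc 0 t') := fun v hv =>
      ⟨by simpa only [sub_nonneg] using hv.1, by simpa only [tsub_le_iff_right, add_comm] using hv.2⟩
    have h5 := (h2.scomp u h3 h4).add_const (W s : ℂ)
    refine (h5.congr_deriv ?_).congr (fun v hv => hG2 v hv.1) (hG2 u hu.1)
    rw [hG2 u hu.1]
    simp only [one_smul, add_sub_cancel]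
    congr 1
    push_cast
    ring
  refine ⟨by rw [hG1 0 hs]; exact hg.1, fun u hu => ⟨?_, ?_⟩⟩
  · rcases le_total u s with h | h
    · rw [hG1 u h]
      exact (hg.2 u ⟨hu.1, h⟩).1
    · rw [hG2 u h]
      have := (hg'.2 (u - s) ⟨by linarith only [h], by linarith only [hu.2]⟩).1
      simpa using this
  · have hun : Icc 0 (s + t') = Icc 0 s ∪ Icc s (s + t') :=
      (Icc_union_Icc_eq_Icc hs (by linarith only [ht'])).symm
    rcases lt_trichotomy u s with h | h | h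
    · have h1 := hleft u ⟨hu.1, h.le⟩
      refine h1.mono_of_mem_nhdsWithin ?_
      rw [mem_nhdsWithin]
      exact ⟨Iio s, isOpen_Iio, h, fun v hv => ⟨hv.2.1, (le_of_lt hv.1)⟩⟩
    · rw [hun]
      subst h
      exact (hleft u ⟨hs, le_rfl⟩).union (hright u ⟨le_rfl, by linarith only [ht']⟩)
    · have h1 := hright u ⟨h.le, hu.2⟩
      refine h1.mono_of_mem_nhdsWithin ?_
      rw [mem_nhdsWithin]
      exact ⟨Ioi s, isOpen_Ioi, h, fun v hv => ⟨le_of_lt hv.1, hv.2.2⟩⟩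

/-- Brownian-type scaling of the flow. -/
lemma scale {r : ℝ} (hr : 0 < r) (hg : IsLoewnerSol W z (r ^ 2 * t) g) :
    IsLoewnerSol (fun u => r⁻¹ * W (r ^ 2 * u)) ((r⁻¹ : ℝ) * z) t
      (fun u => (r⁻¹ : ℝ) * g (r ^ 2 * u)) := by
  have hr2 : 0 < r ^ 2 := by positivity
  refine ⟨by simp only [Complex.ofReal_inv, mul_zero, hg.1], fun u hu => ?_⟩
  have hm : r ^ 2 * u ∈ Icc 0 (r ^ 2 * t) :=
    ⟨mul_nonneg hr2.le hu.1, mul_le_mul_of_nonneg_left hu.2 hr2.le⟩
  obtain ⟨h1, h2⟩ := hg.2 _ hm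
  refine ⟨?_, ?_⟩
  · rw [Complex.im_ofReal_mul]
    (clear * - hr h1; positivity)
  have h3 : HasDerivWithinAt (fun v : ℝ => r ^ 2 * v) (r ^ 2) (Icc 0 t) u := by
    simpa only [id_eq, mul_one] using ((hasDerivAt_id u).const_mul (r ^ 2)).hasDerivWithinAt
  have h4 : MapsTo (fun v : ℝ => r ^ 2 * v) (Icc 0 t) (Icc 0 (r ^ 2 * t)) := fun v hv =>
    ⟨mul_nonneg hr2.le hv.1, mul_le_mul_of_nonneg_left hv.2 hr2.le⟩
  have h5 := (h2.scomp u h3 h4).const_mul ((r⁻¹ : ℝ) : ℂ)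
  refine h5.congr_deriv ?_
  have hne := sub_ne_zero_of_im h1 (W (r ^ 2 * u))
  have hrc : (r : ℂ) ≠ 0 := by exact_mod_cast hr.ne'
  have e : ((r⁻¹ : ℝ) : ℂ) * g (r ^ 2 * u) - ((r⁻¹ * W (r ^ 2 * u) : ℝ) : ℂ)
      = (r : ℂ)⁻¹ * (g (r ^ 2 * u) - (W (r ^ 2 * u) : ℂ)) := by
    push_cast
    ring
  rw [e, Complex.real_smul]
  push_cast
  field_simp

end IsLoewnerSol

/-- Global existence for bounded, globally Lipschitz fields. -/
lemma exists_global {v : ℝ → ℂ → ℂ} {K L : ℝ≥0} {t : ℝ} (ht : 0 ≤ t)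
    (hlip : ∀ s ∈ Icc 0 t, LipschitzWith K (v s))
    (hcont : ∀ x, ContinuousOn (fun s => v s x) (Icc 0 t))
    (hb : ∀ s ∈ Icc 0 t, ∀ x, ‖v s x‖ ≤ L) (x₀ : ℂ) :
    ∃ α : ℝ → ℂ, α 0 = x₀ ∧ ∀ s ∈ Icc 0 t, HasDerivWithinAt α (v s (α s)) (Icc 0 t) s := by
  have hP : IsPicardLindelof v (tmin := 0) (tmax := t) ⟨0, ⟨le_rfl, ht⟩⟩ x₀
      (L * t.toNNReal) 0 L K :=
    { lipschitzOnWith := fun s hs => (hlip s hs).lipschitzOnWith
      continuousOn := fun x _ => hcont x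
      norm_le := fun s hs x _ => hb s hs x
      mul_max_le := by
        simp only [sub_zero, sub_self, ht, sup_of_le_left, NNReal.coe_mul, Real.coe_toNNReal', NNReal.coe_zero, Std.le_refl] }
  exact hP.exists_eq_forall_mem_Icc_hasDerivWithinAt₀

/-- Push a complex number up to height at least `c`. -/
noncomputable def lift (c : ℝ) (x : ℂ) : ℂ := ⟨x.re, max x.im c⟩

lemma lift_im (c : ℝ) (x : ℂ) : c ≤ (lift c x).im := le_max_right _ _

lemma lift_eq {c : ℝ} {x : ℂ} (h : c ≤ x.im) : lift c x = x := by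
  apply Complex.ext
  · rfl
  · exact max_eq_left h

lemma norm_lift_sub_le (c : ℝ) (x y : ℂ) : ‖lift c x - lift c y‖ ≤ ‖x - y‖ := by
  rw [Complex.norm_def, Complex.norm_def]
  apply Real.sqrt_le_sqrt
  rw [Complex.normSq_apply, Complex.normSq_apply]
  have h1 : |max x.im c - max y.im c| ≤ |x.im - y.im| := abs_max_sub_max_le_abs _ _ _
  have h2 : (max x.im c - max y.im c) ^ 2 ≤ (x.im - y.im) ^ 2 := sq_le_sq.2 h1
  simp only [lift, Complex.sub_re, Complex.sub_im]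
  nlinarith only [h2]

lemma lift_field_lip {c : ℝ} (hc : 0 < c) (w : ℝ) :
    LipschitzWith (2 / c ^ 2).toNNReal (fun x : ℂ => 2 / (lift c x - (w : ℂ))) := by
  refine LipschitzWith.of_dist_le_mul fun x y => ?_
  rw [dist_eq_norm, dist_eq_norm, Real.coe_toNNReal _ (by positivity)]
  refine (lip_field hc (lift_im c x) (lift_im c y) w).trans ?_
  exact mul_le_mul_of_nonneg_left (norm_lift_sub_le c x y) (by (clear * - hc; positivity))

/-- Stability of the flow under perturbation of the starting point and the driving function. -/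
lemma IsLoewnerSol.stable {W : ℝ → ℝ} {z : ℂ} {t : ℝ} {g : ℝ → ℂ} (ht : 0 ≤ t)
    (hg : IsLoewnerSol W z t g) :
    ∃ δ > 0, ∀ (z' : ℂ) (W' : ℝ → ℝ), dist z' z ≤ δ → ContinuousOn W' (Icc 0 t) →
      (∀ s ∈ Icc 0 t, |W' s - W s| ≤ δ) →
        ∃ g', IsLoewnerSol W' z' t g' ∧ (g t).im / 2 ≤ (g' t).im := by
  set c : ℝ := (g t).im with hcdef
  have hc : 0 < c := (hg.2 t ⟨ht, le_rfl⟩).1
  have hc2 : 0 < c / 2 := by positivity
  set K : ℝ := 2 / (c / 2) ^ 2 with hK
  have hKpos : 0 < K := by positivity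
  set A : ℝ := 2 / c ^ 2 with hA
  have hApos : 0 < A := by positivity
  set C : ℝ := Real.exp (K * t) + A / K * (Real.exp (K * t) - 1) with hC
  have hexp : 1 ≤ Real.exp (K * t) := Real.one_le_exp (by (clear * - hc ht; positivity))
  have hCpos : 0 < C := by
    have : 0 ≤ A / K * (Real.exp (K * t) - 1) := mul_nonneg (by positivity) (by linarith only [hexp])
    have := Real.exp_pos (K * t)
    (clear hcdef hc2 hK hKpos hA hApos hC this; linarith)
  refine ⟨(c / 2) / C, by (clear * - hc hexp; positivity), fun z' W' hz' hW' hWW' => ?_⟩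
  set δ : ℝ := (c / 2) / C with hδ
  have hδpos : 0 < δ := by positivity
  obtain ⟨α, hα0, hα⟩ := exists_global (v := fun s x => 2 / (lift (c / 2) x - (W' s : ℂ)))
    (K := K.toNNReal) (L := (2 / (c / 2)).toNNReal) ht
    (fun s _ => lift_field_lip hc2 (W' s))
    (fun x => by
      refine ContinuousOn.div continuousOn_const ?_ ?_
      · exact continuousOn_const.sub (Complex.continuous_ofReal.comp_continuousOn hW')
      · intro s _
        exact sub_ne_zero_of_im (hc2.trans_le (lift_im _ x)) _)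
    (fun s _ x => by
      rw [Real.coe_toNNReal _ (by positivity)]
      exact norm_field_le hc2 (lift_im _ x) (W' s)) z'
  have hαc : ContinuousOn α (Icc 0 t) := fun u hu => (hα u hu).continuousWithinAt
  have hα' : ∀ s ∈ Ico 0 t,
      HasDerivWithinAt α (2 / (lift (c / 2) (α s) - (W' s : ℂ))) (Ici s) s := by
    intro s hs
    have h1 := hα s ⟨hs.1, hs.2.le⟩
    exact (h1.mono (Icc_subset_Icc_left hs.1)).mono_of_mem_nhdsWithin (Icc_mem_nhdsGE hs.2)
  have hgc : ∀ s ∈ Icc 0 t, c ≤ (g s).im := fun s hs => hg.im_le hs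
  have key := dist_le_of_approx_trajectories_ODE
    (v := fun s x => 2 / (lift (c / 2) x - (W' s : ℂ))) (K := K.toNNReal)
    (f := α) (g := g) (a := 0) (b := t) (εf := 0) (εg := A * δ) (δ := δ)
    (fun s => lift_field_lip hc2 (W' s)) hαc hα' (fun s _ => by rw [dist_self])
    hg.continuousOn (fun u hu => hg.hasDerivWithinAt_Ici hu)
    (fun s hs => by
      have hs' : s ∈ Icc 0 t := ⟨hs.1, hs.2.le⟩
      have h1 := hgc s hs'
      rw [lift_eq (by linarith only [hc, h1]), dist_eq_norm]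
      refine (lip_field_w hc h1 (W s) (W' s)).trans ?_
      rw [abs_sub_comm]
      exact mul_le_mul_of_nonneg_left (hWW' s hs') hApos.le)
    (by rw [hα0, hg.1]; exact hz')
  have hclose : ∀ s ∈ Icc 0 t, dist (α s) (g s) ≤ c / 2 := by
    intro s hs
    refine (key s hs).trans ?_
    rw [Real.coe_toNNReal _ hKpos.le, zero_add, sub_zero, gronwallBound_of_K_ne_0 hKpos.ne']
    have e2 : Real.exp (K * s) ≤ Real.exp (K * t) :=
      Real.exp_le_exp.2 (mul_le_mul_of_nonneg_left hs.2 hKpos.le)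
    have e3 : δ * Real.exp (K * s) + A * δ / K * (Real.exp (K * s) - 1) ≤ δ * C := by
      rw [hC]
      have : A * δ / K * (Real.exp (K * s) - 1) ≤ A * δ / K * (Real.exp (K * t) - 1) :=
        mul_le_mul_of_nonneg_left (by linarith only [e2]) (by (clear * - hc hexp; positivity))
      have h4 : δ * Real.exp (K * s) ≤ δ * Real.exp (K * t) :=
        mul_le_mul_of_nonneg_left e2 hδpos.le
      calc _ ≤ δ * Real.exp (K * t) + A * δ / K * (Real.exp (K * t) - 1) := add_le_add h4 this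
        _ = _ := by ring
    refine e3.trans ?_
    rw [hδ, div_mul_cancel₀ _ hCpos.ne']
  have him : ∀ s ∈ Icc 0 t, c / 2 ≤ (α s).im := by
    intro s hs
    have h1 := hclose s hs
    rw [dist_comm, dist_eq_norm] at h1
    have h2 := (Complex.abs_im_le_norm (g s - α s)).trans h1
    rw [Complex.sub_im] at h2
    have h3 := le_abs_self ((g s).im - (α s).im)
    have h4 := hgc s hs
    linarith only [h2, h3, h4]
  refine ⟨α, ⟨hα0, fun s hs => ⟨hc2.trans_le (him s hs), ?_⟩⟩, him t ⟨ht, le_rfl⟩⟩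
  have := hα s hs
  rwa [lift_eq (him s hs)] at this

/-- The flow is onto: every point of the upper half-plane is `g_s (z)` for some `z`. -/
lemma exists_preimage {W : ℝ → ℝ} {s : ℝ} (hs : 0 ≤ s) (hW : ContinuousOn W (Icc 0 s)) {w : ℂ}
    (hw : 0 < w.im) : ∃ z g, IsLoewnerSol W z s g ∧ g s = w := by
  set c : ℝ := w.im with hc
  have hmaps : MapsTo (fun u : ℝ => s - u) (Icc 0 s) (Icc 0 s) := fun u hu =>
    ⟨by linarith [hu.2], by linarith only [hu.1]⟩
  have hW' : ContinuousOn (fun u => W (s - u)) (Icc 0 s) :=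
    hW.comp (by fun_prop) hmaps
  obtain ⟨α, hα0, hα⟩ := exists_global (v := fun u x => -(2 / (lift c x - (W (s - u) : ℂ))))
    (K := (2 / c ^ 2).toNNReal) (L := (2 / c).toNNReal) hs
    (fun u _ => (lift_field_lip hw (W (s - u))).neg)
    (fun x => by
      refine (ContinuousOn.div continuousOn_const ?_ ?_).neg
      · exact continuousOn_const.sub (Complex.continuous_ofReal.comp_continuousOn hW')
      · intro u _
        exact sub_ne_zero_of_im (hw.trans_le (lift_im _ x)) _)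
    (fun u _ x => by
      rw [norm_neg, Real.coe_toNNReal _ (by positivity)]
      exact norm_field_le hw (lift_im _ x) (W (s - u))) w
  have hαc : ContinuousOn α (Icc 0 s) := fun u hu => (hα u hu).continuousWithinAt
  have hmono : MonotoneOn (fun u => (α u).im) (Icc 0 s) := by
    refine monotoneOn_of_hasDerivWithinAt_nonneg (convex_Icc 0 s)
      (f' := fun u => (-(2 / (lift c (α u) - (W (s - u) : ℂ)))).im) ?_ ?_ ?_
    · exact Complex.continuous_im.comp_continuousOn hαc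
    · intro u hu
      have h1 := hα u (interior_subset hu)
      exact Complex.imCLM.hasFDerivAt.comp_hasDerivWithinAt u (h1.mono interior_subset)
    · intro u _
      have h1 : 0 < (lift c (α u)).im := hw.trans_le (lift_im _ _)
      rw [Complex.neg_im, Complex.div_im]
      have e : (lift c (α u) - (W (s - u) : ℂ)).im = (lift c (α u)).im := by simp
      rw [e]
      have h2 : 0 < Complex.normSq (lift c (α u) - (W (s - u) : ℂ)) :=
        Complex.normSq_pos.2 (sub_ne_zero_of_im h1 _)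
      have h3 : (2 : ℂ).im = 0 := by simp
      have h4 : (2 : ℂ).re = 2 := by simp
      rw [h3, h4, zero_mul, zero_div]
      have : 0 ≤ 2 * (lift c (α u)).im / Complex.normSq (lift c (α u) - (W (s - u) : ℂ)) := by
        (clear * - h1 h2; positivity)
      linarith only [this]
  have him : ∀ u ∈ Icc 0 s, c ≤ (α u).im := by
    intro u hu
    have := hmono ⟨le_rfl, hs⟩ hu hu.1
    simp only [hα0] at this
    exact this
  refine ⟨α s, fun u => α (s - u), ⟨by simp, fun u hu => ?_⟩, by simp [hα0]⟩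
  have hm := hmaps hu
  refine ⟨hw.trans_le (him _ hm), ?_⟩
  have h1 := hα (s - u) hm
  have h3 : HasDerivWithinAt (fun v : ℝ => s - v) (-1) (Icc 0 s) u := by
    simpa only [id_eq] using ((hasDerivAt_id u).const_sub s).hasDerivWithinAt
  have h5 := h1.scomp u h3 hmaps
  refine h5.congr_deriv ?_
  rw [lift_eq (him _ hm)]
  have e : s - (s - u) = u := by ring
  simp only [e]
  simp

end Vale.Agent.P164
end

section

namespace Vale.Agent.P164

open Set Metric Filter Topology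
open scoped NNReal

/-- The driving function restarted at time `s`. -/
def shiftW (s : ℝ) (W : ℝ → ℝ) : ℝ → ℝ := fun u => W (s + u) - W s

/-- The rescaled driving function. -/
noncomputable def scaleW (r : ℝ) (W : ℝ → ℝ) : ℝ → ℝ := fun u => r⁻¹ * W (r ^ 2 * u)

lemma loewnerDomain_anti (W : ℝ → ℝ) {a b : ℝ} (hab : a ≤ b) :
    loewnerDomain W b ⊆ loewnerDomain W a := by
  rintro z ⟨g, hg⟩
  exact ⟨g, hg.restrict hab⟩

lemma isOpen_domain {W : ℝ → ℝ} {t : ℝ} (ht : 0 ≤ t) (hW : ContinuousOn W (Icc 0 t)) :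
    IsOpen (loewnerDomain W t) := by
  rw [Metric.isOpen_iff]
  rintro z ⟨g, hg⟩
  obtain ⟨δ, hδ, H⟩ := hg.stable ht
  refine ⟨δ, hδ, fun z' hz' => ?_⟩
  obtain ⟨g', hg', _⟩ := H z' W (le_of_lt hz') hW (fun s _ => by simp [hδ.le])
  exact ⟨g', hg'⟩

/-- Uniform lower bound for the imaginary part of the flow on a compact set. -/
lemma exists_im_lower {W : ℝ → ℝ} {t : ℝ} (ht : 0 ≤ t) (hW : ContinuousOn W (Icc 0 t))
    {D : Set ℂ} (hD : IsCompact D) (h : D ⊆ loewnerDomain W t) :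
    ∃ c > 0, ∀ z ∈ D, ∀ g, IsLoewnerSol W z t g → c ≤ (g t).im := by
  have h1 : ∀ z ∈ D, ∃ δ > 0, ∃ c > 0, ∀ z' : ℂ, dist z' z ≤ δ →
      ∀ g, IsLoewnerSol W z' t g → c ≤ (g t).im := by
    intro z hz
    obtain ⟨g, hg⟩ := h hz
    obtain ⟨δ, hδ, H⟩ := hg.stable ht
    refine ⟨δ, hδ, (g t).im / 2, half_pos (hg.2 t ⟨ht, le_rfl⟩).1, fun z' h1 g₂ hg₂ => ?_⟩
    obtain ⟨g', hg', hle⟩ := H z' W h1 hW (fun s _ => by simp only [sub_self, abs_zero, hδ.le])
    rw [hg₂.unique hg' ⟨ht, le_rfl⟩]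
    exact hle
  choose! δ hδ c hc H using h1
  obtain ⟨T, hT, hDT⟩ := hD.elim_nhds_subcover (fun z => ball z (δ z))
    (fun z hz => ball_mem_nhds z (hδ z hz))
  rcases T.eq_empty_or_nonempty with hT0 | hT0
  · refine ⟨1, one_pos, fun z hz => ?_⟩
    have := hDT hz
    simp [hT0] at this
  · refine ⟨T.inf' hT0 c, ?_, fun z hz g hg => ?_⟩
    · rw [gt_iff_lt, Finset.lt_inf'_iff]
      exact fun z hz => hc z (hT z hz)
    · obtain ⟨z₀, hz₀, hzz₀⟩ := mem_iUnion₂.1 (hDT hz)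
      exact (Finset.inf'_le _ hz₀).trans (H z₀ (hT z₀ hz₀) z (le_of_lt hzz₀) g hg)

/-- The value at time `s` of the flow started from `z`, recentred at the driving function. -/
noncomputable def flow (W : ℝ → ℝ) (s : ℝ) (z : ℂ) : ℂ :=
  open Classical in
  if h : ∃ g, IsLoewnerSol W z s g then (Classical.choose h) s - (W s : ℂ) else 0

lemma flow_eq {W : ℝ → ℝ} {s : ℝ} (hs : 0 ≤ s) {z : ℂ} {g : ℝ → ℂ} (hg : IsLoewnerSol W z s g) :
    flow W s z = g s - (W s : ℂ) := by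
  have h : ∃ g, IsLoewnerSol W z s g := ⟨g, hg⟩
  rw [flow, dif_pos h, (Classical.choose_spec h).unique hg ⟨hs, le_rfl⟩]

lemma flow_lipschitz {W : ℝ → ℝ} {s : ℝ} (hs : 0 ≤ s) (hW : ContinuousOn W (Icc 0 s))
    {D : Set ℂ} (hD : IsCompact D) (h : D ⊆ loewnerDomain W s) :
    ∃ K : ℝ≥0, LipschitzOnWith K (flow W s) D := by
  obtain ⟨c, hc, H⟩ := exists_im_lower hs hW hD h
  refine ⟨(Real.exp (2 / c ^ 2 * s)).toNNReal, LipschitzOnWith.of_dist_le_mul ?_⟩
  intro x hx y hy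
  obtain ⟨g, hg⟩ := h hx
  obtain ⟨g', hg'⟩ := h hy
  rw [flow_eq hs hg, flow_eq hs hg', dist_sub_right, Real.coe_toNNReal _ (Real.exp_pos _).le,
    mul_comm]
  exact hg.dist_le hg' hc (H x hx g hg) (H y hy g' hg') ⟨hs, le_rfl⟩

lemma mem_domain_scaleW {W : ℝ → ℝ} {r t : ℝ} (hr : 0 < r) {z : ℂ} :
    z ∈ loewnerDomain (scaleW r W) t ↔ (r : ℂ) * z ∈ loewnerDomain W (r ^ 2 * t) := by
  have hrc : (r : ℂ) ≠ 0 := by exact_mod_cast hr.ne'
  constructor
  · rintro ⟨g, hg⟩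
    have hr' : 0 < r⁻¹ := inv_pos.2 hr
    have e1 : (r⁻¹) ^ 2 * (r ^ 2 * t) = t := by (clear * - hr; field_simp)
    have hg' : IsLoewnerSol (scaleW r W) z ((r⁻¹) ^ 2 * (r ^ 2 * t)) g := by rwa [e1]
    have h := hg'.scale hr'
    have e2 : (fun u => (r⁻¹)⁻¹ * scaleW r W ((r⁻¹) ^ 2 * u)) = W := by
      funext u
      have : r ^ 2 * (r⁻¹ ^ 2 * u) = u := by (clear * - hr; field_simp)
      simp only [scaleW, this]
      (clear * - hr; field_simp)
    rw [e2, inv_inv] at h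
    exact ⟨_, h⟩
  · rintro ⟨g, hg⟩
    have h := hg.scale hr
    have e : ((r⁻¹ : ℝ) : ℂ) * ((r : ℂ) * z) = z := by
      push_cast
      field_simp
    rw [e] at h
    exact ⟨_, h⟩

namespace IsSimpleTrace

variable {W : ℝ → ℝ} {γ : ℝ → ℂ}

end IsSimpleTrace

end Vale.Agent.P164
end

section

namespace Vale.Agent.P164

open Set Metric Filter Topology MeasureTheory
open scoped NNReal

lemma hasDerivWithinAt_primitive {E : Type*} [NormedAddCommGroup E] [NormedSpace ℝ E]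
    [CompleteSpace E] {k : ℝ → E} {t s : ℝ} (hk : ContinuousOn k (Icc 0 t)) (hs : s ∈ Icc 0 t) :
    HasDerivWithinAt (fun u => ∫ x in (0 : ℝ)..u, k x) (k s) (Icc 0 t) s := by
  have ht : (0 : ℝ) ≤ t := hs.1.trans hs.2
  set k' : ℝ → E := IccExtend ht ((Icc 0 t).domRestrict k) with hk'def
  have hk' : Continuous k' := hk.domRestrict.Icc_extend'
  have hkk : ∀ x ∈ Icc 0 t, k' x = k x := fun x hx => by
    rw [hk'def, IccExtend_of_mem _ _ hx]; rfl
  have h1 : HasDerivAt (fun u => ∫ x in (0 : ℝ)..u, k' x) (k' s) s :=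
    (hk'.integral_hasStrictDerivAt 0 s).hasDerivAt
  rw [hkk s hs] at h1
  have hcongr : ∀ u ∈ Icc 0 t, (∫ x in (0 : ℝ)..u, k x) = ∫ x in (0 : ℝ)..u, k' x := by
    intro u hu
    refine intervalIntegral.integral_congr fun x hx => ?_
    rw [uIcc_of_le hu.1] at hx
    exact (hkk x ⟨hx.1, hx.2.trans hu.2⟩).symm
  exact h1.hasDerivWithinAt.congr hcongr (hcongr s hs)

lemma eq_of_deriv_zero {E : Type*} [NormedAddCommGroup E] [NormedSpace ℝ E]
    {h : ℝ → E} {t : ℝ} (ht : 0 ≤ t) (hd : ∀ s ∈ Icc 0 t, HasDerivWithinAt h 0 (Icc 0 t) s) :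
    h t = h 0 := by
  refine constant_of_has_deriv_right_zero (a := 0) (b := t)
    (fun s hs => (hd s hs).continuousWithinAt) (fun s hs => ?_) t ⟨ht, le_rfl⟩
  exact ((hd s ⟨hs.1, hs.2.le⟩).mono (Icc_subset_Icc_left hs.1)).mono_of_mem_nhdsWithin
    (Icc_mem_nhdsGE hs.2)

namespace IsLoewnerSol

variable {W : ℝ → ℝ} {z z' : ℂ} {t s : ℝ} {g g' : ℝ → ℂ}

lemma sub_ne (hg : IsLoewnerSol W z t g) (hs : s ∈ Icc 0 t) : g s - (W s : ℂ) ≠ 0 :=
  sub_ne_zero_of_im (hg.2 s hs).1 _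

lemma continuousOn_sub (hg : IsLoewnerSol W z t g) (hW : ContinuousOn W (Icc 0 t)) :
    ContinuousOn (fun s => g s - (W s : ℂ)) (Icc 0 t) :=
  hg.continuousOn.sub (Complex.continuous_ofReal.comp_continuousOn hW)

lemma continuousOn_kernel (hW : ContinuousOn W (Icc 0 t)) (hg : IsLoewnerSol W z t g)
    (hg' : IsLoewnerSol W z' t g') :
    ContinuousOn (fun s => 2 / ((g s - (W s : ℂ)) * (g' s - (W s : ℂ)))) (Icc 0 t) :=
  continuousOn_const.div ((hg.continuousOn_sub hW).mul (hg'.continuousOn_sub hW))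
    fun _ hs => mul_ne_zero (hg.sub_ne hs) (hg'.sub_ne hs)

/-- The difference of two solutions. -/
lemma sub_eq_exp (ht : 0 ≤ t) (hW : ContinuousOn W (Icc 0 t)) (hg : IsLoewnerSol W z t g)
    (hg' : IsLoewnerSol W z' t g') :
    g t - g' t = (z - z') * Complex.exp
      (-∫ s in (0 : ℝ)..t, 2 / ((g s - (W s : ℂ)) * (g' s - (W s : ℂ)))) := by
  set k : ℝ → ℂ := fun s => 2 / ((g s - (W s : ℂ)) * (g' s - (W s : ℂ))) with hk
  have hkc : ContinuousOn k (Icc 0 t) := continuousOn_kernel hW hg hg'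
  set h : ℝ → ℂ := fun s => (g s - g' s) * Complex.exp (∫ x in (0 : ℝ)..s, k x) with hh
  have hd : ∀ s ∈ Icc 0 t, HasDerivWithinAt h 0 (Icc 0 t) s := by
    intro s hs
    have h1 := ((hg.2 s hs).2.sub (hg'.2 s hs).2).mul
      (hasDerivWithinAt_primitive hkc hs).cexp
    refine h1.congr_deriv ?_
    have e : 2 / (g s - (W s : ℂ)) - 2 / (g' s - (W s : ℂ)) + (g s - g' s) * k s = 0 := by
      rw [hk]
      have h2 := hg.sub_ne hs
      have h3 := hg'.sub_ne hs
      field_simp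
      ring
    calc _ = (2 / (g s - (W s : ℂ)) - 2 / (g' s - (W s : ℂ)) + (g s - g' s) * k s) *
          Complex.exp (∫ x in (0 : ℝ)..s, k x) := by
            simp only [Pi.sub_apply]
            ring
      _ = 0 := by rw [e, zero_mul]
  have key := eq_of_deriv_zero ht hd
  simp only [hh, intervalIntegral.integral_same, Complex.exp_zero, mul_one, hg.1, hg'.1] at key
  rw [← key, mul_assoc, ← Complex.exp_add, add_neg_cancel, Complex.exp_zero, mul_one]

lemma im_eq_exp (ht : 0 ≤ t) (hW : ContinuousOn W (Icc 0 t)) (hg : IsLoewnerSol W z t g) :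
    (g t).im = z.im * Real.exp (-∫ s in (0 : ℝ)..t, 2 / ‖g s - (W s : ℂ)‖ ^ 2) := by
  set k : ℝ → ℝ := fun s => 2 / ‖g s - (W s : ℂ)‖ ^ 2 with hk
  have hkc : ContinuousOn k (Icc 0 t) := continuousOn_const.div
    ((hg.continuousOn_sub hW).norm.pow 2) fun _ hs => pow_ne_zero 2 (norm_ne_zero_iff.2 (hg.sub_ne hs))
  set h : ℝ → ℝ := fun s => (g s).im * Real.exp (∫ x in (0 : ℝ)..s, k x) with hh
  have hd : ∀ s ∈ Icc 0 t, HasDerivWithinAt h 0 (Icc 0 t) s := by
    intro s hs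
    have h0 : HasDerivWithinAt (fun s => (g s).im) (2 / (g s - (W s : ℂ))).im (Icc 0 t) s :=
      Complex.imCLM.hasFDerivAt.comp_hasDerivWithinAt s (hg.2 s hs).2
    have h1 := h0.mul (hasDerivWithinAt_primitive hkc hs).exp
    refine h1.congr_deriv ?_
    have e : (2 / (g s - (W s : ℂ))).im + (g s).im * k s = 0 := by
      rw [hk, Complex.div_im]
      have h2 : ‖g s - (W s : ℂ)‖ ^ 2 = Complex.normSq (g s - (W s : ℂ)) :=
        Complex.sq_norm _
      have h3 := Complex.normSq_pos.2 (hg.sub_ne hs)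
      simp only [h2, Complex.sub_im, Complex.ofReal_im, sub_zero]
      have h4 : (2 : ℂ).im = 0 := by simp
      have h5 : (2 : ℂ).re = 2 := by simp
      rw [h4, h5]
      field_simp
      ring
    calc _ = ((2 / (g s - (W s : ℂ))).im + (g s).im * k s) *
          Real.exp (∫ x in (0 : ℝ)..s, k x) := by ring
      _ = 0 := by rw [e, zero_mul]
  have key := eq_of_deriv_zero ht hd
  simp only [hh, intervalIntegral.integral_same, Real.exp_zero, mul_one, hg.1] at key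
  rw [← key, mul_assoc, ← Real.exp_add, add_neg_cancel, Real.exp_zero, mul_one]

end IsLoewnerSol

lemma mem_domain_sol {W : ℝ → ℝ} {t : ℝ} {z : ℂ} (hz : z ∈ loewnerDomain W t) :
    ∃ g, IsLoewnerSol W z t g ∧ ∀ s ∈ Icc 0 t, flow W s z = g s - (W s : ℂ) := by
  obtain ⟨g, hg⟩ := hz
  exact ⟨g, hg, fun s hs => flow_eq hs.1 (hg.restrict hs.2)⟩

lemma flow_ne_zero {W : ℝ → ℝ} {t s : ℝ} {z : ℂ} (hz : z ∈ loewnerDomain W t)
    (hs : s ∈ Icc 0 t) : flow W s z ≠ 0 := by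
  obtain ⟨g, hg, he⟩ := mem_domain_sol hz
  rw [he s hs]
  exact hg.sub_ne hs

lemma flow_im_pos {W : ℝ → ℝ} {t s : ℝ} {z : ℂ} (hz : z ∈ loewnerDomain W t)
    (hs : s ∈ Icc 0 t) : 0 < (flow W s z).im := by
  obtain ⟨g, hg, he⟩ := mem_domain_sol hz
  rw [he s hs]
  simpa only [Complex.sub_im, Complex.ofReal_im, sub_zero] using (hg.2 s hs).1

lemma continuousOn_flow {W : ℝ → ℝ} {t : ℝ} {z : ℂ} (hW : ContinuousOn W (Icc 0 t))
    (hz : z ∈ loewnerDomain W t) : ContinuousOn (fun s => flow W s z) (Icc 0 t) := by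
  obtain ⟨g, hg, he⟩ := mem_domain_sol hz
  exact (hg.continuousOn_sub hW).congr fun s hs => he s hs

/-- The complex derivative of the Loewner map. -/
noncomputable def dflow (W : ℝ → ℝ) (t : ℝ) (z : ℂ) : ℂ :=
  Complex.exp (-∫ s in (0 : ℝ)..t, 2 / (flow W s z) ^ 2)

/-- The logarithm of the conformal radius (up to a factor). -/
noncomputable def logUps (W : ℝ → ℝ) (t : ℝ) (z : ℂ) : ℝ :=
  Real.log z.im - ∫ s in (0 : ℝ)..t, 4 * (flow W s z).im ^ 2 / ‖flow W s z‖ ^ 4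

lemma flow_injOn {W : ℝ → ℝ} {t : ℝ} (ht : 0 ≤ t) (hW : ContinuousOn W (Icc 0 t)) :
    InjOn (flow W t) (loewnerDomain W t) := by
  rintro z ⟨g, hg⟩ z' ⟨g', hg'⟩ h
  rw [flow_eq ht hg, flow_eq ht hg'] at h
  have h1 := IsLoewnerSol.sub_eq_exp ht hW hg hg'
  have h2 : g t - g' t = 0 := by linear_combination h
  rw [h2] at h1
  rcases mul_eq_zero.1 h1.symm with h3 | h3
  · exact sub_eq_zero.1 h3
  · exact absurd h3 (Complex.exp_ne_zero _)

lemma hasDerivAt_flow {W : ℝ → ℝ} {t : ℝ} (ht : 0 ≤ t) (hW : ContinuousOn W (Icc 0 t)) {z : ℂ}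
    (hz : z ∈ loewnerDomain W t) : HasDerivAt (flow W t) (dflow W t z) z := by
  obtain ⟨g, hg, he⟩ := mem_domain_sol hz
  have hopen := isOpen_domain ht hW
  obtain ⟨r, hr, hball⟩ := Metric.isOpen_iff.1 hopen z hz
  have hcl : closedBall z (r / 2) ⊆ loewnerDomain W t :=
    (closedBall_subset_ball (by linarith)).trans hball
  obtain ⟨c, hc, H⟩ := exists_im_lower ht hW (isCompact_closedBall z (r / 2)) hcl
  set L : ℝ := Real.exp (2 / c ^ 2 * t) with hL
  have hLpos : 0 < L := Real.exp_pos _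
  rw [hasDerivAt_iff_tendsto_slope]
  set I₀ : ℂ := ∫ s in (0 : ℝ)..t, 2 / (flow W s z) ^ 2 with hI₀
  -- the integral for nearby points
  set I : ℂ → ℂ := fun z' => ∫ s in (0 : ℝ)..t, 2 / (flow W s z' * flow W s z) with hI
  have hslope : ∀ z' ∈ closedBall z (r / 2), z' ≠ z → slope (flow W t) z z' =
      Complex.exp (-I z') := by
    intro z' hz' hne
    obtain ⟨g', hg', he'⟩ := mem_domain_sol (hcl hz')
    have h1 := IsLoewnerSol.sub_eq_exp ht hW hg' hg
    rw [slope_def_field, he t ⟨ht, le_rfl⟩, he' t ⟨ht, le_rfl⟩]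
    have h2 : g' t - (W t : ℂ) - (g t - (W t : ℂ)) = g' t - g t := by ring
    rw [h2, h1, mul_comm, mul_div_assoc, div_self (sub_ne_zero.2 hne), mul_one]
    congr 2
    refine intervalIntegral.integral_congr fun s hs => ?_
    rw [uIcc_of_le ht] at hs
    simp only [he s hs, he' s hs]
  have hbound : ∀ z' ∈ closedBall z (r / 2), ‖I z' - I₀‖ ≤ 2 * L / c ^ 3 * t * ‖z' - z‖ := by
    intro z' hz'
    obtain ⟨g', hg', he'⟩ := mem_domain_sol (hcl hz')
    have hint1 : IntervalIntegrable (fun s => 2 / (flow W s z' * flow W s z)) volume 0 t := by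
      apply ContinuousOn.intervalIntegrable
      rw [uIcc_of_le ht]
      exact (IsLoewnerSol.continuousOn_kernel hW hg' hg).congr fun s hs => by
        simp only [he s hs, he' s hs]
    have hint2 : IntervalIntegrable (fun s => 2 / (flow W s z) ^ 2) volume 0 t := by
      apply ContinuousOn.intervalIntegrable
      rw [uIcc_of_le ht]
      exact (IsLoewnerSol.continuousOn_kernel hW hg hg).congr fun s hs => by
        simp only [he s hs, pow_two]
    rw [hI, hI₀]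
    simp only
    rw [← intervalIntegral.integral_sub hint1 hint2]
    have key : ∀ s ∈ uIoc (0 : ℝ) t, ‖2 / (flow W s z' * flow W s z) - 2 / (flow W s z) ^ 2‖ ≤
        2 * L / c ^ 3 * ‖z' - z‖ := by
      intro s hs
      rw [uIoc_of_le ht] at hs
      have hs' : s ∈ Icc 0 t := ⟨hs.1.le, hs.2⟩
      rw [he s hs', he' s hs']
      have hc1 : c ≤ (g t).im := H z (mem_closedBall_self (by linarith only [hr])) g hg
      have hc2 : c ≤ (g' t).im := H z' hz' g' hg'
      have n1 : c ≤ ‖g s - (W s : ℂ)‖ := (hc1.trans (hg.im_le hs')).trans (im_le_norm_sub _ _)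
      have n2 : c ≤ ‖g' s - (W s : ℂ)‖ := (hc2.trans (hg'.im_le hs')).trans (im_le_norm_sub _ _)
      have hd : ‖g s - g' s‖ ≤ ‖z' - z‖ * L := by
        have := hg.dist_le hg' hc hc1 hc2 hs'
        rw [dist_eq_norm, dist_eq_norm, norm_sub_rev z z'] at this
        refine this.trans (mul_le_mul_of_nonneg_left ?_ (norm_nonneg _))
        exact Real.exp_le_exp.2 (mul_le_mul_of_nonneg_left hs'.2 (by positivity))
      have e : 2 / ((g' s - (W s : ℂ)) * (g s - (W s : ℂ))) - 2 / (g s - (W s : ℂ)) ^ 2 =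
          2 * (g s - g' s) / ((g' s - (W s : ℂ)) * (g s - (W s : ℂ)) ^ 2) := by
        have h2 := hg.sub_ne hs'
        have h3 := hg'.sub_ne hs'
        field_simp
        ring
      rw [e, norm_div, norm_mul, norm_mul, norm_pow]
      have h4 : ‖(2 : ℂ)‖ = 2 := by simp
      rw [h4]
      have h5 : c ^ 3 ≤ ‖g' s - (W s : ℂ)‖ * ‖g s - (W s : ℂ)‖ ^ 2 := by
        calc c ^ 3 = c * c ^ 2 := by ring
          _ ≤ _ := by (clear * - n2 hc n1; gcongr)
      calc 2 * ‖g s - g' s‖ / (‖g' s - (W s : ℂ)‖ * ‖g s - (W s : ℂ)‖ ^ 2)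
          ≤ 2 * (‖z' - z‖ * L) / c ^ 3 := by (clear * - hd hc h5; gcongr)
        _ = _ := by ring
    refine (intervalIntegral.norm_integral_le_of_norm_le_const key).trans (le_of_eq ?_)
    rw [sub_zero, abs_of_nonneg ht]
    ring
  have hI : Tendsto I (𝓝[≠] z) (𝓝 I₀) := by
    rw [tendsto_iff_norm_sub_tendsto_zero]
    have h1 : Tendsto (fun z' : ℂ => 2 * L / c ^ 3 * t * ‖z' - z‖) (𝓝[≠] z) (𝓝 0) := by
      have h2 : Tendsto (fun z' : ℂ => 2 * L / c ^ 3 * t * ‖z' - z‖) (𝓝 z)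
          (𝓝 (2 * L / c ^ 3 * t * ‖z - z‖)) := by
        exact (Continuous.tendsto (by fun_prop) z)
      rw [sub_self, norm_zero, mul_zero] at h2
      exact h2.mono_left nhdsWithin_le_nhds
    refine squeeze_zero' (Eventually.of_forall fun _ => norm_nonneg _) ?_ h1
    have : closedBall z (r / 2) ∈ 𝓝[≠] z :=
      mem_nhdsWithin_of_mem_nhds (closedBall_mem_nhds z (by linarith only [hr]))
    filter_upwards [this] with z' hz' using hbound z' hz'
  have h3 : Tendsto (fun z' => Complex.exp (-I z')) (𝓝[≠] z) (𝓝 (Complex.exp (-I₀))) :=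
    (Complex.continuous_exp.tendsto _).comp hI.neg
  refine h3.congr' ?_
  have : closedBall z (r / 2) ∈ 𝓝[≠] z :=
    mem_nhdsWithin_of_mem_nhds (closedBall_mem_nhds z (by linarith only [hr]))
  filter_upwards [this, self_mem_nhdsWithin] with z' hz' hne
  exact (hslope z' hz' hne).symm

lemma flow_im_eq {W : ℝ → ℝ} {t : ℝ} (ht : 0 ≤ t) (hW : ContinuousOn W (Icc 0 t)) {z : ℂ}
    (hz : z ∈ loewnerDomain W t) :
    (flow W t z).im = z.im * Real.exp (-∫ s in (0 : ℝ)..t, 2 / ‖flow W s z‖ ^ 2) := by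
  obtain ⟨g, hg, he⟩ := mem_domain_sol hz
  have h1 := IsLoewnerSol.im_eq_exp ht hW hg
  rw [he t ⟨ht, le_rfl⟩]
  simp only [Complex.sub_im, Complex.ofReal_im, sub_zero]
  rw [h1]
  congr 3
  refine intervalIntegral.integral_congr fun s hs => ?_
  rw [uIcc_of_le ht] at hs
  simp only [he s hs]

lemma re_two_div_sq {w : ℂ} (hw : w ≠ 0) :
    (2 / w ^ 2).re = 2 / ‖w‖ ^ 2 - 4 * w.im ^ 2 / ‖w‖ ^ 4 := by
  have h1 : ‖w‖ ^ 2 = w.re ^ 2 + w.im ^ 2 := by
    rw [Complex.sq_norm, Complex.normSq_apply]; ring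
  have h2 : ‖w‖ ^ 4 = (w.re ^ 2 + w.im ^ 2) ^ 2 := by rw [← h1]; ring
  have h3 : 0 < w.re ^ 2 + w.im ^ 2 := by
    rw [← h1]; exact pow_pos (norm_pos_iff.2 hw) 2
  rw [Complex.div_re, Complex.normSq_apply, h1, h2]
  have e1 : (w ^ 2).re = w.re ^ 2 - w.im ^ 2 := by
    rw [pow_two, Complex.mul_re]; ring
  have e2 : (w ^ 2).im = 2 * w.re * w.im := by
    rw [pow_two, Complex.mul_im]; ring
  have e3 : (2 : ℂ).re = 2 := by simp
  have e4 : (2 : ℂ).im = 0 := by simp
  rw [e1, e2, e3, e4]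
  have e5 : (w.re ^ 2 - w.im ^ 2) * (w.re ^ 2 - w.im ^ 2) + 2 * w.re * w.im * (2 * w.re * w.im)
      = (w.re ^ 2 + w.im ^ 2) ^ 2 := by ring
  rw [e5]
  field_simp
  ring

/-- `|g'| = Y exp(-U)`. -/
lemma norm_dflow {W : ℝ → ℝ} {t : ℝ} (ht : 0 ≤ t) (hW : ContinuousOn W (Icc 0 t)) {z : ℂ}
    (hz : z ∈ loewnerDomain W t) :
    ‖dflow W t z‖ = (flow W t z).im * Real.exp (-logUps W t z) := by
  have hzim : 0 < z.im := by
    obtain ⟨g, hg⟩ := hz
    exact hg.im_pos ht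
  have hc := continuousOn_flow hW hz
  have hne : ∀ s ∈ Icc 0 t, flow W s z ≠ 0 := fun s hs => flow_ne_zero hz hs
  have c1 : ContinuousOn (fun s => 2 / (flow W s z) ^ 2) (Icc 0 t) :=
    continuousOn_const.div (hc.pow 2) fun s hs => pow_ne_zero 2 (hne s hs)
  have c2 : ContinuousOn (fun s => 2 / ‖flow W s z‖ ^ 2) (Icc 0 t) :=
    continuousOn_const.div (hc.norm.pow 2) fun s hs => pow_ne_zero 2 (norm_ne_zero_iff.2 (hne s hs))
  have c3 : ContinuousOn (fun s => 4 * (flow W s z).im ^ 2 / ‖flow W s z‖ ^ 4) (Icc 0 t) :=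
    (((Complex.continuous_im.comp_continuousOn hc).pow 2).const_mul 4 |>.div (hc.norm.pow 4)
      fun s hs => pow_ne_zero 4 (norm_ne_zero_iff.2 (hne s hs)))
  have i1 : IntervalIntegrable (fun s => 2 / (flow W s z) ^ 2) volume 0 t := by
    apply ContinuousOn.intervalIntegrable; rwa [uIcc_of_le ht]
  have i2 : IntervalIntegrable (fun s => 2 / ‖flow W s z‖ ^ 2) volume 0 t := by
    apply ContinuousOn.intervalIntegrable; rwa [uIcc_of_le ht]
  have i3 : IntervalIntegrable (fun s => 4 * (flow W s z).im ^ 2 / ‖flow W s z‖ ^ 4)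
      volume 0 t := by
    apply ContinuousOn.intervalIntegrable; rwa [uIcc_of_le ht]
  rw [dflow, Complex.norm_exp, flow_im_eq ht hW hz, logUps, Complex.neg_re]
  have e1 : (∫ s in (0 : ℝ)..t, 2 / (flow W s z) ^ 2).re =
      ∫ s in (0 : ℝ)..t, (2 / (flow W s z) ^ 2).re :=
    (Complex.reCLM.intervalIntegral_comp_comm i1).symm
  have e2 : ∫ s in (0 : ℝ)..t, (2 / (flow W s z) ^ 2).re =
      (∫ s in (0 : ℝ)..t, 2 / ‖flow W s z‖ ^ 2) -
        ∫ s in (0 : ℝ)..t, 4 * (flow W s z).im ^ 2 / ‖flow W s z‖ ^ 4 := by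
    rw [← intervalIntegral.integral_sub i2 i3]
    refine intervalIntegral.integral_congr fun s hs => ?_
    rw [uIcc_of_le ht] at hs
    exact re_two_div_sq (hne s hs)
  rw [e1, e2, mul_assoc, ← Real.exp_add]
  have e4 : ∀ A : ℝ, z.im * Real.exp A = Real.exp (Real.log z.im + A) := fun A => by
    rw [Real.exp_add, Real.exp_log hzim]
  rw [e4]
  congr 1
  ring

end Vale.Agent.P164
end

section

/-!
# The Loewner flow as a function: definitions and basic facts
-/

namespace Vale.Agent.P164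

open Set Metric Filter Topology MeasureTheory

noncomputable section

/-- The centred flow `Z_t(z) = g_t(z) - W_t` (value `0` if `z` is dead). -/
def Zf (W : ℝ → ℝ) (z : ℂ) (t : ℝ) : ℂ := flow W t z

/-- The Loewner flow `g_t(z)`. -/
def gf (W : ℝ → ℝ) (z : ℂ) (t : ℝ) : ℂ := Zf W z t + (W t : ℂ)

/-- `sin` of the argument. -/
def sn (Z : ℂ) : ℝ := Z.im / ‖Z‖

/-- `cos` of the argument. -/
def cs (Z : ℂ) : ℝ := Z.re / ‖Z‖

/-- `U_t(z) = log (Im g_t(z) / |g_t'(z)|)`. -/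
def Uf (W : ℝ → ℝ) (z : ℂ) (t : ℝ) : ℝ := logUps W t z

/-- The rate of decrease of `U`. -/
def rate (Z : ℂ) : ℝ := 4 * sn Z ^ 2 / ‖Z‖ ^ 2

open Classical in
/-- A function `G(Z,U)` of the state of the point `z` at time `t`; `0` if `z` is dead. -/
def St (G : ℂ → ℝ → ℝ) (W : ℝ → ℝ) (z : ℂ) (t : ℝ) : ℝ :=
  if z ∈ loewnerDomain W t then G (Zf W z t) (Uf W z t) else 0

variable {W : ℝ → ℝ} {z : ℂ} {s t : ℝ}

lemma St_of_mem {G : ℂ → ℝ → ℝ} (h : z ∈ loewnerDomain W t) :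
    St G W z t = G (Zf W z t) (Uf W z t) := by simp [St, h]

lemma St_of_not_mem {G : ℂ → ℝ → ℝ} (h : z ∉ loewnerDomain W t) : St G W z t = 0 := by
  simp [St, h]

lemma Zf_of_not_mem (h : z ∉ loewnerDomain W t) : Zf W z t = 0 := by
  have h' : ¬ ∃ g, IsLoewnerSol W z t g := h
  rw [Zf, flow, dif_neg h']

lemma dom_mono (hst : s ≤ t) (h : z ∈ loewnerDomain W t) : z ∈ loewnerDomain W s := by
  obtain ⟨g, hg⟩ := h
  exact ⟨g, hg.restrict hst⟩

lemma gf_eq {g : ℝ → ℂ} (hg : IsLoewnerSol W z t g) (hs : s ∈ Icc 0 t) : gf W z s = g s := by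
  rw [gf, Zf, flow_eq hs.1 (hg.restrict hs.2)]
  ring

lemma IsLoewnerSol.congr_fun {g g' : ℝ → ℂ} (ht : 0 ≤ t) (hg : IsLoewnerSol W z t g)
    (h : ∀ s ∈ Icc 0 t, g' s = g s) : IsLoewnerSol W z t g' := by
  refine ⟨by rw [h 0 ⟨le_rfl, ht⟩, hg.1], fun s hs => ?_⟩
  obtain ⟨h1, h2⟩ := hg.2 s hs
  refine ⟨by rwa [h s hs], ?_⟩
  rw [h s hs]
  exact h2.congr (fun u hu => h u hu) (h s hs)

lemma gf_sol (ht : 0 ≤ t) (h : z ∈ loewnerDomain W t) : IsLoewnerSol W z t (gf W z) := by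
  obtain ⟨g, hg⟩ := h
  exact hg.congr_fun ht fun s hs => gf_eq hg hs

lemma im_pos_of_dom (ht : 0 ≤ t) (h : z ∈ loewnerDomain W t) : 0 < z.im :=
  (gf_sol ht h).im_pos ht

lemma dom_zero : z ∈ loewnerDomain W 0 ↔ 0 < z.im := by
  constructor
  · exact im_pos_of_dom le_rfl
  · intro h
    refine ⟨fun _ => z, rfl, fun s hs => ⟨h, ?_⟩⟩
    have h0 : s = 0 := le_antisymm hs.2 hs.1
    subst h0
    rw [Icc_self]
    exact HasFDerivWithinAt.singleton

lemma gf_zero (h : 0 < z.im) : gf W z 0 = z :=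
  (gf_sol le_rfl (dom_zero.2 h)).1

lemma Zf_eq : Zf W z t = gf W z t - (W t : ℂ) := by rw [gf]; ring

lemma Zf_zero (h : 0 < z.im) : Zf W z 0 = z - (W 0 : ℂ) := by rw [Zf_eq, gf_zero h]

lemma Zf_im_eq : (Zf W z t).im = (gf W z t).im := by simp [gf]

lemma Zf_im_pos (ht : 0 ≤ t) (h : z ∈ loewnerDomain W t) : 0 < (Zf W z t).im := by
  rw [Zf_im_eq]
  exact ((gf_sol ht h).2 t ⟨ht, le_rfl⟩).1

lemma Zf_ne_zero (ht : 0 ≤ t) (h : z ∈ loewnerDomain W t) : Zf W z t ≠ 0 := by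
  intro h0
  have := Zf_im_pos ht h
  rw [h0] at this
  simp at this

lemma Zf_norm_pos (ht : 0 ≤ t) (h : z ∈ loewnerDomain W t) : 0 < ‖Zf W z t‖ :=
  norm_pos_iff.2 (Zf_ne_zero ht h)

lemma sn_pos {Z : ℂ} (h : 0 < Z.im) : 0 < sn Z := by
  have : Z ≠ 0 := fun h0 => by simp [h0] at h
  exact div_pos h (norm_pos_iff.2 this)

lemma sn_le_one (Z : ℂ) : sn Z ≤ 1 := by
  unfold sn
  rcases eq_or_ne Z 0 with h | h
  · simp only [h, Complex.zero_im, norm_zero, div_zero, zero_le_one]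
  · rw [div_le_one (norm_pos_iff.2 h)]
    exact (le_abs_self _).trans (Complex.abs_im_le_norm Z)

lemma sn_sq_add_cs_sq {Z : ℂ} (h : Z ≠ 0) : sn Z ^ 2 + cs Z ^ 2 = 1 := by
  have h1 : (0 : ℝ) < ‖Z‖ := norm_pos_iff.2 h
  have h2 : ‖Z‖ ^ 2 = Z.re * Z.re + Z.im * Z.im := by rw [Complex.sq_norm, Complex.normSq_apply]
  simp only [sn, cs, div_pow]
  rw [← add_div, div_eq_one_iff_eq (by positivity), h2]
  ring

lemma gf_hasDeriv (h : z ∈ loewnerDomain W t) (hs : s ∈ Icc 0 t) :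
    HasDerivWithinAt (gf W z) (2 / Zf W z s) (Icc 0 t) s := by
  rw [Zf_eq]
  exact ((gf_sol (hs.1.trans hs.2) h).2 s hs).2

lemma gf_cont (ht : 0 ≤ t) (h : z ∈ loewnerDomain W t) : ContinuousOn (gf W z) (Icc 0 t) :=
  (gf_sol ht h).continuousOn

lemma Zf_cont (hW : Continuous W) (ht : 0 ≤ t) (h : z ∈ loewnerDomain W t) :
    ContinuousOn (Zf W z) (Icc 0 t) :=
  ((gf_cont ht h).sub (Complex.continuous_ofReal.comp hW).continuousOn).congr fun _ _ => Zf_eq

/-- The rate of decrease of `U` is continuous along a path which is alive. -/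
lemma rate_cont (hW : Continuous W) (ht : 0 ≤ t) (h : z ∈ loewnerDomain W t) :
    ContinuousOn (fun s => rate (Zf W z s)) (Icc 0 t) := by
  have h1 := Zf_cont hW ht h
  have h2 : ∀ s ∈ Icc 0 t, ‖Zf W z s‖ ≠ 0 := fun s hs =>
    (Zf_norm_pos hs.1 (dom_mono hs.2 h)).ne'
  have h3 : ContinuousOn (fun s => sn (Zf W z s)) (Icc 0 t) :=
    (Complex.continuous_im.comp_continuousOn h1).div h1.norm h2
  exact (continuousOn_const.mul (h3.pow 2)).div (h1.norm.pow 2) fun s hs => pow_ne_zero 2 (h2 s hs)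

lemma rate_eq (Z : ℂ) : rate Z = 4 * Z.im ^ 2 / ‖Z‖ ^ 4 := by
  unfold rate sn
  rcases eq_or_ne Z 0 with h | h
  · simp only [h, Complex.zero_im, norm_zero, div_zero, ne_eq, OfNat.ofNat_ne_zero, not_false_eq_true, zero_pow, mul_zero]
  · have : ‖Z‖ ≠ 0 := norm_ne_zero_iff.2 h
    field_simp

lemma Uf_eq : Uf W z t = Real.log z.im - ∫ s in (0 : ℝ)..t, rate (Zf W z s) := by
  simp only [Uf, logUps, Zf, rate_eq]

lemma Uf_zero : Uf W z 0 = Real.log z.im := by simp [Uf_eq]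

lemma Uf_hasDeriv (hW : Continuous W) (h : z ∈ loewnerDomain W t) (hs : s ∈ Icc 0 t) :
    HasDerivWithinAt (Uf W z) (-rate (Zf W z s)) (Icc 0 t) s := by
  have h1 := hasDerivWithinAt_primitive (rate_cont hW (hs.1.trans hs.2) h) hs
  have h2 : Uf W z = fun u => Real.log z.im - ∫ x in (0 : ℝ)..u, rate (Zf W z x) := by
    funext u
    exact Uf_eq
  rw [h2]
  exact h1.const_sub _

lemma Uf_cont (hW : Continuous W) (h : z ∈ loewnerDomain W t) :
    ContinuousOn (Uf W z) (Icc 0 t) := fun _s hs =>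
  (Uf_hasDeriv hW h hs).continuousWithinAt

lemma rate_nonneg (Z : ℂ) : 0 ≤ rate Z := by unfold rate; positivity

lemma Uf_antitone (hW : Continuous W) (h : z ∈ loewnerDomain W t) :
    AntitoneOn (Uf W z) (Icc 0 t) := by
  refine antitoneOn_of_hasDerivWithinAt_nonpos (convex_Icc 0 t)
    (f' := fun s => -rate (Zf W z s)) (fun s hs => (Uf_hasDeriv hW h hs).continuousWithinAt)
    ?_ ?_
  · intro s hs
    exact (Uf_hasDeriv hW h (interior_subset hs)).mono interior_subset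
  · intro s _
    exact neg_nonpos.2 (rate_nonneg _)

lemma Uf_le (hW : Continuous W) (hs : 0 ≤ s) (hst : s ≤ t) (h : z ∈ loewnerDomain W t) :
    Uf W z t ≤ Uf W z s :=
  Uf_antitone hW h ⟨hs, hst⟩ ⟨hs.trans hst, le_rfl⟩ hst

lemma Uf_sub (hW : Continuous W) (hs : 0 ≤ s) (hst : s ≤ t) (h : z ∈ loewnerDomain W t) :
    Uf W z s - Uf W z t = ∫ u in s..t, rate (Zf W z u) := by
  have hc := rate_cont hW (hs.trans hst) h
  have i1 : IntervalIntegrable (fun u => rate (Zf W z u)) volume 0 s := by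
    apply ContinuousOn.intervalIntegrable
    rw [uIcc_of_le hs]
    exact hc.mono (Icc_subset_Icc_right hst)
  have i2 : IntervalIntegrable (fun u => rate (Zf W z u)) volume s t := by
    apply ContinuousOn.intervalIntegrable
    rw [uIcc_of_le hst]
    exact hc.mono (Icc_subset_Icc_left hs)
  have := intervalIntegral.integral_add_adjacent_intervals i1 i2
  rw [Uf_eq, Uf_eq, ← this]
  ring

lemma Y_hasDeriv (h : z ∈ loewnerDomain W t) (hs : s ∈ Icc 0 t) :
    HasDerivWithinAt (fun u => (Zf W z u).im) (-(2 * (Zf W z s).im / ‖Zf W z s‖ ^ 2))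
      (Icc 0 t) s := by
  have h1 := gf_hasDeriv h hs
  have h2 : HasDerivWithinAt (fun u => (gf W z u).im) ((2 / Zf W z s).im) (Icc 0 t) s :=
    Complex.imCLM.hasFDerivAt.comp_hasDerivWithinAt s h1
  have h3 : (2 / Zf W z s).im = -(2 * (Zf W z s).im / ‖Zf W z s‖ ^ 2) := by
    rw [Complex.div_im, Complex.sq_norm]
    simp only [Complex.im_ofNat, zero_mul, zero_div, Complex.re_ofNat, zero_sub]
  rw [h3] at h2
  exact h2.congr (fun u _ => Zf_im_eq) Zf_im_eq

lemma logY_hasDeriv (h : z ∈ loewnerDomain W t) (hs : s ∈ Icc 0 t) :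
    HasDerivWithinAt (fun u => Real.log (Zf W z u).im) (-(2 / ‖Zf W z s‖ ^ 2)) (Icc 0 t) s := by
  have h0 : 0 < (Zf W z s).im := Zf_im_pos hs.1 (dom_mono hs.2 h)
  have h1 := (Y_hasDeriv h hs).log h0.ne'
  refine h1.congr_deriv ?_
  (clear * - h0; field_simp)

lemma im_le_of_le (hs : 0 ≤ s) (hst : s ≤ t) (h : z ∈ loewnerDomain W t) :
    (Zf W z t).im ≤ (Zf W z s).im := by
  rw [Zf_im_eq, Zf_im_eq]
  exact (gf_sol (hs.trans hst) h).im_le ⟨hs, hst⟩

/-- The flow only depends on the driving function up to the present time. -/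
lemma gf_congr {W' : ℝ → ℝ} (ht : 0 ≤ t) (h : ∀ s ∈ Icc 0 t, W s = W' s) :
    (z ∈ loewnerDomain W t ↔ z ∈ loewnerDomain W' t) ∧ gf W z t = gf W' z t := by
  have key : ∀ {V V' : ℝ → ℝ} (_ : ∀ s ∈ Icc 0 t, V s = V' s) {g : ℝ → ℂ},
      IsLoewnerSol V z t g → IsLoewnerSol V' z t g := by
    intro V V' hV g hg
    exact ⟨hg.1, fun s hs => ⟨(hg.2 s hs).1, by rw [← hV s hs]; exact (hg.2 s hs).2⟩⟩
  have h' : ∀ s ∈ Icc 0 t, W' s = W s := fun s hs => (h s hs).symm
  have e : z ∈ loewnerDomain W t ↔ z ∈ loewnerDomain W' t :=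
    ⟨fun ⟨g, hg⟩ => ⟨g, key h hg⟩, fun ⟨g, hg⟩ => ⟨g, key h' hg⟩⟩
  refine ⟨e, ?_⟩
  by_cases hz : z ∈ loewnerDomain W t
  · obtain ⟨g, hg⟩ := hz
    rw [gf_eq hg ⟨ht, le_rfl⟩, gf_eq (key h hg) ⟨ht, le_rfl⟩]
  · have hz' : z ∉ loewnerDomain W' t := fun h'' => hz (e.2 h'')
    rw [gf, gf, Zf_of_not_mem hz, Zf_of_not_mem hz', h t ⟨ht, le_rfl⟩]

lemma Zf_congr {W' : ℝ → ℝ} (ht : 0 ≤ t) (h : ∀ s ∈ Icc 0 t, W s = W' s) :
    Zf W z t = Zf W' z t := by
  rw [Zf_eq, Zf_eq, (gf_congr ht h).2, h t ⟨ht, le_rfl⟩]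

lemma Uf_congr {W' : ℝ → ℝ} (ht : 0 ≤ t) (h : ∀ s ∈ Icc 0 t, W s = W' s) :
    Uf W z t = Uf W' z t := by
  rw [Uf_eq, Uf_eq]
  congr 1
  refine intervalIntegral.integral_congr fun s hs => ?_
  rw [uIcc_of_le ht] at hs
  change rate (Zf W z s) = rate (Zf W' z s)
  rw [Zf_congr hs.1 fun u hu => h u ⟨hu.1, hu.2.trans hs.2⟩]

lemma St_congr {G : ℂ → ℝ → ℝ} {W' : ℝ → ℝ} (ht : 0 ≤ t) (h : ∀ s ∈ Icc 0 t, W s = W' s) :
    St G W z t = St G W' z t := by
  by_cases hz : z ∈ loewnerDomain W t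
  · rw [St_of_mem hz, St_of_mem ((gf_congr ht h).1.1 hz), Zf_congr ht h, Uf_congr ht h]
  · rw [St_of_not_mem hz, St_of_not_mem fun h' => hz ((gf_congr ht h).1.2 h')]

end

end Vale.Agent.P164
end

section

/-!
# Joint stability of the flow in the point, the time and the driving function
-/

namespace Vale.Agent.P164

open Set Metric Filter Topology MeasureTheory
open scoped NNReal

variable {W : ℝ → ℝ} {z : ℂ} {s t : ℝ}

/-- Points stay alive a little longer. -/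
theorem dom_extend (hW : Continuous W) (ht : 0 ≤ t) (h : z ∈ loewnerDomain W t) :
    ∃ δ > 0, z ∈ loewnerDomain W (t + δ) := by
  have hg := gf_sol ht h
  set c0 : ℝ := (gf W z t).im with hc0
  have hc0pos : 0 < c0 := (hg.2 t ⟨ht, le_rfl⟩).1
  have hc : 0 < c0 / 2 := by (clear * - hc0pos; positivity)
  set w : ℂ := gf W z t - (W t : ℂ) with hw
  have hwim : w.im = c0 := by simp [hw, hc0]
  set δ : ℝ := (c0 / 2) ^ 2 / 2 with hδ
  have hδpos : 0 < δ := by (clear * - hc0pos; positivity)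
  have hV : Continuous (fun u => W (t + u) - W t) := by fun_prop
  obtain ⟨α, hα0, hα⟩ := exists_global
    (v := fun s x => 2 / (lift (c0 / 2) x - ((W (t + s) - W t : ℝ) : ℂ)))
    (K := (2 / (c0 / 2) ^ 2).toNNReal) (L := (2 / (c0 / 2)).toNNReal) hδpos.le
    (fun s _ => lift_field_lip hc (W (t + s) - W t))
    (fun x => by
      refine ContinuousOn.div continuousOn_const ?_ ?_
      · exact continuousOn_const.sub (Complex.continuous_ofReal.comp hV).continuousOn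
      · intro s _
        exact sub_ne_zero_of_im (hc.trans_le (lift_im _ x)) _)
    (fun s _ x => by
      rw [Real.coe_toNNReal _ (by (clear * - hc0pos; positivity))]
      exact norm_field_le hc (lift_im _ x) (W (t + s) - W t)) w
  have him : ∀ s ∈ Icc 0 δ, c0 / 2 ≤ (α s).im := by
    intro s hs
    have h1 : ‖α s - α 0‖ ≤ (2 / (c0 / 2)) * ‖s - 0‖ := by
      refine (convex_Icc 0 δ).norm_image_sub_le_of_norm_hasDerivWithin_le
        (f' := fun s => 2 / (lift (c0 / 2) (α s) - ((W (t + s) - W t : ℝ) : ℂ)))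
        (fun u hu => hα u hu) (fun u _ => norm_field_le hc (lift_im _ _) _)
        ⟨le_rfl, hδpos.le⟩ hs
    rw [hα0, sub_zero, Real.norm_eq_abs, abs_of_nonneg hs.1] at h1
    have h2 := (Complex.abs_im_le_norm (α s - w)).trans h1
    rw [Complex.sub_im, hwim] at h2
    have h3 := neg_abs_le ((α s).im - c0)
    have h4 : 2 / (c0 / 2) * s ≤ c0 / 2 := by
      calc 2 / (c0 / 2) * s ≤ 2 / (c0 / 2) * δ :=
            mul_le_mul_of_nonneg_left hs.2 (by positivity)
        _ = c0 / 2 := by rw [hδ]; field_simp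
    (clear * - h2 h3 h4; linarith)
  have hsol : IsLoewnerSol (fun u => W (t + u) - W t) (gf W z t - (W t : ℂ)) δ α := by
    refine ⟨hα0, fun s hs => ⟨hc.trans_le (him s hs), ?_⟩⟩
    have := hα s hs
    rwa [lift_eq (him s hs)] at this
  exact ⟨δ, hδpos, _, hg.concat ht hδpos.le hsol⟩

/-- Quantitative stability of the flow. -/
lemma stable_quant {g : ℝ → ℂ} (ht : 0 ≤ t) (hg : IsLoewnerSol W z t g) :
    ∃ C > 0, ∃ δ₀ > 0, ∀ δ, 0 < δ → δ ≤ δ₀ → ∀ (z' : ℂ) (W' : ℝ → ℝ), dist z' z ≤ δ →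
      ContinuousOn W' (Icc 0 t) → (∀ s ∈ Icc 0 t, |W' s - W s| ≤ δ) →
        ∃ g', IsLoewnerSol W' z' t g' ∧ (g t).im / 2 ≤ (g' t).im ∧
          ∀ s ∈ Icc 0 t, dist (g' s) (g s) ≤ C * δ := by
  obtain ⟨δ₀, hδ₀, hst⟩ := hg.stable ht
  set c : ℝ := (g t).im with hcdef
  have hc : 0 < c := (hg.2 t ⟨ht, le_rfl⟩).1
  have hc2 : 0 < c / 2 := by (clear * - hc; positivity)
  set K : ℝ := 2 / (c / 2) ^ 2 with hK
  have hKpos : 0 < K := by positivity
  set A : ℝ := 2 / c ^ 2 with hA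
  have hApos : 0 < A := by positivity
  set C : ℝ := Real.exp (K * t) + A / K * (Real.exp (K * t) - 1) with hC
  have hexp : 1 ≤ Real.exp (K * t) := Real.one_le_exp (by positivity)
  have hCpos : 0 < C := by
    have : 0 ≤ A / K * (Real.exp (K * t) - 1) := mul_nonneg (by positivity) (by linarith only [hexp])
    have := Real.exp_pos (K * t)
    (clear δ₀ hδ₀ hst hcdef hc2 hK hKpos hA hApos hC this; linarith)
  refine ⟨C, hCpos, δ₀, hδ₀, fun δ hδpos hδle z' W' hz' hW' hWW' => ?_⟩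
  obtain ⟨g', hg', him'⟩ := hst z' W' (hz'.trans hδle) hW' fun s hs => (hWW' s hs).trans hδle
  refine ⟨g', hg', him', fun s hs => ?_⟩
  have hgc : ∀ s ∈ Icc 0 t, c ≤ (g s).im := fun s hs => hg.im_le hs
  have hgc' : ∀ s ∈ Icc 0 t, c / 2 ≤ (g' s).im := fun s hs => him'.trans (hg'.im_le hs)
  have key := dist_le_of_approx_trajectories_ODE_of_mem
    (v := fun s x => 2 / (x - (W' s : ℂ))) (K := K.toNNReal)
    (s := fun _ => {x : ℂ | c / 2 ≤ x.im})
    (f := g') (g := g) (a := 0) (b := t) (εf := 0) (εg := A * δ) (δ := δ)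
    (fun u _ => by
      refine LipschitzOnWith.of_dist_le_mul fun x hx y hy => ?_
      rw [dist_eq_norm, dist_eq_norm, Real.coe_toNNReal _ hKpos.le]
      exact lip_field hc2 hx hy (W' u))
    hg'.continuousOn (fun u hu => hg'.hasDerivWithinAt_Ici hu) (fun s _ => by rw [dist_self])
    (fun u hu => hgc' u ⟨hu.1, hu.2.le⟩)
    hg.continuousOn (fun u hu => hg.hasDerivWithinAt_Ici hu)
    (fun s hs => by
      have hs' : s ∈ Icc 0 t := ⟨hs.1, hs.2.le⟩
      have h1 := hgc s hs'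
      rw [dist_eq_norm]
      refine (lip_field_w hc h1 (W s) (W' s)).trans ?_
      rw [abs_sub_comm]
      exact mul_le_mul_of_nonneg_left (hWW' s hs') hApos.le)
    (fun u hu => (by linarith only [hc] : c / 2 ≤ c).trans (hgc u ⟨hu.1, hu.2.le⟩))
    (by rw [hg'.1, hg.1]; exact hz')
  refine (key s hs).trans ?_
  rw [Real.coe_toNNReal _ hKpos.le, zero_add, sub_zero, gronwallBound_of_K_ne_0 hKpos.ne']
  have e2 : Real.exp (K * s) ≤ Real.exp (K * t) :=
    Real.exp_le_exp.2 (mul_le_mul_of_nonneg_left hs.2 hKpos.le)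
  have : A * δ / K * (Real.exp (K * s) - 1) ≤ A * δ / K * (Real.exp (K * t) - 1) :=
    mul_le_mul_of_nonneg_left (by linarith only [e2]) (by (clear * - hc hδpos; positivity))
  have h4 : δ * Real.exp (K * s) ≤ δ * Real.exp (K * t) :=
    mul_le_mul_of_nonneg_left e2 hδpos.le
  calc _ ≤ δ * Real.exp (K * t) + A * δ / K * (Real.exp (K * t) - 1) := add_le_add h4 this
    _ = C * δ := by rw [hC]; ring

lemma rate_eq_sq (Z : ℂ) : rate Z = (2 / Z).im ^ 2 := by
  rw [rate_eq]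
  have h : (2 / Z).im = -(2 * Z.im / ‖Z‖ ^ 2) := by
    rw [Complex.div_im, Complex.sq_norm]
    simp only [Complex.im_ofNat, zero_mul, zero_div, Complex.re_ofNat, zero_sub]
  rw [h]
  ring

lemma im_two_div_abs_le {c : ℝ} (hc : 0 < c) {Z : ℂ} (hZ : c ≤ Z.im) :
    |(2 / Z).im| ≤ 2 / c := by
  refine (Complex.abs_im_le_norm _).trans ?_
  have := norm_field_le hc hZ 0
  simpa only [Complex.norm_div, Complex.norm_ofNat, ge_iff_le, Complex.ofReal_zero, sub_zero] using this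

lemma rate_le_of_im {c : ℝ} (hc : 0 < c) {Z : ℂ} (hZ : c ≤ Z.im) : rate Z ≤ (2 / c) ^ 2 := by
  rw [rate_eq_sq, ← sq_abs]
  exact pow_le_pow_left₀ (abs_nonneg _) (im_two_div_abs_le hc hZ) 2

lemma rate_lip {c : ℝ} (hc : 0 < c) {Z Z' : ℂ} (hZ : c ≤ Z.im) (hZ' : c ≤ Z'.im) :
    |rate Z - rate Z'| ≤ 8 / c ^ 3 * ‖Z - Z'‖ := by
  rw [rate_eq_sq, rate_eq_sq, sq_sub_sq, abs_mul]
  have h1 : |(2 / Z).im + (2 / Z').im| ≤ 4 / c := by
    refine (abs_add_le _ _).trans ?_
    have := im_two_div_abs_le hc hZ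
    have := im_two_div_abs_le hc hZ'
    have e : (4 : ℝ) / c = 2 / c + 2 / c := by ring
    linarith
  have h2 : |(2 / Z).im - (2 / Z').im| ≤ 2 / c ^ 2 * ‖Z - Z'‖ := by
    rw [← Complex.sub_im]
    refine (Complex.abs_im_le_norm _).trans ?_
    have := lip_field hc hZ hZ' 0
    simpa only [ge_iff_le, Complex.ofReal_zero, sub_zero] using this
  calc |(2 / Z).im + (2 / Z').im| * |(2 / Z).im - (2 / Z').im|
      ≤ (4 / c) * (2 / c ^ 2 * ‖Z - Z'‖) :=
        mul_le_mul h1 h2 (abs_nonneg _) (by (clear * - hc; positivity))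
    _ = 8 / c ^ 3 * ‖Z - Z'‖ := by field_simp; ring

/-- Joint stability: perturb the point, the driving function (in sup norm up to slightly after
time `t`) and the time. -/
theorem flow_stable (hW : Continuous W) (ht : 0 ≤ t) (h : z ∈ loewnerDomain W t) {ε : ℝ}
    (hε : 0 < ε) :
    ∃ δ > 0, ∀ (z' : ℂ) (W' : ℝ → ℝ) (t' : ℝ), dist z' z < δ → Continuous W' →
      (∀ s ∈ Icc 0 t', |W' s - W s| < δ) → |t' - t| < δ → 0 ≤ t' →
        z' ∈ loewnerDomain W' t' ∧ dist (Zf W' z' t') (Zf W z t) < ε ∧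
          |Uf W' z' t' - Uf W z t| < ε := by
  obtain ⟨δ₁, hδ₁, hext⟩ := dom_extend hW ht h
  set T : ℝ := t + δ₁ with hT
  have hT0 : 0 ≤ T := by linarith
  have hg : IsLoewnerSol W z T (gf W z) := gf_sol hT0 hext
  obtain ⟨C, hC, δ₀, hδ₀, hst⟩ := stable_quant hT0 hg
  have hgT : 0 < (gf W z T).im := (hg.2 T ⟨hT0, le_rfl⟩).1
  set c : ℝ := (gf W z T).im / 2 with hc
  have hcpos : 0 < c := by (clear * - hgT; positivity)
  have hzim : 0 < z.im := im_pos_of_dom ht h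
  set M : ℝ := 1 + T * (8 / c ^ 3) with hM
  have hM1 : 1 ≤ M := by
    have : 0 ≤ T * (8 / c ^ 3) := by (clear * - ht hδ₁ hgT; positivity)
    linarith only [this]
  have hMpos : 0 < M := by linarith only [hM1]
  -- continuity data
  have hgc : ContinuousWithinAt (gf W z) (Icc 0 T) t :=
    hg.continuousOn t ⟨ht, by linarith only [hδ₁]⟩
  rw [Metric.continuousWithinAt_iff] at hgc
  obtain ⟨δ₂, hδ₂, hg2⟩ := hgc (ε / 4) (by positivity)
  obtain ⟨δ₃, hδ₃, hW3⟩ :=
    Metric.continuousAt_iff.1 (hW.continuousAt (x := t)) (ε / 4) (by positivity)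
  have hlog : ContinuousAt (fun x : ℂ => Real.log x.im) z :=
    (Real.continuousAt_log hzim.ne').comp Complex.continuous_im.continuousAt
  obtain ⟨δ₄, hδ₄, hlog4⟩ := Metric.continuousAt_iff.1 hlog (ε / 4) (by positivity)
  obtain ⟨δ, hδ, k0, k1, k2, k3, k4, k5, k6⟩ : ∃ δ : ℝ, 0 < δ ∧ δ ≤ δ₀ ∧ δ ≤ δ₁ ∧ δ ≤ δ₂ ∧
      δ ≤ δ₃ ∧ δ ≤ δ₄ ∧ δ ≤ ε / (8 * (C + 1) * M) ∧ δ ≤ ε / (8 * (2 / c) ^ 2) := by
    refine ⟨min δ₀ (min δ₁ (min δ₂ (min δ₃ (min δ₄ (min (ε / (8 * (C + 1) * M))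
      (ε / (8 * (2 / c) ^ 2))))))), ?_, ?_⟩
    · have : 0 < ε / (8 * (C + 1) * M) := by positivity
      have : 0 < ε / (8 * (2 / c) ^ 2) := by positivity
      simp only [lt_min_iff]
      (clear hW h hT hst hc hcpos hzim hM hM1 hMpos hgc hg2 hW3 hlog hlog4; tauto)
    · refine ⟨by simp, by simp, by simp, by simp, by simp, by simp, by simp⟩
  have k5' : (C + 1) * δ * M ≤ ε / 8 := by
    rw [le_div_iff₀ (by (clear * - hC ht hδ₁ hgT; positivity))] at k5
    linarith only [k5]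
  have k6' : (2 / c) ^ 2 * δ ≤ ε / 8 := by
    rw [le_div_iff₀ (by positivity)] at k6
    linarith only [k6]
  have k7 : (C + 1) * δ ≤ ε / 8 := by
    have : (C + 1) * δ * 1 ≤ (C + 1) * δ * M := mul_le_mul_of_nonneg_left hM1 (by (clear * - hC hδ; positivity))
    linarith only [k5', this]
  refine ⟨δ, hδ, fun z' W' t' hz' hW' hWW' htt' ht' => ?_⟩
  have htT : t' ≤ T := by
    have := (abs_lt.1 htt').2
    linarith only [k1, this]
  -- modified driving function
  set V : ℝ → ℝ := fun s => W' (min s t') + (W s - W (min s t')) with hV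
  have hVc : Continuous V := by
    have : Continuous fun s : ℝ => min s t' := by fun_prop
    exact (hW'.comp this).add (hW.sub (hW.comp this))
  have hVeq : ∀ s ∈ Icc 0 t', W' s = V s := by
    intro s hs
    simp only [hV, min_eq_left hs.2, sub_self, add_zero]
  have hVcl : ∀ s ∈ Icc 0 T, |V s - W s| ≤ δ := by
    intro s hs
    have e : V s - W s = W' (min s t') - W (min s t') := by simp only [hV]; ring
    rw [e]
    exact (hWW' _ ⟨le_min hs.1 ht', min_le_right _ _⟩).le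
  obtain ⟨g', hg', him', hd⟩ := hst δ hδ k0 z' V hz'.le hVc.continuousOn hVcl
  have hdomV : z' ∈ loewnerDomain V t' := ⟨g', hg'.restrict htT⟩
  have hdom' : z' ∈ loewnerDomain W' t' := (gf_congr ht' hVeq).1.2 hdomV
  have hdom : z ∈ loewnerDomain W t' := dom_mono htT hext
  have hgf' : ∀ s ∈ Icc 0 t', gf W' z' s = g' s := by
    intro s hs
    rw [(gf_congr hs.1 fun u hu => hVeq u ⟨hu.1, hu.2.trans hs.2⟩).2]
    exact gf_eq hg' ⟨hs.1, hs.2.trans htT⟩
  have hZ : ∀ s ∈ Icc 0 t', ‖Zf W' z' s - Zf W z s‖ ≤ (C + 1) * δ := by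
    intro s hs
    rw [Zf_eq, Zf_eq, hgf' s hs]
    have h1 := hd s ⟨hs.1, hs.2.trans htT⟩
    rw [dist_eq_norm] at h1
    have h2 : ‖((W' s : ℂ) - (W s : ℂ))‖ ≤ δ := by
      rw [← Complex.ofReal_sub, Complex.norm_real, Real.norm_eq_abs]
      exact (hWW' s hs).le
    calc ‖g' s - (W' s : ℂ) - (gf W z s - (W s : ℂ))‖
        = ‖(g' s - gf W z s) - ((W' s : ℂ) - (W s : ℂ))‖ := by congr 1; ring
      _ ≤ ‖g' s - gf W z s‖ + ‖((W' s : ℂ) - (W s : ℂ))‖ := norm_sub_le _ _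
      _ ≤ C * δ + δ := add_le_add h1 h2
      _ = (C + 1) * δ := by ring
  have him1 : ∀ s ∈ Icc 0 t', c ≤ (Zf W' z' s).im := by
    intro s hs
    rw [Zf_im_eq, hgf' s hs]
    exact him'.trans (hg'.im_le ⟨hs.1, hs.2.trans htT⟩)
  have him2 : ∀ s ∈ Icc 0 T, c ≤ (Zf W z s).im := by
    intro s hs
    rw [Zf_im_eq]
    have := hg.im_le hs
    linarith only [hgT, hc, this]
  refine ⟨hdom', ?_, ?_⟩
  · -- position
    have e1 : dist (Zf W' z' t') (Zf W z t') ≤ ε / 8 := by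
      rw [dist_eq_norm]
      exact (hZ t' ⟨ht', le_rfl⟩).trans k7
    have e2 : dist (Zf W z t') (Zf W z t) < ε / 4 + ε / 4 := by
      rw [Zf_eq, Zf_eq, dist_eq_norm]
      have h1 : dist (gf W z t') (gf W z t) < ε / 4 :=
        hg2 ⟨ht', htT⟩ (by rw [Real.dist_eq]; linarith only [k2, htt'])
      have h2 : dist (W t') (W t) < ε / 4 := hW3 (by rw [Real.dist_eq]; linarith only [k3, htt'])
      rw [dist_eq_norm] at h1
      rw [Real.dist_eq] at h2
      have h2' : ‖((W t' : ℂ) - (W t : ℂ))‖ < ε / 4 := by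
        rwa [← Complex.ofReal_sub, Complex.norm_real, Real.norm_eq_abs]
      calc ‖gf W z t' - (W t' : ℂ) - (gf W z t - (W t : ℂ))‖
          = ‖(gf W z t' - gf W z t) - ((W t' : ℂ) - (W t : ℂ))‖ := by congr 1; ring
        _ ≤ ‖gf W z t' - gf W z t‖ + ‖((W t' : ℂ) - (W t : ℂ))‖ := norm_sub_le _ _
        _ < ε / 4 + ε / 4 := add_lt_add h1 h2'
    have := dist_triangle (Zf W' z' t') (Zf W z t') (Zf W z t)
    linarith only [hε, e1, e2, this]
  · -- conformal radius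
    have hi1 : IntervalIntegrable (fun s => rate (Zf W' z' s)) volume 0 t' := by
      apply ContinuousOn.intervalIntegrable
      rw [uIcc_of_le ht']
      exact rate_cont hW' ht' hdom'
    have hiT : ∀ a b : ℝ, a ∈ Icc 0 T → b ∈ Icc 0 T →
        IntervalIntegrable (fun s => rate (Zf W z s)) volume a b := by
      intro a b ha hb
      apply ContinuousOn.intervalIntegrable
      refine (rate_cont hW hT0 hext).mono ?_
      exact uIcc_subset_Icc ha hb
    have hm0 : (0 : ℝ) ∈ Icc 0 T := ⟨le_rfl, hT0⟩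
    have hmt : t ∈ Icc 0 T := ⟨ht, by linarith only [hδ₁]⟩
    have hmt' : t' ∈ Icc 0 T := ⟨ht', htT⟩
    have e0 : |Real.log z'.im - Real.log z.im| < ε / 4 := by
      have := hlog4 (by linarith only [k4, hz'] : dist z' z < δ₄)
      rwa [Real.dist_eq] at this
    have e1 : |(∫ s in (0 : ℝ)..t', rate (Zf W' z' s)) - ∫ s in (0 : ℝ)..t', rate (Zf W z s)|
        ≤ ε / 8 := by
      rw [← intervalIntegral.integral_sub hi1 (hiT 0 t' hm0 hmt')]
      have h1 : ‖∫ s in (0 : ℝ)..t', (rate (Zf W' z' s) - rate (Zf W z s))‖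
          ≤ (8 / c ^ 3 * ((C + 1) * δ)) * |t' - 0| := by
        refine intervalIntegral.norm_integral_le_of_norm_le_const fun s hs => ?_
        rw [uIoc_of_le ht'] at hs
        have hs' : s ∈ Icc 0 t' := ⟨hs.1.le, hs.2⟩
        rw [Real.norm_eq_abs]
        refine (rate_lip hcpos (him1 s hs') (him2 s ⟨hs'.1, hs'.2.trans htT⟩)).trans ?_
        exact mul_le_mul_of_nonneg_left (hZ s hs') (by (clear * - hgT; positivity))
      rw [Real.norm_eq_abs, sub_zero, abs_of_nonneg ht'] at h1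
      refine h1.trans ?_
      calc 8 / c ^ 3 * ((C + 1) * δ) * t' ≤ 8 / c ^ 3 * ((C + 1) * δ) * T :=
            mul_le_mul_of_nonneg_left htT (by (clear * - hgT hC hδ; positivity))
        _ = (C + 1) * δ * (T * (8 / c ^ 3)) := by ring
        _ ≤ (C + 1) * δ * M := mul_le_mul_of_nonneg_left (by linarith only) (by (clear * - hC hδ; positivity))
        _ ≤ ε / 8 := k5'
    have e2 : |(∫ s in (0 : ℝ)..t', rate (Zf W z s)) - ∫ s in (0 : ℝ)..t, rate (Zf W z s)|
        ≤ ε / 8 := by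
      have h0 : (∫ s in (0 : ℝ)..t', rate (Zf W z s)) - ∫ s in (0 : ℝ)..t, rate (Zf W z s)
          = ∫ s in t..t', rate (Zf W z s) :=
        intervalIntegral.integral_interval_sub_left (hiT 0 t' hm0 hmt') (hiT 0 t hm0 hmt)
      rw [h0]
      have h1 : ‖∫ s in t..t', rate (Zf W z s)‖ ≤ (2 / c) ^ 2 * |t' - t| := by
        refine intervalIntegral.norm_integral_le_of_norm_le_const fun s hs => ?_
        have hs' : s ∈ Icc 0 T :=
          uIcc_subset_Icc hmt hmt' (uIoc_subset_uIcc hs)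
        rw [Real.norm_eq_abs, abs_of_nonneg (rate_nonneg _)]
        exact rate_le_of_im hcpos (him2 s hs')
      rw [Real.norm_eq_abs] at h1
      refine h1.trans (le_trans ?_ k6')
      exact mul_le_mul_of_nonneg_left htt'.le (by positivity)
    rw [Uf_eq, Uf_eq]
    have e3 : Real.log z'.im - (∫ s in (0 : ℝ)..t', rate (Zf W' z' s)) -
        (Real.log z.im - ∫ s in (0 : ℝ)..t, rate (Zf W z s))
        = (Real.log z'.im - Real.log z.im)
          - ((∫ s in (0 : ℝ)..t', rate (Zf W' z' s)) - ∫ s in (0 : ℝ)..t', rate (Zf W z s))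
          - ((∫ s in (0 : ℝ)..t', rate (Zf W z s)) - ∫ s in (0 : ℝ)..t, rate (Zf W z s)) := by
      ring
    rw [e3]
    have f1 := abs_sub ((Real.log z'.im - Real.log z.im)
          - ((∫ s in (0 : ℝ)..t', rate (Zf W' z' s)) - ∫ s in (0 : ℝ)..t', rate (Zf W z s)))
          ((∫ s in (0 : ℝ)..t', rate (Zf W z s)) - ∫ s in (0 : ℝ)..t, rate (Zf W z s))
    have f2 := abs_sub (Real.log z'.im - Real.log z.im)
          ((∫ s in (0 : ℝ)..t', rate (Zf W' z' s)) - ∫ s in (0 : ℝ)..t', rate (Zf W z s))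
    linarith only [hε, e0, e1, e2, f1, f2]

theorem Zf_contOn (hW : Continuous W) :
    ContinuousOn (fun p : ℝ × ℂ => Zf W p.2 p.1) {p | 0 ≤ p.1 ∧ p.2 ∈ loewnerDomain W p.1} := by
  rintro ⟨t, z⟩ ⟨ht, hz⟩
  rw [Metric.continuousWithinAt_iff]
  intro ε hε
  obtain ⟨δ, hδ, hst⟩ := flow_stable hW ht hz hε
  refine ⟨δ, hδ, ?_⟩
  rintro ⟨t', z'⟩ ⟨ht', _⟩ hd
  rw [Prod.dist_eq, max_lt_iff] at hd
  exact (hst z' W t' hd.2 hW (fun s _ => by simpa only [sub_self, abs_zero, gt_iff_lt] using hδ) hd.1 ht').2.1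

theorem Uf_contOn (hW : Continuous W) :
    ContinuousOn (fun p : ℝ × ℂ => Uf W p.2 p.1) {p | 0 ≤ p.1 ∧ p.2 ∈ loewnerDomain W p.1} := by
  rintro ⟨t, z⟩ ⟨ht, hz⟩
  rw [Metric.continuousWithinAt_iff]
  intro ε hε
  obtain ⟨δ, hδ, hst⟩ := flow_stable hW ht hz hε
  refine ⟨δ, hδ, ?_⟩
  rintro ⟨t', z'⟩ ⟨ht', _⟩ hd
  rw [Prod.dist_eq, max_lt_iff] at hd
  exact (hst z' W t' hd.2 hW (fun s _ => by simpa only [sub_self, abs_zero, gt_iff_lt] using hδ) hd.1 ht').2.2

end Vale.Agent.P164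
end

section

/-!
# Measurability of state functionals for a fixed path
-/

namespace Vale.Agent.P164

open Set Metric Filter Topology MeasureTheory

variable {W : ℝ → ℝ} {z : ℂ} {s t : ℝ}

/-- The set of pairs (time, point) such that the point is alive at that time is measurable. -/
theorem measurableSet_aliveSet (hW : Continuous W) :
    MeasurableSet {p : ℝ × ℂ | 0 ≤ p.1 ∧ p.2 ∈ loewnerDomain W p.1} := by
  have h : {p : ℝ × ℂ | 0 ≤ p.1 ∧ p.2 ∈ loewnerDomain W p.1} =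
      {p : ℝ × ℂ | 0 ≤ p.1} ∩ interior {p : ℝ × ℂ | 0 ≤ p.1 → p.2 ∈ loewnerDomain W p.1} := by
    ext p
    constructor
    · rintro ⟨h0, h1⟩
      refine ⟨h0, ?_⟩
      obtain ⟨δ, hδ, H⟩ := flow_stable hW h0 h1 one_pos
      rw [mem_interior_iff_mem_nhds]
      refine Filter.mem_of_superset (Metric.ball_mem_nhds p hδ) fun q hq hq0 => ?_
      have hq' : max (dist q.1 p.1) (dist q.2 p.2) < δ := by
        rw [← Prod.dist_eq]
        exact hq
      refine (H q.2 W q.1 ((le_max_right _ _).trans_lt hq') hW (fun s _ => by simpa only [sub_self, abs_zero, gt_iff_lt] using hδ)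
        ?_ hq0).1
      rw [← Real.dist_eq]
      exact (le_max_left _ _).trans_lt hq'
    · rintro ⟨h0, h1⟩
      exact ⟨h0, interior_subset h1 h0⟩
  rw [h]
  exact (measurableSet_le measurable_const measurable_fst).inter isOpen_interior.measurableSet

/-- State functionals are jointly measurable in the time and the point, for a fixed path. -/
theorem St_measurable (hW : Continuous W) {G : ℂ → ℝ → ℝ}
    (hG : Measurable (Function.uncurry G)) :
    Measurable (fun p : ℝ × ℂ => if 0 ≤ p.1 then St G W p.2 p.1 else 0) := by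
  classical
  set S : Set (ℝ × ℂ) := {p | 0 ≤ p.1 ∧ p.2 ∈ loewnerDomain W p.1} with hS
  have mS : MeasurableSet S := measurableSet_aliveSet hW
  have mZ : Measurable (S.piecewise (fun p : ℝ × ℂ => Zf W p.2 p.1) (fun _ => (0 : ℂ))) :=
    (Zf_contOn hW).measurable_piecewise continuousOn_const mS
  have mU : Measurable (S.piecewise (fun p : ℝ × ℂ => Uf W p.2 p.1) (fun _ => (0 : ℝ))) :=
    (Uf_contOn hW).measurable_piecewise continuousOn_const mS
  have mF := (hG.comp (mZ.prodMk mU)).indicator mS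
  convert mF using 1
  funext p
  by_cases hp : p ∈ S
  · have hp0 : 0 ≤ p.1 := hp.1
    rw [if_pos hp0, St_of_mem hp.2, indicator_of_mem hp]
    simp only [Function.comp_apply, Set.piecewise_eq_of_mem _ _ _ hp, Function.uncurry_apply_pair]
  · rw [indicator_of_notMem hp]
    by_cases hp0 : 0 ≤ p.1
    · rw [if_pos hp0]
      exact St_of_not_mem fun h => hp ⟨hp0, h⟩
    · rw [if_neg hp0]

theorem St_measurable_z (hW : Continuous W) {G : ℂ → ℝ → ℝ}
    (hG : Measurable (Function.uncurry G)) (ht : 0 ≤ t) :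
    Measurable (fun z : ℂ => St G W z t) := by
  have h := (St_measurable hW hG).comp (measurable_const.prodMk measurable_id : Measurable
    (fun z : ℂ => (t, z)))
  convert h using 1
  funext z
  simp only [Function.comp_apply, ht, ↓reduceIte]

end Vale.Agent.P164
end

section

/-!
# The approximate natural content of the trace, and its pathwise bounds
-/

namespace Vale.Agent.P164

open Set Metric Filter Topology MeasureTheory

noncomputable section

/-- Smooth step: derivative of `-ee`. -/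
def phi (u : ℝ) : ℝ := 6 * max 0 (u * (1 - u))

/-- Smooth step: `1` for `u ≤ 0`, `0` for `u ≥ 1`. -/
def ee (u : ℝ) : ℝ := if u ≤ 0 then 1 else if 1 ≤ u then 0 else 1 - 3 * u ^ 2 + 2 * u ^ 3

lemma phi_nonneg (u : ℝ) : 0 ≤ phi u := by
  unfold phi
  positivity

lemma phi_le (u : ℝ) : phi u ≤ 3 / 2 := by
  have h : max 0 (u * (1 - u)) ≤ 1 / 4 := max_le (by norm_num) (by nlinarith [sq_nonneg (u - 1 / 2)])
  unfold phi
  linarith only [h]

lemma phi_eq_clamp (u : ℝ) : phi u = 6 * (max 0 (min u 1) * (1 - max 0 (min u 1))) := by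
  unfold phi
  rcases le_total u 0 with h | h
  · have h1 : u * (1 - u) ≤ 0 := by nlinarith
    rw [max_eq_left h1, min_eq_left (by linarith only [h]), max_eq_left h]
    ring
  · rcases le_total u 1 with h' | h'
    · have h1 : 0 ≤ u * (1 - u) := mul_nonneg h (by linarith only [h'])
      rw [max_eq_right h1, min_eq_left h', max_eq_right h]
    · have h1 : u * (1 - u) ≤ 0 := by nlinarith only [h']
      rw [max_eq_left h1, min_eq_right h', max_eq_right (by norm_num : (0 : ℝ) ≤ 1)]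
      ring

lemma phi_lip (u v : ℝ) : |phi u - phi v| ≤ 6 * |u - v| := by
  rw [phi_eq_clamp, phi_eq_clamp]
  set a := max 0 (min u 1) with ha
  set b := max 0 (min v 1) with hb
  have ha0 : 0 ≤ a := le_max_left _ _
  have ha1 : a ≤ 1 := max_le (by norm_num) (min_le_right _ _)
  have hb0 : 0 ≤ b := le_max_left _ _
  have hb1 : b ≤ 1 := max_le (by norm_num) (min_le_right _ _)
  have hab : |a - b| ≤ |u - v| := by
    calc |a - b| ≤ |min u 1 - min v 1| := by
            rw [ha, hb]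
            have := abs_max_sub_max_le_abs (min u 1) (min v 1) 0
            rwa [max_comm _ (0 : ℝ), max_comm _ (0 : ℝ)] at this
      _ ≤ |u - v| := by
            have := abs_min_sub_min_le_max u 1 v 1
            simpa only [ge_iff_le, sub_self, abs_zero, abs_nonneg, sup_of_le_left] using this
  have h1 : 6 * (a * (1 - a)) - 6 * (b * (1 - b)) = 6 * ((a - b) * (1 - a - b)) := by ring
  rw [h1, abs_mul, abs_mul, abs_of_pos (by norm_num : (0 : ℝ) < 6)]
  have h2 : |1 - a - b| ≤ 1 := abs_le.2 ⟨by linarith only [ha1, hb1], by linarith only [ha0, hb0]⟩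
  have h3 : |a - b| * |1 - a - b| ≤ |u - v| * 1 :=
    mul_le_mul hab h2 (abs_nonneg _) (abs_nonneg _)
  linarith only [h3]

lemma phi_eq_zero {u : ℝ} (h : u ≤ 0 ∨ 1 ≤ u) : phi u = 0 := by
  have h1 : u * (1 - u) ≤ 0 := by
    rcases h with h | h <;> nlinarith only [h]
  rw [phi, max_eq_left h1, mul_zero]

lemma phi_continuous : Continuous phi := by
  unfold phi
  fun_prop

lemma ee_hasDeriv_of_quadratic {u : ℝ} (h : ∀ v, |ee v - ee u| ≤ 3 * |v - u| ^ 2) :
    HasDerivAt ee 0 u := by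
  have h1 : (fun v => ee v - ee u) =O[𝓝 u] fun v => ‖v - u‖ ^ 2 := by
    refine Asymptotics.IsBigO.of_bound 3 (Eventually.of_forall fun v => ?_)
    rw [Real.norm_eq_abs, Real.norm_eq_abs, abs_of_nonneg (by positivity : (0:ℝ) ≤ ‖v - u‖ ^ 2),
      Real.norm_eq_abs]
    exact h v
  have h2 := h1.hasFDerivAt (𝕜 := ℝ) (by norm_num)
  have h3 : HasDerivAt (fun v => ee v - ee u) 0 u := by
    have := h2.hasDerivAt
    simpa using this
  have h4 := h3.add_const (ee u)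
  simpa using h4

lemma ee_hasDeriv (u : ℝ) : HasDerivAt ee (-phi u) u := by
  rcases lt_trichotomy u 0 with h | h | h
  · rw [phi_eq_zero (Or.inl h.le), neg_zero]
    refine (hasDerivAt_const u (1 : ℝ)).congr_of_eventuallyEq ?_
    filter_upwards [gt_mem_nhds h] with v hv
    simp only [ee, hv.le, ↓reduceIte]
  · subst h
    rw [phi_eq_zero (Or.inl le_rfl), neg_zero]
    refine ee_hasDeriv_of_quadratic fun v => ?_
    have e0 : ee 0 = 1 := by simp [ee]
    rw [e0, sub_zero, sq_abs]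
    unfold ee
    split_ifs with h1 h2
    · simp only [sub_self, abs_zero]; (clear * -; positivity)
    · rw [zero_sub, abs_neg, abs_one]; nlinarith only [h1, h2]
    · push Not at h1 h2
      rw [abs_le]
      constructor <;> nlinarith only [h1, h2]
  · rcases lt_trichotomy u 1 with h' | h' | h'
    · have h1 : HasDerivAt (fun v : ℝ => 1 - 3 * v ^ 2 + 2 * v ^ 3) (-phi u) u := by
        have h2 : -phi u = 0 - 3 * (2 * u) + 2 * (3 * u ^ 2) := by
          rw [phi, max_eq_right (mul_nonneg h.le (by linarith only [h']))]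
          ring
        rw [h2]
        have h3 : HasDerivAt (fun v : ℝ => v ^ 2) (2 * u) u := by
          simpa only [Nat.cast_ofNat, Nat.add_one_sub_one, pow_one] using hasDerivAt_pow 2 u
        have h4 : HasDerivAt (fun v : ℝ => v ^ 3) (3 * u ^ 2) u := by
          simpa only [Nat.cast_ofNat, Nat.add_one_sub_one] using hasDerivAt_pow 3 u
        exact ((hasDerivAt_const u (1 : ℝ)).sub (h3.const_mul 3)).add (h4.const_mul 2)
      refine h1.congr_of_eventuallyEq ?_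
      filter_upwards [lt_mem_nhds h, gt_mem_nhds h'] with v hv hv'
      simp only [ee, not_le.2 hv, ↓reduceIte, not_le.2 hv']
    · subst h'
      rw [phi_eq_zero (Or.inr le_rfl), neg_zero]
      refine ee_hasDeriv_of_quadratic fun v => ?_
      have e0 : ee 1 = 0 := by simp only [ee, Std.le_refl, ↓reduceIte, ite_eq_right_iff, one_ne_zero, imp_false, not_le, zero_lt_one]
      rw [e0, sub_zero, sq_abs]
      unfold ee
      split_ifs with h1 h2
      · rw [abs_one]; nlinarith only [h1]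
      · simp only [abs_zero]; (clear * -; positivity)
      · push Not at h1 h2
        have e : 1 - 3 * v ^ 2 + 2 * v ^ 3 = (v - 1) ^ 2 * (1 + 2 * v) := by ring
        rw [e, abs_of_nonneg (by (clear * - h1; positivity))]
        nlinarith only [h2]
    · rw [phi_eq_zero (Or.inr h'.le), neg_zero]
      refine (hasDerivAt_const u (0 : ℝ)).congr_of_eventuallyEq ?_
      filter_upwards [lt_mem_nhds h'] with v hv
      simp only [ee, not_le.2 (lt_trans one_pos hv), ↓reduceIte, hv.le]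

lemma ee_antitone : Antitone ee :=
  antitone_of_hasDerivAt_nonpos (f' := fun u => -phi u) ee_hasDeriv fun u =>
    neg_nonpos.2 (phi_nonneg u)

lemma ee_of_nonpos {u : ℝ} (h : u ≤ 0) : ee u = 1 := by simp only [ee, h, ↓reduceIte]

lemma ee_of_one_le {u : ℝ} (h : 1 ≤ u) : ee u = 0 := by
  have : ¬ u ≤ 0 := by linarith
  simp only [ee, this, ↓reduceIte, h]

lemma ee_nonneg (u : ℝ) : 0 ≤ ee u := by
  have h := ee_antitone (le_max_left u 1)
  rwa [ee_of_one_le (le_max_right u 1)] at h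

lemma ee_le_one (u : ℝ) : ee u ≤ 1 := by
  have h := ee_antitone (min_le_left u 0)
  rwa [ee_of_nonpos (min_le_right u 0)] at h

/-- The dimension. -/
def dd (κ : ℝ) : ℝ := 1 + κ / 8

/-- The codimension. -/
def xx (κ : ℝ) : ℝ := 1 - κ / 8

/-- The boundary exponent `8/κ - 1`. -/
def be (κ : ℝ) : ℝ := 8 / κ - 1

/-- The local martingale (Green function of the state). -/
def MM (κ : ℝ) (Z : ℂ) (U : ℝ) : ℝ := Real.exp (-xx κ * U) * sn Z ^ be κ

/-- The density of the content at level `r`. -/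
def aR (κ r : ℝ) (Z : ℂ) (U : ℝ) : ℝ :=
  Real.exp (-xx κ * U) * phi (U - Real.log r) * (4 * sn Z ^ (be κ + 2) / ‖Z‖ ^ 2)

/-- The content at level `r` at the point `z` collected during `[s,t]`. -/
def yc (κ r : ℝ) (W : ℝ → ℝ) (z : ℂ) (s t : ℝ) : ℝ := ∫ u in s..t, St (aR κ r) W z u

/-- The content at level `r` of the set `D` collected during `[s,t]`. -/
def mu (κ r : ℝ) (W : ℝ → ℝ) (D : Set ℂ) (s t : ℝ) : ℝ := ∫ z in D, yc κ r W z s t

variable {κ r : ℝ} {W : ℝ → ℝ} {z : ℂ} {s t T : ℝ} {D : Set ℂ}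

lemma aR_measurable (κ r : ℝ) : Measurable (Function.uncurry (aR κ r)) := by
  have h1 : Measurable fun p : ℂ × ℝ => sn p.1 := by
    unfold sn
    exact (Complex.measurable_im.comp measurable_fst).div measurable_fst.norm
  have h2 : Measurable fun p : ℂ × ℝ => phi (p.2 - Real.log r) :=
    phi_continuous.measurable.comp (measurable_snd.sub_const _)
  have h3 : Measurable fun p : ℂ × ℝ => Real.exp (-xx κ * p.2) :=
    Real.measurable_exp.comp (measurable_snd.const_mul _)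
  exact (h3.mul h2).mul (((h1.pow_const (be κ + 2)).const_mul 4).div (measurable_fst.norm.pow_const 2))

/-- Primitive of a nonnegative function supported in `[a,b]`. -/
lemma prim_bounds {f : ℝ → ℝ} (hf : Continuous f) (hf0 : ∀ u, 0 ≤ f u) {a b : ℝ} (hab : a ≤ b)
    (hsupp : ∀ u, u ≤ a ∨ b ≤ u → f u = 0) (x : ℝ) :
    0 ≤ ∫ u in a..x, f u ∧ ∫ u in a..x, f u ≤ ∫ u in a..b, f u := by
  rcases le_total x a with h | h
  · have h1 : ∫ u in a..x, f u = 0 := by
      rw [intervalIntegral.integral_symm]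
      have : ∫ u in x..a, f u = ∫ u in x..a, (0 : ℝ) := by
        refine intervalIntegral.integral_congr fun u hu => ?_
        rw [uIcc_of_le h] at hu
        exact hsupp u (Or.inl hu.2)
      rw [this]
      simp
    rw [h1]
    exact ⟨le_rfl, intervalIntegral.integral_nonneg hab fun u _ => hf0 u⟩
  · refine ⟨intervalIntegral.integral_nonneg h fun u _ => hf0 u, ?_⟩
    rcases le_total x b with h' | h'
    · exact intervalIntegral.integral_mono_interval le_rfl h h'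
        (Eventually.of_forall fun u => hf0 u) (hf.intervalIntegrable _ _)
    · have h1 : ∫ u in b..x, f u = 0 := by
        have : ∫ u in b..x, f u = ∫ u in b..x, (0 : ℝ) := by
          refine intervalIntegral.integral_congr fun u hu => ?_
          rw [uIcc_of_le h'] at hu
          exact hsupp u (Or.inr hu.1)
        rw [this]
        simp
      have h2 := intervalIntegral.integral_add_adjacent_intervals
        (hf.intervalIntegrable (μ := volume) a b) (hf.intervalIntegrable (μ := volume) b x)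
      rw [h1, add_zero] at h2
      exact h2.symm.le

lemma path_aux_cont (hW : Continuous W) (ht : 0 ≤ t) (h : z ∈ loewnerDomain W t)
    {f : ℝ → ℝ} (hf : Continuous f) :
    ContinuousOn (fun u => St (fun Z U => f U * rate Z) W z u) (Icc 0 t) := by
  have h1 : ContinuousOn (fun u => f (Uf W z u) * rate (Zf W z u)) (Icc 0 t) :=
    (hf.comp_continuousOn (Uf_cont hW h)).mul (rate_cont hW ht h)
  exact h1.congr fun u hu => St_of_mem (dom_mono hu.2 h)

lemma path_aux_int (hW : Continuous W) (hs : 0 ≤ s) (hst : s ≤ t) (h : z ∈ loewnerDomain W t)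
    {f : ℝ → ℝ} (hf : Continuous f) (a : ℝ) :
    ∫ u in s..t, St (fun Z U => f U * rate Z) W z u
      = (∫ u in a..Uf W z s, f u) - ∫ u in a..Uf W z t, f u := by
  have ht : 0 ≤ t := hs.trans hst
  have hc := path_aux_cont hW ht h hf
  have hF : ∀ x, HasDerivAt (fun x => ∫ u in a..x, f u) (f x) x := fun x =>
    intervalIntegral.integral_hasDerivAt_right (hf.intervalIntegrable _ _)
      hf.stronglyMeasurable.stronglyMeasurableAtFilter hf.continuousAt
  have hcont : ContinuousOn (fun v => -∫ u in a..Uf W z v, f u) (Icc s t) := by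
    have h1 : Continuous fun x => ∫ u in a..x, f u :=
      continuous_iff_continuousAt.2 fun x => (hF x).continuousAt
    exact ((h1.comp_continuousOn (Uf_cont hW h)).neg).mono (Icc_subset_Icc_left hs)
  have hder : ∀ v ∈ Ioo s t, HasDerivAt (fun v => -∫ u in a..Uf W z v, f u)
      (St (fun Z U => f U * rate Z) W z v) v := by
    intro v hv
    have hv0 : v ∈ Icc 0 t := ⟨hs.trans hv.1.le, hv.2.le⟩
    have h1 := (Uf_hasDeriv hW h hv0).hasDerivAt
      (Icc_mem_nhds (lt_of_le_of_lt hs hv.1) hv.2)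
    have h2 := ((hF (Uf W z v)).comp v h1).neg
    have h3 : -(f (Uf W z v) * -rate (Zf W z v))
        = St (fun Z U => f U * rate Z) W z v := by
      rw [St_of_mem (dom_mono hv.2.le h)]
      ring
    rw [h3] at h2
    exact h2
  have hint : IntervalIntegrable
      (fun u => St (fun Z U => f U * rate Z) W z u) volume s t := by
    refine ContinuousOn.intervalIntegrable ?_
    rw [uIcc_of_le hst]
    exact hc.mono (Icc_subset_Icc_left hs)
  rw [intervalIntegral.integral_eq_sub_of_hasDerivAt_of_le hst hcont hder hint]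
  ring

/-- A function of `U` integrated along the path, as long as `z` is alive. -/
lemma path_integral_le (hW : Continuous W) (hz : 0 < z.im) (hs : 0 ≤ s) (hst : s ≤ t)
    {f : ℝ → ℝ} (hf : Continuous f) (hf0 : ∀ u, 0 ≤ f u) {a b I : ℝ} (hab : a ≤ b)
    (hsupp : ∀ u, u ≤ a ∨ b ≤ u → f u = 0) (hI : ∫ u in a..b, f u ≤ I) :
    IntervalIntegrable (fun u => St (fun Z U => f U * rate Z) W z u) volume s t ∧
    0 ≤ ∫ u in s..t, St (fun Z U => f U * rate Z) W z u ∧
      ∫ u in s..t, St (fun Z U => f U * rate Z) W z u ≤ I := by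
  set g : ℝ → ℝ := fun u => St (fun Z U => f U * rate Z) W z u with hg
  have hg0 : ∀ u, 0 ≤ g u := by
    intro u
    by_cases h : z ∈ loewnerDomain W u
    · rw [hg]
      simp only
      rw [St_of_mem h]
      exact mul_nonneg (hf0 _) (rate_nonneg _)
    · rw [hg]
      simp only
      rw [St_of_not_mem h]
  have hI0 : 0 ≤ I := le_trans (intervalIntegral.integral_nonneg hab fun u _ => hf0 u) hI
  have hnn : 0 ≤ ∫ u in s..t, g u := intervalIntegral.integral_nonneg hst fun u _ => hg0 u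
  by_cases hsd : z ∈ loewnerDomain W s
  swap
  · have h0 : ∀ u ∈ Icc s t, g u = 0 := fun u hu =>
      St_of_not_mem fun h => hsd (dom_mono hu.1 h)
    have h1 : IntervalIntegrable g volume s t := by
      rw [intervalIntegrable_iff_integrableOn_Ioc_of_le hst]
      exact integrableOn_zero.congr_fun (fun u hu => (h0 u ⟨hu.1.le, hu.2⟩).symm) measurableSet_Ioc
    refine ⟨h1, hnn, ?_⟩
    have h2 : ∫ u in s..t, g u = ∫ u in s..t, (0 : ℝ) := by
      refine intervalIntegral.integral_congr fun u hu => ?_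
      rw [uIcc_of_le hst] at hu
      exact h0 u hu
    rw [h2]
    simpa only [intervalIntegral.integral_zero, ge_iff_le] using hI0
  set S : Set ℝ := {u ∈ Icc s t | z ∈ loewnerDomain W u} with hS
  have hSne : S.Nonempty := ⟨s, ⟨le_rfl, hst⟩, hsd⟩
  have hSbd : BddAbove S := ⟨t, fun u hu => hu.1.2⟩
  set ζ := sSup S with hζ
  have hsζ : s ≤ ζ := le_csSup hSbd ⟨⟨le_rfl, hst⟩, hsd⟩
  have hζt : ζ ≤ t := csSup_le hSne fun u hu => hu.1.2
  have halive : ∀ u, u < ζ → z ∈ loewnerDomain W u := by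
    intro u hu
    obtain ⟨v, hv, huv⟩ := exists_lt_of_lt_csSup hSne hu
    exact dom_mono huv.le hv.2
  have hdead : ∀ u ∈ Ioc ζ t, g u = 0 := by
    intro u hu
    refine St_of_not_mem fun h => ?_
    have := le_csSup hSbd (show u ∈ S from ⟨⟨hsζ.trans hu.1.le, hu.2⟩, h⟩)
    linarith only [this, hu.1]
  -- the approximating sequence
  set bn : ℕ → ℝ := fun n => ζ - (ζ - s) * (1 / ((n : ℝ) + 1)) with hbn
  have hbn_le : ∀ n, bn n ≤ ζ := by
    intro n
    have : 0 ≤ (ζ - s) * (1 / ((n : ℝ) + 1)) := mul_nonneg (sub_nonneg.2 hsζ) (by (clear * -; positivity))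
    simp only [hbn]
    linarith only [this]
  have hbn_ge : ∀ n, s ≤ bn n := by
    intro n
    have h1 : (ζ - s) * (1 / ((n : ℝ) + 1)) ≤ (ζ - s) * 1 := by
      refine mul_le_mul_of_nonneg_left ?_ (sub_nonneg.2 hsζ)
      rw [div_le_one (by positivity)]
      have : (0 : ℝ) ≤ n := Nat.cast_nonneg n
      linarith only []
    simp only [hbn]
    linarith only [h1]
  have hbn_alive : ∀ n, z ∈ loewnerDomain W (bn n) := by
    intro n
    rcases eq_or_lt_of_le hsζ with h | h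
    · have : bn n = s := by simp only [hbn]; rw [← h]; ring
      rw [this]
      exact hsd
    · refine halive _ ?_
      have : 0 < (ζ - s) * (1 / ((n : ℝ) + 1)) := mul_pos (sub_pos.2 h) (by (clear * -; positivity))
      simp only [hbn]
      linarith only [this]
  have hbn_lim : Tendsto bn atTop (𝓝 ζ) := by
    have h1 := (tendsto_one_div_add_atTop_nhds_zero_nat (𝕜 := ℝ)).const_mul (ζ - s)
    have h2 := h1.const_sub ζ
    rwa [mul_zero, sub_zero] at h2
  have hint_n : ∀ n, IntegrableOn g (Ioc s (bn n)) := by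
    intro n
    have h1 := (path_aux_cont hW (hs.trans (hbn_ge n)) (hbn_alive n) hf).mono
      (Icc_subset_Icc_left hs)
    exact (h1.integrableOn_compact isCompact_Icc).mono_set Ioc_subset_Icc_self
  have hval_n : ∀ n, ∫ u in s..bn n, g u ≤ I := by
    intro n
    rw [hg, path_aux_int hW hs (hbn_ge n) (hbn_alive n) hf a]
    have h1 := prim_bounds hf hf0 hab hsupp (Uf W z s)
    have h2 := prim_bounds hf hf0 hab hsupp (Uf W z (bn n))
    linarith only [hI, h1, h2]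
  have hintζ : IntegrableOn g (Ioc s ζ) := by
    refine integrableOn_Ioc_of_intervalIntegral_norm_bounded_right (l := atTop) (I := I) hint_n
      hbn_lim (Eventually.of_forall fun n => ?_)
    have h1 : ∫ x in Ioc s (bn n), ‖g x‖ = ∫ u in s..bn n, g u := by
      rw [intervalIntegral.integral_of_le (hbn_ge n)]
      refine setIntegral_congr_fun measurableSet_Ioc fun u _ => ?_
      exact Real.norm_of_nonneg (hg0 u)
    rw [h1]
    exact hval_n n
  have hintdead : IntegrableOn g (Ioc ζ t) :=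
    integrableOn_zero.congr_fun (fun u hu => (hdead u hu).symm) measurableSet_Ioc
  have hint : IntegrableOn g (Ioc s t) := by
    rw [← Ioc_union_Ioc_eq_Ioc hsζ hζt]
    exact hintζ.union hintdead
  have hii : IntervalIntegrable g volume s ζ :=
    (intervalIntegrable_iff_integrableOn_Ioc_of_le hsζ).2 hintζ
  have hii' : IntervalIntegrable g volume ζ t :=
    (intervalIntegrable_iff_integrableOn_Ioc_of_le hζt).2 hintdead
  refine ⟨(intervalIntegrable_iff_integrableOn_Ioc_of_le hst).2 hint, hnn, ?_⟩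
  have h1 := intervalIntegral.integral_add_adjacent_intervals hii hii'
  have h2 : ∫ u in ζ..t, g u = 0 := by
    rw [intervalIntegral.integral_of_le hζt,
      setIntegral_congr_fun (g := fun _ => (0 : ℝ)) measurableSet_Ioc fun u hu => hdead u hu]
    simp only [integral_zero]
  rw [h2, add_zero] at h1
  rw [← h1]
  have h3 : ContinuousOn (fun x => ∫ u in s..x, g u) (uIcc s ζ) :=
    intervalIntegral.continuousOn_primitive_interval' hii left_mem_uIcc
  have h4 : Tendsto (fun n => ∫ u in s..bn n, g u) atTop (𝓝 (∫ u in s..ζ, g u)) := by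
    have h5 := h3 ζ right_mem_uIcc
    refine Tendsto.comp (h5 : Tendsto _ _ _) (tendsto_nhdsWithin_iff.2 ⟨hbn_lim, ?_⟩)
    refine Eventually.of_forall fun n => ?_
    rw [uIcc_of_le hsζ]
    exact ⟨hbn_ge n, hbn_le n⟩
  exact le_of_tendsto' h4 hval_n

/-- The function of `U` in the bound of `aR`. -/
def hU (κ r : ℝ) (U : ℝ) : ℝ := Real.exp (-xx κ * U) * phi (U - Real.log r)

lemma hU_cont (κ r : ℝ) : Continuous (hU κ r) := by
  unfold hU
  exact (Real.continuous_exp.comp (continuous_const.mul continuous_id)).mul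
    (phi_continuous.comp (continuous_id.sub continuous_const))

lemma hU_nonneg (κ r U : ℝ) : 0 ≤ hU κ r U :=
  mul_nonneg (Real.exp_pos _).le (phi_nonneg _)

lemma hU_supp (κ r : ℝ) (u : ℝ) (h : u ≤ Real.log r ∨ Real.log r + 1 ≤ u) : hU κ r u = 0 := by
  rw [hU, phi_eq_zero (h.imp (fun h => by linarith only [h]) fun h => by linarith only [h]), mul_zero]

lemma xx_pos (h8 : κ < 8) : 0 < xx κ := by unfold xx; linarith

lemma be_nonneg (h0 : 0 < κ) (h8 : κ < 8) : 0 ≤ be κ := by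
  unfold be
  rw [sub_nonneg, le_div_iff₀ h0]
  linarith

lemma integral_phi_shift (c : ℝ) : ∫ u in c..c + 1, phi (u - c) = 1 := by
  have h1 : ∀ u ∈ uIcc c (c + 1), HasDerivAt (fun u => -ee (u - c)) (phi (u - c)) u := by
    intro u _
    have h2 : HasDerivAt (fun u => ee (u - c)) (-phi (u - c)) u :=
      HasDerivAt.comp_sub_const u c (ee_hasDeriv (u - c))
    exact h2.neg.congr_deriv (neg_neg _)
  rw [intervalIntegral.integral_eq_sub_of_hasDerivAt h1
    ((phi_continuous.comp (continuous_id.sub continuous_const)).intervalIntegrable _ _)]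
  have h3 : c - c = 0 := sub_self c
  have h4 : c + 1 - c = 1 := by ring
  rw [h3, h4, ee_of_nonpos le_rfl, ee_of_one_le le_rfl]
  ring

lemma integral_hU_le (h8 : κ < 8) (hr : 0 < r) :
    ∫ u in Real.log r..Real.log r + 1, hU κ r u ≤ r ^ (-xx κ) := by
  have h1 : ∫ u in Real.log r..Real.log r + 1, hU κ r u
      ≤ ∫ u in Real.log r..Real.log r + 1, r ^ (-xx κ) * phi (u - Real.log r) := by
    refine intervalIntegral.integral_mono_on (by linarith) ((hU_cont κ r).intervalIntegrable _ _)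
      ((continuous_const.mul (phi_continuous.comp
        (continuous_id.sub continuous_const))).intervalIntegrable _ _) fun u hu => ?_
    refine mul_le_mul_of_nonneg_right ?_ (phi_nonneg _)
    rw [Real.rpow_def_of_pos hr, Real.exp_le_exp]
    have := xx_pos h8
    nlinarith only [this, hu.1]
  rw [intervalIntegral.integral_const_mul, integral_phi_shift, mul_one] at h1
  exact h1

lemma aR_bounds (h0 : 0 < κ) (h8 : κ < 8) {u : ℝ} (hu : 0 ≤ u) :
    0 ≤ St (aR κ r) W z u ∧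
      St (aR κ r) W z u ≤ St (fun Z U => hU κ r U * rate Z) W z u := by
  by_cases h : z ∈ loewnerDomain W u
  · rw [St_of_mem h, St_of_mem h]
    have him := Zf_im_pos hu h
    have hsn := sn_pos him
    have hnn := Zf_norm_pos hu h
    have h1 : sn (Zf W z u) ^ (be κ + 2) ≤ sn (Zf W z u) ^ 2 := by
      rw [← Real.rpow_two]
      exact Real.rpow_le_rpow_of_exponent_ge hsn (sn_le_one _) (by linarith [be_nonneg h0 h8])
    have h2 : 0 ≤ sn (Zf W z u) ^ (be κ + 2) := Real.rpow_nonneg hsn.le _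
    constructor
    · exact mul_nonneg (hU_nonneg κ r _) (by (clear * - hsn hnn; positivity))
    · refine mul_le_mul_of_nonneg_left ?_ (hU_nonneg κ r _)
      unfold rate
      (clear * - h1 hnn; gcongr)
  · rw [St_of_not_mem h, St_of_not_mem h]
    exact ⟨le_rfl, le_rfl⟩

lemma aR_nonneg {u : ℝ} (hu : 0 ≤ u) : 0 ≤ St (aR κ r) W z u := by
  by_cases h : z ∈ loewnerDomain W u
  · rw [St_of_mem h]
    have him := Zf_im_pos hu h
    have hsn := sn_pos him
    have h2 : 0 ≤ sn (Zf W z u) ^ (be κ + 2) := Real.rpow_nonneg hsn.le _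
    exact mul_nonneg (hU_nonneg κ r _) (by (clear * - hsn; positivity))
  · rw [St_of_not_mem h]

/-- joint measurability for nonnegative times -/
lemma aR_joint (hW : Continuous W) :
    Measurable (fun p : ℝ × ℂ => if 0 ≤ p.1 then St (aR κ r) W p.2 p.1 else 0) :=
  St_measurable hW (aR_measurable κ r)

lemma yc_eq (hs : 0 ≤ s) (hst : s ≤ t) :
    yc κ r W z s t = ∫ u in Ioc s t, if 0 ≤ u then St (aR κ r) W z u else 0 := by
  rw [yc, intervalIntegral.integral_of_le hst]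
  refine setIntegral_congr_fun measurableSet_Ioc fun u hu => ?_
  exact (if_pos (hs.trans hu.1.le)).symm

lemma yc_integrable (h0 : 0 < κ) (h8 : κ < 8) (hr : 0 < r) (hW : Continuous W) (hz : 0 < z.im)
    (hs : 0 ≤ s) (hst : s ≤ t) : IntervalIntegrable (fun u => St (aR κ r) W z u) volume s t := by
  have h1 := (path_integral_le hW hz hs hst (hU_cont κ r) (hU_nonneg κ r)
    (by linarith only [] : Real.log r ≤ Real.log r + 1) (hU_supp κ r) (integral_hU_le h8 hr)).1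
  rw [intervalIntegrable_iff_integrableOn_Ioc_of_le hst] at h1 ⊢
  have h2 : AEStronglyMeasurable (fun u => St (aR κ r) W z u) (volume.restrict (Ioc s t)) := by
    have h3 : Measurable fun u : ℝ => if 0 ≤ u then St (aR κ r) W z u else 0 :=
      (aR_joint (κ := κ) (r := r) hW).comp (measurable_id.prodMk measurable_const)
    refine h3.aestronglyMeasurable.congr ?_
    filter_upwards [ae_restrict_mem measurableSet_Ioc] with u hu
    rw [if_pos (hs.trans hu.1.le)]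
  refine Integrable.mono' h1 h2 ?_
  filter_upwards [ae_restrict_mem measurableSet_Ioc] with u hu
  have h4 := aR_bounds (r := r) (W := W) (z := z) h0 h8 (hs.trans hu.1.le)
  rw [Real.norm_of_nonneg h4.1]
  exact h4.2

lemma yc_nonneg (hs : 0 ≤ s) (hst : s ≤ t) : 0 ≤ yc κ r W z s t :=
  intervalIntegral.integral_nonneg hst fun _ hu => aR_nonneg (hs.trans hu.1)

lemma yc_le (h0 : 0 < κ) (h8 : κ < 8) (hr : 0 < r) (hW : Continuous W) (hz : 0 < z.im)
    (hs : 0 ≤ s) (hst : s ≤ t) : yc κ r W z s t ≤ r ^ (-xx κ) := by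
  have h1 := path_integral_le hW hz hs hst (hU_cont κ r) (hU_nonneg κ r)
    (by linarith only [] : Real.log r ≤ Real.log r + 1) (hU_supp κ r) (integral_hU_le h8 hr)
  refine le_trans ?_ h1.2.2
  exact intervalIntegral.integral_mono_on hst (yc_integrable h0 h8 hr hW hz hs hst) h1.1
    fun u hu => (aR_bounds h0 h8 (hs.trans hu.1)).2

lemma yc_add (h0 : 0 < κ) (h8 : κ < 8) (hr : 0 < r) (hW : Continuous W) (hz : 0 < z.im)
    (hs : 0 ≤ s) (hst : s ≤ t) (htT : t ≤ T) :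
    yc κ r W z s t + yc κ r W z t T = yc κ r W z s T :=
  intervalIntegral.integral_add_adjacent_intervals (yc_integrable h0 h8 hr hW hz hs hst)
    (yc_integrable h0 h8 hr hW hz (hs.trans hst) htT)

/-- No content is collected while `U > log r + 1`. -/
lemma yc_eq_zero (hr : 0 < r) (hW : Continuous W) (hs : 0 ≤ s) (hst : s ≤ t)
    (ht : z ∈ loewnerDomain W t) (hU : Real.log r + 1 ≤ Uf W z t) : yc κ r W z s t = 0 := by
  have h1 : ∫ u in s..t, St (aR κ r) W z u = ∫ u in s..t, (0 : ℝ) := by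
    refine intervalIntegral.integral_congr fun u hu => ?_
    rw [uIcc_of_le hst] at hu
    have h2 : Uf W z t ≤ Uf W z u := Uf_le hW (hs.trans hu.1) hu.2 ht
    rw [St_of_mem (dom_mono hu.2 ht), aR, phi_eq_zero (Or.inr (by linarith only [hU, h2])), mul_zero, zero_mul]
  rw [yc, h1]
  simp

lemma yc_measurable (hW : Continuous W) (hs : 0 ≤ s) (hst : s ≤ t) :
    Measurable (fun z => yc κ r W z s t) := by
  have h1 : (fun z => yc κ r W z s t)
      = fun z => ∫ u in Ioc s t, if 0 ≤ u then St (aR κ r) W z u else 0 := by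
    funext z
    exact yc_eq hs hst
  rw [h1]
  have h2 : StronglyMeasurable (Function.uncurry fun (z : ℂ) (u : ℝ) =>
      if 0 ≤ u then St (aR κ r) W z u else 0) :=
    ((aR_joint (κ := κ) (r := r) hW).comp measurable_swap).stronglyMeasurable
  exact h2.integral_prod_right.measurable

lemma mu_nonneg (hs : 0 ≤ s) (hst : s ≤ t) : 0 ≤ mu κ r W D s t :=
  integral_nonneg fun _ => yc_nonneg hs hst

lemma yc_integrableOn (h0 : 0 < κ) (h8 : κ < 8) (hr : 0 < r) (hW : Continuous W)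
    (hD : MeasurableSet D) (hDim : ∀ z ∈ D, 0 < z.im) (hDv : volume D ≠ ⊤) (hs : 0 ≤ s)
    (hst : s ≤ t) : IntegrableOn (fun z => yc κ r W z s t) D := by
  refine Integrable.mono' (g := fun _ => r ^ (-xx κ)) (integrableOn_const hDv)
    (yc_measurable hW hs hst).aestronglyMeasurable ?_
  filter_upwards [ae_restrict_mem hD] with z hz
  rw [Real.norm_of_nonneg (yc_nonneg hs hst)]
  exact yc_le h0 h8 hr hW (hDim z hz) hs hst

end

end Vale.Agent.P164
end

section

/-!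
# One-step expansions of the flow (deterministic)

`ϰ` is a lower bound for `|Z_t|`, `m` bounds the oscillation of the driving function on
`[t, t+δ]`, `η = W (t+δ) - W t`.
-/

namespace Vale.Agent.P164

open Set Metric Filter Topology MeasureTheory
open scoped NNReal

/-- Points stay alive for a time which only depends on the height. -/
lemma dom_extend_unif {W : ℝ → ℝ} {z : ℂ} {t : ℝ} (hW : Continuous W) (ht : 0 ≤ t)
    (h : z ∈ loewnerDomain W t) {c : ℝ} (hc0 : 0 < c) (hcle : c ≤ (gf W z t).im) :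
    z ∈ loewnerDomain W (t + (c / 2) ^ 2 / 2) := by
  have hg := gf_sol ht h
  have hc : 0 < c / 2 := by (clear * - hc0; positivity)
  set w : ℂ := gf W z t - (W t : ℂ) with hw
  have hwim : w.im = (gf W z t).im := by simp [hw]
  set δ : ℝ := (c / 2) ^ 2 / 2 with hδ
  have hδpos : 0 < δ := by (clear * - hc0; positivity)
  have hV : Continuous (fun u => W (t + u) - W t) := by fun_prop
  obtain ⟨α, hα0, hα⟩ := exists_global
    (v := fun s x => 2 / (lift (c / 2) x - ((W (t + s) - W t : ℝ) : ℂ)))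
    (K := (2 / (c / 2) ^ 2).toNNReal) (L := (2 / (c / 2)).toNNReal) hδpos.le
    (fun s _ => lift_field_lip hc (W (t + s) - W t))
    (fun x => by
      refine ContinuousOn.div continuousOn_const ?_ ?_
      · exact continuousOn_const.sub (Complex.continuous_ofReal.comp hV).continuousOn
      · intro s _
        exact sub_ne_zero_of_im (hc.trans_le (lift_im _ x)) _)
    (fun s _ x => by
      rw [Real.coe_toNNReal _ (by (clear * - hc0; positivity))]
      exact norm_field_le hc (lift_im _ x) (W (t + s) - W t)) w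
  have him : ∀ s ∈ Icc 0 δ, c / 2 ≤ (α s).im := by
    intro s hs
    have h1 : ‖α s - α 0‖ ≤ (2 / (c / 2)) * ‖s - 0‖ := by
      refine (convex_Icc 0 δ).norm_image_sub_le_of_norm_hasDerivWithin_le
        (f' := fun s => 2 / (lift (c / 2) (α s) - ((W (t + s) - W t : ℝ) : ℂ)))
        (fun u hu => hα u hu) (fun u _ => norm_field_le hc (lift_im _ _) _)
        ⟨le_rfl, hδpos.le⟩ hs
    rw [hα0, sub_zero, Real.norm_eq_abs, abs_of_nonneg hs.1] at h1
    have h2 := (Complex.abs_im_le_norm (α s - w)).trans h1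
    rw [Complex.sub_im, hwim] at h2
    have h3 := neg_abs_le ((α s).im - (gf W z t).im)
    have h4 : 2 / (c / 2) * s ≤ c / 2 := by
      calc 2 / (c / 2) * s ≤ 2 / (c / 2) * δ :=
            mul_le_mul_of_nonneg_left hs.2 (by positivity)
        _ = c / 2 := by rw [hδ]; (clear * - hc0; field_simp)
    linarith only [hcle, h2, h3, h4]
  have hsol : IsLoewnerSol (fun u => W (t + u) - W t) (gf W z t - (W t : ℂ)) δ α := by
    refine ⟨hα0, fun s hs => ⟨hc.trans_le (him s hs), ?_⟩⟩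
    have := hα s hs
    rwa [lift_eq (him s hs)] at this
  exact ⟨_, hg.concat ht hδpos.le hsol⟩

/-- Bootstrap: as long as the point is alive, `Z` moves little. -/
lemma one_step_move {ϰ : ℝ} (hϰ : 0 < ϰ) {W : ℝ → ℝ} (hW : Continuous W) {z : ℂ} {t T : ℝ}
    (ht : 0 ≤ t) (htT : t ≤ T) (hz : z ∈ loewnerDomain W T) (hZ : ϰ ≤ ‖Zf W z t‖) {m : ℝ}
    (hT : T - t ≤ ϰ ^ 2 / 64) (hm : m ≤ ϰ / 8) (hosc : ∀ u ∈ Icc t T, |W u - W t| ≤ m) :
    ∀ u ∈ Icc t T, ϰ / 2 < ‖Zf W z u‖ ∧ ‖Zf W z u - Zf W z t‖ ≤ 4 / ϰ * (u - t) + m := by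
  have hT0 : 0 ≤ T := ht.trans htT
  have hsub : Icc t T ⊆ Icc 0 T := Icc_subset_Icc_left ht
  -- displacement as long as the norm is large
  have key : ∀ u ∈ Icc t T, (∀ v ∈ Ico t u, ϰ / 2 < ‖Zf W z v‖) →
      ‖Zf W z u - Zf W z t‖ ≤ 4 / ϰ * (u - t) + m := by
    intro u hu hv
    have h1 : ‖gf W z u - gf W z t‖ ≤ 4 / ϰ * (u - t) := by
      have hc : ContinuousOn (gf W z) (Icc t u) :=
        (gf_cont hT0 hz).mono ((Icc_subset_Icc_right hu.2).trans hsub)
      refine norm_image_sub_le_of_norm_deriv_right_le_segment (f' := fun v => 2 / Zf W z v) hc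
        ?_ ?_ u ⟨hu.1, le_rfl⟩
      · intro v hv'
        have hvT : v ∈ Icc 0 T := hsub ⟨hv'.1, hv'.2.le.trans hu.2⟩
        have h2 := gf_hasDeriv hz hvT
        have h3 : Icc v T ∈ 𝓝[Ici v] v := Icc_mem_nhdsGE (hv'.2.trans_le hu.2)
        exact (h2.mono (Icc_subset_Icc_left hvT.1)).mono_of_mem_nhdsWithin h3
      · intro v hv'
        have h4 := hv v hv'
        rw [norm_div, Complex.norm_ofNat, div_le_div_iff₀ (by linarith only [hϰ, h4]) hϰ]
        linarith only [h4]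
    have h5 : Zf W z u - Zf W z t = (gf W z u - gf W z t) - ((W u - W t : ℝ) : ℂ) := by
      rw [Zf_eq, Zf_eq]; push_cast; ring
    rw [h5]
    refine (norm_sub_le _ _).trans ?_
    rw [Complex.norm_real, Real.norm_eq_abs]
    exact add_le_add h1 (hosc u hu)
  have hbig : ∀ u ∈ Icc t T, ϰ / 2 < ‖Zf W z u‖ := by
    by_contra hcon
    push Not at hcon
    obtain ⟨u, hu, hle⟩ := hcon
    set S := {v ∈ Icc t u | ‖Zf W z v‖ ≤ ϰ / 2} with hS
    have hcont : ContinuousOn (fun v => ‖Zf W z v‖) (Icc t u) :=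
      ((Zf_cont hW hT0 hz).mono ((Icc_subset_Icc_right hu.2).trans hsub)).norm
    have hSc : IsCompact S := by
      have : IsClosed S := by
        have := hcont.preimage_isClosed_of_isClosed isClosed_Icc (isClosed_Iic (a := ϰ / 2))
        exact this
      exact isCompact_Icc.of_isClosed_subset this (fun v hv => hv.1)
    obtain ⟨w, hw, hwmin⟩ := hSc.exists_isLeast ⟨u, ⟨hu.1, le_rfl⟩, hle⟩
    have h1 := key w ⟨hw.1.1, hw.1.2.trans hu.2⟩ (by
      intro v hv
      by_contra hv'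
      push Not at hv'
      exact absurd (hwmin ⟨⟨hv.1, hv.2.le.trans hw.1.2⟩, hv'⟩) (not_le.2 hv.2))
    have h2 : 4 / ϰ * (w - t) ≤ ϰ / 16 := by
      have h3 : w - t ≤ ϰ ^ 2 / 64 := by linarith only [hT, hw.1.2, hu.2]
      calc 4 / ϰ * (w - t) ≤ 4 / ϰ * (ϰ ^ 2 / 64) := by (clear * - h3 hϰ; gcongr)
        _ = ϰ / 16 := by field_simp; norm_num
    have h4 : ‖Zf W z t‖ ≤ ‖Zf W z w‖ + ‖Zf W z w - Zf W z t‖ := by
      have := norm_sub_le (Zf W z w) (Zf W z w - Zf W z t)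
      rwa [sub_sub_cancel] at this
    have h5 := hw.2
    linarith only [hϰ, hZ, hm, h1, h2, h4, h5]
  exact fun u hu => ⟨hbig u hu, key u hu fun v hv => hbig v ⟨hv.1, hv.2.le.trans hu.2⟩⟩

/-- The point stays alive over a short time step. -/
lemma one_step_alive {ϰ : ℝ} (hϰ : 0 < ϰ) {W : ℝ → ℝ} (hW : Continuous W) {z : ℂ} {t T : ℝ}
    (ht : 0 ≤ t) (htT : t ≤ T) (hz : z ∈ loewnerDomain W t) (hZ : ϰ ≤ ‖Zf W z t‖) {m : ℝ}
    (hT : T - t ≤ ϰ ^ 2 / 64) (hm : m ≤ ϰ / 8) (hosc : ∀ u ∈ Icc t T, |W u - W t| ≤ m) :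
    z ∈ loewnerDomain W T := by
  have hY : 0 < (Zf W z t).im := Zf_im_pos ht hz
  -- lower bound for the height while alive
  set c : ℝ := Real.exp (Real.log (Zf W z t).im - 8 / ϰ ^ 2 * (T - t)) with hcdef
  have hc : 0 < c := Real.exp_pos _
  have him : ∀ s ∈ Icc t T, z ∈ loewnerDomain W s → c ≤ (gf W z s).im := by
    intro s hs hzs
    have hs0 : 0 ≤ s := ht.trans hs.1
    have hmove := one_step_move hϰ hW ht hs.1 hzs hZ (by linarith only [hT, hs.2]) hm
      (fun u hu => hosc u ⟨hu.1, hu.2.trans hs.2⟩)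
    have h1 : ‖Real.log (Zf W z s).im - Real.log (Zf W z t).im‖ ≤ 8 / ϰ ^ 2 * ‖s - t‖ := by
      refine (convex_Icc t s).norm_image_sub_le_of_norm_hasDerivWithin_le
        (f := fun u => Real.log (Zf W z u).im) (f' := fun u => -(2 / ‖Zf W z u‖ ^ 2))
        (fun u hu => (logY_hasDeriv hzs ⟨ht.trans hu.1, hu.2⟩).mono (Icc_subset_Icc_left ht))
        ?_ ⟨le_rfl, hs.1⟩ ⟨hs.1, le_rfl⟩
      intro u hu
      have h2 := (hmove u hu).1
      rw [norm_neg, Real.norm_eq_abs, abs_of_nonneg (by (clear * -; positivity)),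
        div_le_div_iff₀ (pow_pos (by linarith only [hϰ, h2]) 2) (by positivity)]
      nlinarith only [hϰ, h2]
    rw [Real.norm_eq_abs, Real.norm_eq_abs, abs_of_nonneg (sub_nonneg.2 hs.1)] at h1
    have h3 := neg_abs_le (Real.log (Zf W z s).im - Real.log (Zf W z t).im)
    have h4 : 8 / ϰ ^ 2 * (s - t) ≤ 8 / ϰ ^ 2 * (T - t) := by
      have := hs.2
      (clear * - this hϰ; gcongr)
    have h5 : 0 < (Zf W z s).im := Zf_im_pos hs0 hzs
    rw [← Zf_im_eq, hcdef, ← Real.le_log_iff_exp_le h5]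
    linarith only [h1, h3, h4]
  have hind : ∀ n : ℕ, z ∈ loewnerDomain W (min (t + n * ((c / 2) ^ 2 / 2)) T) := by
    intro n
    induction n with
    | zero => simpa only [CharP.cast_eq_zero, zero_mul, add_zero, htT, inf_of_le_left] using hz
    | succ n ih =>
      set s := min (t + n * ((c / 2) ^ 2 / 2)) T with hs
      have hts : t ≤ s := le_min (by have : 0 ≤ (n : ℝ) * ((c / 2) ^ 2 / 2) := by (clear * -; positivity)
                                     linarith only [this]) htT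
      have h1 := dom_extend_unif hW (ht.trans hts) ih hc (him s ⟨hts, min_le_right _ _⟩ ih)
      refine dom_mono ?_ h1
      rcases le_total (t + n * ((c / 2) ^ 2 / 2)) T with h2 | h2
      · refine (min_le_left _ _).trans ?_
        rw [hs, min_eq_left h2]
        push_cast
        linarith only
      · refine (min_le_right _ _).trans ?_
        rw [hs, min_eq_right h2]
        have : 0 ≤ (c / 2) ^ 2 / 2 := by positivity
        linarith only [this]
  obtain ⟨n, hn⟩ := exists_nat_ge ((T - t) / ((c / 2) ^ 2 / 2))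
  have h1 := hind n
  rw [div_le_iff₀ (by positivity)] at hn
  rwa [min_eq_right (by linarith only [hn])] at h1

lemma norm_two_div_sub {ϰ : ℝ} (hϰ : 0 < ϰ) {A B : ℂ} (hA : ϰ / 2 ≤ ‖A‖) (hB : ϰ ≤ ‖B‖) :
    ‖2 / A - 2 / B‖ ≤ 4 / ϰ ^ 2 * ‖A - B‖ := by
  have hA0 : A ≠ 0 := norm_pos_iff.1 (by linarith)
  have hB0 : B ≠ 0 := norm_pos_iff.1 (by linarith only [hϰ, hB])
  have h1 : 2 / A - 2 / B = 2 * (B - A) / (A * B) := by
    field_simp
  rw [h1, norm_div, norm_mul, norm_mul, Complex.norm_ofNat, norm_sub_rev B A,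
    div_le_iff₀ (by positivity)]
  have h2 : ϰ / 2 * ϰ ≤ ‖A‖ * ‖B‖ := mul_le_mul hA hB hϰ.le (norm_nonneg _)
  have h3 : 2 ≤ 4 / ϰ ^ 2 * (‖A‖ * ‖B‖) := by
    rw [div_mul_eq_mul_div, le_div_iff₀ (by positivity)]
    nlinarith only [h2]
  calc 2 * ‖A - B‖ ≤ (4 / ϰ ^ 2 * (‖A‖ * ‖B‖)) * ‖A - B‖ :=
        mul_le_mul_of_nonneg_right h3 (norm_nonneg _)
    _ = _ := by ring

lemma inv_sq_sub {ϰ a b : ℝ} (hϰ : 0 < ϰ) (ha : ϰ / 2 ≤ a) (hb : ϰ ≤ b) :
    |2 / b ^ 2 - 2 / a ^ 2| ≤ 12 / ϰ ^ 3 * |a - b| := by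
  have ha0 : 0 < a := by linarith
  have hb0 : 0 < b := by linarith only [hϰ, hb]
  have h1 : 2 / b ^ 2 - 2 / a ^ 2 = (a - b) * (2 / (a * b ^ 2) + 2 / (a ^ 2 * b)) := by
    field_simp
    ring
  rw [h1, abs_mul, mul_comm, abs_of_nonneg (by positivity : 0 ≤ 2 / (a * b ^ 2) + 2 / (a ^ 2 * b))]
  apply mul_le_mul_of_nonneg_right _ (abs_nonneg _)
  have h2 : 2 / (a * b ^ 2) ≤ 4 / ϰ ^ 3 := by
    rw [div_le_div_iff₀ (by positivity) (by positivity)]
    have h3 : ϰ / 2 * ϰ ^ 2 ≤ a * b ^ 2 := by gcongr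
    nlinarith only [h3]
  have h4 : 2 / (a ^ 2 * b) ≤ 8 / ϰ ^ 3 := by
    rw [div_le_div_iff₀ (by positivity) (by positivity)]
    have h3 : (ϰ / 2) ^ 2 * ϰ ≤ a ^ 2 * b := by (clear * - hϰ ha hb ha0; gcongr)
    nlinarith only [h3]
  calc 2 / (a * b ^ 2) + 2 / (a ^ 2 * b) ≤ 4 / ϰ ^ 3 + 8 / ϰ ^ 3 := add_le_add h2 h4
    _ = _ := by ring

lemma rate_sub {ϰ : ℝ} (hϰ : 0 < ϰ) {A B : ℂ} (hA : ϰ / 2 ≤ ‖A‖) (hB : ϰ ≤ ‖B‖) :
    |rate B - rate A| ≤ 24 / ϰ ^ 3 * ‖A - B‖ := by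
  rw [rate_eq_sq, rate_eq_sq, sq_sub_sq, abs_mul]
  have hA' : |(2 / A).im| ≤ 4 / ϰ := by
    refine (Complex.abs_im_le_norm _).trans ?_
    rw [norm_div, Complex.norm_ofNat, div_le_div_iff₀ (by (clear * - hϰ hA; linarith)) hϰ]
    linarith only [hA]
  have hB' : |(2 / B).im| ≤ 2 / ϰ := by
    refine (Complex.abs_im_le_norm _).trans ?_
    rw [norm_div, Complex.norm_ofNat, div_le_div_iff₀ (by linarith only [hϰ, hB]) hϰ]
    linarith only [hB]
  have h1 : |(2 / B).im + (2 / A).im| ≤ 6 / ϰ := by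
    refine (abs_add_le _ _).trans ?_
    have e : (6 : ℝ) / ϰ = 2 / ϰ + 4 / ϰ := by ring
    linarith only [hA', hB', e]
  have h2 : |(2 / B).im - (2 / A).im| ≤ 4 / ϰ ^ 2 * ‖A - B‖ := by
    rw [← Complex.sub_im]
    refine (Complex.abs_im_le_norm _).trans ?_
    rw [norm_sub_rev]
    exact norm_two_div_sub hϰ hA hB
  calc |(2 / B).im + (2 / A).im| * |(2 / B).im - (2 / A).im|
      ≤ 6 / ϰ * (4 / ϰ ^ 2 * ‖A - B‖) := mul_le_mul h1 h2 (abs_nonneg _) (by positivity)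
    _ = _ := by field_simp; ring

/-- First-order expansion of `Z`, `log Y` and `U` over a short time step. -/
theorem one_step {ϰ : ℝ} (hϰ : 0 < ϰ) :
    ∃ C δ₀ : ℝ, 0 < C ∧ 0 < δ₀ ∧ ∀ {W : ℝ → ℝ} (_ : Continuous W) {z : ℂ} {t : ℝ} (_ : 0 ≤ t)
      (_ : z ∈ loewnerDomain W t) (_ : ϰ ≤ ‖Zf W z t‖) {δ m : ℝ} (_ : 0 ≤ δ) (_ : δ ≤ δ₀)
      (_ : m ≤ ϰ / 8) (_ : ∀ u ∈ Icc t (t + δ), |W u - W t| ≤ m),
      z ∈ loewnerDomain W (t + δ) ∧ ∀ u ∈ Icc t (t + δ),
        ϰ / 2 ≤ ‖Zf W z u‖ ∧ ‖Zf W z u‖ ≤ 2 * ‖Zf W z t‖ ∧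
        ‖Zf W z u - Zf W z t - (2 / Zf W z t) * ((u - t : ℝ) : ℂ) + ((W u - W t : ℝ) : ℂ)‖ ≤
            C * (u - t) * (δ + m) ∧
        |Real.log (Zf W z u).im - Real.log (Zf W z t).im + 2 * (u - t) / ‖Zf W z t‖ ^ 2| ≤
            C * (u - t) * (δ + m) ∧
        |Uf W z u - Uf W z t + 4 * (u - t) * sn (Zf W z t) ^ 2 / ‖Zf W z t‖ ^ 2| ≤
            C * (u - t) * (δ + m) := by
  refine ⟨(4 / ϰ + 1) * (4 / ϰ ^ 2 + 24 / ϰ ^ 3), ϰ ^ 2 / 64, by positivity, by (clear * - hϰ; positivity), ?_⟩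
  intro W hW z t ht hz hZ δ m hδ hδ0 hm hosc
  have htT : t ≤ t + δ := by linarith only [hδ]
  have hTt : t + δ - t ≤ ϰ ^ 2 / 64 := by linarith only [hδ0]
  have hdom := one_step_alive hϰ hW ht htT hz hZ hTt hm hosc
  have hmove := one_step_move hϰ hW ht htT hdom hZ hTt hm hosc
  have hm0 : 0 ≤ m := (abs_nonneg _).trans (hosc t ⟨le_rfl, htT⟩)
  have hT0 : 0 ≤ t + δ := by linarith only [ht, hδ]
  have hsub : Icc t (t + δ) ⊆ Icc 0 (t + δ) := Icc_subset_Icc_left ht
  have hD : ∀ v ∈ Icc t (t + δ), ‖Zf W z v - Zf W z t‖ ≤ (4 / ϰ + 1) * (δ + m) := by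
    intro v hv
    refine (hmove v hv).2.trans ?_
    have h1 : v - t ≤ δ := by linarith only [hv.2]
    have h2 : 4 / ϰ * (v - t) ≤ 4 / ϰ * δ := by gcongr
    have h3 : 0 ≤ 4 / ϰ * m := by (clear * - hϰ hm0; positivity)
    linarith only [hδ, h2, h3]
  refine ⟨hdom, fun u hu => ⟨(hmove u hu).1.le, ?_, ?_, ?_, ?_⟩⟩
  · have h1 : ‖Zf W z u‖ ≤ ‖Zf W z u - Zf W z t‖ + ‖Zf W z t‖ := by
      have := norm_add_le (Zf W z u - Zf W z t) (Zf W z t)
      rwa [sub_add_cancel] at this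
    have h2 := (hmove u hu).2
    have h3 : 4 / ϰ * (u - t) ≤ ϰ / 16 := by
      calc 4 / ϰ * (u - t) ≤ 4 / ϰ * (ϰ ^ 2 / 64) := by
            have : u - t ≤ ϰ ^ 2 / 64 := by linarith only [hδ0, hu.2]
            (clear * - this hϰ; gcongr)
        _ = ϰ / 16 := by field_simp; norm_num
    linarith only [hϰ, hZ, hm, h1, h2, h3]
  · -- expansion of `Z`
    have h1 : ‖(gf W z u - (2 / Zf W z t) * (u : ℂ)) - (gf W z t - (2 / Zf W z t) * (t : ℂ))‖ ≤
        (4 / ϰ ^ 2 * ((4 / ϰ + 1) * (δ + m))) * ‖u - t‖ := by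
      refine (convex_Icc t (t + δ)).norm_image_sub_le_of_norm_hasDerivWithin_le
        (f := fun v : ℝ => gf W z v - (2 / Zf W z t) * (v : ℂ))
        (f' := fun v => 2 / Zf W z v - 2 / Zf W z t) ?_ ?_ ⟨le_rfl, htT⟩ hu
      · intro v hv
        have h2 := (gf_hasDeriv hdom (hsub hv)).mono hsub
        have h3 : HasDerivWithinAt (fun v : ℝ => (2 / Zf W z t) * (v : ℂ)) (2 / Zf W z t * 1)
            (Icc t (t + δ)) v := (Complex.ofRealCLM.hasDerivAt.hasDerivWithinAt).const_mul _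
        rw [mul_one] at h3
        exact h2.sub h3
      · intro v hv
        refine (norm_two_div_sub hϰ (hmove v hv).1.le hZ).trans ?_
        exact mul_le_mul_of_nonneg_left (hD v hv) (by positivity)
    rw [Real.norm_eq_abs, abs_of_nonneg (sub_nonneg.2 hu.1)] at h1
    have h2 : Zf W z u - Zf W z t - (2 / Zf W z t) * ((u - t : ℝ) : ℂ) + ((W u - W t : ℝ) : ℂ) =
        (gf W z u - (2 / Zf W z t) * (u : ℂ)) - (gf W z t - (2 / Zf W z t) * (t : ℂ)) := by
      rw [gf, gf]; push_cast; ring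
    rw [h2]
    refine h1.trans ?_
    have h3 : 0 ≤ u - t := sub_nonneg.2 hu.1
    have h4 : 0 ≤ 24 / ϰ ^ 3 * ((4 / ϰ + 1) * (δ + m)) * (u - t) := by (clear * - hϰ hδ hm0 h3; positivity)
    linarith only [h4]
  · -- expansion of `log Y`
    have h1 : ‖(Real.log (Zf W z u).im + 2 / ‖Zf W z t‖ ^ 2 * u) -
        (Real.log (Zf W z t).im + 2 / ‖Zf W z t‖ ^ 2 * t)‖ ≤
        (12 / ϰ ^ 3 * ((4 / ϰ + 1) * (δ + m))) * ‖u - t‖ := by
      refine (convex_Icc t (t + δ)).norm_image_sub_le_of_norm_hasDerivWithin_le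
        (f := fun v : ℝ => Real.log (Zf W z v).im + 2 / ‖Zf W z t‖ ^ 2 * v)
        (f' := fun v => -(2 / ‖Zf W z v‖ ^ 2) + 2 / ‖Zf W z t‖ ^ 2 * 1) ?_ ?_ ⟨le_rfl, htT⟩ hu
      · intro v hv
        exact ((logY_hasDeriv hdom (hsub hv)).mono hsub).add
          ((hasDerivWithinAt_id v _).const_mul _)
      · intro v hv
        rw [Real.norm_eq_abs, mul_one, neg_add_eq_sub]
        refine (inv_sq_sub hϰ (hmove v hv).1.le hZ).trans ?_
        exact mul_le_mul_of_nonneg_left ((abs_norm_sub_norm_le _ _).trans (hD v hv))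
          (by positivity)
    rw [Real.norm_eq_abs, Real.norm_eq_abs, abs_of_nonneg (sub_nonneg.2 hu.1)] at h1
    have h2 : Real.log (Zf W z u).im - Real.log (Zf W z t).im + 2 * (u - t) / ‖Zf W z t‖ ^ 2 =
        (Real.log (Zf W z u).im + 2 / ‖Zf W z t‖ ^ 2 * u) -
        (Real.log (Zf W z t).im + 2 / ‖Zf W z t‖ ^ 2 * t) := by ring
    rw [h2]
    refine h1.trans ?_
    have h3 : 0 ≤ u - t := sub_nonneg.2 hu.1
    have h4 : 0 ≤ (4 / ϰ ^ 2 + 12 / ϰ ^ 3) * ((4 / ϰ + 1) * (δ + m)) * (u - t) := by (clear * - hϰ hδ hm0 h3; positivity)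
    have h5 : (4 / ϰ + 1) * (4 / ϰ ^ 2 + 24 / ϰ ^ 3) * (u - t) * (δ + m) =
        12 / ϰ ^ 3 * ((4 / ϰ + 1) * (δ + m)) * (u - t) +
          (4 / ϰ ^ 2 + 12 / ϰ ^ 3) * ((4 / ϰ + 1) * (δ + m)) * (u - t) := by ring
    linarith only [h4, h5]
  · -- expansion of `U`
    have h1 : ‖(Uf W z u + rate (Zf W z t) * u) - (Uf W z t + rate (Zf W z t) * t)‖ ≤
        (24 / ϰ ^ 3 * ((4 / ϰ + 1) * (δ + m))) * ‖u - t‖ := by
      refine (convex_Icc t (t + δ)).norm_image_sub_le_of_norm_hasDerivWithin_le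
        (f := fun v : ℝ => Uf W z v + rate (Zf W z t) * v)
        (f' := fun v => -rate (Zf W z v) + rate (Zf W z t) * 1) ?_ ?_ ⟨le_rfl, htT⟩ hu
      · intro v hv
        exact ((Uf_hasDeriv hW hdom (hsub hv)).mono hsub).add
          ((hasDerivWithinAt_id v _).const_mul _)
      · intro v hv
        rw [Real.norm_eq_abs, mul_one, neg_add_eq_sub]
        refine (rate_sub hϰ (hmove v hv).1.le hZ).trans ?_
        exact mul_le_mul_of_nonneg_left (hD v hv) (by positivity)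
    rw [Real.norm_eq_abs, Real.norm_eq_abs, abs_of_nonneg (sub_nonneg.2 hu.1)] at h1
    have h2 : Uf W z u - Uf W z t + 4 * (u - t) * sn (Zf W z t) ^ 2 / ‖Zf W z t‖ ^ 2 =
        (Uf W z u + rate (Zf W z t) * u) - (Uf W z t + rate (Zf W z t) * t) := by
      unfold rate; ring
    rw [h2]
    refine h1.trans ?_
    have h3 : 0 ≤ u - t := sub_nonneg.2 hu.1
    have h4 : 0 ≤ 4 / ϰ ^ 2 * ((4 / ϰ + 1) * (δ + m)) * (u - t) := by (clear * - hϰ hδ hm0 h3; positivity)
    have h5 : (4 / ϰ + 1) * (4 / ϰ ^ 2 + 24 / ϰ ^ 3) * (u - t) * (δ + m) =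
        24 / ϰ ^ 3 * ((4 / ϰ + 1) * (δ + m)) * (u - t) +
          4 / ϰ ^ 2 * ((4 / ϰ + 1) * (δ + m)) * (u - t) := by ring
    linarith only [h4]

end Vale.Agent.P164
end

section

/-!
# Exponential supermartingales of fields: definitions
-/

namespace Vale.Agent.P164

open Set Metric Filter Topology MeasureTheory ProbabilityTheory
open scoped NNReal ENNReal

noncomputable section

/-- The field functional `∑ c_i(U) sn^{p_i}`. -/
def EF {n : ℕ} (c : Fin n → ℝ → ℝ) (p : Fin n → ℝ) (Z : ℂ) (U : ℝ) : ℝ :=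
  ∑ i, c i U * sn Z ^ p i

/-- Its `X`-derivative. -/
def EX {n : ℕ} (c : Fin n → ℝ → ℝ) (p : Fin n → ℝ) (Z : ℂ) (U : ℝ) : ℝ :=
  ∑ i, c i U * (-(p i) * (Z.re / ‖Z‖ ^ 2)) * sn Z ^ p i

/-- Its second `X`-derivative. -/
def EXX {n : ℕ} (c : Fin n → ℝ → ℝ) (p : Fin n → ℝ) (Z : ℂ) (U : ℝ) : ℝ :=
  ∑ i, c i U * ((p i * (p i + 2) * cs Z ^ 2 - p i) / ‖Z‖ ^ 2) * sn Z ^ p i

/-- Its generator. -/
def EL (κ : ℝ) {n : ℕ} (c c' : Fin n → ℝ → ℝ) (p : Fin n → ℝ) (Z : ℂ) (U : ℝ) : ℝ :=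
  ∑ i, (c i U * (p i * (-κ / 2 + (κ / 2 * p i - 4 + κ) * cs Z ^ 2)) - 4 * sn Z ^ 2 * c' i U) *
    sn Z ^ p i / ‖Z‖ ^ 2

/-- A running reward `∑ d_j(U) sn^{q_j} / |Z|²`. -/
def EA {m : ℕ} (d : Fin m → ℝ → ℝ) (q : Fin m → ℝ) (Z : ℂ) (U : ℝ) : ℝ :=
  ∑ j, d j U * sn Z ^ q j / ‖Z‖ ^ 2

/-- `f` is bounded, Lipschitz, with bounded Lipschitz derivative `f'`, and vanishes for
`U ≤ u₁`. -/
structure Band (u₁ : ℝ) (f f' : ℝ → ℝ) : Prop where
  deriv : ∀ U, HasDerivAt f (f' U) U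
  bdd : ∃ C, ∀ U, |f U| ≤ C ∧ |f' U| ≤ C
  lip : ∃ C, ∀ U V, |f' U - f' V| ≤ C * |U - V|
  supp : ∀ U, U ≤ u₁ → f U = 0

/-- Bounded Lipschitz function vanishing for `U ≤ u₁`. -/
structure BandRew (u₁ : ℝ) (f : ℝ → ℝ) : Prop where
  bdd : ∃ C, ∀ U, |f U| ≤ C
  lip : ∃ C, ∀ U V, |f U - f V| ≤ C * |U - V|
  supp : ∀ U, U ≤ u₁ → f U = 0

end

end Vale.Agent.P164
end

section

/-!
# PART L' (all `0 < κ < 8`): definitions of the weighted one-shot functional
-/

namespace Vale.Agent.P164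

open Set Metric Filter Topology MeasureTheory ProbabilityTheory
open scoped NNReal ENNReal

noncomputable section

/-- The exponent `p = (11/12) β`. -/
def pX (κ : ℝ) : ℝ := 11 / 12 * be κ

/-- The exponent `x' = (5/6) x`. -/
def xp (κ : ℝ) : ℝ := 5 / 6 * xx κ

/-- The exponent `x* = (3/2) x`. -/
def xs (κ : ℝ) : ℝ := 3 / 2 * xx κ

/-- The interpolation exponent `θ = (4/5) min (1, β)`. -/
def thX (κ : ℝ) : ℝ := 4 / 5 * min 1 (be κ)

/-- The kernel `K1(b,Q)` (`A = Z_b`, `Z = Z_Q`). -/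
def K1 (A Z : ℂ) : ℝ := A.im * ‖Z‖ / (‖A‖ * ‖A - (starRingEnd ℂ) Z‖)

/-- The shell factor `K2 = s² / (1 + s²)`, `s = |A| / |Z|`. -/
def K2 (A Z : ℂ) : ℝ := ‖A‖ ^ 2 / (‖A‖ ^ 2 + ‖Z‖ ^ 2)

/-- The kernel `K = (K1 K2)^6`. -/
def KK (A Z : ℂ) : ℝ := (K1 A Z * K2 A Z) ^ 6

/-- The logarithmic `X`-derivative of `K`. -/
def kX (A Z : ℂ) : ℝ :=
  6 * Z.re / ‖Z‖ ^ 2 + 6 * A.re / ‖A‖ ^ 2 - 12 * (A.re + Z.re) / (‖A‖ ^ 2 + ‖Z‖ ^ 2)

/-- The `X`-derivative of `kX`. -/
def kXX (A Z : ℂ) : ℝ :=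
  6 * (Z.im ^ 2 - Z.re ^ 2) / ‖Z‖ ^ 4 + 6 * (A.im ^ 2 - A.re ^ 2) / ‖A‖ ^ 4 -
    12 * (2 / (‖A‖ ^ 2 + ‖Z‖ ^ 2) - 2 * (A.re + Z.re) ^ 2 / (‖A‖ ^ 2 + ‖Z‖ ^ 2) ^ 2)

/-- The first order drift of `log K`. -/
def k3 (A Z : ℂ) : ℝ :=
  -12 / ‖A‖ ^ 2 + 12 * (Z.re ^ 2 - Z.im ^ 2) / ‖Z‖ ^ 4 + 12 * (A.re ^ 2 - A.im ^ 2) / ‖A‖ ^ 4 +
    12 * (A.re * Z.re + A.im * Z.im) / (‖A‖ ^ 2 * ‖Z‖ ^ 2) -
    24 * ((A.re ^ 2 - A.im ^ 2) / ‖A‖ ^ 2 + (Z.re ^ 2 - Z.im ^ 2) / ‖Z‖ ^ 2) /
      (‖A‖ ^ 2 + ‖Z‖ ^ 2)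

/-- The kernel of the error terms, `K1⁴ K2⁶ (1 + |Z|/|A|)`. -/
def KT (A Z : ℂ) : ℝ := K1 A Z ^ 4 * K2 A Z ^ 6 * (1 + ‖Z‖ / ‖A‖)

/-- Normalised area integral of a state function over `E`. -/
def BI (L : ℝ) (E : Set ℂ) (W : ℝ → ℝ) (t : ℝ) (G : ℂ → ℝ → ℝ) : ℝ :=
  (∫ z in E, St G W z t) / L ^ 2

/-- `I_Q` as a function of `Z = Z_Q`. -/
def IQ (L : ℝ) (E : Set ℂ) (W : ℝ → ℝ) (t : ℝ) (Z : ℂ) : ℝ :=
  BI L E W t (fun A U => Real.exp (U - Real.log L) * KK A Z)

/-- The weight `ω_Q = 1 / (1 + I_Q)`. -/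
def om (L : ℝ) (E : Set ℂ) (W : ℝ → ℝ) (t : ℝ) (Z : ℂ) : ℝ := 1 / (1 + IQ L E W t Z)

/-- First `X`-derivative of `I_Q`. -/
def IX1 (L : ℝ) (E : Set ℂ) (W : ℝ → ℝ) (t : ℝ) (Z : ℂ) : ℝ :=
  BI L E W t (fun A U => Real.exp (U - Real.log L) * (KK A Z * kX A Z))

/-- Second `X`-derivative of `I_Q`. -/
def IX2 (L : ℝ) (E : Set ℂ) (W : ℝ → ℝ) (t : ℝ) (Z : ℂ) : ℝ :=
  BI L E W t (fun A U => Real.exp (U - Real.log L) * (KK A Z * (kX A Z ^ 2 + kXX A Z)))

/-- First order drift of `I_Q`. -/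
def IX3 (L : ℝ) (E : Set ℂ) (W : ℝ → ℝ) (t : ℝ) (Z : ℂ) : ℝ :=
  BI L E W t (fun A U => Real.exp (U - Real.log L) * (KK A Z * (k3 A Z - rate A)))

/-- The quadratic error functional `∫ e^{u_b} KT η_b² α(db)`, `η² = rate / 4`. -/
def VQ (L : ℝ) (E : Set ℂ) (W : ℝ → ℝ) (t : ℝ) (Z : ℂ) : ℝ :=
  BI L E W t (fun A U => Real.exp (U - Real.log L) * (KT A Z * (rate A / 4)))

/-- `m(u) = ∫_0^u ee`: equal to `u` for `u ≤ 0` and constant `≤ 1` for `u ≥ 1`. -/
def mX (u : ℝ) : ℝ := ∫ v in (0 : ℝ)..u, ee v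

/-- Profile of `f₁`. -/
def hf1 (κ L ε U : ℝ) : ℝ :=
  (1 - ee (U - Real.log ε)) * Real.exp (-xx κ * (U - Real.log L))

/-- Derivative of `hf1`. -/
def hf1' (κ L ε U : ℝ) : ℝ :=
  phi (U - Real.log ε) * Real.exp (-xx κ * (U - Real.log L)) -
    xx κ * ((1 - ee (U - Real.log ε)) * Real.exp (-xx κ * (U - Real.log L)))

/-- Profile of `f₂`. -/
def hf2 (κ L ε U : ℝ) : ℝ :=
  (1 - ee (U - Real.log ε + 1)) * Real.exp (-xp κ * mX (U - Real.log L))

/-- Derivative of `hf2`. -/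
def hf2' (κ L ε U : ℝ) : ℝ :=
  phi (U - Real.log ε + 1) * Real.exp (-xp κ * mX (U - Real.log L)) -
    xp κ * ee (U - Real.log L) *
      ((1 - ee (U - Real.log ε + 1)) * Real.exp (-xp κ * mX (U - Real.log L)))

/-- Coefficients of the field `f = f₁ + f₂` (in the sense of `EF`). -/
def cX (κ c L ε : ℝ) : Fin 2 → ℝ → ℝ :=
  ![fun U => c * hf1 κ L ε U, fun U => c * hf2 κ L ε U]

/-- Their derivatives. -/
def cX' (κ c L ε : ℝ) : Fin 2 → ℝ → ℝ :=
  ![fun U => c * hf1' κ L ε U, fun U => c * hf2' κ L ε U]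

/-- Exponents of the field. -/
def pv (κ : ℝ) : Fin 2 → ℝ := ![be κ, pX κ]

/-- The field `f`. -/
def fX (κ c L ε : ℝ) (Z : ℂ) (U : ℝ) : ℝ := EF (cX κ c L ε) (pv κ) Z U

/-- Its `X`-derivative. -/
def fDX (κ c L ε : ℝ) (Z : ℂ) (U : ℝ) : ℝ := EX (cX κ c L ε) (pv κ) Z U

/-- Its second `X`-derivative. -/
def fDXX (κ c L ε : ℝ) (Z : ℂ) (U : ℝ) : ℝ := EXX (cX κ c L ε) (pv κ) Z U

/-- Its generator. -/
def fXL (κ c L ε : ℝ) (Z : ℂ) (U : ℝ) : ℝ := EL κ (cX κ c L ε) (cX' κ c L ε) (pv κ) Z U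

/-- The part `f₁`. -/
def f1X (κ c L ε : ℝ) (Z : ℂ) (U : ℝ) : ℝ := c * hf1 κ L ε U * sn Z ^ be κ

/-- The part `f₂`. -/
def f2X (κ c L ε : ℝ) (Z : ℂ) (U : ℝ) : ℝ := c * hf2 κ L ε U * sn Z ^ pX κ

/-- The dominating field `F = e^{x* k} sn^p`, `k = max (0, -u)`. -/
def FF (κ L : ℝ) (Z : ℂ) (U : ℝ) : ℝ :=
  Real.exp (xs κ * max 0 (Real.log L - U)) * sn Z ^ pX κ

/-- Coefficient of the reward `c â`. -/
def dX (κ c L ε : ℝ) : Fin 1 → ℝ → ℝ :=
  ![fun U => c * (4 * (Real.exp (-xx κ * (U - Real.log L)) * phi (U - Real.log ε)))]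

/-- Exponent of the reward. -/
def qv (κ : ℝ) : Fin 1 → ℝ := ![be κ + 2]

/-- The reward `c â`. -/
def aX (κ c L ε : ℝ) (Z : ℂ) (U : ℝ) : ℝ := EA (dX κ c L ε) (qv κ) Z U

/-- The budget function. -/
def GG (u : ℝ) : ℝ := if u ≤ 0 then Real.exp u else 1 + 2 * (1 - Real.exp (-u / 2))

/-- Its derivative. -/
def Gp (u : ℝ) : ℝ := min (Real.exp u) (Real.exp (-u / 2))

/-- `N1 = ∫ f₂ ω |v|²`. -/
def N1 (κ c L ε : ℝ) (E 𝒬 : Set ℂ) (W : ℝ → ℝ) (t : ℝ) : ℝ :=
  BI L 𝒬 W t (fun Z U => f2X κ c L ε Z U * om L E W t Z / ‖Z‖ ^ 2)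

/-- `N2 = ∫ G'(u_b) η_b² min(1,|Z_b|/ϰ)⁴`. -/
def N2 (L ϰ : ℝ) (E : Set ℂ) (W : ℝ → ℝ) (t : ℝ) : ℝ :=
  BI L E W t (fun A U => Gp (U - Real.log L) * (rate A / 4) * min 1 (‖A‖ / ϰ) ^ 4)

/-- The total (linear) generator of `f ω` plus the reward. -/
def genX (κ c L ε : ℝ) (E : Set ℂ) (W : ℝ → ℝ) (t : ℝ) (Z : ℂ) (U : ℝ) : ℝ :=
  om L E W t Z * (fXL κ c L ε Z U + aX κ c L ε Z U) +
    fX κ c L ε Z U * (κ * om L E W t Z ^ 3 * IX1 L E W t Z ^ 2 -
      om L E W t Z ^ 2 * (κ / 2 * IX2 L E W t Z + IX3 L E W t Z)) -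
    κ * fDX κ c L ε Z U * (om L E W t Z ^ 2 * IX1 L E W t Z)

/-- The `X`-derivative of `f ω`. -/
def derX (κ c L ε : ℝ) (E : Set ℂ) (W : ℝ → ℝ) (t : ℝ) (Z : ℂ) (U : ℝ) : ℝ :=
  fDX κ c L ε Z U * om L E W t Z - fX κ c L ε Z U * (om L E W t Z ^ 2 * IX1 L E W t Z)

/-- The second `X`-derivative of `f ω`. -/
def der2X (κ c L ε : ℝ) (E : Set ℂ) (W : ℝ → ℝ) (t : ℝ) (Z : ℂ) (U : ℝ) : ℝ :=
  fDXX κ c L ε Z U * om L E W t Z -
    2 * fDX κ c L ε Z U * (om L E W t Z ^ 2 * IX1 L E W t Z) +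
    fX κ c L ε Z U * (2 * om L E W t Z ^ 3 * IX1 L E W t Z ^ 2 -
      om L E W t Z ^ 2 * IX2 L E W t Z)

/-- `D3`: the ball of radius `3 R L`. -/
def EE (z₀ : ℂ) (R L : ℝ) : Set ℂ := ball z₀ (3 * (R * L))

/-- `D`: the ball of radius `R L`. -/
def DD (z₀ : ℂ) (R L : ℝ) : Set ℂ := ball z₀ (R * L)

/-- Standing assumptions for the static part: continuous driving function, `t ≥ 0`, the ball
`D3` lies in the upper half-plane. -/
structure SA (W : ℝ → ℝ) (t : ℝ) (z₀ : ℂ) (R L : ℝ) : Prop where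
  hW : Continuous W
  ht : 0 ≤ t
  hL : 0 < L
  hR : 1 ≤ R
  hz : 3 * (R * L) ≤ z₀.im

/-- Case (i): no huge room in `D3`. -/
def CaseI (W : ℝ → ℝ) (t : ℝ) (z₀ : ℂ) (R L : ℝ) : Prop :=
  ∀ b ∈ EE z₀ R L, b ∈ loewnerDomain W t → Real.exp (Uf W b t) ≤ 96000 * (R * L)

/-- The dyadic shell of index `l` (as a condition on `Z`). -/
def Shell (l : ℤ) (Z : ℂ) : Prop := (2 : ℝ) ^ l ≤ ‖Z‖ ∧ ‖Z‖ < (2 : ℝ) ^ (l + 1)

/-- The decay function `min(q, 1/q)^{1/2}`. -/
def Th (q : ℝ) : ℝ := √(min q q⁻¹)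

/-- Admissible set of points `Q`. -/
structure Adm (W : ℝ → ℝ) (t : ℝ) (z₀ : ℂ) (R L ϰ : ℝ) (𝒬 : Set ℂ) : Prop where
  meas : MeasurableSet 𝒬
  sub : 𝒬 ⊆ DD z₀ R L
  alive : ∀ z ∈ 𝒬, z ∈ loewnerDomain W t
  far : ∀ z ∈ 𝒬, ϰ ≤ ‖Zf W z t‖

/-- The functional `Φ(t)` of the set `𝒬` of counted points. -/
def PhiX (κ c K₀ L ε : ℝ) (E 𝒬 : Set ℂ) (W : ℝ → ℝ) (t : ℝ) : ℝ :=
  BI L 𝒬 W t (fun Z U => fX κ c L ε Z U * om L E W t Z) +
    K₀ * BI L E W t (fun _ U => GG (U - Real.log L))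

/-- The reward of the time interval `[t, t + δ]`, weights frozen at time `t`. -/
def RwX (κ c L ε : ℝ) (E 𝒬 : Set ℂ) (W : ℝ → ℝ) (t δ : ℝ) : ℝ :=
  (∫ z in 𝒬, om L E W t (Zf W z t) * ∫ s in t..(t + δ), St (aX κ c L ε) W z s) / L ^ 2

end

end Vale.Agent.P164
end

section

/-!
# X-A3. The budget function
-/

namespace Vale.Agent.P164

open Set Metric Filter Topology MeasureTheory ProbabilityTheory
open scoped NNReal ENNReal

lemma GG_of_nonpos {u : ℝ} (h : u ≤ 0) : GG u = Real.exp u := by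
  unfold GG
  rw [if_pos h]

lemma GG_of_nonneg {u : ℝ} (h : 0 ≤ u) : GG u = 3 - 2 * Real.exp (-u / 2) := by
  unfold GG
  split_ifs with h1
  · have : u = 0 := le_antisymm h1 h
    subst this
    norm_num
  · ring

lemma Gp_of_nonpos {u : ℝ} (h : u ≤ 0) : Gp u = Real.exp u := by
  unfold Gp
  apply min_eq_left
  apply Real.exp_le_exp.mpr
  linarith

lemma Gp_of_nonneg {u : ℝ} (h : 0 ≤ u) : Gp u = Real.exp (-u / 2) := by
  unfold Gp
  apply min_eq_right
  apply Real.exp_le_exp.mpr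
  linarith only [h]

lemma Budget_deriv_right (u : ℝ) :
    HasDerivAt (fun x : ℝ => 3 - 2 * Real.exp (-x / 2)) (Real.exp (-u / 2)) u := by
  have h1 : HasDerivAt (fun x : ℝ => -x / 2) (-1 / 2) u := (hasDerivAt_id u).neg.div_const 2
  have h2 := ((h1.exp.const_mul 2).const_sub 3)
  have h3 : -(2 * (Real.exp (-u / 2) * (-1 / 2))) = Real.exp (-u / 2) := by ring
  rw [h3] at h2
  exact h2

lemma GG_hasDeriv (u : ℝ) : HasDerivAt GG (Gp u) u := by
  rcases lt_trichotomy u 0 with h | h | h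
  · rw [Gp_of_nonpos h.le]
    refine (Real.hasDerivAt_exp u).congr_of_eventuallyEq ?_
    filter_upwards [gt_mem_nhds h] with x hx
    exact GG_of_nonpos hx.le
  · subst h
    have h1 : HasDerivWithinAt GG (Gp 0) (Iic 0) 0 := by
      rw [Gp_of_nonpos le_rfl]
      exact (Real.hasDerivAt_exp 0).hasDerivWithinAt.congr (fun x hx => GG_of_nonpos hx)
        (GG_of_nonpos le_rfl)
    have h2 : HasDerivWithinAt GG (Gp 0) (Ici 0) 0 := by
      rw [Gp_of_nonneg le_rfl]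
      exact (Budget_deriv_right 0).hasDerivWithinAt.congr (fun x hx => GG_of_nonneg hx)
        (GG_of_nonneg le_rfl)
    have h3 := h1.union h2
    rw [Iic_union_Ici] at h3
    exact h3.hasDerivAt Filter.univ_mem
  · rw [Gp_of_nonneg h.le]
    refine (Budget_deriv_right u).congr_of_eventuallyEq ?_
    filter_upwards [lt_mem_nhds h] with x hx
    exact GG_of_nonneg hx.le

lemma GG_nonneg (u : ℝ) : 0 ≤ GG u := by
  rcases le_total u 0 with h | h
  · rw [GG_of_nonpos h]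
    exact (Real.exp_pos u).le
  · rw [GG_of_nonneg h]
    have : Real.exp (-u / 2) ≤ 1 := Real.exp_le_one_iff.mpr (by linarith only [h])
    linarith only [this]

lemma GG_le (u : ℝ) : GG u ≤ 3 := by
  rcases le_total u 0 with h | h
  · rw [GG_of_nonpos h]
    have : Real.exp u ≤ 1 := Real.exp_le_one_iff.mpr h
    linarith only [this]
  · rw [GG_of_nonneg h]
    have := Real.exp_pos (-u / 2)
    linarith only [this]

lemma Gp_pos (u : ℝ) : 0 < Gp u := lt_min (Real.exp_pos _) (Real.exp_pos _)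

lemma GG_mono : Monotone GG := by
  apply monotone_of_deriv_nonneg
  · intro u
    exact (GG_hasDeriv u).differentiableAt
  · intro u
    rw [(GG_hasDeriv u).deriv]
    exact (Gp_pos u).le

lemma Gp_le_one (u : ℝ) : Gp u ≤ 1 := by
  rcases le_total u 0 with h | h
  · rw [Gp_of_nonpos h]
    exact Real.exp_le_one_iff.mpr h
  · rw [Gp_of_nonneg h]
    exact Real.exp_le_one_iff.mpr (by linarith)

lemma Gp_ratio (u u' : ℝ) : Gp u * Real.exp (-|u' - u|) ≤ Gp u' := by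
  have ha := abs_nonneg (u' - u)
  have h1 := neg_abs_le (u' - u)
  have h2 := le_abs_self (u' - u)
  unfold Gp
  apply le_min
  · refine (mul_le_mul_of_nonneg_right (min_le_left _ _) (Real.exp_pos _).le).trans ?_
    rw [← Real.exp_add]
    apply Real.exp_le_exp.mpr
    linarith only [h1]
  · refine (mul_le_mul_of_nonneg_right (min_le_right _ _) (Real.exp_pos _).le).trans ?_
    rw [← Real.exp_add]
    apply Real.exp_le_exp.mpr
    linarith

/-- `e^u min(1, e^{-3u/2}) = G'(u)`. -/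
lemma Gp_eq (u : ℝ) : Real.exp u * min 1 (Real.exp (-3 / 2 * u)) = Gp u := by
  unfold Gp
  rw [mul_min_of_nonneg _ _ (Real.exp_pos u).le, mul_one, ← Real.exp_add]
  congr 2
  ring

/-- Decrease of `G`: `G(u) - G(u') ≥ (1/3) G'(u) (u - u')` if `0 ≤ u - u' ≤ 1`. -/
lemma GG_sub {u u' : ℝ} (h : u' ≤ u) (h1 : u - u' ≤ 1) :
    1 / 3 * Gp u * (u - u') ≤ GG u - GG u' := by
  rcases h.eq_or_lt with h0 | h0
  · subst h0
    simp only [one_div, sub_self, mul_zero, Std.le_refl]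
  · obtain ⟨ξ, hξ, hs⟩ := exists_hasDerivAt_eq_slope GG Gp h0
      (fun x _ => (GG_hasDeriv x).continuousAt.continuousWithinAt)
      (fun x _ => GG_hasDeriv x)
    have hpos : 0 < u - u' := sub_pos.mpr h0
    rw [eq_div_iff hpos.ne'] at hs
    rw [← hs]
    apply mul_le_mul_of_nonneg_right _ hpos.le
    have h2 := Gp_ratio u ξ
    have h3 : |ξ - u| ≤ 1 := by
      rw [abs_sub_comm, abs_of_pos (sub_pos.mpr hξ.2)]
      linarith only [h1, hξ.1]
    have h4 : (1 : ℝ) / 3 ≤ Real.exp (-|ξ - u|) := by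
      have h5 : Real.exp (-1) ≤ Real.exp (-|ξ - u|) := Real.exp_le_exp.mpr (by linarith only [h3])
      refine le_trans ?_ h5
      rw [Real.exp_neg, one_div]
      apply inv_anti₀ (Real.exp_pos 1)
      exact (Real.exp_one_lt_d9.trans (by norm_num)).le
    have h6 := mul_le_mul_of_nonneg_left h4 (Gp_pos u).le
    linarith only [h2, h6]

lemma measurable_GG : Measurable GG := by
  have h : Continuous GG :=
    continuous_iff_continuousAt.mpr (fun x => (GG_hasDeriv x).continuousAt)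
  exact h.measurable

lemma measurable_Gp : Measurable Gp := by
  have h : Continuous Gp := by
    unfold Gp
    (clear * -; fun_prop)
  exact h.measurable

lemma Th_pos {q : ℝ} (hq : 0 < q) : 0 < Th q :=
  Real.sqrt_pos.mpr (lt_min hq (inv_pos.mpr hq))

lemma Budget_min_le_one (q : ℝ) : min q q⁻¹ ≤ 1 := by
  rcases le_total q 1 with h | h
  · exact (min_le_left _ _).trans h
  · exact (min_le_right _ _).trans (inv_le_one_of_one_le₀ h)

/-- `min(q, 1/q) ≤ Th q`. -/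
lemma min_le_Th {q : ℝ} (hq : 0 < q) : min q q⁻¹ ≤ Th q := by
  have h0 : 0 < min q q⁻¹ := lt_min hq (inv_pos.mpr hq)
  apply Real.le_sqrt_of_sq_le
  have h1 := Budget_min_le_one q
  nlinarith only [h0, h1]

end Vale.Agent.P164
end
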