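import Vale.Agent.P164.MathlibUsed
import Vale.Agent.P164.Defs

set_option linter.all false

namespace AFast674b37x5a
theorem a0 : TopologicalSpace.SeparableSpace ℂ := inferInstance
theorem a1 : ContinuousSMul ℝ ℂ := inferInstance
@[reducible] noncomputable def a2 : SMulZeroClass ℝ ℂ := inferInstance
@[reducible] noncomputable def a3 : Module ℝ ℂ := inferInstance
@[reducible] noncomputable def a4 : DistribMulAction ℝ ℂ := inferInstance
@[reducible] noncomputable def a5 : TopologicalSpace (ℂ →L[ℝ] ℂ) := inferInstance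
theorem a6 : IsTopologicalRing ℂ := inferInstance
theorem a7 : ContinuousAdd ℂ := inferInstance
@[reducible] noncomputable def a8 : DistribSMul ℝ ℂ := inferInstance
@[reducible] noncomputable def a9 : Module ℝ (ℂ →L[ℝ] ℂ) := inferInstance
@[reducible] noncomputable def a10 : NormedSpace ℝ ℂ := inferInstance
theorem a11 : IsSemitopologicalSemiring ℂ := inferInstance
theorem a12 : IsSemitopologicalRing ℂ := inferInstance
theorem a13 : CharZero ℝ := inferInstance
theorem a14 : IsTopologicalSemiring ℂ := inferInstance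
theorem a15 : SecondCountableTopology ℂ := inferInstance
theorem a16 : IsTopologicalAddGroup ℂ := inferInstance
theorem a17 : SeparatelyContinuousMul ℂ := inferInstance
theorem a18 : MulHomClass (ℂ →+* ℂ) ℂ ℂ := inferInstance
theorem a19 : ContinuousSub ℝ := inferInstance
theorem a20 : PosMulReflectLT ℝ := inferInstance
theorem a21 : SecondCountableTopologyEither ℝ ℂ := inferInstance
theorem a22 : ContinuousMul ℂ := inferInstance
@[reducible] noncomputable def a23 : Add (ℂ →L[ℝ] ℂ) := inferInstance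
theorem a24 : PosMulStrictMono ℝ := inferInstance
theorem a25 : PosMulReflectLE ℝ := inferInstance
theorem a26 : CovariantClass ENNReal ENNReal (Function.swap fun x1 x2 => x1 * x2) fun x1 x2 => x1 ≤ x2 := inferInstance
@[reducible] noncomputable def a27 : AddCommMonoid (ℂ →L[ℝ] ℂ) := inferInstance
theorem a28 : IsBoundedSMul ℝ ℂ := inferInstance
theorem a29 : ContinuousConstSMul ℝ ℂ := inferInstance
theorem a30 : MeasurableSub₂ ℝ := inferInstance
theorem a31 : CovariantClass ℝ ℝ (Function.swap fun x1 x2 => x1 + x2) fun x1 x2 => x1 ≤ x2 := inferInstance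
theorem a32 : SMulCommClass ℝ ℝ ℂ := inferInstance
theorem a33 : IsTopologicalDivisionRing ℂ := inferInstance
theorem a34 : ContinuousSMul ℂ ℂ := inferInstance
@[reducible] def a35 : AddMonoidWithOne ENNReal := inferInstance
@[reducible] noncomputable def a36 : SMul ℝ ℂ := inferInstance
theorem a37 : NonUnitalRingHomClass (ℂ →+* ℂ) ℂ ℂ := inferInstance
theorem a38 : IsCancelMulZero ℂ := inferInstance
end AFast674b37x5a
attribute [local instance] AFast674b37x5a.a0 AFast674b37x5a.a1 AFast674b37x5a.a2 AFast674b37x5a.a3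
  AFast674b37x5a.a4 AFast674b37x5a.a5 AFast674b37x5a.a6 AFast674b37x5a.a7 AFast674b37x5a.a8
  AFast674b37x5a.a9 AFast674b37x5a.a10 AFast674b37x5a.a11 AFast674b37x5a.a12 AFast674b37x5a.a13
  AFast674b37x5a.a14 AFast674b37x5a.a15 AFast674b37x5a.a16 AFast674b37x5a.a17 AFast674b37x5a.a18
  AFast674b37x5a.a19 AFast674b37x5a.a20 AFast674b37x5a.a21 AFast674b37x5a.a22 AFast674b37x5a.a23
  AFast674b37x5a.a24 AFast674b37x5a.a25 AFast674b37x5a.a26 AFast674b37x5a.a27 AFast674b37x5a.a28
  AFast674b37x5a.a29 AFast674b37x5a.a30 AFast674b37x5a.a31 AFast674b37x5a.a32 AFast674b37x5a.a33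
  AFast674b37x5a.a34 AFast674b37x5a.a35 AFast674b37x5a.a36 AFast674b37x5a.a37 AFast674b37x5a.a38
section

namespace Vale.Agent.P164

open Set Metric Filter Topology
open scoped NNReal ENNReal

/-- The size-`δ` pre-measure. -/
noncomputable def pre (h : ℝ → ℝ) (δ : ℝ) (E : Set ℂ) : ℝ≥0∞ :=
  ⨅ (U : ℕ → Set ℂ) (_ : E ⊆ ⋃ n, U n)
    (_ : ∀ n, Bornology.IsBounded (U n) ∧ Metric.diam (U n) ≤ δ),
      ∑' n, ENNReal.ofReal (h (Metric.diam (U n)))

lemma gaugeMeasure_eq (h : ℝ → ℝ) (E : Set ℂ) :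
    gaugeMeasure h E = ⨆ (δ : ℝ) (_ : 0 < δ), pre h δ E := rfl

lemma pre_le_gaugeMeasure (h : ℝ → ℝ) {δ : ℝ} (hδ : 0 < δ) (E : Set ℂ) :
    pre h δ E ≤ gaugeMeasure h E := by
  rw [gaugeMeasure_eq]
  exact le_iSup₂_of_le δ hδ le_rfl

lemma gaugeMeasure_le {h : ℝ → ℝ} {E : Set ℂ} {c : ℝ≥0∞} (H : ∀ δ : ℝ, 0 < δ → pre h δ E ≤ c) :
    gaugeMeasure h E ≤ c := by
  rw [gaugeMeasure_eq]
  exact iSup₂_le H

lemma pre_mono (h : ℝ → ℝ) (δ : ℝ) {E F : Set ℂ} (hEF : E ⊆ F) : pre h δ E ≤ pre h δ F := by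
  refine le_iInf fun U => le_iInf fun hU => le_iInf fun hU' => ?_
  exact iInf_le_of_le U (iInf_le_of_le (hEF.trans hU) (iInf_le_of_le hU' le_rfl))

lemma gaugeMeasure_mono (h : ℝ → ℝ) {E F : Set ℂ} (hEF : E ⊆ F) :
    gaugeMeasure h E ≤ gaugeMeasure h F :=
  gaugeMeasure_le fun _ hδ => (pre_mono h _ hEF).trans (pre_le_gaugeMeasure h hδ F)

lemma pre_le_tsum {h : ℝ → ℝ} (h0 : h 0 = 0) {ι : Type*} [Encodable ι] {δ : ℝ} (hδ : 0 ≤ δ)
    {E : Set ℂ} (V : ι → Set ℂ) (hE : E ⊆ ⋃ i, V i)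
    (hV : ∀ i, Bornology.IsBounded (V i) ∧ Metric.diam (V i) ≤ δ) :
    pre h δ E ≤ ∑' i, ENNReal.ofReal (h (Metric.diam (V i))) := by
  have hm0 : (fun s : Set ℂ => ENNReal.ofReal (h (Metric.diam s))) ⊥ = 0 := by
    simp only [bot_eq_empty, diam_empty, h0, ENNReal.ofReal_zero]
  rw [← tsum_iUnion_decode₂ (fun s : Set ℂ => ENNReal.ofReal (h (Metric.diam s))) hm0 V]
  refine iInf_le_of_le _ (iInf_le_of_le ?_ (iInf_le_of_le ?_ le_rfl))
  · rw [Encodable.iUnion_decode₂]
    exact hE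
  · intro n
    rcases hd : Encodable.decode₂ ι n with _ | b
    · simp only [Option.mem_def, reduceCtorEq, iUnion_of_empty, iUnion_empty, Bornology.isBounded_empty, diam_empty, hδ, and_self]
    · simpa only [Option.mem_def, Option.some.injEq, iUnion_iUnion_eq_right] using hV b

lemma exists_cover {h : ℝ → ℝ} {δ : ℝ} {E : Set ℂ} {c : ℝ≥0∞} (H : pre h δ E < c) :
    ∃ U : ℕ → Set ℂ, E ⊆ ⋃ n, U n ∧
      (∀ n, Bornology.IsBounded (U n) ∧ Metric.diam (U n) ≤ δ) ∧
        ∑' n, ENNReal.ofReal (h (Metric.diam (U n))) < c := by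
  simp only [pre, iInf_lt_iff] at H
  obtain ⟨U, h1, h2, h3⟩ := H
  exact ⟨U, h1, h2, h3⟩

/-- The countable family of balls used for covers. -/
noncomputable def cellO (p : ℕ × ℚ) : Set ℂ := ball (TopologicalSpace.denseSeq ℂ p.1) (p.2 : ℝ)

/-- Closed version of the cells. -/
noncomputable def cellC (p : ℕ × ℚ) : Set ℂ :=
  closedBall (TopologicalSpace.denseSeq ℂ p.1) (p.2 : ℝ)

lemma cellO_subset (p : ℕ × ℚ) : cellO p ⊆ cellC p := ball_subset_closedBall

/-- In the plane, a set of diameter `≤ K D` is covered by `N(K)` cells of diameter `≤ D`. -/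
lemma exists_pieces (K : ℝ) : ∃ N : ℕ, ∀ (A : Set ℂ) (D : ℝ), 0 < D →
    (∀ x ∈ A, ∀ y ∈ A, dist x y ≤ K * D) →
      ∃ F : Finset (ℕ × ℚ), F.card ≤ N ∧ (∀ p ∈ F, 0 < p.2 ∧ 2 * (p.2 : ℝ) ≤ D) ∧
        A ⊆ ⋃ p ∈ F, cellO p := by
  obtain ⟨t, -, htf, ht⟩ := (isCompact_closedBall (0 : ℂ) K).finite_cover_balls
    (e := 1 / 8) (by (clear * -; norm_num))
  refine ⟨htf.toFinset.card, fun A D hD hA => ?_⟩
  rcases A.eq_empty_or_nonempty with rfl | ⟨x₀, hx₀⟩
  · exact ⟨∅, by simp, by simp only [Finset.notMem_empty, IsEmpty.forall_iff, implies_true], by simp⟩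
  obtain ⟨q, hq1, hq2⟩ := exists_rat_btwn (show D / 4 < D / 2 by linarith)
  have hn : ∀ c : ℂ, ∃ n : ℕ, dist (TopologicalSpace.denseSeq ℂ n) (x₀ + D * c) < D / 8 := by
    intro c
    have := (TopologicalSpace.denseRange_denseSeq ℂ).exists_dist_lt (x₀ + D * c)
      (show 0 < D / 8 by linarith only [hq1, hq2])
    obtain ⟨n, hn⟩ := this
    exact ⟨n, by rwa [dist_comm]⟩
  choose n hn using hn
  refine ⟨htf.toFinset.image (fun c => (n c, q)), Finset.card_image_le, ?_, ?_⟩
  · intro p hp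
    obtain ⟨c, -, rfl⟩ := Finset.mem_image.1 hp
    refine ⟨?_, by simpa only using (by linarith only [hq2] : 2 * (q : ℝ) ≤ D)⟩
    have : (0 : ℝ) < q := by linarith
    exact_mod_cast this
  · intro x hx
    have h1 : (x - x₀) / D ∈ closedBall (0 : ℂ) K := by
      rw [mem_closedBall, dist_zero_right, norm_div, ← dist_eq_norm, Complex.norm_real,
        Real.norm_eq_abs, abs_of_pos hD, div_le_iff₀ hD]
      exact hA x hx x₀ hx₀
    obtain ⟨c, hc, hxc⟩ := mem_iUnion₂.1 (ht h1)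
    refine mem_iUnion₂.2 ⟨(n c, q), Finset.mem_image.2 ⟨c, by simpa using hc, rfl⟩, ?_⟩
    have h2 : dist x (x₀ + D * c) ≤ D / 8 := by
      rw [mem_ball, dist_eq_norm] at hxc
      have hDc : (D : ℂ) ≠ 0 := by exact_mod_cast hD.ne'
      have e : x - (x₀ + D * c) = D * ((x - x₀) / D - c) := by
        field_simp
        ring
      rw [dist_eq_norm, e, norm_mul, Complex.norm_real, Real.norm_eq_abs, abs_of_pos hD]
      nlinarith only [hD, hxc]
    have h3 := hn c
    rw [cellO, mem_ball]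
    calc dist x (TopologicalSpace.denseSeq ℂ (n c))
        ≤ dist x (x₀ + D * c) + dist (x₀ + D * c) (TopologicalSpace.denseSeq ℂ (n c)) :=
          dist_triangle _ _ _
      _ < q := by
          rw [dist_comm (x₀ + D * c)]
          linarith only [hq1, h2, h3]

/-- The cost of a finite family of cells. -/
noncomputable def cost (h : ℝ → ℝ) (F : Finset (ℕ × ℚ)) : ℝ≥0∞ :=
  ∑ p ∈ F, ENNReal.ofReal (h (2 * (p.2 : ℝ)))

lemma IsGauge.enlarge {h : ℝ → ℝ} (hh : IsGauge h) {D : ℝ} (hD : 0 ≤ D) {ε η : ℝ} (hε : 0 < ε)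
    (hη : 0 < η) : ∃ D' : ℝ, D < D' ∧ D' ≤ D + η ∧ h D' ≤ h D + ε := by
  have h1 : ContinuousWithinAt h (Ici 0) D := hh.cont D hD
  have h2 := (Metric.continuousWithinAt_iff.1 h1) ε hε
  obtain ⟨d, hd, H⟩ := h2
  refine ⟨D + min (d / 2) η, by
    have := lt_min (half_pos hd) hη
    linarith only [this], by linarith only [min_le_right (d / 2) η], ?_⟩
  have hpos : 0 < min (d / 2) η := lt_min (half_pos hd) hη
  have h3 := H (show D + min (d / 2) η ∈ Ici 0 by
      have := hpos.le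
      exact mem_Ici.2 (by linarith only [hD, hpos])) (by
      rw [Real.dist_eq]
      have : D + min (d / 2) η - D = min (d / 2) η := by ring
      rw [this, abs_of_pos hpos]
      exact lt_of_le_of_lt (min_le_left _ _) (half_lt_self hd))
  rw [Real.dist_eq] at h3
  have := (abs_lt.1 h3).2
  linarith only [this]

lemma IsGauge.nonneg {h : ℝ → ℝ} (hh : IsGauge h) {r : ℝ} (hr : 0 ≤ r) : 0 ≤ h r := by
  rw [← hh.zero]
  exact hh.mono (mem_Ici.2 le_rfl) hr hr

/-- From a cover of `E` to a countable family of cells covering a set whose pieces are controlled. -/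
lemma exists_cells {h : ℝ → ℝ} (hh : IsGauge h) (K : ℝ) : ∃ N : ℕ, ∀ (δ : ℝ), 0 < δ →
    ∀ (E : Set ℂ) (f : ℂ → ℂ), (∀ x ∈ E, ∀ y ∈ E, dist (f x) (f y) ≤ K * dist x y) → 0 ≤ K →
      ∀ c : ℝ≥0∞, pre h (δ / 2) E < c →
        ∃ F : ℕ → Finset (ℕ × ℚ), (∀ j, ∀ p ∈ F j, 0 < p.2 ∧ 2 * (p.2 : ℝ) ≤ δ) ∧
          f '' E ⊆ ⋃ j, ⋃ p ∈ F j, cellO p ∧ ∑' j, cost h (F j) ≤ N * (2 * c) := by
  obtain ⟨N, hN⟩ := exists_pieces K
  refine ⟨N, fun δ hδ E f hf hK c hc => ?_⟩
  obtain ⟨U, hU1, hU2, hU3⟩ := exists_cover hc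
  have hcpos : c ≠ 0 := fun h0 => by simp [h0] at hc
  obtain ⟨ε, hεpos, hεsum⟩ := ENNReal.exists_pos_sum_of_countable hcpos ℕ
  have hD : ∀ j, ∃ D' : ℝ, Metric.diam (U j) < D' ∧ D' ≤ Metric.diam (U j) + δ / 2 ∧
      h D' ≤ h (Metric.diam (U j)) + ε j := fun j =>
    hh.enlarge Metric.diam_nonneg (by exact_mod_cast hεpos j) (half_pos hδ)
  choose D' hD1 hD2 hD3 using hD
  have hF : ∀ j, ∃ F : Finset (ℕ × ℚ), F.card ≤ N ∧
      (∀ p ∈ F, 0 < p.2 ∧ 2 * (p.2 : ℝ) ≤ D' j) ∧ f '' (U j ∩ E) ⊆ ⋃ p ∈ F, cellO p := by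
    intro j
    refine hN _ (D' j) (lt_of_le_of_lt Metric.diam_nonneg (hD1 j)) ?_
    rintro _ ⟨x, ⟨hxU, hxE⟩, rfl⟩ _ ⟨y, ⟨hyU, hyE⟩, rfl⟩
    refine (hf x hxE y hyE).trans (mul_le_mul_of_nonneg_left ?_ hK)
    exact (Metric.dist_le_diam_of_mem (hU2 j).1 hxU hyU).trans (hD1 j).le
  choose F hF1 hF2 hF3 using hF
  refine ⟨F, fun j p hp => ⟨(hF2 j p hp).1, ?_⟩, ?_, ?_⟩
  · have h1 := (hF2 j p hp).2
    have h2 := (hU2 j).2
    have h3 := hD2 j
    linarith only [h1, h2, h3]
  · rintro _ ⟨x, hx, rfl⟩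
    obtain ⟨j, hj⟩ := mem_iUnion.1 (hU1 hx)
    exact mem_iUnion.2 ⟨j, hF3 j ⟨x, ⟨hj, hx⟩, rfl⟩⟩
  · have h1 : ∀ j, cost h (F j) ≤ N * (ENNReal.ofReal (h (Metric.diam (U j))) + ε j) := by
      intro j
      have h2 : ∀ p ∈ F j, ENNReal.ofReal (h (2 * (p.2 : ℝ))) ≤
          ENNReal.ofReal (h (Metric.diam (U j))) + ε j := by
        intro p hp
        have hp0 : (0 : ℝ) < p.2 := by exact_mod_cast (hF2 j p hp).1
        have h3 : h (2 * (p.2 : ℝ)) ≤ h (D' j) :=
          hh.mono (mem_Ici.2 (by (clear * - hp0; positivity)))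
            (mem_Ici.2 (Metric.diam_nonneg.trans (hD1 j).le)) (hF2 j p hp).2
        calc ENNReal.ofReal (h (2 * (p.2 : ℝ)))
            ≤ ENNReal.ofReal (h (Metric.diam (U j)) + ε j) :=
              ENNReal.ofReal_le_ofReal (h3.trans (hD3 j))
          _ ≤ _ := by
              rw [ENNReal.ofReal_add (hh.nonneg Metric.diam_nonneg) (ε j).coe_nonneg,
                ENNReal.ofReal_coe_nnreal]
      calc cost h (F j) ≤ ∑ _p ∈ F j, (ENNReal.ofReal (h (Metric.diam (U j))) + ε j) :=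
            Finset.sum_le_sum h2
        _ = (F j).card * (ENNReal.ofReal (h (Metric.diam (U j))) + ε j) := by
            rw [Finset.sum_const, nsmul_eq_mul]
        _ ≤ N * (ENNReal.ofReal (h (Metric.diam (U j))) + ε j) := by
            gcongr
            exact_mod_cast hF1 j
    calc ∑' j, cost h (F j) ≤ ∑' j, N * (ENNReal.ofReal (h (Metric.diam (U j))) + ε j) :=
          ENNReal.tsum_le_tsum h1
      _ = N * (∑' j, ENNReal.ofReal (h (Metric.diam (U j))) + ∑' j, (ε j : ℝ≥0∞)) := by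
          rw [ENNReal.tsum_mul_left, ENNReal.tsum_add]
      _ ≤ N * (2 * c) := by
          rw [two_mul]
          gcongr

lemma diam_cellC_le {p : ℕ × ℚ} (hp : 0 < p.2) : Metric.diam (cellC p) ≤ 2 * (p.2 : ℝ) :=
  Metric.diam_closedBall (by exact_mod_cast hp.le)

/-- A countable family of cells bounds the pre-measure. -/
lemma pre_le_of_cells {h : ℝ → ℝ} (hh : IsGauge h) {δ : ℝ} (hδ : 0 < δ) {A : Set ℂ}
    {F : ℕ → Finset (ℕ × ℚ)} (h1 : ∀ j, ∀ p ∈ F j, 0 < p.2 ∧ 2 * (p.2 : ℝ) ≤ δ)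
    (h2 : A ⊆ ⋃ j, ⋃ p ∈ F j, cellC p) : pre h δ A ≤ ∑' j, cost h (F j) := by
  classical
  set V : ℕ × (ℕ × ℚ) → Set ℂ := fun i => if i.2 ∈ F i.1 then cellC i.2 else ∅ with hV
  have hle : pre h δ A ≤ ∑' i, ENNReal.ofReal (h (Metric.diam (V i))) := by
    refine pre_le_tsum hh.zero hδ.le V ?_ ?_
    · intro x hx
      obtain ⟨j, hj⟩ := mem_iUnion.1 (h2 hx)
      obtain ⟨p, hp, hxp⟩ := mem_iUnion₂.1 hj
      refine mem_iUnion.2 ⟨(j, p), ?_⟩
      simp only [hV, hp, if_true]
      exact hxp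
    · rintro ⟨j, p⟩
      by_cases hp : p ∈ F j
      · simp only [hV, hp, if_true]
        exact ⟨isBounded_closedBall, (diam_cellC_le (h1 j p hp).1).trans (h1 j p hp).2⟩
      · simp only [hV, hp, if_false]
        exact ⟨Bornology.isBounded_empty, by simpa only [diam_empty] using hδ.le⟩
  refine hle.trans ?_
  rw [ENNReal.tsum_prod']
  refine ENNReal.tsum_le_tsum fun j => ?_
  rw [tsum_eq_sum (s := F j)]
  · refine Finset.sum_le_sum fun p hp => ?_
    simp only [hV, hp, if_true]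
    refine ENNReal.ofReal_le_ofReal (hh.mono (mem_Ici.2 Metric.diam_nonneg) ?_
      (diam_cellC_le (h1 j p hp).1))
    have : (0 : ℝ) < p.2 := by exact_mod_cast (h1 j p hp).1
    exact mem_Ici.2 (by (clear * - this; positivity))
  · intro p hp
    simp only [hV, hp, if_false]
    simp [hh.zero]

lemma gaugeMeasure_image_eq_zero {h : ℝ → ℝ} (hh : IsGauge h) {E : Set ℂ} {f : ℂ → ℂ} {K : ℝ≥0}
    (hf : LipschitzOnWith K f E) (hE : gaugeMeasure h E = 0) : gaugeMeasure h (f '' E) = 0 := by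
  obtain ⟨N, hN⟩ := exists_cells hh (K : ℝ)
  refine le_antisymm (gaugeMeasure_le fun δ hδ => ?_) zero_le
  refine ENNReal.le_of_forall_pos_le_add fun ε hε _ => ?_
  rw [zero_add]
  have hc : pre h (δ / 2) E < (ε : ℝ≥0∞) / (2 * (N + 1)) := by
    refine lt_of_le_of_lt ((pre_le_gaugeMeasure h (half_pos hδ) E).trans hE.le) ?_
    refine ENNReal.div_pos (by exact_mod_cast hε.ne') ?_
    exact ENNReal.mul_ne_top ENNReal.ofNat_ne_top (ENNReal.add_ne_top.2
      ⟨ENNReal.natCast_ne_top N, ENNReal.one_ne_top⟩)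
  obtain ⟨F, hF1, hF2, hF3⟩ := hN δ hδ E f (fun x hx y hy => hf.dist_le_mul x hx y hy)
    K.coe_nonneg _ hc
  refine (pre_le_of_cells hh hδ hF1 (hF2.trans ?_)).trans (hF3.trans ?_)
  · exact iUnion_mono fun j => iUnion₂_mono fun p _ => cellO_subset p
  · have h1 : (N : ℝ≥0∞) * (2 * ((ε : ℝ≥0∞) / (2 * (N + 1)))) =
        (2 * N) * ((ε : ℝ≥0∞) / (2 * (N + 1))) := by ring
    rw [h1]
    calc (2 * (N : ℝ≥0∞)) * ((ε : ℝ≥0∞) / (2 * (N + 1)))
        ≤ (2 * (N + 1)) * ((ε : ℝ≥0∞) / (2 * (N + 1))) := by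
          gcongr
          exact le_self_add
      _ ≤ ε := ENNReal.mul_div_le

/-- Extraction of a finite family of cells on a compact set. -/
lemma exists_finite_cells (h : ℝ → ℝ) {E : Set ℂ} (hE : IsCompact E) {F : ℕ → Finset (ℕ × ℚ)}
    (h2 : E ⊆ ⋃ j, ⋃ p ∈ F j, cellO p) :
    ∃ G : Finset (ℕ × ℚ), (∀ p ∈ G, ∃ j, p ∈ F j) ∧ E ⊆ ⋃ p ∈ G, cellC p ∧
      cost h G ≤ ∑' j, cost h (F j) := by
  classical
  obtain ⟨J, hJ⟩ := hE.elim_finite_subcover (fun j => ⋃ p ∈ F j, cellO p)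
    (fun j => isOpen_biUnion fun p _ => isOpen_ball) h2
  refine ⟨J.biUnion F, ?_, ?_, ?_⟩
  · intro p hp
    obtain ⟨j, -, hj⟩ := Finset.mem_biUnion.1 hp
    exact ⟨j, hj⟩
  · intro x hx
    obtain ⟨j, hj, hxj⟩ := mem_iUnion₂.1 (hJ hx)
    obtain ⟨p, hp, hxp⟩ := mem_iUnion₂.1 hxj
    exact mem_iUnion₂.2 ⟨p, Finset.mem_biUnion.2 ⟨j, hj, hp⟩, cellO_subset p hxp⟩
  · have : cost h (J.biUnion F) ≤ ∑ j ∈ J, cost h (F j) := by
      clear hJ
      induction J using Finset.induction_on with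
      | empty => simp only [cost, Finset.biUnion_empty, Finset.sum_empty, Std.le_refl]
      | insert a s ha ih =>
        rw [Finset.biUnion_insert, Finset.sum_insert ha]
        refine le_trans ?_ (add_le_add_right ih _)
        rw [cost, cost, cost, ← Finset.sum_union_inter]
        exact le_self_add
    exact this.trans (ENNReal.sum_le_tsum J)

/-- Cells of mesh at most `1/(n+1)`. -/
def Fine (n : ℕ) (G : Finset (ℕ × ℚ)) : Prop :=
  ∀ p ∈ G, 0 < p.2 ∧ 2 * (p.2 : ℝ) ≤ 1 / ((n : ℝ) + 1)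

/-- Finite union of closed cells. -/
def cells (G : Finset (ℕ × ℚ)) : Set ℂ := ⋃ p ∈ G, cellC p

lemma pre_anti (h : ℝ → ℝ) {δ δ' : ℝ} (hδ : δ ≤ δ') (E : Set ℂ) : pre h δ' E ≤ pre h δ E := by
  refine le_iInf fun U => le_iInf fun hU => le_iInf fun hU' => ?_
  exact iInf_le_of_le U (iInf_le_of_le hU (iInf_le_of_le
    (fun n => ⟨(hU' n).1, (hU' n).2.trans hδ⟩) le_rfl))

lemma pre_le_of_fine {h : ℝ → ℝ} (hh : IsGauge h) {n : ℕ} {G : Finset (ℕ × ℚ)} (hG : Fine n G)
    {E : Set ℂ} (hE : E ⊆ cells G) : pre h (1 / ((n : ℝ) + 1)) E ≤ cost h G := by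
  classical
  have h1 := pre_le_of_cells hh (δ := 1 / ((n : ℝ) + 1)) (by positivity) (A := E)
    (F := fun j => if j = 0 then G else ∅) (fun j p hp => by
      by_cases hj : j = 0
      · simp only [hj, if_true] at hp
        exact hG p hp
      · simp [hj] at hp) (fun x hx => mem_iUnion.2 ⟨0, by
      have := hE hx
      simp only [if_true]
      exact this⟩)
  refine h1.trans ?_
  rw [tsum_eq_single 0]
  · simp
  · intro j hj
    simp [hj, cost]

lemma eq_zero_iff_cells {h : ℝ → ℝ} (hh : IsGauge h) {E : Set ℂ} (hE : IsCompact E) :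
    gaugeMeasure h E = 0 ↔ ∀ n : ℕ, ∃ G : Finset (ℕ × ℚ),
      (Fine n G ∧ cost h G ≤ 1 / ((n : ℝ≥0∞) + 1)) ∧ E ⊆ cells G := by
  constructor
  · intro h0 n
    obtain ⟨N, hN⟩ := exists_cells hh 1
    have hδ : (0 : ℝ) < 1 / ((n : ℝ) + 1) := by (clear * -; positivity)
    set ε : ℝ≥0∞ := 1 / ((n : ℝ≥0∞) + 1) with hε
    have hε0 : ε ≠ 0 := by
      rw [hε]
      exact (ENNReal.div_pos one_ne_zero (ENNReal.add_ne_top.2
        ⟨ENNReal.natCast_ne_top n, ENNReal.one_ne_top⟩)).ne'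
    have hc : pre h (1 / ((n : ℝ) + 1) / 2) E < ε / (2 * (N + 1)) := by
      refine lt_of_le_of_lt ((pre_le_gaugeMeasure h (half_pos hδ) E).trans h0.le) ?_
      exact ENNReal.div_pos hε0 (ENNReal.mul_ne_top ENNReal.ofNat_ne_top (ENNReal.add_ne_top.2
        ⟨ENNReal.natCast_ne_top N, ENNReal.one_ne_top⟩))
    obtain ⟨F, hF1, hF2, hF3⟩ := hN _ hδ E id (fun x _ y _ => by simp) zero_le_one _ hc
    rw [image_id] at hF2
    obtain ⟨G, hG1, hG2, hG3⟩ := exists_finite_cells h hE hF2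
    refine ⟨G, ⟨fun p hp => ?_, hG3.trans (hF3.trans ?_)⟩, hG2⟩
    · obtain ⟨j, hj⟩ := hG1 p hp
      exact hF1 j p hj
    · have h1 : (N : ℝ≥0∞) * (2 * (ε / (2 * (N + 1)))) = (2 * N) * (ε / (2 * (N + 1))) := by ring
      rw [h1]
      calc (2 * (N : ℝ≥0∞)) * (ε / (2 * (N + 1)))
          ≤ (2 * (N + 1)) * (ε / (2 * (N + 1))) := by
            gcongr
            exact le_self_add
        _ ≤ ε := ENNReal.mul_div_le
  · intro H
    refine le_antisymm (gaugeMeasure_le fun δ hδ => ?_) zero_le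
    refine ENNReal.le_of_forall_pos_le_add fun ε hε _ => ?_
    rw [zero_add]
    obtain ⟨n, hn⟩ := exists_nat_one_div_lt (lt_min hδ (show (0 : ℝ) < ε from hε))
    obtain ⟨G, ⟨hG1, hG2⟩, hG3⟩ := H n
    refine (pre_anti h (hn.le.trans (min_le_left _ _)) E).trans
      ((pre_le_of_fine hh hG1 hG3).trans (hG2.trans ?_))
    have h2 : (1 : ℝ) / ((n : ℝ) + 1) ≤ ε := hn.le.trans (min_le_right _ _)
    have h3 : ENNReal.ofReal (1 / ((n : ℝ) + 1)) ≤ ENNReal.ofReal ε :=
      ENNReal.ofReal_le_ofReal h2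
    rw [ENNReal.ofReal_coe_nnreal, ENNReal.ofReal_div_of_pos (by (clear * -; positivity)), ENNReal.ofReal_one,
      ENNReal.ofReal_add (by (clear * -; positivity)) zero_le_one, ENNReal.ofReal_one,
      ENNReal.ofReal_natCast] at h3
    exact h3

/-- Adding a point does not change the measure. -/
lemma gaugeMeasure_insert_le {h : ℝ → ℝ} (hh : IsGauge h) (E : Set ℂ) (x : ℂ) :
    gaugeMeasure h (insert x E) ≤ gaugeMeasure h E := by
  refine gaugeMeasure_le fun δ hδ => le_trans ?_ (pre_le_gaugeMeasure h hδ E)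
  refine le_iInf fun U => le_iInf fun hU => le_iInf fun hU' => ?_
  have h1 := pre_le_tsum hh.zero hδ.le (E := insert x E)
    (fun n : ℕ => Nat.casesOn n ({x} : Set ℂ) U) ?_ ?_
  · refine h1.trans ?_
    rw [tsum_eq_zero_add' ENNReal.summable]
    simp only [Nat.rec_zero, diam_singleton, hh.zero, ENNReal.ofReal_zero, zero_add, Std.le_refl]
  · intro y hy
    rcases hy with rfl | hy
    · exact mem_iUnion.2 ⟨0, by simp⟩
    · obtain ⟨n, hn⟩ := mem_iUnion.1 (hU hy)
      exact mem_iUnion.2 ⟨n + 1, by simpa using hn⟩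
  · rintro (_ | n)
    · simpa only [Nat.rec_zero, Bornology.isBounded_singleton, diam_singleton, true_and] using hδ.le
    · simpa using hU' n

end Vale.Agent.P164
end

section

open Complex MeasureTheory Metric Set Filter Topology intervalIntegral
open scoped Real ComplexConjugate

namespace Vale.Agent.P142

noncomputable section

lemma circleMap_mem_unit {s : ℝ} (hs0 : 0 ≤ s) (hs1 : s < 1) (θ : ℝ) :
    circleMap 0 s θ ∈ ball (0 : ℂ) 1 := by
  rw [mem_ball_zero_iff, norm_circleMap_zero, abs_of_nonneg hs0]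
  exact hs1

lemma hasDerivAt_circleMap_radius (s θ : ℝ) :
    HasDerivAt (fun s : ℝ => circleMap 0 s θ) (cexp (θ * I)) s := by
  simp only [circleMap_zero]
  simpa only [ofRealCLM_apply, ofReal_one, one_mul] using     (Complex.ofRealCLM.hasDerivAt (x := s)).mul_const (cexp (θ * I))

lemma continuous_circleMap_uncurry :
    Continuous (fun p : ℝ × ℝ => circleMap 0 p.1 p.2) := by
  simp only [circleMap_zero]
  fun_prop

/-- Continuity of circle integrals with respect to the radius. -/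
lemma continuousOn_circle_integral {E : Type*} [NormedAddCommGroup E] [NormedSpace ℝ E]
    {G : ℂ → E} (hG : ContinuousOn G (ball (0 : ℂ) 1)) :
    ContinuousOn (fun s : ℝ => ∫ θ in (-π)..π, G (circleMap 0 s θ)) (Ioo (-1) 1) := by
  intro s0 hs0
  apply ContinuousAt.continuousWithinAt
  have habs : |s0| < 1 := abs_lt.mpr hs0
  obtain ⟨b, hb1, hb2⟩ := exists_between habs
  have hb0 : 0 < b := lt_of_le_of_lt (abs_nonneg _) hb1
  have hsub : closedBall (0 : ℂ) b ⊆ ball 0 1 := closedBall_subset_ball hb2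
  obtain ⟨C, hC⟩ := (isCompact_closedBall (0 : ℂ) b).exists_bound_of_continuousOn (hG.mono hsub)
  have hev : ∀ᶠ s : ℝ in 𝓝 s0, |s| ≤ b := by
    have : ∀ᶠ s : ℝ in 𝓝 s0, |s| < b := (continuous_abs.tendsto s0).eventually (gt_mem_nhds hb1)
    exact this.mono fun s hs => hs.le
  have hmem : ∀ s : ℝ, |s| ≤ b → ∀ θ : ℝ, circleMap 0 s θ ∈ closedBall (0 : ℂ) b := by
    intro s hs θ
    rw [mem_closedBall_zero_iff, norm_circleMap_zero]
    exact hs
  apply intervalIntegral.continuousAt_of_dominated_interval (bound := fun _ => C)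
  · filter_upwards [hev] with s hs
    apply Continuous.aestronglyMeasurable
    exact hG.comp_continuous (continuous_circleMap 0 s) (fun θ => hsub (hmem s hs θ))
  · filter_upwards [hev] with s hs
    exact Eventually.of_forall fun θ _ => hC _ (hmem s hs θ)
  · exact intervalIntegrable_const
  · refine Eventually.of_forall fun θ _ => ?_
    have h1 : ContinuousAt G (circleMap 0 s0 θ) :=
      hG.continuousAt (isOpen_ball.mem_nhds (hsub (hmem s0 hb1.le θ)))
    have h2 : ContinuousAt (fun s : ℝ => circleMap 0 s θ) s0 :=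
      (hasDerivAt_circleMap_radius s0 θ).continuousAt
    exact ContinuousAt.comp (f := fun s : ℝ => circleMap 0 s θ) h1 h2

/-- Differentiation of circle integrals with respect to the radius. -/
lemma hasDerivAt_circle_integral {H : ℂ → ℂ} {H' : ℂ → (ℂ →L[ℝ] ℂ)}
    (hH : ∀ z ∈ ball (0 : ℂ) 1, HasFDerivAt H (H' z) z)
    (hc : ContinuousOn H' (ball (0 : ℂ) 1)) {s : ℝ} (hs0 : 0 < s) (hs1 : s < 1) :
    HasDerivAt (fun s : ℝ => ∫ θ in (-π)..π, H (circleMap 0 s θ))
      (∫ θ in (-π)..π, H' (circleMap 0 s θ) (cexp (θ * I))) s := by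
  set a : ℝ := s / 2 with ha
  set b : ℝ := (s + 1) / 2 with hb
  have ha0 : 0 < a := by positivity
  have hb1 : b < 1 := by rw [hb]; linarith only [hs1]
  have hab : Icc a b ∈ 𝓝 s := Icc_mem_nhds (by rw [ha]; linarith only [hs0]) (by rw [hb]; linarith)
  have hmem : ∀ x ∈ Icc a b, ∀ θ : ℝ, circleMap 0 x θ ∈ ball (0 : ℂ) 1 := fun x hx θ =>
    circleMap_mem_unit (by linarith only [ha0, hx.1]) (by linarith only [hb1, hx.2]) θ
  have hHc : ContinuousOn H (ball (0 : ℂ) 1) := fun z hz => (hH z hz).continuousAt.continuousWithinAt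
  have hcont : ContinuousOn (fun p : ℝ × ℝ => H' (circleMap 0 p.1 p.2) (cexp (p.2 * I)))
      (Icc a b ×ˢ Icc (-π) π) := by
    apply ContinuousOn.clm_apply
    · exact hc.comp continuous_circleMap_uncurry.continuousOn (fun p hp => hmem _ hp.1 _)
    · (clear * -; fun_prop)
  obtain ⟨C, hC⟩ := (isCompact_Icc.prod isCompact_Icc).exists_bound_of_continuousOn hcont
  have hpi : (-π) ≤ π := by linarith only [Real.pi_pos]
  refine (intervalIntegral.hasDerivAt_integral_of_dominated_loc_of_deriv_le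
    (F := fun s θ => H (circleMap 0 s θ))
    (F' := fun s θ => H' (circleMap 0 s θ) (cexp (θ * I)))
    (bound := fun _ => C) hab ?_ ?_ ?_ ?_ ?_ ?_).2
  · filter_upwards [hab] with x hx
    apply Continuous.aestronglyMeasurable
    exact hHc.comp_continuous (continuous_circleMap 0 x) (fun θ => hmem x hx θ)
  · apply Continuous.intervalIntegrable
    exact hHc.comp_continuous (continuous_circleMap 0 s) (fun θ => circleMap_mem_unit hs0.le hs1 θ)
  · apply Continuous.aestronglyMeasurable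
    apply Continuous.clm_apply
    · exact hc.comp_continuous (continuous_circleMap 0 s)
        (fun θ => circleMap_mem_unit hs0.le hs1 θ)
    · fun_prop
  · refine Eventually.of_forall fun θ hθ x hx => ?_
    rw [uIoc_of_le hpi] at hθ
    exact hC (x, θ) ⟨hx, Ioc_subset_Icc_self hθ⟩
  · exact intervalIntegrable_const
  · refine Eventually.of_forall fun θ hθ x hx => ?_
    have h1 := (hH _ (hmem x hx θ)).comp_hasDerivAt x (hasDerivAt_circleMap_radius x θ)
    exact h1

/-- The tangential derivative integrates to zero. -/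
lemma circle_integral_tangential {H : ℂ → ℂ} {H' : ℂ → (ℂ →L[ℝ] ℂ)}
    (hH : ∀ z ∈ ball (0 : ℂ) 1, HasFDerivAt H (H' z) z)
    (hc : ContinuousOn H' (ball (0 : ℂ) 1)) {s : ℝ} (hs0 : 0 ≤ s) (hs1 : s < 1) :
    ∫ θ in (-π)..π, H' (circleMap 0 s θ) (circleMap 0 s θ * I) = 0 := by
  have h : ∀ θ ∈ uIcc (-π) π, HasDerivAt (fun θ : ℝ => H (circleMap 0 s θ))
      (H' (circleMap 0 s θ) (circleMap 0 s θ * I)) θ := fun θ _ => by
    have h2 := (hH _ (circleMap_mem_unit hs0 hs1 θ)).comp_hasDerivAt θ (hasDerivAt_circleMap 0 s θ)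
    exact h2
  rw [intervalIntegral.integral_eq_sub_of_hasDerivAt h]
  · have : circleMap 0 s π = circleMap 0 s (-π) := by
      have := periodic_circleMap 0 s (-π)
      rw [← this]; congr 1; ring
    rw [this, sub_self]
  · apply Continuous.intervalIntegrable
    apply Continuous.clm_apply
    · exact hc.comp_continuous (continuous_circleMap 0 s)
        (fun θ => circleMap_mem_unit hs0 hs1 θ)
    · fun_prop

/-- Real-linear map with Wirtinger coefficients `a` and `b`. -/
def wirt (a b : ℂ) : ℂ →L[ℝ] ℂ :=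
  ContinuousLinearMap.mul ℝ ℂ a + (ContinuousLinearMap.mul ℝ ℂ b).comp
    (conjCLE : ℂ →L[ℝ] ℂ)

@[simp] lemma wirt_apply (a b v : ℂ) : wirt a b v = a * v + b * conj v := by
  simp [wirt]

/-- `H` has Wirtinger derivatives `a`, `b` at `z`. -/
def HasW (H : ℂ → ℂ) (a b z : ℂ) : Prop := HasFDerivAt H (wirt a b) z

lemma clm_ext_complex {L M : ℂ →L[ℝ] ℂ} (h : ∀ v, L v = M v) : L = M :=
  ContinuousLinearMap.ext h

lemma HasW.of_hasDerivAt {H : ℂ → ℂ} {a z : ℂ} (h : HasDerivAt H a z) : HasW H a 0 z := by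
  have h1 := h.hasFDerivAt.restrictScalars ℝ
  exact h1.congr_fderiv (clm_ext_complex fun v => by simp only [ContinuousLinearMap.coe_restrictScalars', ContinuousLinearMap.toSpanSingleton_apply, smul_eq_mul, mul_comm, wirt_apply, zero_mul, add_zero])

lemma HasW.congr_coeff {H : ℂ → ℂ} {a b a' b' z : ℂ} (h : HasW H a b z) (ha : a = a')
    (hb : b = b') : HasW H a' b' z := by
  subst ha; subst hb; exact h

lemma HasW.const (c z : ℂ) : HasW (fun _ => c) 0 0 z := HasW.of_hasDerivAt (hasDerivAt_const z c)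

lemma HasW.conj {H : ℂ → ℂ} {a b z : ℂ} (h : HasW H a b z) :
    HasW (fun z => conj (H z)) (conj b) (conj a) z := by
  have h1 := (conjCLE : ℂ →L[ℝ] ℂ).hasFDerivAt.comp z h
  exact h1.congr_fderiv (clm_ext_complex fun v => by simp [add_comm])

lemma HasW.mul {H K : ℂ → ℂ} {a b c d z : ℂ} (h : HasW H a b z) (k : HasW K c d z) :
    HasW (fun z => H z * K z) (a * K z + H z * c) (b * K z + H z * d) z := by
  have h1 := HasFDerivAt.mul h k
  exact h1.congr_fderiv (clm_ext_complex fun v => by simp only [add_apply, smul_apply, wirt_apply, smul_eq_mul]; ring)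

lemma HasW.add {H K : ℂ → ℂ} {a b c d z : ℂ} (h : HasW H a b z) (k : HasW K c d z) :
    HasW (fun z => H z + K z) (a + c) (b + d) z := by
  have h1 := HasFDerivAt.add h k
  exact h1.congr_fderiv (clm_ext_complex fun v => by simp only [add_apply, wirt_apply]; ring)

lemma HasW.comp {H φ : ℂ → ℂ} {a b c z : ℂ} (hφ : HasDerivAt φ c (H z)) (h : HasW H a b z) :
    HasW (fun z => φ (H z)) (c * a) (c * b) z := by
  have h1 := (hφ.hasFDerivAt.restrictScalars ℝ).comp z h
  exact h1.congr_fderiv (clm_ext_complex fun v => by simp only [ContinuousLinearMap.comp_apply, wirt_apply, ContinuousLinearMap.coe_restrictScalars', ContinuousLinearMap.toSpanSingleton_apply, smul_eq_mul]; ring)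

lemma HasW.inv {H : ℂ → ℂ} {a b z : ℂ} (h : HasW H a b z) (h0 : H z ≠ 0) :
    HasW (fun z => (H z)⁻¹) (-a / (H z) ^ 2) (-b / (H z) ^ 2) z := by
  refine (HasW.comp (hasDerivAt_inv h0) h).congr_coeff ?_ ?_ <;> (clear * - h0; field_simp)

lemma continuousOn_wirt {a b : ℂ → ℂ} {s : Set ℂ} (ha : ContinuousOn a s) (hb : ContinuousOn b s) :
    ContinuousOn (fun z => wirt (a z) (b z)) s := by
  unfold wirt
  apply ContinuousOn.add
  · exact (ContinuousLinearMap.mul ℝ ℂ).continuous.comp_continuousOn ha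
  · exact ((ContinuousLinearMap.mul ℝ ℂ).continuous.comp_continuousOn hb).clm_comp
      continuousOn_const

/-- Radial derivative of a circle integral through the `z`-derivative and the `conj z`-derivative. -/
lemma circle_integral_wirt {H a b : ℂ → ℂ}
    (hH : ∀ z ∈ ball (0 : ℂ) 1, HasW H (a z) (b z) z)
    (ha : ContinuousOn a (ball (0 : ℂ) 1)) (hb : ContinuousOn b (ball (0 : ℂ) 1))
    {s : ℝ} (hs0 : 0 < s) (hs1 : s < 1) :
    HasDerivAt (fun s : ℝ => ∫ θ in (-π)..π, H (circleMap 0 s θ))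
      ((2 / s) * ∫ θ in (-π)..π, b (circleMap 0 s θ) * conj (circleMap 0 s θ)) s ∧
    (∫ θ in (-π)..π, b (circleMap 0 s θ) * conj (circleMap 0 s θ)) =
      ∫ θ in (-π)..π, a (circleMap 0 s θ) * circleMap 0 s θ := by
  have hW := continuousOn_wirt ha hb
  have h1 := hasDerivAt_circle_integral (H' := fun z => wirt (a z) (b z)) hH hW hs0 hs1
  have h2 := circle_integral_tangential (H' := fun z => wirt (a z) (b z)) hH hW hs0.le hs1
  have hmem := fun θ : ℝ => circleMap_mem_unit hs0.le hs1 θ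
  have hac : Continuous (fun θ : ℝ => a (circleMap 0 s θ)) :=
    ha.comp_continuous (continuous_circleMap 0 s) hmem
  have hbc : Continuous (fun θ : ℝ => b (circleMap 0 s θ)) :=
    hb.comp_continuous (continuous_circleMap 0 s) hmem
  have hzc : Continuous (fun θ : ℝ => circleMap 0 s θ) := continuous_circleMap 0 s
  have hzc' : Continuous (fun θ : ℝ => conj (circleMap 0 s θ)) :=
    Complex.continuous_conj.comp hzc
  have iA : IntervalIntegrable (fun θ : ℝ => a (circleMap 0 s θ) * circleMap 0 s θ) volume (-π) π :=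
    (hac.mul hzc).intervalIntegrable _ _
  have iB : IntervalIntegrable (fun θ : ℝ => b (circleMap 0 s θ) * conj (circleMap 0 s θ))
      volume (-π) π := (hbc.mul hzc').intervalIntegrable _ _
  have hs : (s : ℂ) ≠ 0 := by exact_mod_cast hs0.ne'
  have e2 : (∫ θ in (-π)..π, a (circleMap 0 s θ) * circleMap 0 s θ) -
      ∫ θ in (-π)..π, b (circleMap 0 s θ) * conj (circleMap 0 s θ) = 0 := by
    rw [← intervalIntegral.integral_sub iA iB]
    have : ∀ θ : ℝ, wirt (a (circleMap 0 s θ)) (b (circleMap 0 s θ)) (circleMap 0 s θ * I) =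
        I * (a (circleMap 0 s θ) * circleMap 0 s θ -
          b (circleMap 0 s θ) * conj (circleMap 0 s θ)) := by
      intro θ
      simp only [wirt_apply, map_mul, conj_I]
      ring
    simp only [this, intervalIntegral.integral_const_mul] at h2
    exact (mul_eq_zero.mp h2).resolve_left I_ne_zero
  have e3 : (∫ θ in (-π)..π, b (circleMap 0 s θ) * conj (circleMap 0 s θ)) =
      ∫ θ in (-π)..π, a (circleMap 0 s θ) * circleMap 0 s θ := (sub_eq_zero.mp e2).symm
  refine ⟨?_, e3⟩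
  convert h1 using 1
  have e4 : ∀ θ : ℝ, wirt (a (circleMap 0 s θ)) (b (circleMap 0 s θ)) (cexp (θ * I)) =
      (s : ℂ)⁻¹ * (a (circleMap 0 s θ) * circleMap 0 s θ +
        b (circleMap 0 s θ) * conj (circleMap 0 s θ)) := by
    intro θ
    simp only [wirt_apply, circleMap_zero, map_mul, conj_ofReal]
    (clear * - hs; field_simp)
  simp only [e4, intervalIntegral.integral_const_mul]
  rw [intervalIntegral.integral_add iA iB, ← e3]
  field_simp
  ring

end

end Vale.Agent.P142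
end

section

open Complex MeasureTheory Metric Set Filter Topology
open scoped Real ComplexConjugate Nat

namespace Vale.Agent.P142

noncomputable section

/-- Taylor coefficient at `0`. -/
def tc (U : ℂ → ℂ) (n : ℕ) : ℂ := (n ! : ℂ)⁻¹ * iteratedDeriv n U 0

/-- Normalised Taylor series of `(f (z + h) - f z) / (f' z * h)` in `h`. -/
def Aser (f : ℂ → ℂ) (z : ℂ) : PowerSeries ℂ :=
  PowerSeries.mk fun k => iteratedDeriv (k + 1) f z / ((k + 1)! * deriv f z)

/-- Taylor series of `f' z * h / (f (z + h) - f z)` in `h`. -/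
def Bser (f : ℂ → ℂ) (z : ℂ) : PowerSeries ℂ := (Aser f z)⁻¹

/-- Jets: `f' z / (f (z + h) - f z) = 1 / h + ∑ lam f n z * h ^ n`. -/
def lam (f : ℂ → ℂ) (n : ℕ) (z : ℂ) : ℂ := PowerSeries.coeff (n + 1) (Bser f z)

end

end Vale.Agent.P142
end

section

open Complex Metric Set Filter Topology
open scoped Real ComplexConjugate Nat

namespace Vale.Agent.P142

noncomputable section

end

end Vale.Agent.P142
end

section

open Complex MeasureTheory Metric Set Filter Topology intervalIntegral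
open scoped Real ComplexConjugate Nat

namespace Vale.Agent.P142

noncomputable section

lemma hasSum_of_eq {f g : ℕ → ℂ} {a : ℂ} (h : ∀ n, f n = g n) (hf : HasSum f a) :
    HasSum g a := by
  have : f = g := funext h
  rwa [← this]

lemma hasSum_tc {U : ℂ → ℂ} (hU : DifferentiableOn ℂ U (ball 0 1)) {z : ℂ}
    (hz : z ∈ ball (0 : ℂ) 1) : HasSum (fun n => tc U n * z ^ n) (U z) := by
  refine hasSum_of_eq (fun n => ?_) (Complex.hasSum_taylorSeries_on_ball hU hz)
  simp only [tc, smul_eq_mul, sub_zero]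
  ring

lemma tc_deriv (U : ℂ → ℂ) (n : ℕ) : tc (deriv U) n = (n + 1 : ℂ) * tc U (n + 1) := by
  unfold tc
  rw [← iteratedDeriv_succ', Nat.factorial_succ]
  have h1 : ((n : ℂ) + 1) ≠ 0 := by exact_mod_cast Nat.succ_ne_zero n
  have h2 : (n ! : ℂ) ≠ 0 := by exact_mod_cast Nat.factorial_ne_zero n
  push_cast
  (clear * - h1 h2; field_simp)

lemma hasSum_tc_mul_deriv {U : ℂ → ℂ} (hU : DifferentiableOn ℂ U (ball 0 1)) {z : ℂ}
    (hz : z ∈ ball (0 : ℂ) 1) : HasSum (fun n : ℕ => ((n : ℂ) * tc U n) * z ^ n) (z * deriv U z) := by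
  have h := (hasSum_tc (hU.deriv isOpen_ball) hz).mul_left z
  have h2 := (hasSum_nat_add_iff (f := fun n : ℕ => ((n : ℂ) * tc U n) * z ^ n) 1
    (g := z * deriv U z)).mp (hasSum_of_eq (fun n => ?_) h)
  · simpa only [Finset.range_one, Finset.sum_singleton, CharP.cast_eq_zero, zero_mul, pow_zero, mul_one,     add_zero] using h2
  · rw [tc_deriv]
    push_cast
    ring

lemma orth (s : ℝ) (j k : ℕ) :
    ∫ θ in (-π)..π, circleMap 0 s θ ^ j * conj (circleMap 0 s θ) ^ k =
      if j = k then 2 * π * (s : ℂ) ^ (2 * k) else 0 := by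
  have e : ∀ θ : ℝ, circleMap 0 s θ ^ j * conj (circleMap 0 s θ) ^ k =
      (s : ℂ) ^ (j + k) * cexp ((((j : ℂ) - k) * I) * θ) := by
    intro θ
    rw [circleMap_zero, map_mul, conj_ofReal, ← Complex.exp_conj, mul_pow, mul_pow,
      ← Complex.exp_nat_mul, ← Complex.exp_nat_mul, map_mul, conj_ofReal, conj_I]
    have : cexp ((((j : ℂ) - k) * I) * θ) =
        cexp (↑j * (↑θ * I)) * cexp (↑k * (↑θ * -I)) := by
      rw [← Complex.exp_add]; congr 1; ring
    rw [this]; ring
  simp only [e, intervalIntegral.integral_const_mul]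
  split_ifs with h
  · subst h
    simp only [sub_self, zero_mul, exp_zero, intervalIntegral.integral_const, sub_neg_eq_add, real_smul, ofReal_add, mul_one]
    ring
  · have hne : ((j : ℂ) - k) * I ≠ 0 := by
      apply mul_ne_zero _ I_ne_zero
      rw [sub_ne_zero]
      exact_mod_cast h
    rw [integral_exp_mul_complex hne]
    have hexp : cexp (((j : ℂ) - k) * I * (π : ℝ)) = cexp (((j : ℂ) - k) * I * ((-π : ℝ) : ℂ)) := by
      rw [Complex.exp_eq_exp_iff_exists_int]
      refine ⟨(j : ℤ) - k, ?_⟩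
      push_cast
      ring
    rw [hexp, sub_self, zero_div, mul_zero]

/-- Parseval identity on circles for functions given by power series. -/
lemma parseval {U W : ℂ → ℂ} {a b : ℕ → ℂ} {s : ℝ} (hs0 : 0 ≤ s) (hs1 : s < 1)
    (hUc : ContinuousOn U (ball 0 1))
    (hU : ∀ z ∈ ball (0 : ℂ) 1, HasSum (fun n => a n * z ^ n) (U z))
    (hW : ∀ z ∈ ball (0 : ℂ) 1, HasSum (fun n => b n * z ^ n) (W z)) :
    HasSum (fun n => 2 * π * (a n * conj (b n) * (s : ℂ) ^ (2 * n)))
      (∫ θ in (-π)..π, U (circleMap 0 s θ) * conj (W (circleMap 0 s θ))) := by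
  have hmem := fun θ : ℝ => circleMap_mem_unit hs0 hs1 θ
  have hzs : (s : ℂ) ∈ ball (0 : ℂ) 1 := by
    rw [mem_ball_zero_iff, Complex.norm_real, Real.norm_eq_abs, abs_of_nonneg hs0]
    exact hs1
  have nz : ∀ θ, ‖circleMap 0 s θ‖ = s := fun θ => by rw [norm_circleMap_zero, abs_of_nonneg hs0]
  have sa : Summable (fun n => ‖a n‖ * s ^ n) := by
    refine (hU _ hzs).summable.norm.congr fun n => ?_
    rw [norm_mul, norm_pow, Complex.norm_real, Real.norm_eq_abs, abs_of_nonneg hs0]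
  have sb : Summable (fun n => ‖b n‖ * s ^ n) := by
    refine (hW _ hzs).summable.norm.congr fun n => ?_
    rw [norm_mul, norm_pow, Complex.norm_real, Real.norm_eq_abs, abs_of_nonneg hs0]
  have hUcont : Continuous (fun θ : ℝ => U (circleMap 0 s θ)) :=
    hUc.comp_continuous (continuous_circleMap 0 s) hmem
  obtain ⟨C, hC⟩ := (isCompact_Icc (a := -π) (b := π)).exists_bound_of_continuousOn
    hUcont.continuousOn
  have hpi : (-π) ≤ π := by linarith only [Real.pi_pos]
  have hC0 : 0 ≤ C := le_trans (norm_nonneg _) (hC 0 ⟨by linarith [Real.pi_pos], Real.pi_pos.le⟩)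
  -- inner expansion
  have inner : ∀ k : ℕ, ∫ θ in (-π)..π, U (circleMap 0 s θ) * conj (circleMap 0 s θ) ^ k =
      2 * π * (a k * (s : ℂ) ^ (2 * k)) := by
    intro k
    have h := intervalIntegral.hasSum_integral_of_dominated_convergence
      (μ := volume) (a := -π) (b := π)
      (F := fun j θ => (a j * circleMap 0 s θ ^ j) * conj (circleMap 0 s θ) ^ k)
      (f := fun θ => U (circleMap 0 s θ) * conj (circleMap 0 s θ) ^ k)
      (bound := fun j _ => (‖a j‖ * s ^ j) * s ^ k) ?_ ?_ ?_ ?_ ?_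
    · have h2 : ∀ j, ∫ θ in (-π)..π, (a j * circleMap 0 s θ ^ j) * conj (circleMap 0 s θ) ^ k =
          a j * (if j = k then 2 * π * (s : ℂ) ^ (2 * k) else 0) := by
        intro j
        rw [← orth s j k, ← intervalIntegral.integral_const_mul]
        congr 1; ext θ; ring
      simp only [h2] at h
      have h3 : HasSum (fun j => a j * (if j = k then 2 * π * (s : ℂ) ^ (2 * k) else 0))
          (a k * (if k = k then 2 * π * (s : ℂ) ^ (2 * k) else 0)) := by
        apply hasSum_single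
        intro j hj
        simp [hj]
      rw [h.unique h3]
      simp only [↓reduceIte]
      ring
    · intro j
      apply Continuous.aestronglyMeasurable
      have := continuous_circleMap 0 s
      fun_prop
    · intro j
      refine Eventually.of_forall fun θ _ => ?_
      simp only [norm_mul, norm_pow, RCLike.norm_conj, nz]
      exact le_refl _
    · refine Eventually.of_forall fun θ _ => sa.mul_right _
    · exact intervalIntegrable_const
    · refine Eventually.of_forall fun θ _ => ?_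
      exact (hU _ (hmem θ)).mul_right _
  have h := intervalIntegral.hasSum_integral_of_dominated_convergence
      (μ := volume) (a := -π) (b := π)
      (F := fun k θ => conj (b k) * (U (circleMap 0 s θ) * conj (circleMap 0 s θ) ^ k))
      (f := fun θ => U (circleMap 0 s θ) * conj (W (circleMap 0 s θ)))
      (bound := fun k _ => (‖b k‖ * s ^ k) * C) ?_ ?_ ?_ ?_ ?_
  · refine hasSum_of_eq (fun k => ?_) h
    rw [intervalIntegral.integral_const_mul, inner k]
    ring
  · intro k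
    apply Continuous.aestronglyMeasurable
    exact continuous_const.mul (hUcont.mul ((Complex.continuous_conj.comp
      (continuous_circleMap 0 s)).pow k))
  · intro k
    refine Eventually.of_forall fun θ hθ => ?_
    rw [uIoc_of_le hpi] at hθ
    simp only [norm_mul, norm_pow, RCLike.norm_conj, nz]
    have := hC θ (Ioc_subset_Icc_self hθ)
    calc ‖b k‖ * (‖U (circleMap 0 s θ)‖ * s ^ k) = (‖b k‖ * s ^ k) * ‖U (circleMap 0 s θ)‖ := by ring
      _ ≤ (‖b k‖ * s ^ k) * C := by (clear * - this hs0; gcongr)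
  · refine Eventually.of_forall fun θ _ => sb.mul_right _
  · exact intervalIntegrable_const
  · refine Eventually.of_forall fun θ _ => ?_
    have h2 := Complex.hasSum_conj'.mpr (hW _ (hmem θ))
    have h3 := h2.mul_left (U (circleMap 0 s θ))
    refine hasSum_of_eq (fun n => ?_) h3
    rw [map_mul, map_pow]
    ring

end

end Vale.Agent.P142
end

section

/-!
# The Brownian driving function: a clean version and the facts used later
-/

namespace Vale.Agent.P164

open Set Metric Filter Topology MeasureTheory ProbabilityTheory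
open scoped NNReal ENNReal

noncomputable section

variable {Ω : Type*} [mΩ : MeasurableSpace Ω]

/-- The past of the process up to time `t`. -/
def past (W : ℝ → Ω → ℝ) (t : ℝ) : MeasurableSpace Ω :=
  ⨆ s : Icc (0 : ℝ) t, MeasurableSpace.comap (W s) inferInstance

/-- The future increments after time `t`. -/
def fut (W : ℝ → Ω → ℝ) (t : ℝ) : MeasurableSpace Ω :=
  ⨆ s : Ici t, MeasurableSpace.comap (fun ω => W s ω - W t ω) inferInstance

/-- `W` is `√κ` times a Brownian motion on `[0,∞)`, all paths continuous. -/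
structure IsDrv (κ : ℝ) (P : Measure Ω) (W : ℝ → Ω → ℝ) : Prop where
  prob : IsProbabilityMeasure P
  meas : ∀ t, Measurable (W t)
  cont : ∀ ω, Continuous (fun t => W t ω)
  zero : ∀ ω, W 0 ω = 0
  indep : ∀ t, 0 ≤ t → Indep (past W t) (fut W t) P
  incr : ∀ s t, 0 ≤ s → s ≤ t →
    P.map (fun ω => W t ω - W s ω) = gaussianReal 0 (κ * (t - s)).toNNReal

/-- Oscillation of the driving function on `[t, t+δ]`. -/
def osc (W : ℝ → Ω → ℝ) (t δ : ℝ) (ω : Ω) : ℝ :=
  ⨆ u : Icc (0 : ℝ) δ, |W (t + u) ω - W t ω|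

variable {κ : ℝ} {P : Measure Ω} {W : ℝ → Ω → ℝ} {s t δ : ℝ}

lemma past_mono (hst : s ≤ t) : past W s ≤ past W t := by
  refine iSup_le fun u => ?_
  exact le_iSup_of_le (⟨u, u.2.1, u.2.2.trans hst⟩ : Icc (0 : ℝ) t) le_rfl

namespace IsDrv

lemma past_le (hW : IsDrv κ P W) : past W t ≤ mΩ :=
  iSup_le fun u => (hW.meas u).comap_le

lemma fut_le (hW : IsDrv κ P W) : fut W t ≤ mΩ :=
  iSup_le fun u => ((hW.meas u).sub (hW.meas t)).comap_le

lemma meas_past (hs : 0 ≤ s) (hst : s ≤ t) : Measurable[past W t] (W s) := by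
  have h : MeasurableSpace.comap (W s) inferInstance ≤ past W t :=
    le_iSup_of_le (⟨s, hs, hst⟩ : Icc (0 : ℝ) t) le_rfl
  exact (comap_measurable (W s)).mono h le_rfl

lemma meas_incr (hδ : 0 ≤ δ) : Measurable[fut W t] (fun ω => W (t + δ) ω - W t ω) := by
  have h : MeasurableSpace.comap (fun ω => W (t + δ) ω - W t ω) inferInstance ≤ fut W t :=
    le_iSup_of_le (⟨t + δ, by simp only [mem_Ici, le_add_iff_nonneg_right, hδ]⟩ : Ici t) le_rfl
  exact (comap_measurable (fun ω => W (t + δ) ω - W t ω)).mono h le_rfl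

lemma osc_bdd (hW : IsDrv κ P W) (ω : Ω) :
    BddAbove (range fun u : Icc (0 : ℝ) δ => |W (t + u) ω - W t ω|) := by
  have hc : Continuous fun u : Icc (0 : ℝ) δ => |W (t + u) ω - W t ω| := by
    have := hW.cont ω
    fun_prop
  exact (isCompact_range hc).bddAbove

lemma meas_osc (hW : IsDrv κ P W) (hδ : 0 ≤ δ) : Measurable[fut W t] (osc W t δ) := by
  have : Nonempty (Icc (0 : ℝ) δ) := ⟨⟨0, le_rfl, hδ⟩⟩
  obtain ⟨S, hSc, hSd⟩ := TopologicalSpace.exists_countable_dense (Icc (0 : ℝ) δ)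
  have : Countable S := hSc.to_subtype
  have : Nonempty S := hSd.nonempty.to_subtype
  have key : osc W t δ = fun ω => ⨆ u : S, |W (t + (u : Icc (0 : ℝ) δ)) ω - W t ω| := by
    funext ω
    have hb := hW.osc_bdd (t := t) (δ := δ) ω
    have hbS : BddAbove (range fun u : S => |W (t + (u : Icc (0 : ℝ) δ)) ω - W t ω|) := by
      refine hb.mono ?_
      rintro _ ⟨u, rfl⟩
      exact ⟨u, rfl⟩
    apply le_antisymm
    · refine ciSup_le fun u => ?_
      have hcl : IsClosed {u : Icc (0 : ℝ) δ | |W (t + u) ω - W t ω| ≤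
          ⨆ u : S, |W (t + (u : Icc (0 : ℝ) δ)) ω - W t ω|} := by
        refine isClosed_le ?_ continuous_const
        have := hW.cont ω
        fun_prop
      have hsub : S ⊆ {u : Icc (0 : ℝ) δ | |W (t + u) ω - W t ω| ≤
          ⨆ u : S, |W (t + (u : Icc (0 : ℝ) δ)) ω - W t ω|} := fun v hv =>
        le_ciSup hbS ⟨v, hv⟩
      have := hcl.closure_subset_iff.2 hsub
      rw [hSd.closure_eq] at this
      exact this (mem_univ u)
    · refine ciSup_le fun u => ?_
      exact le_ciSup hb (u : Icc (0 : ℝ) δ)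
  rw [key]
  refine Measurable.iSup fun u => ?_
  have h1 : Measurable[fut W t] (fun ω => W (t + (u : Icc (0 : ℝ) δ)) ω - W t ω) :=
    meas_incr (u : Icc (0 : ℝ) δ).2.1
  exact (continuous_abs.measurable).comp h1

lemma osc_nonneg (hW : IsDrv κ P W) (hδ : 0 ≤ δ) (ω : Ω) : 0 ≤ osc W t δ ω :=
  (abs_nonneg _).trans (le_ciSup (hW.osc_bdd (t := t) (δ := δ) ω) ⟨0, le_rfl, hδ⟩)

lemma le_osc (hW : IsDrv κ P W) (ω : Ω) {u : ℝ} (hu : u ∈ Icc t (t + δ)) :
    |W u ω - W t ω| ≤ osc W t δ ω := by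
  have h := le_ciSup (hW.osc_bdd (t := t) (δ := δ) ω) ⟨u - t, by linarith [hu.1], by linarith [hu.2]⟩
  simpa only [osc, ge_iff_le, add_sub_cancel] using h

/-- The oscillation on short intervals tends to zero along each path, uniformly. -/
lemma osc_small (hW : IsDrv κ P W) (T : ℝ) (ω : Ω) {ε : ℝ} (hε : 0 < ε) :
    ∃ δ₀ > 0, ∀ δ, 0 ≤ δ → δ ≤ δ₀ → ∀ t ∈ Icc 0 T, osc W t δ ω ≤ ε := by
  have huc : UniformContinuousOn (fun t => W t ω) (Icc 0 (T + 1)) :=
    isCompact_Icc.uniformContinuousOn_of_continuous (hW.cont ω).continuousOn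
  rw [Metric.uniformContinuousOn_iff] at huc
  obtain ⟨d, hd, H⟩ := huc ε hε
  refine ⟨min (d / 2) 1, by positivity, fun δ hδ0 hδ t ht => ?_⟩
  have : Nonempty (Icc (0 : ℝ) δ) := ⟨⟨0, le_rfl, hδ0⟩⟩
  refine ciSup_le fun u => ?_
  have hu0 := u.2.1
  have hu1 := u.2.2
  have h1 : δ ≤ d / 2 := hδ.trans (min_le_left _ _)
  have h2 : δ ≤ 1 := hδ.trans (min_le_right _ _)
  have := H (t + u) ⟨by linarith only [hu0, ht.1], by linarith only [hu1, h2, ht.2]⟩ t ⟨ht.1, by linarith only [ht.2]⟩ (by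
    rw [Real.dist_eq]
    rw [abs_lt]
    constructor <;> linarith only [hd, hu0, hu1, h1])
  rw [Real.dist_eq] at this
  exact this.le

lemma law_incr (hW : IsDrv κ P W) (ht : 0 ≤ t) (hδ : 0 ≤ δ) :
    P.map (fun ω => W (t + δ) ω - W t ω) = gaussianReal 0 (κ * δ).toNNReal := by
  have := hW.incr t (t + δ) ht (by linarith only [hδ])
  rwa [add_sub_cancel_left] at this

lemma incr_integral (hκ : 0 < κ) (hW : IsDrv κ P W) (ht : 0 ≤ t) (hδ : 0 ≤ δ) :
    Integrable (fun ω => W (t + δ) ω - W t ω) P ∧ ∫ ω, (W (t + δ) ω - W t ω) ∂P = 0 := by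
  have hm : AEMeasurable (fun ω => W (t + δ) ω - W t ω) P :=
    ((hW.meas (t + δ)).sub (hW.meas t)).aemeasurable
  have hlaw := hW.law_incr ht hδ
  constructor
  · have h1 : Integrable (fun x : ℝ => x) (P.map (fun ω => W (t + δ) ω - W t ω)) := by
      rw [hlaw]
      exact (memLp_id_gaussianReal 1).integrable (by norm_num)
    exact (integrable_map_measure (by fun_prop) hm).1 h1
  · have h1 := integral_map (f := fun x : ℝ => x) hm (by fun_prop)
    rw [hlaw, integral_id_gaussianReal] at h1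
    exact h1.symm

lemma incr_sq_integral (hκ : 0 < κ) (hW : IsDrv κ P W) (ht : 0 ≤ t) (hδ : 0 ≤ δ) :
    Integrable (fun ω => (W (t + δ) ω - W t ω) ^ 2) P ∧
      ∫ ω, (W (t + δ) ω - W t ω) ^ 2 ∂P = κ * δ := by
  have hm : AEMeasurable (fun ω => W (t + δ) ω - W t ω) P :=
    ((hW.meas (t + δ)).sub (hW.meas t)).aemeasurable
  have hlaw := hW.law_incr ht hδ
  constructor
  · have h1 : Integrable (fun x : ℝ => x ^ 2) (P.map (fun ω => W (t + δ) ω - W t ω)) := by
      rw [hlaw]
      exact (memLp_id_gaussianReal 2).integrable_sq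
    exact (integrable_map_measure (by fun_prop) hm).1 h1
  · have h1 := integral_map (f := fun x : ℝ => x ^ 2) hm (by fun_prop)
    rw [hlaw] at h1
    rw [← h1]
    have hv := variance_id_gaussianReal (μ := 0) (v := (κ * δ).toNNReal)
    rw [variance_eq_sub (memLp_id_gaussianReal 2)] at hv
    simp only [id_eq, integral_id_gaussianReal, Pi.pow_apply] at hv
    rw [Real.coe_toNNReal _ (by (clear * - hκ hδ; positivity))] at hv
    simpa only [ne_eq, OfNat.ofNat_ne_zero, not_false_eq_true, zero_pow, sub_zero] using hv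

/-- Independence of past and future, integrated form. -/
theorem integral_mul_fut (hW : IsDrv κ P W) (ht : 0 ≤ t) {f g : Ω → ℝ}
    (hf : Measurable[past W t] f) (hg : Measurable[fut W t] g) (hfi : Integrable f P)
    (hgi : Integrable g P) :
    Integrable (fun ω => f ω * g ω) P ∧ ∫ ω, f ω * g ω ∂P = (∫ ω, f ω ∂P) * ∫ ω, g ω ∂P := by
  have hind : IndepFun f g P := by
    rw [IndepFun_iff_Indep]
    exact indep_of_indep_of_le_left (indep_of_indep_of_le_right (hW.indep t ht) hg.comap_le)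
      hf.comap_le
  refine ⟨hind.integrable_mul hfi hgi, ?_⟩
  exact hind.integral_fun_mul_eq_mul_integral hfi.aestronglyMeasurable hgi.aestronglyMeasurable

end IsDrv

end

end Vale.Agent.P164
end

section

/-!
# Moments of the oscillation of Brownian motion
-/

namespace Vale.Agent.P164

open Set Metric Filter Topology MeasureTheory ProbabilityTheory
open scoped NNReal ENNReal

namespace OscMom

/-- A centred Gaussian charges each closed half line with mass at least `1/2`. -/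
lemma gauss_half (v : ℝ≥0) (ε : ℝ) : 1 ≤ 2 * gaussianReal 0 v {x | 0 ≤ ε * x} := by
  have hm : MeasurableSet {x : ℝ | 0 ≤ ε * x} :=
    measurableSet_le measurable_const (measurable_const.mul measurable_id)
  have h1 : gaussianReal 0 v {x | 0 ≤ ε * (-x)} = gaussianReal 0 v {x | 0 ≤ ε * x} := by
    have h2 : (gaussianReal 0 v).map (fun x ↦ -x) = gaussianReal 0 v := by
      rw [gaussianReal_map_neg, neg_zero]
    conv_rhs => rw [← h2]
    rw [Measure.map_apply measurable_neg hm]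
    rfl
  calc (1 : ℝ≥0∞) = gaussianReal 0 v univ := by simp
    _ ≤ gaussianReal 0 v ({x | 0 ≤ ε * x} ∪ {x | 0 ≤ ε * (-x)}) := by
        refine measure_mono fun x _ => ?_
        rcases le_total 0 (ε * x) with h | h
        · exact Or.inl h
        · refine Or.inr ?_
          change 0 ≤ ε * (-x)
          linarith
    _ ≤ gaussianReal 0 v {x | 0 ≤ ε * x} + gaussianReal 0 v {x | 0 ≤ ε * (-x)} :=
        measure_union_le _ _
    _ = 2 * gaussianReal 0 v {x | 0 ≤ ε * x} := by rw [h1, two_mul]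

variable {κ : ℝ} {Ω : Type*} [mΩ : MeasurableSpace Ω] {P : Measure Ω} {W : ℝ → Ω → ℝ}

/-- Lévy's maximal inequality, one-sided, along a monotone sequence of times. -/
lemma levy_one (hW : IsDrv κ P W) {τ : ℕ → ℝ} (hτ : Monotone τ) (h0 : 0 ≤ τ 0) (n : ℕ)
    (a ε : ℝ) :
    P {ω | ∃ j ≤ n, a < ε * (W (τ j) ω - W (τ 0) ω)} ≤
      2 * P {ω | a < ε * (W (τ n) ω - W (τ 0) ω)} := by
  classical
  set F : ℕ → Set Ω := fun j =>
    {ω | a < ε * (W (τ j) ω - W (τ 0) ω) ∧ ∀ i < j, ε * (W (τ i) ω - W (τ 0) ω) ≤ a} with hF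
  set G : ℕ → Set Ω := fun j => {ω | 0 ≤ ε * (W (τ n) ω - W (τ j) ω)} with hG
  have hτ0 : ∀ j, 0 ≤ τ j := fun j => h0.trans (hτ (Nat.zero_le j))
  have mFp : ∀ j, MeasurableSet[past W (τ j)] (F j) := by
    intro j
    have e : F j = {ω | a < ε * (W (τ j) ω - W (τ 0) ω)} ∩
        ⋂ i ∈ Finset.range j, {ω | ε * (W (τ i) ω - W (τ 0) ω) ≤ a} := by
      ext ω
      simp only [hF, mem_ofPred_eq, Finset.mem_range, mem_inter_iff, mem_iInter]
    have hm : ∀ i, i ≤ j → Measurable[past W (τ j)] fun ω => ε * (W (τ i) ω - W (τ 0) ω) := by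
      intro i hi
      have h1 : Measurable[past W (τ j)] (W (τ i)) := IsDrv.meas_past (hτ0 i) (hτ hi)
      have h2 : Measurable[past W (τ j)] (W (τ 0)) := IsDrv.meas_past (hτ0 0) (hτ (Nat.zero_le j))
      exact (h1.sub h2).const_mul ε
    rw [e]
    refine MeasurableSet.inter ?_ (Finset.measurableSet_biInter _ fun i hi => ?_)
    · exact measurableSet_lt measurable_const (hm j le_rfl)
    · exact measurableSet_le (hm i (Finset.mem_range.1 hi).le) measurable_const
  have mGf : ∀ j ≤ n, MeasurableSet[fut W (τ j)] (G j) := by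
    intro j hj
    have h1 : Measurable[fut W (τ j)] (fun ω => W (τ j + (τ n - τ j)) ω - W (τ j) ω) :=
      IsDrv.meas_incr (sub_nonneg.2 (hτ hj))
    rw [add_sub_cancel] at h1
    exact measurableSet_le measurable_const (h1.const_mul ε)
  have mF : ∀ j, MeasurableSet (F j) := fun j => (hW.past_le) _ (mFp j)
  have mG : ∀ j ≤ n, MeasurableSet (G j) := fun j hj => (hW.fut_le) _ (mGf j hj)
  have hdis : Pairwise (Function.onFun Disjoint F) := by
    have key : ∀ i j, i < j → Disjoint (F i) (F j) := by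
      intro i j hij
      rw [Set.disjoint_left]
      intro ω h1 h2
      exact absurd h1.1 (not_lt.2 (h2.2 i hij))
    intro i j hij
    rcases lt_or_gt_of_ne hij with h | h
    · exact key i j h
    · exact (key j i h).symm
  have hG2 : ∀ j ≤ n, 1 ≤ 2 * P (G j) := by
    intro j hj
    have h1 := gauss_half (κ * (τ n - τ j)).toNNReal ε
    have hmm : Measurable fun ω => W (τ n) ω - W (τ j) ω := (hW.meas _).sub (hW.meas _)
    have hms : MeasurableSet {x : ℝ | 0 ≤ ε * x} :=
      measurableSet_le measurable_const (measurable_const.mul measurable_id)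
    rw [← hW.incr (τ j) (τ n) (hτ0 j) (hτ hj), Measure.map_apply hmm hms] at h1
    exact h1
  have hcov : {ω | ∃ j ≤ n, a < ε * (W (τ j) ω - W (τ 0) ω)} ⊆
      ⋃ j ∈ Finset.range (n + 1), F j := by
    intro ω hω
    have hex : ∃ j, j ≤ n ∧ a < ε * (W (τ j) ω - W (τ 0) ω) := by
      obtain ⟨j, hj, h⟩ := hω
      exact ⟨j, hj, h⟩
    have hs := Nat.find_spec hex
    refine mem_iUnion₂.2 ⟨Nat.find hex, Finset.mem_range.2 (Nat.lt_succ_of_le hs.1), hs.2, ?_⟩
    intro i hi
    have := Nat.find_min hex hi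
    push Not at this
    exact this (hi.le.trans hs.1)
  calc P {ω | ∃ j ≤ n, a < ε * (W (τ j) ω - W (τ 0) ω)}
      ≤ P (⋃ j ∈ Finset.range (n + 1), F j) := measure_mono hcov
    _ ≤ ∑ j ∈ Finset.range (n + 1), P (F j) := measure_biUnion_finset_le _ _
    _ ≤ ∑ j ∈ Finset.range (n + 1), 2 * P (F j ∩ G j) := by
        refine Finset.sum_le_sum fun j hj => ?_
        have hj' : j ≤ n := Nat.lt_succ_iff.1 (Finset.mem_range.1 hj)
        have hi : P (F j ∩ G j) = P (F j) * P (G j) :=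
          (Indep_iff _ _ _).1 (hW.indep (τ j) (hτ0 j)) _ _ (mFp j) (mGf j hj')
        rw [hi]
        calc P (F j) = P (F j) * 1 := (mul_one _).symm
          _ ≤ P (F j) * (2 * P (G j)) := by gcongr; exact hG2 j hj'
          _ = 2 * (P (F j) * P (G j)) := by ring
    _ = 2 * ∑ j ∈ Finset.range (n + 1), P (F j ∩ G j) := by rw [Finset.mul_sum]
    _ = 2 * P (⋃ j ∈ Finset.range (n + 1), F j ∩ G j) := by
        rw [measure_biUnion_finset]
        · intro i _ j _ hij
          exact (hdis hij).mono inter_subset_left inter_subset_left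
        · intro j hj
          exact (mF j).inter (mG j (Nat.lt_succ_iff.1 (Finset.mem_range.1 hj)))
    _ ≤ 2 * P {ω | a < ε * (W (τ n) ω - W (τ 0) ω)} := by
        gcongr
        refine iUnion₂_subset fun j _ => ?_
        rintro ω ⟨h1, h2⟩
        have h3 : a < ε * (W (τ j) ω - W (τ 0) ω) := h1.1
        have h4 : 0 ≤ ε * (W (τ n) ω - W (τ j) ω) := h2
        change a < ε * (W (τ n) ω - W (τ 0) ω)
        have h5 : ε * (W (τ n) ω - W (τ 0) ω) =
          ε * (W (τ n) ω - W (τ j) ω) + ε * (W (τ j) ω - W (τ 0) ω) := by ring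
        linarith only [h3, h4]

/-- Two-sided version. -/
lemma levy_two (hW : IsDrv κ P W) {τ : ℕ → ℝ} (hτ : Monotone τ) (h0 : 0 ≤ τ 0) (n : ℕ)
    (a : ℝ) :
    P {ω | ∃ j ≤ n, a < |W (τ j) ω - W (τ 0) ω|} ≤
      4 * P {ω | a < |W (τ n) ω - W (τ 0) ω|} := by
  have h1 := levy_one hW hτ h0 n a 1
  have h2 := levy_one hW hτ h0 n a (-1)
  have e1 : P {ω | a < 1 * (W (τ n) ω - W (τ 0) ω)} ≤
      P {ω | a < |W (τ n) ω - W (τ 0) ω|} := by
    refine measure_mono fun ω hω => ?_
    have h : a < 1 * (W (τ n) ω - W (τ 0) ω) := hω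
    rw [one_mul] at h
    exact h.trans_le (le_abs_self _)
  have e2 : P {ω | a < -1 * (W (τ n) ω - W (τ 0) ω)} ≤
      P {ω | a < |W (τ n) ω - W (τ 0) ω|} := by
    refine measure_mono fun ω hω => ?_
    have h : a < -1 * (W (τ n) ω - W (τ 0) ω) := hω
    rw [neg_one_mul] at h
    exact h.trans_le (neg_le_abs _)
  calc P {ω | ∃ j ≤ n, a < |W (τ j) ω - W (τ 0) ω|}
      ≤ P ({ω | ∃ j ≤ n, a < 1 * (W (τ j) ω - W (τ 0) ω)} ∪
          {ω | ∃ j ≤ n, a < -1 * (W (τ j) ω - W (τ 0) ω)}) := by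
        refine measure_mono ?_
        rintro ω ⟨j, hj, h⟩
        rcases lt_abs.1 h with h | h
        · exact Or.inl ⟨j, hj, by rwa [one_mul]⟩
        · exact Or.inr ⟨j, hj, by rwa [neg_one_mul]⟩
    _ ≤ _ := measure_union_le _ _
    _ ≤ 2 * P {ω | a < |W (τ n) ω - W (τ 0) ω|} + 2 * P {ω | a < |W (τ n) ω - W (τ 0) ω|} :=
        add_le_add (h1.trans (by gcongr)) (h2.trans (by gcongr))
    _ = 4 * P {ω | a < |W (τ n) ω - W (τ 0) ω|} := by ring

/-- The dyadic grid of `[t, t+δ]`. -/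
lemma grid_mono {t δ : ℝ} (hδ : 0 ≤ δ) (n : ℕ) :
    Monotone fun j : ℕ => t + δ * (j / 2 ^ n : ℝ) := by
  intro i j hij
  have : (i : ℝ) ≤ j := by exact_mod_cast hij
  dsimp only
  gcongr

/-- The tail of the oscillation. -/
lemma osc_tail (hW : IsDrv κ P W) {t δ : ℝ} (ht : 0 ≤ t) (hδ : 0 ≤ δ) (a : ℝ) (ha : 0 ≤ a) :
    P {ω | a < osc W t δ ω} ≤ 4 * P {ω | a < |W (t + δ) ω - W t ω|} := by
  set A : ℕ → Set Ω := fun n =>
    {ω | ∃ j : ℕ, j ≤ 2 ^ n ∧ a < |W (t + δ * (j / 2 ^ n : ℝ)) ω - W t ω|} with hA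
  have hAm : Monotone A := by
    refine monotone_nat_of_le_succ fun n => ?_
    rintro ω ⟨j, hj, h⟩
    refine ⟨2 * j, by rw [pow_succ]; omega, ?_⟩
    have e : ((2 * j : ℕ) : ℝ) / 2 ^ (n + 1) = j / 2 ^ n := by
      push_cast
      rw [pow_succ]
      (clear * -; field_simp)
    rw [e]
    exact h
  have hbd : ∀ n, P (A n) ≤ 4 * P {ω | a < |W (t + δ) ω - W t ω|} := by
    intro n
    have h := levy_two hW (grid_mono (t := t) hδ n) (by simpa only [CharP.cast_eq_zero, zero_div, mul_zero, add_zero] using ht) (2 ^ n) a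
    have e1 : t + δ * (((2 ^ n : ℕ) : ℝ) / 2 ^ n) = t + δ := by
      push_cast
      rw [div_self (by positivity), mul_one]
    have e2 : t + δ * (((0 : ℕ) : ℝ) / 2 ^ n) = t := by simp
    simp only [e1, e2] at h
    exact h
  have hsub : {ω | a < osc W t δ ω} ⊆ ⋃ n, A n := by
    intro ω hω
    have hω' : a < ⨆ u : Icc (0 : ℝ) δ, |W (t + u) ω - W t ω| := hω
    have : Nonempty (Icc (0 : ℝ) δ) := ⟨⟨0, le_rfl, hδ⟩⟩
    obtain ⟨⟨u, hu⟩, hu2⟩ := exists_lt_of_lt_ciSup hω'
    have hu2 : a < |W (t + u) ω - W t ω| := hu2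
    have hδ0 : 0 < δ := by
      rcases hδ.lt_or_eq with h | h
      · exact h
      · exfalso
        have : u = 0 := le_antisymm (by rw [h]; exact hu.2) hu.1
        rw [this, add_zero, sub_self, abs_zero] at hu2
        linarith only [ha, hu2]
    -- dyadic approximation
    have hlim : Tendsto (fun n : ℕ => t + δ * ((⌊u / δ * 2 ^ n⌋₊ : ℝ) / 2 ^ n)) atTop
        (𝓝 (t + u)) := by
      have h1 : Tendsto (fun n : ℕ => (⌊u / δ * 2 ^ n⌋₊ : ℝ) / 2 ^ n) atTop (𝓝 (u / δ)) :=
        (tendsto_nat_floor_mul_div_atTop (div_nonneg hu.1 hδ)).comp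
          (tendsto_pow_atTop_atTop_of_one_lt (one_lt_two : (1 : ℝ) < 2))
      have h2 := (h1.const_mul δ).const_add t
      have e : δ * (u / δ) = u := by (clear * - hδ0; field_simp)
      rwa [e] at h2
    have hc : Continuous fun x => |W x ω - W t ω| := ((hW.cont ω).sub continuous_const).abs
    have hev := ((hc.tendsto (t + u)).comp hlim).eventually (lt_mem_nhds hu2)
    obtain ⟨n, hn⟩ := hev.exists
    refine mem_iUnion.2 ⟨n, ⌊u / δ * 2 ^ n⌋₊, ?_, hn⟩
    have h3 : u / δ * 2 ^ n ≤ ((2 ^ n : ℕ) : ℝ) := by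
      push_cast
      have : u / δ ≤ 1 := (div_le_one hδ0).2 hu.2
      nlinarith only [this, pow_pos (two_pos : (0 : ℝ) < 2) n]
    exact Nat.floor_le_of_le h3
  calc P {ω | a < osc W t δ ω} ≤ P (⋃ n, A n) := measure_mono hsub
    _ = ⨆ n, P (A n) := hAm.measure_iUnion
    _ ≤ _ := iSup_le hbd

/-- Moments of the Gaussian increments. -/
lemma incr_moment (hκ : 0 < κ) (hW : IsDrv κ P W) {t δ : ℝ} (ht : 0 ≤ t) (hδ : 0 ≤ δ) (k : ℕ) :
    ∫⁻ ω, ENNReal.ofReal (|W (t + δ) ω - W t ω| ^ k) ∂P =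
      ENNReal.ofReal ((√κ * √δ) ^ k) * ∫⁻ x, ENNReal.ofReal (|x| ^ k) ∂(gaussianReal 0 1) := by
  have hmeas : Measurable fun x : ℝ => ENNReal.ofReal (|x| ^ k) := by fun_prop
  have h1 : ∫⁻ ω, ENNReal.ofReal (|W (t + δ) ω - W t ω| ^ k) ∂P =
      ∫⁻ x, ENNReal.ofReal (|x| ^ k) ∂(gaussianReal 0 (κ * δ).toNNReal) := by
    have h2 := hW.incr t (t + δ) ht (by linarith)
    rw [add_sub_cancel_left] at h2
    have hmm : Measurable fun ω => W (t + δ) ω - W t ω := (hW.meas _).sub (hW.meas _)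
    rw [← h2, lintegral_map hmeas hmm]
  have h3 : gaussianReal 0 (κ * δ).toNNReal =
      (gaussianReal 0 1).map ((√κ * √δ) * ·) := by
    rw [gaussianReal_map_const_mul]
    congr 1
    · simp
    · rw [mul_one]
      ext
      rw [Real.coe_toNNReal _ (by positivity)]
      simp only [NNReal.coe_mk]
      rw [mul_pow, Real.sq_sqrt hκ.le, Real.sq_sqrt hδ]
  rw [h1, h3, lintegral_map hmeas (by fun_prop)]
  rw [← lintegral_const_mul _ hmeas]
  refine lintegral_congr fun x => ?_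
  rw [← ENNReal.ofReal_mul (by (clear * - hκ; positivity)), abs_mul, mul_pow,
    abs_of_nonneg (by positivity : 0 ≤ √κ * √δ)]

lemma gauss_moment_lt_top (k : ℕ) :
    ∫⁻ x, ENNReal.ofReal (|x| ^ k) ∂(gaussianReal 0 1) < ∞ := by
  have h2 : Integrable (fun x : ℝ => |x| ^ k) (gaussianReal 0 1) := by
    simpa only [id_eq, Real.norm_eq_abs] using     (memLp_id_gaussianReal (μ := 0) (v := 1) (k : ℝ≥0)).integrable_norm_pow'
  have := h2.hasFiniteIntegral
  rw [hasFiniteIntegral_iff_ofReal (ae_of_all _ fun x => by positivity)] at this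
  exact this

/-- The main estimate in `ℝ≥0∞`. -/
lemma osc_lintegral (hκ : 0 < κ) (hW : IsDrv κ P W) {t δ : ℝ} (ht : 0 ≤ t) (hδ : 0 ≤ δ)
    (k : ℕ) (hk : k ≠ 0) :
    ∫⁻ ω, ENNReal.ofReal (osc W t δ ω ^ k) ∂P ≤
      4 * (ENNReal.ofReal ((√κ * √δ) ^ k) *
        ∫⁻ x, ENNReal.ofReal (|x| ^ k) ∂(gaussianReal 0 1)) := by
  have hkpos : (0 : ℝ) < k := by exact_mod_cast Nat.pos_of_ne_zero hk
  have hmo : Measurable (osc W t δ) := (hW.meas_osc (t := t) hδ).mono hW.fut_le le_rfl
  have hmi : Measurable fun ω => |W (t + δ) ω - W t ω| := ((hW.meas _).sub (hW.meas _)).abs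
  rw [← incr_moment hκ hW ht hδ k]
  have h1 := lintegral_rpow_eq_lintegral_meas_lt_mul P
    (f := osc W t δ) (ae_of_all _ fun ω => hW.osc_nonneg hδ ω) hmo.aemeasurable hkpos
  have h2 := lintegral_rpow_eq_lintegral_meas_lt_mul P
    (f := fun ω => |W (t + δ) ω - W t ω|) (ae_of_all _ fun ω => abs_nonneg _) hmi.aemeasurable
    hkpos
  simp only [Real.rpow_natCast] at h1 h2
  rw [h1, h2, ← mul_assoc, mul_comm (4 : ℝ≥0∞), mul_assoc]
  gcongr
  rw [← lintegral_const_mul' _ _ (by simp)]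
  refine setLIntegral_mono' measurableSet_Ioi fun a ha => ?_
  rw [← mul_assoc]
  gcongr
  exact osc_tail hW ht hδ a (le_of_lt ha)

end OscMom

/-- All moments of the oscillation, with Brownian scaling. -/
theorem osc_moment (κ : ℝ) (hκ : 0 < κ) (k : ℕ) :
    ∃ C : ℝ, 0 < C ∧ ∀ {Ω : Type*} [MeasurableSpace Ω] {P : Measure Ω} {W : ℝ → Ω → ℝ}
      (_ : IsDrv κ P W) (t δ : ℝ), 0 ≤ t → 0 ≤ δ →
        Integrable (fun ω => osc W t δ ω ^ k) P ∧
          ∫ ω, osc W t δ ω ^ k ∂P ≤ C * √δ ^ k := by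
  set M : ℝ≥0∞ := ∫⁻ x, ENNReal.ofReal (|x| ^ k) ∂(gaussianReal 0 1) with hM
  have hMtop : M ≠ ∞ := (OscMom.gauss_moment_lt_top k).ne
  refine ⟨4 * √κ ^ k * M.toReal + 1, by positivity, ?_⟩
  intro Ω _ P W hW t δ ht hδ
  have := hW.prob
  have hmo : Measurable (osc W t δ) := (hW.meas_osc (t := t) hδ).mono hW.fut_le le_rfl
  have hnn : ∀ ω, 0 ≤ osc W t δ ω ^ k := fun ω => pow_nonneg (hW.osc_nonneg hδ ω) k
  rcases Nat.eq_zero_or_pos k with hk | hk
  · subst hk
    simp only [pow_zero]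
    refine ⟨integrable_const _, ?_⟩
    simp only [integral_const, probReal_univ, smul_eq_mul, mul_one]
    have : 0 ≤ M.toReal := ENNReal.toReal_nonneg
    linarith only [this]
  · have hle := OscMom.osc_lintegral hκ hW ht hδ k hk.ne'
    have hfin : 4 * (ENNReal.ofReal ((√κ * √δ) ^ k) * M) ≠ ∞ :=
      ENNReal.mul_ne_top (by simp) (ENNReal.mul_ne_top ENNReal.ofReal_ne_top hMtop)
    constructor
    · refine ⟨(hmo.pow_const k).aestronglyMeasurable, ?_⟩
      rw [hasFiniteIntegral_iff_ofReal (ae_of_all _ hnn)]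
      exact hle.trans_lt (lt_top_iff_ne_top.2 hfin)
    · rw [integral_eq_lintegral_of_nonneg_ae (ae_of_all _ hnn)
        (hmo.pow_const k).aestronglyMeasurable]
      have h1 := ENNReal.toReal_mono hfin hle
      refine h1.trans ?_
      rw [ENNReal.toReal_mul, ENNReal.toReal_mul, ENNReal.toReal_ofReal (by (clear * - hκ; positivity)), mul_pow]
      have h4 : (4 : ℝ≥0∞).toReal = 4 := by simp
      rw [h4]
      have : 0 ≤ √δ ^ k := by (clear * -; positivity)
      nlinarith only [this]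

end Vale.Agent.P164
end

section

/-!
# A layer-cake lemma (helper806)
-/

namespace Vale.Agent.P164.H806

open Set Metric Filter Topology MeasureTheory ProbabilityTheory
open scoped NNReal ENNReal

end Vale.Agent.P164.H806
end

section

/-!
# The Schwarz lemma for maps into the half-plane
-/

namespace Vale.Agent.P164

open Set Metric Filter Topology

/-- The Cayley type map sending `w` to `0`. -/
noncomputable def cay (w x : ℂ) : ℂ := (x - w) / (x - (starRingEnd ℂ) w)

lemma cay_den_ne {w x : ℂ} (hw : 0 < w.im) (hx : 0 < x.im) : x - (starRingEnd ℂ) w ≠ 0 := by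
  intro h0
  have := congrArg Complex.im h0
  simp only [Complex.sub_im, Complex.conj_im, Complex.zero_im] at this
  linarith only [hw, hx, this]

lemma norm_cay_le {w x : ℂ} (hw : 0 < w.im) (hx : 0 < x.im) : ‖cay w x‖ ≤ 1 := by
  rw [cay, norm_div, div_le_one (norm_pos_iff.2 (cay_den_ne hw hx)), Complex.norm_def,
    Complex.norm_def]
  apply Real.sqrt_le_sqrt
  rw [Complex.normSq_apply, Complex.normSq_apply]
  simp only [Complex.sub_re, Complex.sub_im, Complex.conj_re, Complex.conj_im]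
  nlinarith

lemma cay_hasDeriv {w x : ℂ} (hw : 0 < w.im) (hx : 0 < x.im) :
    HasDerivAt (cay w)
      ((1 * (x - (starRingEnd ℂ) w) - (x - w) * 1) / (x - (starRingEnd ℂ) w) ^ 2) x :=
  ((hasDerivAt_id x).sub_const w).div ((hasDerivAt_id x).sub_const _) (cay_den_ne hw hx)

lemma norm_sub_conj {w : ℂ} (hw : 0 < w.im) : ‖w - (starRingEnd ℂ) w‖ = 2 * w.im := by
  have e2 : w - (starRingEnd ℂ) w = ((2 * w.im : ℝ) : ℂ) * Complex.I := by
    apply Complex.ext <;> simp
    ring
  rw [e2, norm_mul, Complex.norm_I, mul_one, Complex.norm_real, Real.norm_eq_abs,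
    abs_of_pos (by linarith only [hw])]

lemma cay_comp {F : ℂ → ℂ} {c : ℂ} {ρ : ℝ} (hρ : 0 < ρ)
    (hF : DifferentiableOn ℂ F (ball c ρ)) (him : ∀ z ∈ ball c ρ, 0 < (F z).im) :
    DifferentiableOn ℂ (fun z => cay (F c) (F z)) (ball c ρ) ∧
      MapsTo (fun z => cay (F c) (F z)) (ball c ρ) (closedBall (cay (F c) (F c)) 1) := by
  have hc := him c (mem_ball_self hρ)
  refine ⟨fun z hz => ?_, fun z hz => ?_⟩
  · have h1 := (hF z hz).differentiableAt (isOpen_ball.mem_nhds hz)
    exact ((cay_hasDeriv hc (him z hz)).comp z h1.hasDerivAt).differentiableAt.differentiableWithinAt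
  · have : cay (F c) (F c) = 0 := by simp [cay]
    rw [this, mem_closedBall_zero_iff]
    exact norm_cay_le hc (him z hz)

/-- Schwarz lemma for maps from a disc to the upper half-plane, distance form. -/
theorem schwarz_half_dist {F : ℂ → ℂ} {c : ℂ} {ρ : ℝ} (hρ : 0 < ρ)
    (hF : DifferentiableOn ℂ F (ball c ρ)) (him : ∀ z ∈ ball c ρ, 0 < (F z).im) {z : ℂ}
    (hz : dist z c ≤ ρ / 2) :
    dist (F z) (F c) ≤ 4 * (F c).im * (dist z c / ρ) := by
  have hc := him c (mem_ball_self hρ)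
  have hzm : z ∈ ball c ρ := by rw [mem_ball]; linarith
  have hx := him z hzm
  obtain ⟨h1, h2⟩ := cay_comp hρ hF him
  have key := Complex.dist_le_div_mul_dist_of_mapsTo_ball h1 h2 hzm
  have h0 : cay (F c) (F c) = 0 := by simp [cay]
  simp only [h0, dist_zero_right] at key
  set k : ℝ := dist z c / ρ with hk
  have hk1 : ‖cay (F c) (F z)‖ ≤ k := by
    refine key.trans (le_of_eq ?_)
    rw [hk]; ring
  have hk2 : k ≤ 1 / 2 := by
    rw [hk, div_le_iff₀ hρ]; linarith only [hz]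
  have hden := cay_den_ne hc hx
  have e1 : (F z - F c) * (1 - cay (F c) (F z)) =
      cay (F c) (F z) * (F c - (starRingEnd ℂ) (F c)) := by
    rw [cay]
    field_simp
    ring
  have e2 := congrArg norm e1
  rw [norm_mul, norm_mul, norm_sub_conj hc] at e2
  have e3 : 1 - k ≤ ‖1 - cay (F c) (F z)‖ := by
    have := norm_sub_norm_le (1 : ℂ) (cay (F c) (F z))
    rw [norm_one] at this
    linarith only [hk1, this]
  rw [dist_eq_norm]
  have h5 : 0 ≤ ‖F z - F c‖ := norm_nonneg _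
  have h6 : ‖F z - F c‖ * (1 / 2) ≤ ‖F z - F c‖ * ‖1 - cay (F c) (F z)‖ :=
    mul_le_mul_of_nonneg_left (by linarith only [hk2, e3]) h5
  have h7 : ‖cay (F c) (F z)‖ * (2 * (F c).im) ≤ k * (2 * (F c).im) :=
    mul_le_mul_of_nonneg_right hk1 (by linarith only [hc])
  nlinarith only [e2, h6, h7]

end Vale.Agent.P164
end

section

/-!
# Sums of weakly integrable functions are almost surely finite
-/

namespace Vale.Agent.P164

open Set Filter Topology MeasureTheory
open scoped NNReal ENNReal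

/-- Weak `L¹` bounds (for possibly nonmeasurable functions) with summable logarithmic norms give
almost surely finite sums. -/
theorem weak_sum {Ω : Type*} [MeasurableSpace Ω] {P : Measure Ω} [IsProbabilityMeasure P]
    {ι : Type*} [Countable ι] {X : ι → Ω → ℝ≥0∞} {a : ι → ℝ≥0} {k : ι → ℕ} {C : ℝ≥0}
    (h : ∀ i, ∀ n : ℕ, P {ω | 2 ^ n * (a i : ℝ≥0∞) < X i ω} ≤ C * 2⁻¹ ^ n)
    (h1 : ∑' i, (a i : ℝ≥0∞) * (1 + k i) ≠ ⊤) (h2 : ∑' i, (2⁻¹ : ℝ≥0∞) ^ k i ≠ ⊤) :
    ∀ᵐ ω ∂P, ∑' i, X i ω < ⊤ := by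
  -- measurable supersets
  set E : ι → ℕ → Set Ω := fun i n => toMeasurable P {ω | 2 ^ n * (a i : ℝ≥0∞) < X i ω} with hE
  have hEm : ∀ i n, MeasurableSet (E i n) := fun i n => measurableSet_toMeasurable _ _
  have hEP : ∀ i n, P (E i n) ≤ C * 2⁻¹ ^ n := fun i n =>
    (measure_toMeasurable _).trans_le (h i n)
  -- each `X i` is finite
  have hfin : ∀ i, ∀ᵐ ω ∂P, X i ω < ⊤ := by
    intro i
    have h3 : P {ω | ¬ X i ω < ⊤} ≤ 0 := by
      have h4 : ∀ n : ℕ, P {ω | ¬ X i ω < ⊤} ≤ C * 2⁻¹ ^ n := by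
        intro n
        refine (measure_mono ?_).trans (h i n)
        intro ω hω
        have h5 : X i ω = ⊤ := not_lt_top_iff.1 hω
        change 2 ^ n * (a i : ℝ≥0∞) < X i ω
        rw [h5]
        exact ENNReal.mul_lt_top (by simp) ENNReal.coe_lt_top
      have h6 : Tendsto (fun n : ℕ => (C : ℝ≥0∞) * 2⁻¹ ^ n) atTop (𝓝 (C * 0)) :=
        ENNReal.Tendsto.const_mul (ENNReal.tendsto_pow_atTop_nhds_zero_of_lt_one
          (by norm_num)) (Or.inr ENNReal.coe_ne_top)
      rw [mul_zero] at h6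
      exact ge_of_tendsto' h6 h4
    exact ae_iff.2 (le_antisymm h3 zero_le)
  -- Borel-Cantelli
  have hBC : ∀ᵐ ω ∂P, {i | ω ∈ E i (k i)}.Finite := by
    refine ae_finite_setOf_mem (ne_top_of_le_ne_top ?_
      (ENNReal.tsum_le_tsum fun i => hEP i (k i)))
    rw [ENNReal.tsum_mul_left]
    exact ENNReal.mul_ne_top ENNReal.coe_ne_top h2
  -- the dominating functions
  set Y : ι → Ω → ℝ≥0∞ := fun i ω => a i * (1 + ∑ n ∈ Finset.range (k i),
    2 ^ (n + 1) * (E i n).indicator 1 ω) with hY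
  have hYm : ∀ i, Measurable (Y i) := by
    intro i
    refine Measurable.const_mul (Measurable.const_add (Finset.measurable_sum _ fun n _ => ?_) _) _
    exact (measurable_one.indicator (hEm i n)).const_mul _
  have hYint : ∀ i, ∫⁻ ω, Y i ω ∂P ≤ (2 * C + 1) * (a i * (1 + k i)) := by
    intro i
    have e1 : ∫⁻ ω, Y i ω ∂P = a i * (1 + ∑ n ∈ Finset.range (k i), 2 ^ (n + 1) * P (E i n)) := by
      simp only [hY]
      rw [lintegral_const_mul _ (by
        refine Measurable.const_add (Finset.measurable_sum _ fun n _ => ?_) _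
        exact (measurable_one.indicator (hEm i n)).const_mul _)]
      rw [lintegral_add_left measurable_const, lintegral_const, measure_univ, mul_one]
      rw [lintegral_finsetSum _ (fun n _ => (measurable_one.indicator (hEm i n)).const_mul _)]
      congr 2
      refine Finset.sum_congr rfl fun n _ => ?_
      rw [lintegral_const_mul _ (measurable_one.indicator (hEm i n)),
        lintegral_indicator_one (hEm i n)]
    rw [e1]
    have e2 : ∑ n ∈ Finset.range (k i), 2 ^ (n + 1) * P (E i n) ≤ 2 * C * k i := by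
      calc ∑ n ∈ Finset.range (k i), 2 ^ (n + 1) * P (E i n)
          ≤ ∑ n ∈ Finset.range (k i), 2 * (C : ℝ≥0∞) := by
            refine Finset.sum_le_sum fun n _ => ?_
            calc (2 : ℝ≥0∞) ^ (n + 1) * P (E i n) ≤ 2 ^ (n + 1) * (C * 2⁻¹ ^ n) := by
                  gcongr
                  exact hEP i n
              _ = 2 * C * (2 * 2⁻¹) ^ n := by rw [mul_pow, pow_succ]; ring
              _ = 2 * C := by rw [ENNReal.mul_inv_cancel (by norm_num) (by norm_num), one_pow,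
                  mul_one]
        _ = 2 * C * k i := by rw [Finset.sum_const, Finset.card_range, nsmul_eq_mul, mul_comm]
    calc (a i : ℝ≥0∞) * (1 + ∑ n ∈ Finset.range (k i), 2 ^ (n + 1) * P (E i n))
        ≤ a i * (1 + 2 * C * k i) := by (clear * - e2; gcongr)
      _ ≤ a i * ((2 * C + 1) * (1 + k i)) := by
          gcongr
          calc (1 : ℝ≥0∞) + 2 * C * k i ≤ (1 + 2 * C * k i) + (2 * C + k i) := le_self_add
            _ = (2 * C + 1) * (1 + k i) := by ring
      _ = _ := by ring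
  have hYfin : ∀ᵐ ω ∂P, ∑' i, Y i ω < ⊤ := by
    refine ae_lt_top (Measurable.tsum hYm) ?_
    rw [lintegral_tsum fun i => (hYm i).aemeasurable]
    refine ne_top_of_le_ne_top ?_ (ENNReal.tsum_le_tsum hYint)
    rw [ENNReal.tsum_mul_left]
    exact ENNReal.mul_ne_top (by simp only [ne_eq, ENNReal.add_eq_top, ENNReal.mul_eq_top, OfNat.ofNat_ne_zero, not_false_eq_true, ENNReal.coe_ne_top, and_false, ENNReal.ofNat_ne_top, ENNReal.coe_eq_zero, false_and, or_self, ENNReal.one_ne_top]) h1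
  filter_upwards [hBC, hYfin, ae_all_iff.2 hfin] with ω h3 h4 h5
  -- the exceptional indices
  set S : Set ι := {i | ω ∈ E i (k i)} with hS
  have hSf : S.Finite := h3
  classical
  have h6 : ∀ i, X i ω ≤ Y i ω + (if i ∈ S then X i ω else 0) := by
    intro i
    by_cases hi : i ∈ S
    · rw [if_pos hi]; exact le_add_self
    · rw [if_neg hi, add_zero]
      have hi' : ω ∉ E i (k i) := hi
      -- least `n` with `ω ∉ E i n`
      have hex : ∃ n, ω ∉ E i n := ⟨k i, hi'⟩
      set m := Nat.find hex with hm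
      have hm1 : ω ∉ E i m := Nat.find_spec hex
      have hm2 : m ≤ k i := Nat.find_min' hex hi'
      have hX : X i ω ≤ 2 ^ m * (a i : ℝ≥0∞) := by
        by_contra hcon
        push Not at hcon
        exact hm1 (subset_toMeasurable _ _ hcon)
      refine hX.trans ?_
      simp only [hY]
      rw [mul_comm]
      gcongr
      rcases Nat.eq_zero_or_pos m with h0 | h0
      · rw [h0, pow_zero]; exact le_self_add
      · obtain ⟨j, hj⟩ := Nat.exists_eq_succ_of_ne_zero h0.ne'
        have hj1 : ω ∈ E i j := by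
          by_contra hcon
          have := Nat.find_min' hex hcon
          omega
        have hj2 : j ∈ Finset.range (k i) := Finset.mem_range.2 (by omega)
        calc (2 : ℝ≥0∞) ^ m = 2 ^ (j + 1) * (E i j).indicator 1 ω := by
              rw [indicator_of_mem hj1, Pi.one_apply, mul_one, hj]
          _ ≤ ∑ n ∈ Finset.range (k i), 2 ^ (n + 1) * (E i n).indicator 1 ω :=
              Finset.single_le_sum (f := fun n => (2 : ℝ≥0∞) ^ (n + 1) * (E i n).indicator 1 ω)
                (fun n _ => zero_le) hj2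
          _ ≤ _ := le_add_self
  calc ∑' i, X i ω ≤ ∑' i, (Y i ω + (if i ∈ S then X i ω else 0)) := ENNReal.tsum_le_tsum h6
    _ = ∑' i, Y i ω + ∑' i, (if i ∈ S then X i ω else 0) := ENNReal.tsum_add
    _ < ⊤ := by
        refine ENNReal.add_lt_top.2 ⟨h4, ?_⟩
        rw [tsum_eq_sum (s := hSf.toFinset) (fun i hi => by
          rw [if_neg]
          intro hc
          exact hi (hSf.mem_toFinset.2 hc))]
        refine ENNReal.sum_lt_top.2 fun i _ => ?_
        split_ifs
        · exact h5 i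
        · exact ENNReal.zero_lt_top

end Vale.Agent.P164
end
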