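import Vale.Agent.P164.MathlibUsed
import Vale.Agent.P164.Bdl.B1
import Vale.Agent.P164.Bdl.B2

set_option linter.all false

section

/-!
# Adaptedness: state functionals are measurable with respect to the past
-/

namespace Vale.Agent.P164

open Set Metric Filter Topology MeasureTheory ProbabilityTheory
open scoped NNReal ENNReal

section General

/-- Measurability into the space of continuous paths from measurability of the evaluations. -/
theorem adapt_measurable_path {Ω : Type*} [MeasurableSpace Ω] {T : ℝ}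
    {π : Ω → C(Icc (0 : ℝ) T, ℝ)} (h : ∀ x : Icc (0 : ℝ) T, Measurable fun ω => π ω x) :
    @Measurable Ω C(Icc (0 : ℝ) T, ℝ) _ (borel _) π := by
  let _ : MeasurableSpace C(Icc (0 : ℝ) T, ℝ) := borel _
  have _ : BorelSpace C(Icc (0 : ℝ) T, ℝ) := ⟨rfl⟩
  have hball : ∀ (f : C(Icc (0 : ℝ) T, ℝ)) (r : ℝ), 0 ≤ r →
      MeasurableSet (π ⁻¹' (Metric.closedBall f r)) := by
    intro f r hr
    obtain ⟨D, hDc, hDd⟩ := TopologicalSpace.exists_countable_dense (Icc (0 : ℝ) T)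
    have e : π ⁻¹' (Metric.closedBall f r) = ⋂ x ∈ D, {ω | dist (π ω x) (f x) ≤ r} := by
      ext ω
      rw [mem_preimage, mem_closedBall, ContinuousMap.dist_le hr, mem_iInter₂]
      constructor
      · intro h x _
        exact h x
      · intro h x
        have hcl : IsClosed {x | dist (π ω x) (f x) ≤ r} :=
          isClosed_le ((π ω).continuous.dist f.continuous) continuous_const
        exact (hcl.closure_subset_iff.2 fun x hx => h x hx) (hDd x)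
    rw [e]
    exact MeasurableSet.biInter hDc fun x _ =>
      measurableSet_le ((h x).dist measurable_const) measurable_const
  refine measurable_of_isOpen fun U hU => ?_
  obtain ⟨D, hDc, hDd⟩ := TopologicalSpace.exists_countable_dense C(Icc (0 : ℝ) T, ℝ)
  have e : U = ⋃ f ∈ D, ⋃ q ∈ {q : ℚ | (0 : ℝ) ≤ q ∧ closedBall f (q : ℝ) ⊆ U},
      closedBall f (q : ℝ) := by
    ext x
    rw [mem_iUnion₂]
    constructor
    · intro hx
      obtain ⟨ε, hε, hεU⟩ := Metric.isOpen_iff.1 hU x hx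
      obtain ⟨f, hfx, hfD⟩ := Metric.dense_iff.1 hDd x (ε / 3) (by (clear * - hε; positivity))
      obtain ⟨q, hq1, hq2⟩ := exists_rat_btwn (mem_ball.1 hfx)
      refine ⟨f, hfD, ?_⟩
      rw [mem_iUnion₂]
      refine ⟨q, ⟨dist_nonneg.trans hq1.le, ?_⟩, ?_⟩
      · intro y hy
        refine hεU ?_
        rw [mem_ball]
        rw [mem_closedBall] at hy
        calc dist y x ≤ dist y f + dist f x := dist_triangle _ _ _
          _ < ε := by linarith only [hε, hq1, hq2, hy]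
      · rw [mem_closedBall, dist_comm]
        exact hq1.le
    · rintro ⟨f, -, hf⟩
      rw [mem_iUnion₂] at hf
      obtain ⟨q, ⟨_, hq⟩, hxq⟩ := hf
      exact hq hxq
  rw [e, preimage_iUnion₂]
  refine MeasurableSet.biUnion hDc fun f _ => ?_
  rw [preimage_iUnion₂]
  exact MeasurableSet.biUnion (to_countable _) fun q hq => hball f q hq.1

/-- Joint measurability of state functionals on the space of paths. -/
theorem adapt_path_meas {T : ℝ} (hT : 0 ≤ T) {G : ℂ → ℝ → ℝ}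
    (hG : Measurable (Function.uncurry G)) :
    @Measurable ((ℝ × ℂ) × C(Icc (0 : ℝ) T, ℝ)) ℝ
      (@Prod.instMeasurableSpace _ _ _ (borel C(Icc (0 : ℝ) T, ℝ))) _
      (fun p => if 0 ≤ p.1.1 ∧ p.1.1 ≤ T then
        St G (IccExtend hT p.2) p.1.2 p.1.1 else 0) := by
  let _ : MeasurableSpace C(Icc (0 : ℝ) T, ℝ) := borel _
  have _ : BorelSpace C(Icc (0 : ℝ) T, ℝ) := ⟨rfl⟩
  set A : Set ((ℝ × ℂ) × C(Icc (0 : ℝ) T, ℝ)) := {p | 0 ≤ p.1.1 ∧ p.1.1 ≤ T} with hA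
  set S : Set ((ℝ × ℂ) × C(Icc (0 : ℝ) T, ℝ)) :=
    {p | p ∈ A ∧ p.1.2 ∈ loewnerDomain (IccExtend hT p.2) p.1.1} with hS
  have hAm : MeasurableSet A :=
    (measurableSet_le measurable_const (measurable_fst.comp measurable_fst)).inter
      (measurableSet_le (measurable_fst.comp measurable_fst) measurable_const)
  have hext : ∀ (w w' : C(Icc (0 : ℝ) T, ℝ)) (s : ℝ),
      |IccExtend hT w' s - IccExtend hT w s| ≤ dist w' w := by
    intro w w' s
    rw [← Real.dist_eq]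
    exact ContinuousMap.dist_apply_le_dist _
  have hst : ∀ p ∈ S, ∀ ε > 0, ∃ δ > 0, ∀ q ∈ ball p δ, q ∈ A → q ∈ S ∧
      dist (Zf (IccExtend hT q.2) q.1.2 q.1.1) (Zf (IccExtend hT p.2) p.1.2 p.1.1) < ε ∧
      |Uf (IccExtend hT q.2) q.1.2 q.1.1 - Uf (IccExtend hT p.2) p.1.2 p.1.1| < ε := by
    intro p hp ε hε
    obtain ⟨δ, hδ, h⟩ := flow_stable (W := IccExtend hT p.2)
      (p.2.continuous.Icc_extend' ) hp.1.1 hp.2 hε
    refine ⟨δ, hδ, fun q hq hqA => ?_⟩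
    rw [mem_ball, Prod.dist_eq, max_lt_iff, Prod.dist_eq, max_lt_iff] at hq
    obtain ⟨⟨h1, h2⟩, h3⟩ := hq
    have := h q.1.2 (IccExtend hT q.2) q.1.1 h2 (q.2.continuous.Icc_extend')
      (fun s _ => (hext _ _ s).trans_lt h3) (by rwa [Real.dist_eq] at h1) hqA.1
    exact ⟨⟨hqA, this.1⟩, this.2.1, this.2.2⟩
  have hSm : MeasurableSet S := by
    have hO : IsOpen {p | ∃ p' ∈ S, ∃ δ > 0, p ∈ ball p' δ ∧ ball p' δ ∩ A ⊆ S} := by
      rw [isOpen_iff_mem_nhds]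
      rintro p ⟨p', hp', δ, hδ, hpδ, hsub⟩
      refine mem_of_superset (isOpen_ball.mem_nhds hpδ) fun q hq => ?_
      exact ⟨p', hp', δ, hδ, hq, hsub⟩
    have e : S = {p | ∃ p' ∈ S, ∃ δ > 0, p ∈ ball p' δ ∧ ball p' δ ∩ A ⊆ S} ∩ A := by
      ext p
      constructor
      · intro hp
        obtain ⟨δ, hδ, h⟩ := hst p hp 1 one_pos
        exact ⟨⟨p, hp, δ, hδ, mem_ball_self hδ, fun q hq => (h q hq.1 hq.2).1⟩, hp.1⟩
      · rintro ⟨⟨p', hp', δ, hδ, hpδ, hsub⟩, hpA⟩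
        exact hsub ⟨hpδ, hpA⟩
    rw [e]
    exact hO.measurableSet.inter hAm
  have hF : ContinuousOn (fun p : (ℝ × ℂ) × C(Icc (0 : ℝ) T, ℝ) =>
      ((Zf (IccExtend hT p.2) p.1.2 p.1.1, Uf (IccExtend hT p.2) p.1.2 p.1.1) : ℂ × ℝ)) S := by
    rw [Metric.continuousOn_iff]
    intro p hp ε hε
    obtain ⟨δ, hδ, h⟩ := hst p hp ε hε
    refine ⟨δ, hδ, fun q hq hqp => ?_⟩
    have := h q hqp hq.1
    rw [Prod.dist_eq, max_lt_iff]
    exact ⟨this.2.1, by rw [Real.dist_eq]; exact this.2.2⟩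
  refine measurable_of_restrict_of_restrict_compl hSm ?_ ?_
  · have e : S.domRestrict (fun p : (ℝ × ℂ) × C(Icc (0 : ℝ) T, ℝ) =>
        if 0 ≤ p.1.1 ∧ p.1.1 ≤ T then St G (IccExtend hT p.2) p.1.2 p.1.1 else 0) =
        Function.uncurry G ∘ S.domRestrict (fun p : (ℝ × ℂ) × C(Icc (0 : ℝ) T, ℝ) =>
          ((Zf (IccExtend hT p.2) p.1.2 p.1.1, Uf (IccExtend hT p.2) p.1.2 p.1.1) : ℂ × ℝ)) := by
      funext p
      obtain ⟨p, hp⟩ := p
      change (if 0 ≤ p.1.1 ∧ p.1.1 ≤ T then St G (IccExtend hT p.2) p.1.2 p.1.1 else 0) =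
        G (Zf (IccExtend hT p.2) p.1.2 p.1.1) (Uf (IccExtend hT p.2) p.1.2 p.1.1)
      rw [if_pos (show 0 ≤ p.1.1 ∧ p.1.1 ≤ T from hp.1), St_of_mem hp.2]
    rw [e]
    exact hG.comp (continuousOn_iff_continuous_domRestrict.1 hF).measurable
  · have e : Sᶜ.domRestrict (fun p : (ℝ × ℂ) × C(Icc (0 : ℝ) T, ℝ) =>
        if 0 ≤ p.1.1 ∧ p.1.1 ≤ T then St G (IccExtend hT p.2) p.1.2 p.1.1 else 0) =
        fun _ => 0 := by
      funext p
      obtain ⟨p, hp⟩ := p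
      change (if 0 ≤ p.1.1 ∧ p.1.1 ≤ T then St G (IccExtend hT p.2) p.1.2 p.1.1 else 0) = 0
      by_cases hpA : 0 ≤ p.1.1 ∧ p.1.1 ≤ T
      · rw [if_pos hpA, St_of_not_mem]
        intro h
        exact hp ⟨hpA, h⟩
      · rw [if_neg hpA]
    rw [e]
    exact measurable_const

variable {Ω : Type*} [MeasurableSpace Ω] {W : ℝ → Ω → ℝ} {s t T : ℝ}

/-- Joint measurability when the driving function is measurable up to time `T`. -/
theorem adapt_joint (hc : ∀ ω, Continuous fun t => W t ω)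
    (hm : ∀ s ∈ Icc 0 T, Measurable (W s))
    {G : ℂ → ℝ → ℝ} (hG : Measurable (Function.uncurry G)) :
    Measurable (fun p : (ℝ × ℂ) × Ω =>
      if 0 ≤ p.1.1 ∧ p.1.1 ≤ T then St G (fun u => W u p.2) p.1.2 p.1.1 else 0) := by
  rcases lt_or_ge T 0 with hT | hT
  · have e : (fun p : (ℝ × ℂ) × Ω =>
      if 0 ≤ p.1.1 ∧ p.1.1 ≤ T then St G (fun u => W u p.2) p.1.2 p.1.1 else 0) =
      fun _ => 0 := by
      funext p
      rw [if_neg]
      rintro ⟨h1, h2⟩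
      linarith only [hT, h1, h2]
    rw [e]
    exact measurable_const
  · let _ : MeasurableSpace C(Icc (0 : ℝ) T, ℝ) := borel _
    have _ : BorelSpace C(Icc (0 : ℝ) T, ℝ) := ⟨rfl⟩
    set π : Ω → C(Icc (0 : ℝ) T, ℝ) := fun ω =>
      ⟨fun x => W x ω, (hc ω).comp continuous_subtype_val⟩ with hπ
    have hπm : Measurable π := adapt_measurable_path fun x => hm x x.2
    have h1 := (adapt_path_meas hT hG).comp
      (measurable_fst.prodMk (hπm.comp measurable_snd) : Measurable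
        (fun p : (ℝ × ℂ) × Ω => (p.1, π p.2)))
    have e : (fun p : (ℝ × ℂ) × Ω =>
      if 0 ≤ p.1.1 ∧ p.1.1 ≤ T then St G (fun u => W u p.2) p.1.2 p.1.1 else 0) =
      (fun p : (ℝ × ℂ) × C(Icc (0 : ℝ) T, ℝ) => if 0 ≤ p.1.1 ∧ p.1.1 ≤ T then
        St G (IccExtend hT p.2) p.1.2 p.1.1 else 0) ∘ fun p : (ℝ × ℂ) × Ω => (p.1, π p.2) := by
      funext p
      change (if 0 ≤ p.1.1 ∧ p.1.1 ≤ T then St G (fun u => W u p.2) p.1.2 p.1.1 else 0) =
        if 0 ≤ p.1.1 ∧ p.1.1 ≤ T then St G (IccExtend hT (π p.2)) p.1.2 p.1.1 else 0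
      by_cases hp : 0 ≤ p.1.1 ∧ p.1.1 ≤ T
      · rw [if_pos hp, if_pos hp]
        refine St_congr hp.1 fun s hs => ?_
        rw [IccExtend_of_mem hT _ ⟨hs.1, hs.2.trans hp.2⟩]
        rfl
      · rw [if_neg hp, if_neg hp]
    rw [e]
    exact h1

theorem adapt_St (hc : ∀ ω, Continuous fun t => W t ω)
    (hm : ∀ s ∈ Icc 0 t, Measurable (W s))
    {G : ℂ → ℝ → ℝ} (hG : Measurable (Function.uncurry G)) (ht : 0 ≤ t) (z : ℂ) :
    Measurable (fun ω => St G (fun u => W u ω) z t) := by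
  have h := (adapt_joint hc hm hG).comp
    (measurable_const.prodMk measurable_id : Measurable (fun ω : Ω => (((t, z) : ℝ × ℂ), ω)))
  have e : (fun ω => St G (fun u => W u ω) z t) =
      (fun p : (ℝ × ℂ) × Ω =>
      if 0 ≤ p.1.1 ∧ p.1.1 ≤ t then St G (fun u => W u p.2) p.1.2 p.1.1 else 0) ∘
      (fun ω : Ω => (((t, z) : ℝ × ℂ), ω)) := by
    funext ω
    change _ = if 0 ≤ t ∧ t ≤ t then St G (fun u => W u ω) z t else 0
    rw [if_pos ⟨ht, le_rfl⟩]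
  rw [e]
  exact h

theorem adapt_field (hc : ∀ ω, Continuous fun t => W t ω)
    (hm : ∀ s ∈ Icc 0 T, Measurable (W s))
    {G : ℂ → ℝ → ℝ} (hG : Measurable (Function.uncurry G)) (D : Set ℂ) :
    Measurable (fun p : ℝ × Ω => if 0 ≤ p.1 ∧ p.1 ≤ T then
      ∫ z in D, St G (fun u => W u p.2) z p.1 else 0) := by
  have h := (adapt_joint hc hm hG).comp
    (((measurable_fst.comp measurable_fst).prodMk measurable_snd).prodMk
      (measurable_snd.comp measurable_fst) : Measurable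
      (fun q : (ℝ × Ω) × ℂ => (((q.1.1, q.2) : ℝ × ℂ), q.1.2)))
  have h2 := (h.stronglyMeasurable.integral_prod_right' (ν := volume.restrict D)).measurable
  have e : (fun p : ℝ × Ω => if 0 ≤ p.1 ∧ p.1 ≤ T then
      ∫ z in D, St G (fun u => W u p.2) z p.1 else 0) = fun p : ℝ × Ω =>
      ∫ z in D, ((fun p : (ℝ × ℂ) × Ω =>
      if 0 ≤ p.1.1 ∧ p.1.1 ≤ T then St G (fun u => W u p.2) p.1.2 p.1.1 else 0) ∘
      (fun q : (ℝ × Ω) × ℂ => (((q.1.1, q.2) : ℝ × ℂ), q.1.2))) (p, z) := by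
    funext p
    by_cases hp : 0 ≤ p.1 ∧ p.1 ≤ T
    · simp only [Function.comp_apply, if_pos hp]
    · simp only [Function.comp_apply, if_neg hp, integral_zero]
  rw [e]
  exact h2

/-- Time integral, jointly in the point and the randomness. -/
theorem adapt_timeint (hc : ∀ ω, Continuous fun t => W t ω)
    (hm : ∀ s ∈ Icc 0 t, Measurable (W s))
    {G : ℂ → ℝ → ℝ} (hG : Measurable (Function.uncurry G)) (hs : 0 ≤ s) (hst : s ≤ t) :
    Measurable (fun p : ℂ × Ω => ∫ u in s..t, St G (fun u => W u p.2) p.1 u) := by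
  have h := (adapt_joint hc hm hG).comp
    ((measurable_snd.prodMk (measurable_fst.comp measurable_fst)).prodMk
      (measurable_snd.comp measurable_fst) : Measurable
      (fun q : (ℂ × Ω) × ℝ => (((q.2, q.1.1) : ℝ × ℂ), q.1.2)))
  have h2 := (h.stronglyMeasurable.integral_prod_right'
    (ν := volume.restrict (Ioc s t))).measurable
  have e : (fun p : ℂ × Ω => ∫ u in s..t, St G (fun u => W u p.2) p.1 u) = fun p : ℂ × Ω =>
      ∫ u in Ioc s t, ((fun p : (ℝ × ℂ) × Ω =>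
      if 0 ≤ p.1.1 ∧ p.1.1 ≤ t then St G (fun u => W u p.2) p.1.2 p.1.1 else 0) ∘
      (fun q : (ℂ × Ω) × ℝ => (((q.2, q.1.1) : ℝ × ℂ), q.1.2))) (p, u) := by
    funext p
    rw [intervalIntegral.integral_of_le hst]
    refine setIntegral_congr_fun measurableSet_Ioc fun u hu => ?_
    change _ = if 0 ≤ u ∧ u ≤ t then St G (fun u => W u p.2) p.1 u else 0
    rw [if_pos ⟨hs.trans hu.1.le, hu.2⟩]
  rw [e]
  exact h2

theorem adapt_fieldint' (hc : ∀ ω, Continuous fun t => W t ω)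
    (hm : ∀ s ∈ Icc 0 t, Measurable (W s))
    {G : ℂ → ℝ → ℝ} (hG : Measurable (Function.uncurry G)) (hs : 0 ≤ s) (hst : s ≤ t)
    (D : Set ℂ) :
    Measurable (fun ω => ∫ z in D, ∫ u in s..t, St G (fun u => W u ω) z u) := by
  have h := (adapt_timeint hc hm hG hs hst).comp
    (measurable_snd.prodMk measurable_fst : Measurable
      (fun q : Ω × ℂ => ((q.2, q.1) : ℂ × Ω)))
  exact (h.stronglyMeasurable.integral_prod_right' (ν := volume.restrict D)).measurable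

theorem adapt_field_t (hc : ∀ ω, Continuous fun t => W t ω)
    (hm : ∀ s ∈ Icc 0 t, Measurable (W s))
    {G : ℂ → ℝ → ℝ} (hG : Measurable (Function.uncurry G)) (ht : 0 ≤ t) (D : Set ℂ) :
    Measurable (fun ω => ∫ z in D, St G (fun u => W u ω) z t) := by
  have h2 := (adapt_field hc hm hG D).comp
    (measurable_const.prodMk measurable_id : Measurable (fun ω : Ω => (t, ω)))
  have e : (fun ω => ∫ z in D, St G (fun u => W u ω) z t) = (fun p : ℝ × Ω =>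
      if 0 ≤ p.1 ∧ p.1 ≤ t then ∫ z in D, St G (fun u => W u p.2) z p.1 else 0) ∘
      fun ω => (t, ω) := by
    funext ω
    change _ = if 0 ≤ t ∧ t ≤ t then ∫ z in D, St G (fun u => W u ω) z t else 0
    rw [if_pos ⟨ht, le_rfl⟩]
  rw [e]
  exact h2

theorem adapt_timeint_z (hc : ∀ ω, Continuous fun t => W t ω)
    (hm : ∀ s ∈ Icc 0 t, Measurable (W s))
    {G : ℂ → ℝ → ℝ} (hG : Measurable (Function.uncurry G)) (hs : 0 ≤ s) (hst : s ≤ t) (z : ℂ) :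
    Measurable (fun ω => ∫ u in s..t, St G (fun u => W u ω) z u) := by
  have h1 : Measurable (fun ω : Ω => (z, ω)) := measurable_const.prodMk measurable_id
  have h2 := (adapt_timeint hc hm hG hs hst).comp h1
  exact h2

end General

variable {Ω : Type*} [mΩ : MeasurableSpace Ω] {W : ℝ → Ω → ℝ} {s t T : ℝ} {z : ℂ}

omit mΩ in
lemma adapt_le_past {s t : ℝ} (hs : s ∈ Icc 0 t) : Measurable[past W t] (W s) := by
  rw [measurable_iff_comap_le]
  exact le_iSup (fun s : Icc (0 : ℝ) t => MeasurableSpace.comap (W s) inferInstance) ⟨s, hs⟩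

theorem St_past (hc : ∀ ω, Continuous fun t => W t ω) (hm : ∀ t, Measurable (W t))
    {G : ℂ → ℝ → ℝ} (hG : Measurable (Function.uncurry G)) (ht : 0 ≤ t) (z : ℂ) :
    Measurable[past W t] (fun ω => St G (fun u => W u ω) z t) :=
  @adapt_St Ω (past W t) W t hc (fun _ hs => adapt_le_past hs) G hG ht z

theorem alive_past (hc : ∀ ω, Continuous fun t => W t ω) (hm : ∀ t, Measurable (W t))
    (ht : 0 ≤ t) (z : ℂ) :
    MeasurableSet[past W t] {ω | z ∈ loewnerDomain (fun u => W u ω) t} := by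
  have h := St_past (G := fun _ _ => 1) hc hm measurable_const ht z
  have h2 := h (measurableSet_singleton (1 : ℝ))
  convert h2 using 1
  ext ω
  rw [mem_preimage, mem_singleton_iff]
  constructor
  · intro hz
    exact St_of_mem hz
  · intro hz
    by_contra hn
    rw [St_of_not_mem hn] at hz
    exact zero_ne_one hz

theorem Z_past (hc : ∀ ω, Continuous fun t => W t ω) (hm : ∀ t, Measurable (W t))
    (ht : 0 ≤ t) (z : ℂ) {S : Set (ℂ × ℝ)} (hS : MeasurableSet S) :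
    MeasurableSet[past W t] {ω | z ∈ loewnerDomain (fun u => W u ω) t ∧
      (Zf (fun u => W u ω) z t, Uf (fun u => W u ω) z t) ∈ S} := by
  have hG : Measurable (Function.uncurry fun (Z : ℂ) (U : ℝ) => S.indicator (1 : ℂ × ℝ → ℝ) (Z, U)) :=
    measurable_one.indicator hS
  have h := St_past hc hm hG ht z
  have h2 := h (measurableSet_singleton (1 : ℝ))
  convert h2 using 1
  ext ω
  rw [mem_preimage, mem_singleton_iff]
  constructor
  · rintro ⟨hz, hz2⟩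
    rw [St_of_mem hz, indicator_of_mem hz2]
    rfl
  · intro hz
    by_cases hn : z ∈ loewnerDomain (fun u => W u ω) t
    · refine ⟨hn, ?_⟩
      rw [St_of_mem hn] at hz
      by_contra hnS
      rw [indicator_of_notMem hnS] at hz
      exact zero_ne_one hz
    · rw [St_of_not_mem hn] at hz
      exact absurd hz zero_ne_one

theorem field_past (hc : ∀ ω, Continuous fun t => W t ω) (hm : ∀ t, Measurable (W t))
    {G : ℂ → ℝ → ℝ} (hG : Measurable (Function.uncurry G)) (ht : 0 ≤ t) (D : Set ℂ) :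
    Measurable[past W t] (fun ω => ∫ z in D, St G (fun u => W u ω) z t) :=
  @adapt_field_t Ω (past W t) W t hc (fun _ hs => adapt_le_past hs) G hG ht D

theorem timeint_past (hc : ∀ ω, Continuous fun t => W t ω) (hm : ∀ t, Measurable (W t))
    {G : ℂ → ℝ → ℝ} (hG : Measurable (Function.uncurry G)) (hs : 0 ≤ s) (hst : s ≤ t) (z : ℂ) :
    Measurable[past W t] (fun ω => ∫ u in s..t, St G (fun u => W u ω) z u) :=
  @adapt_timeint_z Ω (past W t) W s t hc (fun _ hs => adapt_le_past hs) G hG hs hst z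

theorem fieldint_past' (hc : ∀ ω, Continuous fun t => W t ω) (hm : ∀ t, Measurable (W t))
    {G : ℂ → ℝ → ℝ} (hG : Measurable (Function.uncurry G)) (hs : 0 ≤ s) (hst : s ≤ t)
    (D : Set ℂ) :
    Measurable[past W t] (fun ω => ∫ z in D, ∫ u in s..t, St G (fun u => W u ω) z u) :=
  @adapt_fieldint' Ω (past W t) W s t hc (fun _ hs => adapt_le_past hs) G hG hs hst D

/-- Joint measurability of the time integral in the point and the randomness. -/
theorem timeint_joint (hc : ∀ ω, Continuous fun t => W t ω) (hm : ∀ t, Measurable (W t))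
    {G : ℂ → ℝ → ℝ} (hG : Measurable (Function.uncurry G)) (hs : 0 ≤ s) (hst : s ≤ t) :
    Measurable (fun p : ℂ × Ω => ∫ u in s..t, St G (fun u => W u p.2) p.1 u) :=
  adapt_timeint hc (fun s _ => hm s) hG hs hst

end Vale.Agent.P164
end

section

/-!
# Deterministic one-step expansion for functions of the state of one point
-/

namespace Vale.Agent.P164

open Set Metric Filter Topology MeasureTheory ProbabilityTheory
open scoped NNReal ENNReal

/-- `F` has continuous derivatives `FX, FXX, FY, FU` on `ℍ × ℝ`. -/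
structure Reg (F FX FXX FY FU : ℂ → ℝ → ℝ) : Prop where
  dX : ∀ (Z : ℂ) (U : ℝ), 0 < Z.im → HasDerivAt (fun x : ℝ => F ⟨x, Z.im⟩ U) (FX Z U) Z.re
  dXX : ∀ (Z : ℂ) (U : ℝ), 0 < Z.im → HasDerivAt (fun x : ℝ => FX ⟨x, Z.im⟩ U) (FXX Z U) Z.re
  dY : ∀ (Z : ℂ) (U : ℝ), 0 < Z.im → HasDerivAt (fun y : ℝ => F ⟨Z.re, y⟩ U) (FY Z U) Z.im
  dU : ∀ (Z : ℂ) (U : ℝ), 0 < Z.im → HasDerivAt (fun u : ℝ => F Z u) (FU Z U) U
  cF : ContinuousOn (Function.uncurry F) ({Z : ℂ | 0 < Z.im} ×ˢ univ)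
  cX : ContinuousOn (Function.uncurry FX) ({Z : ℂ | 0 < Z.im} ×ˢ univ)
  cXX : ContinuousOn (Function.uncurry FXX) ({Z : ℂ | 0 < Z.im} ×ˢ univ)
  cY : ContinuousOn (Function.uncurry FY) ({Z : ℂ | 0 < Z.im} ×ˢ univ)
  cU : ContinuousOn (Function.uncurry FU) ({Z : ℂ | 0 < Z.im} ×ˢ univ)

/-- The generator of the state process. -/
noncomputable def gen (κ : ℝ) (FX FXX FY FU : ℂ → ℝ → ℝ) (Z : ℂ) (U : ℝ) : ℝ :=
  κ / 2 * FXX Z U + 2 * Z.re / ‖Z‖ ^ 2 * FX Z U - 2 * Z.im / ‖Z‖ ^ 2 * FY Z U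
    - 4 * sn Z ^ 2 / ‖Z‖ ^ 2 * FU Z U

/-- `H × ℝ` is open. -/
lemma isOpen_HR : IsOpen ({Z : ℂ | 0 < Z.im} ×ˢ (univ : Set ℝ)) :=
  (isOpen_lt continuous_const Complex.continuous_im).prod isOpen_univ

lemma unif_close {G : ℂ → ℝ → ℝ}
    (hG : ContinuousOn (Function.uncurry G) ({Z : ℂ | 0 < Z.im} ×ˢ univ))
    {K : Set (ℂ × ℝ)} (hK : IsCompact K) (hKim : ∀ x ∈ K, 0 < x.1.im) {ε : ℝ} (hε : 0 < ε) :
    ∃ ρ > 0, ∀ x ∈ K, ∀ y : ℂ × ℝ, dist y x < ρ →
      0 < y.1.im ∧ |G y.1 y.2 - G x.1 x.2| ≤ ε := by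
  have hsub : K ⊆ ({Z : ℂ | 0 < Z.im} ×ˢ (univ : Set ℝ)) := fun x hx => ⟨hKim x hx, mem_univ _⟩
  obtain ⟨ρ₁, hρ₁, h1⟩ := hK.exists_thickening_subset_open isOpen_HR hsub
  have h2 := hK.uniformContinuousAt_of_continuousAt (Function.uncurry G)
    (fun x hx => hG.continuousAt (isOpen_HR.mem_nhds (hsub hx))) (Metric.dist_mem_uniformity hε)
  obtain ⟨ρ₂, hρ₂, h3⟩ := Metric.mem_uniformity_dist.1 h2
  refine ⟨min ρ₁ ρ₂, by (clear * - hρ₁ hρ₂; positivity), fun x hx y hy => ⟨?_, ?_⟩⟩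
  · have := h1 (Metric.mem_thickening_iff.2 ⟨x, hx, hy.trans_le (min_le_left _ _)⟩)
    exact this.1
  · have h4 : dist x y < ρ₂ := by
      rw [dist_comm]
      exact hy.trans_le (min_le_right _ _)
    have h5 := h3 (a := x) (b := y) h4
    change x ∈ K → _ at h5
    have h6 : dist (Function.uncurry G x) (Function.uncurry G y) < ε := h5 hx
    rw [dist_comm, Real.dist_eq] at h6
    exact h6.le

/-- Taylor expansion: second order in `X`, first order in `Y` and `U`. -/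
lemma taylor_state {F FX FXX FY FU : ℂ → ℝ → ℝ} (hr : Reg F FX FXX FY FU)
    {K : Set (ℂ × ℝ)} (hK : IsCompact K) (hKim : ∀ x ∈ K, 0 < x.1.im) {ε : ℝ} (hε : 0 < ε) :
    ∃ ρ > 0, ∀ x ∈ K, ∀ (Z' : ℂ) (U' : ℝ), ‖Z' - x.1‖ < ρ → |U' - x.2| < ρ →
      |F Z' U' - F x.1 x.2 - FX x.1 x.2 * (Z'.re - x.1.re)
        - FXX x.1 x.2 / 2 * (Z'.re - x.1.re) ^ 2 - FY x.1 x.2 * (Z'.im - x.1.im)
        - FU x.1 x.2 * (U' - x.2)| ≤
      ε * ((Z'.re - x.1.re) ^ 2 + |Z'.im - x.1.im| + |U' - x.2|) := by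
  obtain ⟨ρ₁, hρ₁, c1⟩ := unif_close hr.cXX hK hKim hε
  obtain ⟨ρ₂, hρ₂, c2⟩ := unif_close hr.cY hK hKim hε
  obtain ⟨ρ₃, hρ₃, c3⟩ := unif_close hr.cU hK hKim hε
  refine ⟨min ρ₁ (min ρ₂ ρ₃), by (clear * - hρ₁ hρ₂ hρ₃; positivity), ?_⟩
  rintro ⟨Z, U⟩ hx Z' U' hZ hU
  have hd : ∀ (A : ℂ) (b : ℝ), |A.re - Z.re| ≤ |Z'.re - Z.re| → |A.im - Z.im| ≤ |Z'.im - Z.im| →
      |b - U| ≤ |U' - U| → dist (A, b) (Z, U) < min ρ₁ (min ρ₂ ρ₃) := by
    intro A b h1 h2 h3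
    rw [Prod.dist_eq]
    refine max_lt ?_ ?_
    · rw [dist_eq_norm]
      refine lt_of_le_of_lt ?_ hZ
      rw [← Real.sqrt_sq (norm_nonneg (A - Z)), ← Real.sqrt_sq (norm_nonneg (Z' - Z))]
      apply Real.sqrt_le_sqrt
      rw [Complex.sq_norm, Complex.sq_norm, Complex.normSq_apply, Complex.normSq_apply]
      simp only [Complex.sub_re, Complex.sub_im]
      have e1 := mul_self_le_mul_self (abs_nonneg _) h1
      have e2 := mul_self_le_mul_self (abs_nonneg _) h2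
      rw [abs_mul_abs_self, abs_mul_abs_self] at e1 e2
      linarith
    · rw [Real.dist_eq]
      exact lt_of_le_of_lt h3 hU
  have q1 : ∀ (A : ℂ) (b : ℝ), |A.re - Z.re| ≤ |Z'.re - Z.re| → |A.im - Z.im| ≤ |Z'.im - Z.im| →
      |b - U| ≤ |U' - U| → 0 < A.im ∧ |FXX A b - FXX Z U| ≤ ε := fun A b h1 h2 h3 =>
    c1 _ hx (A, b) ((hd A b h1 h2 h3).trans_le (min_le_left _ _))
  have q2 : ∀ (A : ℂ) (b : ℝ), |A.re - Z.re| ≤ |Z'.re - Z.re| → |A.im - Z.im| ≤ |Z'.im - Z.im| →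
      |b - U| ≤ |U' - U| → |FY A b - FY Z U| ≤ ε := fun A b h1 h2 h3 =>
    (c2 _ hx (A, b) ((hd A b h1 h2 h3).trans_le ((min_le_right _ _).trans (min_le_left _ _)))).2
  have q3 : ∀ (A : ℂ) (b : ℝ), |A.re - Z.re| ≤ |Z'.re - Z.re| → |A.im - Z.im| ≤ |Z'.im - Z.im| →
      |b - U| ≤ |U' - U| → |FU A b - FU Z U| ≤ ε := fun A b h1 h2 h3 =>
    (c3 _ hx (A, b) ((hd A b h1 h2 h3).trans_le ((min_le_right _ _).trans (min_le_right _ _)))).2
  have hZim : 0 < Z.im := hKim _ hx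
  have hZ'im : 0 < Z'.im := (q1 Z' U' le_rfl le_rfl le_rfl).1
  -- first piece: change of `Y`
  have T1 : |F Z' U' - F ⟨Z'.re, Z.im⟩ U' - FY Z U * (Z'.im - Z.im)| ≤ ε * |Z'.im - Z.im| := by
    have key := Convex.norm_image_sub_le_of_norm_hasDerivWithin_le (𝕜 := ℝ)
      (f := fun y : ℝ => F ⟨Z'.re, y⟩ U' - FY Z U * y)
      (f' := fun y => FY ⟨Z'.re, y⟩ U' - FY Z U) (s := uIcc Z.im Z'.im) (x := Z.im) (y := Z'.im)
      (C := ε) ?_ ?_ (convex_uIcc _ _) left_mem_uIcc right_mem_uIcc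
    · have e : Z' = ⟨Z'.re, Z'.im⟩ := rfl
      rw [Real.norm_eq_abs, Real.norm_eq_abs] at key
      refine le_trans (le_of_eq ?_) key
      congr 1
      simp only [Complex.eta]
      ring
    · intro y hy
      have hyp : 0 < y := by
        have := hy.1
        exact (lt_min hZim hZ'im).trans_le this
      have h1 := hr.dY ⟨Z'.re, y⟩ U' hyp
      simp only at h1
      refine HasDerivAt.hasDerivWithinAt ?_
      have h2 := h1.fun_sub ((hasDerivAt_id y).const_mul (FY Z U))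
      simpa only [id_eq, mul_one] using h2
    · intro y hy
      refine q2 ⟨Z'.re, y⟩ U' le_rfl ?_ le_rfl
      exact abs_sub_left_of_mem_uIcc hy
  -- second piece: change of `U`
  have T2 : |F ⟨Z'.re, Z.im⟩ U' - F ⟨Z'.re, Z.im⟩ U - FU Z U * (U' - U)| ≤ ε * |U' - U| := by
    have key := Convex.norm_image_sub_le_of_norm_hasDerivWithin_le (𝕜 := ℝ)
      (f := fun u : ℝ => F ⟨Z'.re, Z.im⟩ u - FU Z U * u)
      (f' := fun u => FU ⟨Z'.re, Z.im⟩ u - FU Z U) (s := uIcc U U') (x := U) (y := U')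
      (C := ε) ?_ ?_ (convex_uIcc _ _) left_mem_uIcc right_mem_uIcc
    · rw [Real.norm_eq_abs, Real.norm_eq_abs] at key
      refine le_trans (le_of_eq ?_) key
      congr 1
      ring
    · intro u hu
      have h1 := hr.dU ⟨Z'.re, Z.im⟩ u hZim
      refine HasDerivAt.hasDerivWithinAt ?_
      have h2 := h1.fun_sub ((hasDerivAt_id u).const_mul (FU Z U))
      simpa only [id_eq, mul_one] using h2
    · intro u hu
      refine q3 ⟨Z'.re, Z.im⟩ u le_rfl (by simp only [sub_self, abs_zero, abs_nonneg]) ?_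
      exact abs_sub_left_of_mem_uIcc hu
  -- third piece: change of `X`
  have T3' : ∀ x ∈ uIcc Z.re Z'.re,
      |FX ⟨x, Z.im⟩ U - FX Z U - FXX Z U * (x - Z.re)| ≤ ε * |Z'.re - Z.re| := by
    intro x hx'
    have key := Convex.norm_image_sub_le_of_norm_hasDerivWithin_le (𝕜 := ℝ)
      (f := fun y : ℝ => FX ⟨y, Z.im⟩ U - FXX Z U * y)
      (f' := fun y => FXX ⟨y, Z.im⟩ U - FXX Z U) (s := uIcc Z.re Z'.re) (x := Z.re) (y := x)
      (C := ε) ?_ ?_ (convex_uIcc _ _) left_mem_uIcc hx'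
    · rw [Real.norm_eq_abs, Real.norm_eq_abs] at key
      refine le_trans (le_of_eq ?_) (key.trans ?_)
      · congr 1
        simp only [Complex.eta]
        ring
      · exact mul_le_mul_of_nonneg_left (abs_sub_left_of_mem_uIcc hx') hε.le
    · intro y hy
      have h1 := hr.dXX ⟨y, Z.im⟩ U hZim
      refine HasDerivAt.hasDerivWithinAt ?_
      have h2 := h1.fun_sub ((hasDerivAt_id y).const_mul (FXX Z U))
      simpa only [id_eq, mul_one] using h2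
    · intro y hy
      refine (q1 ⟨y, Z.im⟩ U ?_ (by simp only [sub_self, abs_zero, abs_nonneg]) (by simp)).2
      exact abs_sub_left_of_mem_uIcc hy
  have T3 : |F ⟨Z'.re, Z.im⟩ U - F Z U - FX Z U * (Z'.re - Z.re)
      - FXX Z U / 2 * (Z'.re - Z.re) ^ 2| ≤ ε * (Z'.re - Z.re) ^ 2 := by
    have key := Convex.norm_image_sub_le_of_norm_hasDerivWithin_le (𝕜 := ℝ)
      (f := fun x : ℝ => F ⟨x, Z.im⟩ U - FX Z U * x - FXX Z U / 2 * (x - Z.re) ^ 2)
      (f' := fun x => FX ⟨x, Z.im⟩ U - FX Z U - FXX Z U * (x - Z.re))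
      (s := uIcc Z.re Z'.re) (x := Z.re) (y := Z'.re)
      (C := ε * |Z'.re - Z.re|) ?_ T3' (convex_uIcc _ _) left_mem_uIcc right_mem_uIcc
    · rw [Real.norm_eq_abs, Real.norm_eq_abs, mul_assoc, abs_mul_abs_self] at key
      refine le_trans (le_of_eq ?_) (key.trans (le_of_eq (by ring)))
      congr 1
      simp only [Complex.eta]
      ring
    · intro x hx'
      have h1 := hr.dX ⟨x, Z.im⟩ U hZim
      refine HasDerivAt.hasDerivWithinAt ?_
      have h2 := (h1.sub ((hasDerivAt_id x).const_mul (FX Z U))).sub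
        ((((hasDerivAt_id x).sub_const Z.re).pow 2).const_mul (FXX Z U / 2))
      refine (h2.congr_deriv ?_).congr_of_eventuallyEq ?_
      · simp only [mul_one, Nat.cast_ofNat, id_eq, Nat.add_one_sub_one, pow_one, sub_right_inj]
        ring
      · refine Eventually.of_forall fun y => ?_
        simp only [id_eq, Pi.pow_apply, Pi.sub_apply]
  have e : F Z' U' - F Z U - FX Z U * (Z'.re - Z.re)
        - FXX Z U / 2 * (Z'.re - Z.re) ^ 2 - FY Z U * (Z'.im - Z.im)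
        - FU Z U * (U' - U) = (F Z' U' - F ⟨Z'.re, Z.im⟩ U' - FY Z U * (Z'.im - Z.im)) +
        (F ⟨Z'.re, Z.im⟩ U' - F ⟨Z'.re, Z.im⟩ U - FU Z U * (U' - U)) +
        (F ⟨Z'.re, Z.im⟩ U - F Z U - FX Z U * (Z'.re - Z.re)
          - FXX Z U / 2 * (Z'.re - Z.re) ^ 2) := by ring
  simp only
  rw [e]
  refine (abs_add_three _ _ _).trans ?_
  linarith only [T1, T2, T3]


/-- Components of the first-order expansion of the state over a short time step, uniformly over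
a compact set of states. -/
lemma step_expand {K : Set (ℂ × ℝ)} (hK : IsCompact K) (hKim : ∀ x ∈ K, 0 < x.1.im) :
    ∃ C δ₀ ϰ : ℝ, 1 ≤ C ∧ 0 < δ₀ ∧ δ₀ ≤ 1 ∧ 0 < ϰ ∧ ϰ ≤ 1 ∧
      ∀ {W : ℝ → ℝ} (_ : Continuous W) {z : ℂ} {t : ℝ} (_ : 0 ≤ t)
      (_ : z ∈ loewnerDomain W t) (_ : (Zf W z t, Uf W z t) ∈ K) {δ m : ℝ} (_ : 0 ≤ δ)
      (_ : δ ≤ δ₀) (_ : m ≤ ϰ) (_ : ∀ u ∈ Icc t (t + δ), |W u - W t| ≤ m),
      z ∈ loewnerDomain W (t + δ) ∧ ∀ u ∈ Icc t (t + δ),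
        |(Zf W z u).re - (Zf W z t).re - 2 * (Zf W z t).re / ‖Zf W z t‖ ^ 2 * (u - t)
          + (W u - W t)| ≤ C * (u - t) * (δ + m) ∧
        |(Zf W z u).im - (Zf W z t).im + 2 * (Zf W z t).im / ‖Zf W z t‖ ^ 2 * (u - t)| ≤
          C * (u - t) * (δ + m) ∧
        |Uf W z u - Uf W z t + 4 * sn (Zf W z t) ^ 2 / ‖Zf W z t‖ ^ 2 * (u - t)| ≤
          C * (u - t) * (δ + m) ∧
        |(Zf W z u).re - (Zf W z t).re + (W u - W t)| ≤ C * (u - t) ∧
        |(Zf W z u).im - (Zf W z t).im| ≤ C * (u - t) ∧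
        |Uf W z u - Uf W z t| ≤ C * (u - t) := by
  -- lower bound for the norm on `K`
  obtain ⟨q, hq, hqK⟩ : ∃ q > 0, ∀ x ∈ K, q ≤ ‖x.1‖ := by
    rcases K.eq_empty_or_nonempty with h | h
    · exact ⟨1, one_pos, by simp only [h, mem_empty_iff_false, IsEmpty.forall_iff, implies_true]⟩
    · obtain ⟨x, hx, hmin⟩ := hK.exists_isMinOn h
        (f := fun x : ℂ × ℝ => ‖x.1‖) (by fun_prop)
      refine ⟨‖x.1‖, ?_, fun y hy => hmin hy⟩
      have := hKim x hx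
      apply norm_pos_iff.2
      rintro h0
      simp [h0] at this
  obtain ⟨C, δ₁, hC, hδ₁, H⟩ := one_step hq
  set B : ℝ := 4 / q + 4 / q ^ 2 with hB
  have hBpos : 0 < B := by positivity
  refine ⟨C * 3 + B + 1, min δ₁ 1, min (q / 8) 1, by nlinarith only [hC, hBpos], by positivity, min_le_right _ _,
    by positivity, min_le_right _ _, ?_⟩
  intro W hW z t ht hz hZK δ m hδ0 hδ hm hosc
  have hqZ : q ≤ ‖Zf W z t‖ := hqK _ hZK
  have hZpos : 0 < ‖Zf W z t‖ := hq.trans_le hqZ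
  have hm0 : 0 ≤ m := by
    have := hosc t ⟨le_rfl, by linarith only [hδ0]⟩
    simpa only [ge_iff_le, sub_self, abs_zero] using this
  obtain ⟨h1, h2⟩ := H hW ht hz hqZ hδ0 (hδ.trans (min_le_left _ _)) (hm.trans (min_le_left _ _))
    hosc
  refine ⟨h1, fun u hu => ?_⟩
  obtain ⟨-, -, e1, -, e3⟩ := h2 u hu
  have hut : 0 ≤ u - t := by linarith only [hu.1]
  have hδ1 : δ ≤ 1 := hδ.trans (min_le_right _ _)
  have hm1 : m ≤ 1 := hm.trans (min_le_right _ _)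
  have hdm : 0 ≤ δ + m := by linarith only [hδ0, hm0]
  have hCC : C * (u - t) * (δ + m) ≤ (C * 3 + B + 1) * (u - t) * (δ + m) := by
    have : 0 ≤ (u - t) * (δ + m) := by (clear * - hut hδ0 hm0; positivity)
    nlinarith only [hC, hBpos, this]
  have hre : (2 / Zf W z t).re = 2 * (Zf W z t).re / ‖Zf W z t‖ ^ 2 := by
    rw [Complex.div_re, Complex.sq_norm]; simp only [Complex.re_ofNat, Complex.im_ofNat, zero_mul, zero_div, add_zero]
  have him : (2 / Zf W z t).im = -(2 * (Zf W z t).im / ‖Zf W z t‖ ^ 2) := by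
    rw [Complex.div_im, Complex.sq_norm]; simp only [Complex.im_ofNat, zero_mul, zero_div, Complex.re_ofNat, zero_sub]
  have r1 : |(Zf W z u).re - (Zf W z t).re - 2 * (Zf W z t).re / ‖Zf W z t‖ ^ 2 * (u - t)
          + (W u - W t)| ≤ C * (u - t) * (δ + m) := by
    refine le_trans ?_ ((Complex.abs_re_le_norm _).trans e1)
    apply le_of_eq
    congr 1
    simp only [Complex.add_re, Complex.sub_re, Complex.mul_re, Complex.ofReal_re,
      Complex.ofReal_im, mul_zero, sub_zero, hre]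
  have r2 : |(Zf W z u).im - (Zf W z t).im + 2 * (Zf W z t).im / ‖Zf W z t‖ ^ 2 * (u - t)| ≤
      C * (u - t) * (δ + m) := by
    refine le_trans ?_ ((Complex.abs_im_le_norm _).trans e1)
    apply le_of_eq
    congr 1
    simp only [Complex.add_im, Complex.sub_im, Complex.mul_im, Complex.ofReal_im, mul_zero, him, Complex.ofReal_re, zero_add, add_zero]
    ring
  have r3 : |Uf W z u - Uf W z t + 4 * sn (Zf W z t) ^ 2 / ‖Zf W z t‖ ^ 2 * (u - t)| ≤
      C * (u - t) * (δ + m) := by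
    refine le_trans (le_of_eq ?_) e3
    congr 1
    ring
  -- drift bounds
  have hb : ∀ x : ℝ, |x| ≤ ‖Zf W z t‖ → |2 * x / ‖Zf W z t‖ ^ 2| ≤ B := by
    intro x hx
    rw [abs_div, abs_mul, abs_of_pos (by (clear * - hZpos; positivity) : (0:ℝ) < ‖Zf W z t‖ ^ 2)]
    rw [div_le_iff₀ (by (clear * - hZpos; positivity))]
    have h4 : 4 / q * ‖Zf W z t‖ ^ 2 ≤ B * ‖Zf W z t‖ ^ 2 := by
      gcongr
      rw [hB]
      have : 0 < 4 / q ^ 2 := by positivity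
      linarith only [this]
    refine le_trans ?_ h4
    have h5 : 4 * ‖Zf W z t‖ ≤ 4 / q * ‖Zf W z t‖ ^ 2 := by
      have : 4 / q * ‖Zf W z t‖ ^ 2 = 4 * ‖Zf W z t‖ * (‖Zf W z t‖ / q) := by ring
      rw [this]
      have : 1 ≤ ‖Zf W z t‖ / q := by rwa [one_le_div hq]
      nlinarith only [hq, hqZ, this]
    simp only [abs_two]
    linarith only [hq, hqZ, hx, h5]
  have hb3 : |4 * sn (Zf W z t) ^ 2 / ‖Zf W z t‖ ^ 2| ≤ B := by
    have h0 : 0 ≤ sn (Zf W z t) := by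
      unfold sn
      exact div_nonneg (Zf_im_pos ht hz).le (norm_nonneg _)
    have h1 := sn_le_one (Zf W z t)
    rw [abs_of_nonneg (by (clear * - hZpos; positivity))]
    have : 4 * sn (Zf W z t) ^ 2 / ‖Zf W z t‖ ^ 2 ≤ 4 * 1 ^ 2 / q ^ 2 := by (clear * - h0 h1 hq hqZ; gcongr)
    rw [hB]
    have : 0 < 4 / q := by positivity
    (clear hK hKim C δ₁ hC hδ₁ H B hB hBpos hW m hδ0 hδ hm hosc hZpos hm0 h2 u hu e1 e3 hut hδ1 hm1 hdm hCC hre him r1 r2 r3 hb; linarith)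
  have hre' := hb _ (Complex.abs_re_le_norm (Zf W z t))
  have him' := hb _ (Complex.abs_im_le_norm (Zf W z t))
  have hcrude : ∀ a b c : ℝ, |a + c * (u - t)| ≤ C * (u - t) * (δ + m) → |c| ≤ B →
      |a| ≤ (C * 3 + B + 1) * (u - t) := by
    intro a b c h hc
    have h6 : |c * (u - t)| ≤ B * (u - t) := by
      rw [abs_mul, abs_of_nonneg hut]
      (clear * - hc hut; gcongr)
    have h7 : C * (u - t) * (δ + m) ≤ C * (u - t) * 2 := by
      gcongr
      linarith only [hδ1, hm1]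
    have h8 : |a| ≤ |a + c * (u - t)| + |c * (u - t)| := by
      have := abs_sub (a + c * (u - t)) (c * (u - t))
      simpa only [abs_mul, ge_iff_le, add_sub_cancel_right] using this
    nlinarith only [hC, hut, h, h6, h7, h8]
  refine ⟨r1.trans hCC, r2.trans hCC, r3.trans hCC, ?_, ?_, ?_⟩
  · refine hcrude _ 0 (-(2 * (Zf W z t).re / ‖Zf W z t‖ ^ 2)) ?_ (by rwa [abs_neg])
    refine le_trans (le_of_eq ?_) r1
    congr 1
    ring
  · exact hcrude _ 0 _ r2 him'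
  · exact hcrude _ 0 _ r3 hb3


lemma stepE_alg {R pa fx fxx fy fu dX dY dU η q1 q2 q3 δ m C M : ℝ} (hC : 1 ≤ C) (hM : 0 ≤ M)
    (hδ : 0 ≤ δ) (hm : 0 ≤ m) (hη : |η| ≤ m) (e1 : |dX - q1 * δ + η| ≤ C * δ * (δ + m))
    (e2 : |dY + q2 * δ| ≤ C * δ * (δ + m)) (e3 : |dU + q3 * δ| ≤ C * δ * (δ + m))
    (e4 : |dX + η| ≤ C * δ) (mX : |fx| ≤ M) (mXX : |fxx| ≤ M) (mY : |fy| ≤ M) (mU : |fu| ≤ M) :
    |R + fx * (dX - q1 * δ + η) + fxx / 2 * (dX ^ 2 - η ^ 2) + fy * (dY + q2 * δ)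
      + fu * (dU + q3 * δ) + pa| ≤ |R| + 4 * M * C ^ 2 * (δ * (δ + m)) + |pa| := by
  have hdm : 0 ≤ δ + m := by linarith only [hδ, hm]
  have hC0 : 0 ≤ C := by linarith only [hC]
  have s1 : |fx * (dX - q1 * δ + η)| ≤ M * (C * δ * (δ + m)) := by
    rw [abs_mul]; (clear * - mX e1 hM; gcongr)
  have s2 : |fxx / 2 * (dX ^ 2 - η ^ 2)| ≤ M / 2 * (C * δ * (2 * C * (δ + m))) := by
    have h5 : |dX - η| ≤ 2 * C * (δ + m) := by
      have h4 : |dX - η| ≤ |dX + η| + |2 * η| := by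
        have := abs_sub (dX + η) (2 * η)
        rwa [show dX + η - 2 * η = dX - η by ring] at this
      rw [abs_mul, abs_two] at h4
      nlinarith only [hC, hδ, hm, hη, e4, h4]
    have : dX ^ 2 - η ^ 2 = (dX + η) * (dX - η) := by ring
    rw [abs_mul, this, abs_mul, abs_div, abs_two]
    (clear * - mXX e4 h5 hC hδ hM; gcongr)
  have s3 : |fy * (dY + q2 * δ)| ≤ M * (C * δ * (δ + m)) := by
    rw [abs_mul]; (clear * - mY e2 hM; gcongr)
  have s4 : |fu * (dU + q3 * δ)| ≤ M * (C * δ * (δ + m)) := by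
    rw [abs_mul]; (clear * - mU e3 hM; gcongr)
  have s5 : M * (C * δ * (δ + m)) ≤ M * C ^ 2 * (δ * (δ + m)) := by
    have : C ≤ C ^ 2 := by nlinarith only [hC]
    calc M * (C * δ * (δ + m)) = M * C * (δ * (δ + m)) := by ring
      _ ≤ _ := by (clear * - this hM hδ hm; gcongr)
  have s6 : M / 2 * (C * δ * (2 * C * (δ + m))) = M * C ^ 2 * (δ * (δ + m)) := by ring
  have t1 := abs_add_le (R + fx * (dX - q1 * δ + η) + fxx / 2 * (dX ^ 2 - η ^ 2)
    + fy * (dY + q2 * δ) + fu * (dU + q3 * δ)) pa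
  have t2 := abs_add_le (R + fx * (dX - q1 * δ + η) + fxx / 2 * (dX ^ 2 - η ^ 2)
    + fy * (dY + q2 * δ)) (fu * (dU + q3 * δ))
  have t3 := abs_add_le (R + fx * (dX - q1 * δ + η) + fxx / 2 * (dX ^ 2 - η ^ 2))
    (fy * (dY + q2 * δ))
  have t4 := abs_add_le (R + fx * (dX - q1 * δ + η)) (fxx / 2 * (dX ^ 2 - η ^ 2))
  have t5 := abs_add_le R (fx * (dX - q1 * δ + η))
  linarith only [s1, s2, s3, s4, s5, t1, t2, t3, t4, t5]

lemma fineE_alg {E R pa dX dY dU δ m C M ε₁ : ℝ} (hC : 1 ≤ C) (hM : 0 < M)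
    (hδ : 0 ≤ δ) (hδ1 : δ ≤ 1) (hε₁ : 0 < ε₁)
    (hE : |E| ≤ |R| + 4 * M * C ^ 2 * (δ * (δ + m)) + |pa|)
    (hdX : |dX| ≤ C * δ + m) (hdY : |dY| ≤ C * δ) (hdU : |dU| ≤ C * δ)
    (hR : |R| ≤ ε₁ * (dX ^ 2 + |dY| + |dU|)) (hpa : |pa| ≤ ε₁ * δ) (hτ : δ + m ≤ ε₁) :
    |E| ≤ ε₁ * (5 * C ^ 2 + 4 * M * C ^ 2) * (δ + m ^ 2) := by
  have hC0 : 0 ≤ C := by linarith only [hC]
  have hCC : 1 ≤ C ^ 2 := by nlinarith only [hC]
  have h1 : dX ^ 2 ≤ 2 * C ^ 2 * δ + 2 * m ^ 2 := by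
    have : dX ^ 2 ≤ (C * δ + m) ^ 2 := sq_le_sq' (by linarith only [hdX, neg_abs_le dX]) ((le_abs_self _).trans hdX)
    have h2 : (C * δ + m) ^ 2 ≤ 2 * (C * δ) ^ 2 + 2 * m ^ 2 := by nlinarith only [sq_nonneg (C * δ - m)]
    have h3 : (C * δ) ^ 2 ≤ C ^ 2 * δ := by
      have : δ ^ 2 ≤ δ := by nlinarith only [hδ, hδ1]
      calc (C * δ) ^ 2 = C ^ 2 * δ ^ 2 := by ring
        _ ≤ _ := by (clear * - this hC; gcongr)
    linarith only [this, h2, h3]
  have h4 : C * δ ≤ C ^ 2 * δ := by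
    have : C ≤ C ^ 2 := by nlinarith only [hCC]
    (clear * - this hδ; gcongr)
  have h5 : dX ^ 2 + |dY| + |dU| ≤ 4 * C ^ 2 * (δ + m ^ 2) := by
    have : 2 * m ^ 2 ≤ 4 * C ^ 2 * m ^ 2 := by nlinarith only [hCC]
    linarith only [hdY, hdU, h1, h4, this]
  have h6 : |R| ≤ ε₁ * (4 * C ^ 2 * (δ + m ^ 2)) := hR.trans (by (clear * - h5 hε₁; gcongr))
  have h7 : 4 * M * C ^ 2 * (δ * (δ + m)) ≤ 4 * M * C ^ 2 * (δ * ε₁) := by (clear * - hτ hδ hM hC; gcongr)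
  have h8 : 4 * M * C ^ 2 * (δ * ε₁) ≤ 4 * M * C ^ 2 * ((δ + m ^ 2) * ε₁) := by
    gcongr
    nlinarith only []
  have h9 : ε₁ * δ ≤ ε₁ * (C ^ 2 * (δ + m ^ 2)) := by
    have : δ ≤ C ^ 2 * (δ + m ^ 2) := by nlinarith only [hC, hδ, h4]
    (clear * - this hε₁; gcongr)
  calc |E| ≤ ε₁ * (4 * C ^ 2 * (δ + m ^ 2)) + 4 * M * C ^ 2 * ((δ + m ^ 2) * ε₁)
        + ε₁ * (C ^ 2 * (δ + m ^ 2)) := by linarith only [hE, hpa, h6, h7, h8, h9]
    _ = _ := by ring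

lemma crudeE_alg {E R pa F' F fx fxx fy fu dX dY dU δ m C M : ℝ} (hC : 1 ≤ C) (hM : 0 < M)
    (hδ : 0 ≤ δ) (hδ1 : δ ≤ 1) (hm : 0 ≤ m) (hm1 : m ≤ 1)
    (hE : |E| ≤ |R| + 4 * M * C ^ 2 * (δ * (δ + m)) + |pa|)
    (hdX : |dX| ≤ C * δ + m) (hdY : |dY| ≤ C * δ) (hdU : |dU| ≤ C * δ)
    (hR : R = F' - F - fx * dX - fxx / 2 * dX ^ 2 - fy * dY - fu * dU)
    (mF' : |F'| ≤ M) (mF : |F| ≤ M)
    (mX : |fx| ≤ M) (mXX : |fxx| ≤ M) (mY : |fy| ≤ M) (mU : |fu| ≤ M) (hpa : |pa| ≤ 2 * M) :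
    |E| ≤ 20 * M * C ^ 2 := by
  have hC0 : 0 ≤ C := by linarith only [hC]
  have hCC : 1 ≤ C ^ 2 := by nlinarith only [hC]
  have hCC' : C ≤ C ^ 2 := by nlinarith only [hCC]
  have hdX' : |dX| ≤ 2 * C := by nlinarith only [hC, hδ1, hm1, hdX]
  have hdY' : |dY| ≤ C := by nlinarith only [hC, hδ1, hdY]
  have hdU' : |dU| ≤ C := by nlinarith only [hC, hδ1, hdU]
  have h1 : |fx * dX| ≤ M * (2 * C) := by rw [abs_mul]; (clear * - mX hdX' hM; gcongr)
  have h2 : |fxx / 2 * dX ^ 2| ≤ M / 2 * (2 * C) ^ 2 := by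
    rw [abs_mul, abs_div, abs_two, abs_pow]; (clear * - mXX hdX' hM; gcongr)
  have h3 : |fy * dY| ≤ M * C := by rw [abs_mul]; (clear * - mY hdY' hM; gcongr)
  have h4 : |fu * dU| ≤ M * C := by rw [abs_mul]; (clear * - mU hdU' hM; gcongr)
  have t1 := abs_sub (F' - F - fx * dX - fxx / 2 * dX ^ 2 - fy * dY) (fu * dU)
  have t2 := abs_sub (F' - F - fx * dX - fxx / 2 * dX ^ 2) (fy * dY)
  have t3 := abs_sub (F' - F - fx * dX) (fxx / 2 * dX ^ 2)
  have t4 := abs_sub (F' - F) (fx * dX)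
  have t5 := abs_sub F' F
  rw [← hR] at t1
  have h5 : |R| ≤ 2 * M + M * (2 * C) + M / 2 * (2 * C) ^ 2 + M * C + M * C := by linarith only [mF', mF, h1, h2, h3, h4, t1, t2, t3, t4, t5]
  have h6 : 4 * M * C ^ 2 * (δ * (δ + m)) ≤ 4 * M * C ^ 2 * (1 * (1 + 1)) := by (clear * - hδ1 hm1 hδ hm hM hC; gcongr)
  have h7 : M * C ≤ M * C ^ 2 := by gcongr
  have h8 : M ≤ M * C ^ 2 := by nlinarith only [hC, h7]
  nlinarith only [hM, hE, mF', mF, hpa, h1, h2, h3, h4, t1, t2, t3, t4, t5, h6, h7, h8]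


lemma St_continuousOn {G : ℂ → ℝ → ℝ}
    (hG : ContinuousOn (Function.uncurry G) ({Z : ℂ | 0 < Z.im} ×ˢ univ)) {W : ℝ → ℝ}
    (hW : Continuous W) {z : ℂ} {T : ℝ} (hT : 0 ≤ T) (h : z ∈ loewnerDomain W T) :
    ContinuousOn (fun u => St G W z u) (Icc 0 T) := by
  have h1 : ContinuousOn (fun u => Function.uncurry G (Zf W z u, Uf W z u)) (Icc 0 T) :=
    hG.comp ((Zf_cont hW hT h).prodMk (Uf_cont hW h)) fun u hu =>
      ⟨Zf_im_pos hu.1 (dom_mono hu.2 h), mem_univ _⟩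
  refine h1.congr fun u hu => ?_
  rw [St_of_mem (dom_mono hu.2 h)]
  rfl

/-- The hypothesis of a one-step estimate. -/
structure StepHyp (K : Set (ℂ × ℝ)) (W : ℝ → ℝ) (z : ℂ) (t δ m : ℝ) : Prop where
  hW : Continuous W
  ht : 0 ≤ t
  hz : z ∈ loewnerDomain W t
  hZ : (Zf W z t, Uf W z t) ∈ K
  hδ : 0 ≤ δ
  hm : ∀ u ∈ Icc t (t + δ), |W u - W t| ≤ m

/-- The error of the second-order expansion of `F + ∫ a` over a time step. -/
noncomputable def stepE (F FX FXX FY FU a : ℂ → ℝ → ℝ) (W : ℝ → ℝ) (z : ℂ) (t δ : ℝ) : ℝ :=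
  St F W z (t + δ) + (∫ u in t..(t + δ), St a W z u) - F (Zf W z t) (Uf W z t)
    + FX (Zf W z t) (Uf W z t) * (W (t + δ) - W t)
    - FXX (Zf W z t) (Uf W z t) / 2 * (W (t + δ) - W t) ^ 2
    - δ * (gen 0 FX FXX FY FU (Zf W z t) (Uf W z t) + a (Zf W z t) (Uf W z t))

lemma bdd_on_compact {G : ℂ → ℝ → ℝ}
    (hG : ContinuousOn (Function.uncurry G) ({Z : ℂ | 0 < Z.im} ×ˢ univ))
    {K : Set (ℂ × ℝ)} (hK : IsCompact K) (hKim : ∀ x ∈ K, 0 < x.1.im) :
    ∃ M > 0, ∀ x ∈ K, |G x.1 x.2| ≤ M := by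
  obtain ⟨M, hM⟩ := hK.exists_bound_of_continuousOn
    (hG.mono fun x hx => ⟨hKim x hx, mem_univ _⟩ : ContinuousOn (Function.uncurry G) K)
  refine ⟨max M 1, by (clear * -; positivity), fun x hx => (hM x hx).trans (le_max_left _ _)⟩

theorem step_det {F FX FXX FY FU a : ℂ → ℝ → ℝ} (hr : Reg F FX FXX FY FU)
    (ha : ContinuousOn (Function.uncurry a) ({Z : ℂ | 0 < Z.im} ×ˢ univ))
    {K : Set (ℂ × ℝ)} (hK : IsCompact K) (hKim : ∀ x ∈ K, 0 < x.1.im) :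
    ∃ M δ₀ ϰ : ℝ, 0 < M ∧ 0 < δ₀ ∧ δ₀ ≤ 1 ∧ 0 < ϰ ∧ ϰ ≤ 1 ∧
      (∀ {W : ℝ → ℝ} {z : ℂ} {t δ m : ℝ}, StepHyp K W z t δ m → δ ≤ δ₀ → m ≤ ϰ →
        z ∈ loewnerDomain W (t + δ) ∧ |St F W z (t + δ)| ≤ M ∧
          ∀ u ∈ Icc t (t + δ), |St a W z u| ≤ M) ∧
      ∀ ε > 0, ∃ D ≥ 0, ∀ {W : ℝ → ℝ} {z : ℂ} {t δ m : ℝ}, StepHyp K W z t δ m → δ ≤ δ₀ →
        m ≤ ϰ → |stepE F FX FXX FY FU a W z t δ| ≤ ε * (δ + m ^ 2) + D * (δ ^ 2 + m ^ 4) := by
  obtain ⟨C, δ₀, ϰ, hC, hδ₀, hδ₀1, hϰ, hϰ1, H⟩ := step_expand hK hKim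
  have hC0 : 0 < C := by linarith only [hC]
  have hsub : K ⊆ ({Z : ℂ | 0 < Z.im} ×ˢ (univ : Set ℝ)) := fun x hx => ⟨hKim x hx, mem_univ _⟩
  obtain ⟨r, hr0, hrK⟩ := hK.exists_cthickening_subset_open isOpen_HR hsub
  have hK' : IsCompact (cthickening r K) := hK.cthickening
  have hK'im : ∀ x ∈ cthickening r K, 0 < x.1.im := fun x hx => (hrK hx).1
  obtain ⟨M₁, hM₁, b1⟩ := bdd_on_compact hr.cF hK' hK'im
  obtain ⟨M₂, hM₂, b2⟩ := bdd_on_compact ha hK' hK'im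
  obtain ⟨M₃, hM₃, b3⟩ := bdd_on_compact hr.cX hK hKim
  obtain ⟨M₄, hM₄, b4⟩ := bdd_on_compact hr.cXX hK hKim
  obtain ⟨M₅, hM₅, b5⟩ := bdd_on_compact hr.cY hK hKim
  obtain ⟨M₆, hM₆, b6⟩ := bdd_on_compact hr.cU hK hKim
  set M := M₁ + M₂ + M₃ + M₄ + M₅ + M₆ with hM
  have hMpos : 0 < M := by (clear * - hM₁ hM₂ hM₃ hM₄ hM₅ hM₆; positivity)
  -- the path stays close
  have close : ∀ {W : ℝ → ℝ} {z : ℂ} {t δ m : ℝ}, StepHyp K W z t δ m → δ ≤ δ₀ → m ≤ ϰ →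
      z ∈ loewnerDomain W (t + δ) ∧ ∀ u ∈ Icc t (t + δ),
        dist (Zf W z u, Uf W z u) (Zf W z t, Uf W z t) ≤ 2 * C * (δ + m) := by
    intro W z t δ m h hδ hm
    obtain ⟨h1, h2⟩ := H h.hW h.ht h.hz h.hZ h.hδ hδ hm h.hm
    have hδ' := h.hδ
    have hm0 : 0 ≤ m := by
      have := h.hm t ⟨le_rfl, by linarith only [hδ']⟩
      simpa only [ge_iff_le, sub_self, abs_zero] using this
    refine ⟨h1, fun u hu => ?_⟩
    obtain ⟨-, -, -, e4, e5, e6⟩ := h2 u hu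
    have hu1 : u - t ≤ δ := by linarith only [hu.2]
    have hu0 : 0 ≤ u - t := by linarith only [hu.1]
    have hCu : C * (u - t) ≤ C * δ := by (clear * - hu1 hC; gcongr)
    rw [Prod.dist_eq]
    refine max_le ?_ ?_
    · rw [dist_eq_norm]
      refine (Complex.norm_le_abs_re_add_abs_im _).trans ?_
      simp only [Complex.sub_re, Complex.sub_im]
      have h3 : |(Zf W z u).re - (Zf W z t).re| ≤ C * δ + m := by
        have := h.hm u hu
        have h4 := abs_sub ((Zf W z u).re - (Zf W z t).re + (W u - W t)) (W u - W t)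
        rw [add_sub_cancel_right] at h4
        linarith only [e4, hCu, this, h4]
      nlinarith only [hC, hm0, e5, hCu, h3]
    · rw [Real.dist_eq]
      simp only
      nlinarith only [hC, hδ', hm0, e6, hCu]
  have first : ∀ {W : ℝ → ℝ} {z : ℂ} {t δ m : ℝ}, StepHyp K W z t δ m →
      δ ≤ min δ₀ (r / (4 * C)) → m ≤ min ϰ (r / (4 * C)) →
        z ∈ loewnerDomain W (t + δ) ∧ |St F W z (t + δ)| ≤ M ∧
          ∀ u ∈ Icc t (t + δ), |St a W z u| ≤ M := by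
    intro W z t δ m h hδ hm
    obtain ⟨h1, h2⟩ := close h (hδ.trans (min_le_left _ _)) (hm.trans (min_le_left _ _))
    have hδ' := h.hδ
    have h3 : 2 * C * (δ + m) ≤ r := by
      have e1 : δ ≤ r / (4 * C) := hδ.trans (min_le_right _ _)
      have e2 : m ≤ r / (4 * C) := hm.trans (min_le_right _ _)
      rw [le_div_iff₀ (by positivity)] at e1 e2
      linarith only [e1, e2]
    have h4 : ∀ u ∈ Icc t (t + δ), (Zf W z u, Uf W z u) ∈ cthickening r K := fun u hu =>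
      mem_cthickening_of_dist_le _ _ _ _ h.hZ ((h2 u hu).trans h3)
    refine ⟨h1, ?_, ?_⟩
    · rw [St_of_mem h1]
      have := b1 _ (h4 (t + δ) ⟨by linarith only [hδ'], le_rfl⟩)
      simp only at this
      refine this.trans ?_
      rw [hM]
      linarith only [hM₂, hM₃, hM₄, hM₅, hM₆]
    · intro u hu
      rw [St_of_mem (dom_mono hu.2 h1)]
      have := b2 _ (h4 u hu)
      simp only at this
      refine this.trans ?_
      rw [hM]
      linarith only [hM₁, hM₃, hM₄, hM₅, hM₆]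
  refine ⟨M, min δ₀ (r / (4 * C)), min ϰ (r / (4 * C)), hMpos, by (clear * - hδ₀ hr0 hC; positivity),
    (min_le_left _ _).trans hδ₀1, by positivity, (min_le_left _ _).trans hϰ1, first, ?_⟩
  · intro ε hε
    set Q := 5 * C ^ 2 + 4 * M * C ^ 2 with hQ
    have hQpos : 0 < Q := by (clear * - hC hM₁ hM₂ hM₃ hM₄ hM₅ hM₆; positivity)
    set ε₁ := ε / Q with hε₁
    have hε₁pos : 0 < ε₁ := by (clear * - hε hC hM₁ hM₂ hM₃ hM₄ hM₅ hM₆; positivity)
    obtain ⟨ρ₁, hρ₁, t1⟩ := taylor_state hr hK hKim hε₁pos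
    obtain ⟨ρ₂, hρ₂, t2⟩ := unif_close ha hK hKim hε₁pos
    set τ := min ε₁ (min ρ₁ ρ₂ / (4 * C)) with hτ
    have hτpos : 0 < τ := by (clear * - hε hC hM₁ hM₂ hM₃ hM₄ hM₅ hM₆ hρ₁ hρ₂; positivity)
    set θ := min ((τ / 2) ^ 2) ((τ / 2) ^ 4) with hθ
    have hθpos : 0 < θ := by (clear * - hε hC hM₁ hM₂ hM₃ hM₄ hM₅ hM₆ hρ₁ hρ₂; positivity)
    refine ⟨20 * M * C ^ 2 / θ, by (clear * - hM₁ hM₂ hM₃ hM₄ hM₅ hM₆ hC hε hρ₁ hρ₂; positivity), ?_⟩
    intro W z t δ m h hδ hm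
    have hδ1 : δ ≤ δ₀ := hδ.trans (min_le_left _ _)
    have hm1 : m ≤ ϰ := hm.trans (min_le_left _ _)
    obtain ⟨h1, h2⟩ := H h.hW h.ht h.hz h.hZ h.hδ hδ1 hm1 h.hm
    obtain ⟨-, h3⟩ := close h hδ1 hm1
    obtain ⟨-, hF', haM⟩ := first h hδ hm
    have hδ' := h.hδ
    have hm0 : 0 ≤ m := by
      have := h.hm t ⟨le_rfl, by linarith only [hδ']⟩
      simpa only [ge_iff_le, sub_self, abs_zero] using this
    have hmem : t + δ ∈ Icc t (t + δ) := ⟨by linarith only [hδ'], le_rfl⟩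
    have hmem0 : t ∈ Icc t (t + δ) := ⟨le_rfl, by linarith only [hδ']⟩
    obtain ⟨e1, e2, e3, e4, e5, e6⟩ := h2 (t + δ) hmem
    have hη := h.hm (t + δ) hmem
    rw [add_sub_cancel_left] at e1 e2 e3 e4 e5 e6
    have mX : |FX (Zf W z t) (Uf W z t)| ≤ M := (b3 _ h.hZ).trans (by rw [hM]; linarith only [hM₁, hM₂, hM₄, hM₅, hM₆])
    have mXX : |FXX (Zf W z t) (Uf W z t)| ≤ M := (b4 _ h.hZ).trans (by rw [hM]; linarith only [hM₁, hM₂, hM₃, hM₅, hM₆])
    have mY : |FY (Zf W z t) (Uf W z t)| ≤ M := (b5 _ h.hZ).trans (by rw [hM]; linarith only [hM₁, hM₂, hM₃, hM₄, hM₆])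
    have mU : |FU (Zf W z t) (Uf W z t)| ≤ M := (b6 _ h.hZ).trans (by rw [hM]; linarith only [hM₁, hM₂, hM₃, hM₄, hM₅])
    have mF : |F (Zf W z t) (Uf W z t)| ≤ M :=
      (b1 _ (self_subset_cthickening K h.hZ)).trans (by rw [hM]; linarith only [hM₂, hM₃, hM₄, hM₅, hM₆])
    have mA : |a (Zf W z t) (Uf W z t)| ≤ M :=
      (b2 _ (self_subset_cthickening K h.hZ)).trans (by rw [hM]; linarith only [hM₁, hM₃, hM₄, hM₅, hM₆])
    have hδ11 : δ ≤ 1 := hδ1.trans hδ₀1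
    have hm11 : m ≤ 1 := hm1.trans hϰ1
    have hdXm : |(Zf W z (t + δ)).re - (Zf W z t).re| ≤ C * δ + m := by
      have h4 := abs_sub ((Zf W z (t + δ)).re - (Zf W z t).re + (W (t + δ) - W t))
        (W (t + δ) - W t)
      rw [add_sub_cancel_right] at h4
      linarith only [e4, hη, h4]
    have key := stepE_alg (R := F (Zf W z (t + δ)) (Uf W z (t + δ)) - F (Zf W z t) (Uf W z t)
      - FX (Zf W z t) (Uf W z t) * ((Zf W z (t + δ)).re - (Zf W z t).re)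
      - FXX (Zf W z t) (Uf W z t) / 2 * ((Zf W z (t + δ)).re - (Zf W z t).re) ^ 2
      - FY (Zf W z t) (Uf W z t) * ((Zf W z (t + δ)).im - (Zf W z t).im)
      - FU (Zf W z t) (Uf W z t) * (Uf W z (t + δ) - Uf W z t))
      (pa := (∫ u in t..(t + δ), St a W z u) - δ * a (Zf W z t) (Uf W z t))
      hC hMpos.le hδ' hm0 hη e1 e2 e3 e4 mX mXX mY mU
    have hEb := le_trans (le_of_eq (b := |_|) (show |stepE F FX FXX FY FU a W z t δ| = |_| by
      refine congrArg _ ?_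
      unfold stepE gen
      rw [St_of_mem h1]
      ring)) key
    -- integrability and the two bounds on the `a`-part
    have hT : 0 ≤ t + δ := by linarith only [hδ', h.ht]
    have hint : IntervalIntegrable (fun u => St a W z u) volume t (t + δ) := by
      apply ContinuousOn.intervalIntegrable
      rw [uIcc_of_le (by linarith only [hδ'])]
      exact (St_continuousOn ha h.hW hT h1).mono (Icc_subset_Icc_left h.ht)
    by_cases hτ' : δ + m ≤ τ
    · -- fine case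
      have hd : 2 * C * (δ + m) ≤ min ρ₁ ρ₂ / 2 := by
        have h5 : δ + m ≤ min ρ₁ ρ₂ / (4 * C) := hτ'.trans (min_le_right _ _)
        rw [le_div_iff₀ (by positivity)] at h5
        linarith only [h5]
      have hmin1 : min ρ₁ ρ₂ / 2 < ρ₁ := by
        have := min_le_left ρ₁ ρ₂
        have h6 : 0 < min ρ₁ ρ₂ := by (clear * - hρ₁ hρ₂; positivity)
        linarith only [hρ₁, this]
      have hmin2 : min ρ₁ ρ₂ / 2 < ρ₂ := by
        have := min_le_right ρ₁ ρ₂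
        have h6 : 0 < min ρ₁ ρ₂ := by (clear * - hρ₁ hρ₂; positivity)
        linarith only [hρ₂, this]
      have h7 := h3 (t + δ) hmem
      rw [Prod.dist_eq] at h7
      have h8 : ‖Zf W z (t + δ) - Zf W z t‖ < ρ₁ := by
        rw [← dist_eq_norm]
        exact ((le_max_left _ _).trans (h7.trans hd)).trans_lt hmin1
      have h9 : |Uf W z (t + δ) - Uf W z t| < ρ₁ := by
        rw [← Real.dist_eq]
        exact ((le_max_right _ _).trans (h7.trans hd)).trans_lt hmin1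
      have hR := t1 _ h.hZ _ _ h8 h9
      simp only at hR
      have hpa : |(∫ u in t..(t + δ), St a W z u) - δ * a (Zf W z t) (Uf W z t)| ≤ ε₁ * δ := by
        have e : (∫ u in t..(t + δ), St a W z u) - δ * a (Zf W z t) (Uf W z t) =
            ∫ u in t..(t + δ), (St a W z u - a (Zf W z t) (Uf W z t)) := by
          rw [intervalIntegral.integral_sub hint intervalIntegrable_const]
          simp only [intervalIntegral.integral_const, add_sub_cancel_left, smul_eq_mul]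
        rw [e]
        have := intervalIntegral.norm_integral_le_of_norm_le_const (a := t) (b := t + δ)
          (f := fun u => St a W z u - a (Zf W z t) (Uf W z t)) (C := ε₁) ?_
        · simpa only [ge_iff_le, Real.norm_eq_abs, add_sub_cancel_left, abs_of_nonneg hδ'] using this
        · intro u hu
          rw [uIoc_of_le (by linarith only [hδ'])] at hu
          have hu' : u ∈ Icc t (t + δ) := ⟨hu.1.le, hu.2⟩
          rw [St_of_mem (dom_mono hu.2 h1)]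
          exact (t2 _ h.hZ _ (((h3 u hu').trans hd).trans_lt hmin2)).2
      have := fineE_alg hC hMpos hδ' hδ11 hε₁pos hEb hdXm e5 e6 hR hpa
        (hτ'.trans (min_le_left _ _))
      refine this.trans ?_
      have h10 : ε₁ * (5 * C ^ 2 + 4 * M * C ^ 2) = ε := by
        rw [hε₁, ← hQ]
        (clear * - hQpos hε; field_simp)
      rw [h10]
      have : 0 ≤ 20 * M * C ^ 2 / θ * (δ ^ 2 + m ^ 4) := by (clear * - hM₁ hM₂ hM₃ hM₄ hM₅ hM₆ hC hε hρ₁ hρ₂; positivity)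
      linarith only [this]
    · -- crude case
      have hpa : |(∫ u in t..(t + δ), St a W z u) - δ * a (Zf W z t) (Uf W z t)| ≤ 2 * M := by
        have h5 : |∫ u in t..(t + δ), St a W z u| ≤ M * 1 := by
          have := intervalIntegral.norm_integral_le_of_norm_le_const (a := t) (b := t + δ)
            (f := fun u => St a W z u) (C := M) ?_
          · rw [add_sub_cancel_left, abs_of_nonneg hδ'] at this
            refine this.trans ?_
            (clear * - hδ11 hM₁ hM₂ hM₃ hM₄ hM₅ hM₆; gcongr)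
          · intro u hu
            rw [uIoc_of_le (by linarith only [hδ'])] at hu
            exact haM u ⟨hu.1.le, hu.2⟩
        have h6 : |δ * a (Zf W z t) (Uf W z t)| ≤ 1 * M := by
          rw [abs_mul, abs_of_nonneg hδ']
          (clear * - hδ11 mA; gcongr)
        have := abs_sub (∫ u in t..(t + δ), St a W z u) (δ * a (Zf W z t) (Uf W z t))
        linarith only [h5, h6, this]
      rw [St_of_mem h1] at hF'
      have := crudeE_alg hC hMpos hδ' hδ11 hm0 hm11 hEb hdXm e5 e6 rfl hF' mF mX mXX mY mU hpa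
      refine this.trans ?_
      have h11 : θ ≤ δ ^ 2 + m ^ 4 := by
        push Not at hτ'
        rcases le_or_gt (τ / 2) δ with h12 | h12
        · have h13 : (τ / 2) ^ 2 ≤ δ ^ 2 := by (clear * - hε hC hM₁ hM₂ hM₃ hM₄ hM₅ hM₆ hρ₁ hρ₂ h12; gcongr)
          have := min_le_left ((τ / 2) ^ 2) ((τ / 2) ^ 4)
          have h14 : 0 ≤ m ^ 4 := by (clear * -; positivity)
          linarith only [h13, this, h14]
        · have h13 : (τ / 2) ^ 4 ≤ m ^ 4 := by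
            gcongr
            linarith only [hτ', h12]
          have := min_le_right ((τ / 2) ^ 2) ((τ / 2) ^ 4)
          have h14 : 0 ≤ δ ^ 2 := by (clear * -; positivity)
          linarith only [h13, this, h14]
      have h15 : 20 * M * C ^ 2 ≤ 20 * M * C ^ 2 / θ * (δ ^ 2 + m ^ 4) := by
        rw [div_mul_eq_mul_div, le_div_iff₀ hθpos]
        (clear * - h11 hM₁ hM₂ hM₃ hM₄ hM₅ hM₆ hC; gcongr)
      have : 0 ≤ ε * (δ + m ^ 2) := by (clear * - hε hδ'; positivity)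
      linarith only [h15, this]

end Vale.Agent.P164
end

section

/-!
# One step of the supermartingale inequality for functions of the state of one point
-/

namespace Vale.Agent.P164

open Set Metric Filter Topology MeasureTheory ProbabilityTheory
open scoped NNReal ENNReal

/-- Extension of a function on `H × ℝ` by zero. -/
noncomputable def ext0 (G : ℂ → ℝ → ℝ) (Z : ℂ) (U : ℝ) : ℝ := if 0 < Z.im then G Z U else 0

lemma ext0_measurable {G : ℂ → ℝ → ℝ}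
    (hG : ContinuousOn (Function.uncurry G) ({Z : ℂ | 0 < Z.im} ×ˢ univ)) :
    Measurable (Function.uncurry (ext0 G)) := by
  classical
  have h1 := hG.measurable_piecewise (g := fun _ => (0 : ℝ)) continuousOn_const
    isOpen_HR.measurableSet
  convert h1 using 1
  funext p
  by_cases hp : 0 < p.1.im
  · rw [Set.piecewise_eq_of_mem _ _ _ (show p ∈ {Z : ℂ | 0 < Z.im} ×ˢ (univ : Set ℝ) from
      ⟨hp, mem_univ _⟩)]
    simp [Function.uncurry, ext0, hp]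
  · rw [Set.piecewise_eq_of_notMem _ _ _ (show p ∉ {Z : ℂ | 0 < Z.im} ×ˢ (univ : Set ℝ) from
      fun h => hp h.1)]
    simp only [Function.uncurry, ext0, hp, ↓reduceIte]

lemma St_ext0 {G : ℂ → ℝ → ℝ} {W : ℝ → ℝ} {z : ℂ} {t : ℝ} (ht : 0 ≤ t) :
    St (ext0 G) W z t = St G W z t := by
  by_cases h : z ∈ loewnerDomain W t
  · rw [St_of_mem h, St_of_mem h, ext0, if_pos (Zf_im_pos ht h)]
  · rw [St_of_not_mem h, St_of_not_mem h]

variable {Ω : Type*} [mΩ : MeasurableSpace Ω] {κ : ℝ} {P : Measure Ω} {W : ℝ → Ω → ℝ}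

lemma St_past' (hW : IsDrv κ P W) {G : ℂ → ℝ → ℝ}
    (hG : ContinuousOn (Function.uncurry G) ({Z : ℂ | 0 < Z.im} ×ˢ univ)) {t : ℝ} (ht : 0 ≤ t)
    (z : ℂ) : Measurable[past W t] (fun ω => St G (fun u => W u ω) z t) := by
  have h := St_past hW.cont hW.meas (ext0_measurable hG) ht z
  convert h using 1
  funext ω
  exact (St_ext0 ht).symm

lemma timeint_past1 (hW : IsDrv κ P W) {G : ℂ → ℝ → ℝ}
    (hG : ContinuousOn (Function.uncurry G) ({Z : ℂ | 0 < Z.im} ×ˢ univ)) {s t : ℝ} (hs : 0 ≤ s)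
    (hst : s ≤ t) (z : ℂ) :
    Measurable[past W t] (fun ω => ∫ u in s..t, St G (fun u => W u ω) z u) := by
  have h := timeint_past hW.cont hW.meas (ext0_measurable hG) hs hst z
  convert h using 1
  funext ω
  refine intervalIntegral.integral_congr fun u hu => ?_
  rw [uIcc_of_le hst] at hu
  exact (St_ext0 (hs.trans hu.1)).symm

lemma stepHyp_osc (hW : IsDrv κ P W) {K : Set (ℂ × ℝ)} {z : ℂ} {t δ : ℝ} (ht : 0 ≤ t)
    (hδ : 0 ≤ δ) {ω : Ω} (h : z ∈ loewnerDomain (fun u => W u ω) t)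
    (hZ : (Zf (fun u => W u ω) z t, Uf (fun u => W u ω) z t) ∈ K) :
    StepHyp K (fun u => W u ω) z t δ (osc W t δ ω) :=
  ⟨hW.cont ω, ht, h, hZ, hδ, fun _ hu => hW.le_osc ω hu⟩

/-- The optimized error function. -/
noncomputable def errF (α : ℝ) (β : ℝ → ℝ) (δ : ℝ) : ℝ :=
  ⨅ ε : {ε : ℝ // 0 < ε}, (ε.1 * α + β ε.1 * δ)

lemma errF_bdd {α : ℝ} (hα : 0 < α) {β : ℝ → ℝ} (hβ : ∀ ε, 0 < ε → 0 ≤ β ε) {δ : ℝ}
    (hδ : 0 ≤ δ) : BddBelow (range fun ε : {ε : ℝ // 0 < ε} => (ε.1 * α + β ε.1 * δ)) := by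
  refine ⟨0, ?_⟩
  rintro _ ⟨ε, rfl⟩
  have := hβ ε.1 ε.2
  have := ε.2
  positivity

lemma errF_tendsto {α : ℝ} (hα : 0 < α) {β : ℝ → ℝ} (hβ : ∀ ε, 0 < ε → 0 ≤ β ε) :
    Tendsto (errF α β) (𝓝[>] 0) (𝓝 0) := by
  have : Nonempty {ε : ℝ // 0 < ε} := ⟨⟨1, one_pos⟩⟩
  rw [tendsto_order]
  constructor
  · intro a ha
    filter_upwards [self_mem_nhdsWithin] with δ hδ
    refine ha.trans_le ?_
    refine le_ciInf fun ε => ?_
    have := hβ ε.1 ε.2
    have := ε.2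
    have hδ' : 0 < δ := hδ
    (clear a ha; positivity)
  · intro e he
    set ε := e / (2 * α) with hε
    have hεpos : 0 < ε := by positivity
    have h1 : Tendsto (fun δ : ℝ => ε * α + β ε * δ) (𝓝[>] 0) (𝓝 (ε * α + β ε * 0)) :=
      (Continuous.tendsto (by fun_prop) _).mono_left nhdsWithin_le_nhds
    have h2 : ε * α + β ε * 0 < e := by
      rw [hε]
      field_simp
      norm_num
      linarith only [he]
    filter_upwards [self_mem_nhdsWithin, h1.eventually (gt_mem_nhds h2)] with δ hδ hδ2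
    refine lt_of_le_of_lt ?_ hδ2
    exact ciInf_le (errF_bdd hα hβ (le_of_lt hδ)) (⟨ε, hεpos⟩ : {ε : ℝ // 0 < ε})

lemma past_bdd_integrable (hW : IsDrv κ P W) {t : ℝ} {f : Ω → ℝ} (hf : Measurable[past W t] f)
    {M : ℝ} (hM : ∀ ω, |f ω| ≤ M) : Integrable f P := by
  have := hW.prob
  exact Integrable.of_bound (hf.mono hW.past_le le_rfl).aestronglyMeasurable M
    (Eventually.of_forall hM)

/-- Integration of the expansion. -/
lemma step_integral (hκ : 0 < κ) (hW : IsDrv κ P W) {t δ : ℝ} (ht : 0 ≤ t) (hδ : 0 ≤ δ)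
    {A : Set Ω} (hA : MeasurableSet[past W t] A) {f0 f1 f2 : Ω → ℝ}
    (h0 : Measurable[past W t] f0) (h1 : Measurable[past W t] f1) (h2 : Measurable[past W t] f2)
    {M : ℝ} (b0 : ∀ ω, |f0 ω| ≤ M) (b1 : ∀ ω, |f1 ω| ≤ M) (b2 : ∀ ω, |f2 ω| ≤ M)
    (i2 : Integrable (fun ω => osc W t δ ω ^ 2) P) (i4 : Integrable (fun ω => osc W t δ ω ^ 4) P)
    (c0 c2 c4 : ℝ) :
    Integrable (fun ω => f0 ω - f1 ω * (W (t + δ) ω - W t ω)
      + f2 ω / 2 * ((W (t + δ) ω - W t ω) ^ 2 - κ * δ)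
      + A.indicator 1 ω * (c0 + c2 * osc W t δ ω ^ 2 + c4 * osc W t δ ω ^ 4)) P ∧
    ∫ ω, (f0 ω - f1 ω * (W (t + δ) ω - W t ω)
      + f2 ω / 2 * ((W (t + δ) ω - W t ω) ^ 2 - κ * δ)
      + A.indicator 1 ω * (c0 + c2 * osc W t δ ω ^ 2 + c4 * osc W t δ ω ^ 4)) ∂P =
    ∫ ω, f0 ω ∂P + (P A).toReal * (c0 + c2 * ∫ ω, osc W t δ ω ^ 2 ∂P
      + c4 * ∫ ω, osc W t δ ω ^ 4 ∂P) := by
  have := hW.prob
  have j0 := past_bdd_integrable hW h0 b0
  have j1 := past_bdd_integrable hW h1 b1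
  have j2 := past_bdd_integrable hW h2 b2
  obtain ⟨k1, k1'⟩ := hW.incr_integral hκ ht hδ
  obtain ⟨k2, k2'⟩ := hW.incr_sq_integral hκ ht hδ
  have hη : Measurable[fut W t] (fun ω => W (t + δ) ω - W t ω) := IsDrv.meas_incr hδ
  have hη2 : Measurable[fut W t] (fun ω => (W (t + δ) ω - W t ω) ^ 2 - κ * δ) := by
    exact (hη.pow_const 2).sub_const _
  have hosc := hW.meas_osc (t := t) hδ
  have hg : Measurable[fut W t]
      (fun ω => c0 + c2 * osc W t δ ω ^ 2 + c4 * osc W t δ ω ^ 4) :=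
    (((hosc.pow_const 2).const_mul c2).const_add c0).add ((hosc.pow_const 4).const_mul c4)
  have ig : Integrable (fun ω => c0 + c2 * osc W t δ ω ^ 2 + c4 * osc W t δ ω ^ 4) P :=
    ((integrable_const c0).add (i2.const_mul c2)).add (i4.const_mul c4)
  obtain ⟨p1, p1'⟩ := hW.integral_mul_fut ht h1 hη j1 k1
  obtain ⟨p2, p2'⟩ := hW.integral_mul_fut ht (h2.div_const 2) hη2 (j2.div_const 2)
    (k2.sub (integrable_const _))
  have hA1 : Measurable[past W t] (A.indicator (1 : Ω → ℝ)) :=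
    (measurable_const (a := (1 : ℝ))).indicator hA
  obtain ⟨p3, p3'⟩ := hW.integral_mul_fut ht hA1 hg
    (past_bdd_integrable (M := 1) hW hA1 (fun ω => by
      by_cases h : ω ∈ A <;> simp [h])) ig
  have hAm : MeasurableSet A := hW.past_le _ hA
  refine ⟨((j0.sub p1).add p2).add p3, ?_⟩
  have q1 : ∫ ω, (f0 ω - f1 ω * (W (t + δ) ω - W t ω)) ∂P = ∫ ω, f0 ω ∂P -
      ∫ ω, f1 ω * (W (t + δ) ω - W t ω) ∂P := integral_sub j0 p1
  have q2 : ∫ ω, (f0 ω - f1 ω * (W (t + δ) ω - W t ω)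
      + f2 ω / 2 * ((W (t + δ) ω - W t ω) ^ 2 - κ * δ)) ∂P =
      ∫ ω, (f0 ω - f1 ω * (W (t + δ) ω - W t ω)) ∂P +
      ∫ ω, f2 ω / 2 * ((W (t + δ) ω - W t ω) ^ 2 - κ * δ) ∂P := integral_add (j0.sub p1) p2
  have q3 : ∫ ω, (f0 ω - f1 ω * (W (t + δ) ω - W t ω)
      + f2 ω / 2 * ((W (t + δ) ω - W t ω) ^ 2 - κ * δ)
      + A.indicator 1 ω * (c0 + c2 * osc W t δ ω ^ 2 + c4 * osc W t δ ω ^ 4)) ∂P =
      ∫ ω, (f0 ω - f1 ω * (W (t + δ) ω - W t ω)
      + f2 ω / 2 * ((W (t + δ) ω - W t ω) ^ 2 - κ * δ)) ∂P +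
      ∫ ω, A.indicator 1 ω * (c0 + c2 * osc W t δ ω ^ 2 + c4 * osc W t δ ω ^ 4) ∂P :=
    integral_add ((j0.sub p1).add p2) p3
  have q4 : ∫ ω, ((W (t + δ) ω - W t ω) ^ 2 - κ * δ) ∂P = 0 := by
    rw [integral_sub k2 (integrable_const _), k2']
    simp
  have q5 : ∫ ω, (c0 + c2 * osc W t δ ω ^ 2) ∂P = c0 + c2 * ∫ ω, osc W t δ ω ^ 2 ∂P := by
    rw [integral_add (integrable_const c0) (i2.const_mul c2), integral_const_mul]
    simp only [integral_const, probReal_univ, smul_eq_mul, one_mul]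
  have q6 : ∫ ω, (c0 + c2 * osc W t δ ω ^ 2 + c4 * osc W t δ ω ^ 4) ∂P =
      ∫ ω, (c0 + c2 * osc W t δ ω ^ 2) ∂P + ∫ ω, c4 * osc W t δ ω ^ 4 ∂P :=
    integral_add ((integrable_const c0).add (i2.const_mul c2)) (i4.const_mul c4)
  rw [q3, q2, q1, p1', p2', p3', k1', q4, q6, q5, integral_const_mul,
    integral_indicator_one hAm]
  simp only [mul_zero, sub_zero, add_zero, Measure.real]

lemma far_alg {N κ δ ϰ m f fx fxx η : ℝ} (hN : 0 < N) (hκ : 0 ≤ κ) (hδ : 0 ≤ δ) (hδ1 : δ ≤ 1)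
    (hϰ : 0 < ϰ) (hϰ1 : ϰ ≤ 1) (hm : ϰ < m) (e0 : |f| ≤ N) (e1 : |fx| ≤ N) (e2 : |fxx| ≤ N)
    (hη : |η| ≤ m) :
    0 ≤ f - fx * η + fxx / 2 * (η ^ 2 - κ * δ) + N * (3 + κ) / ϰ ^ 4 * m ^ 4 := by
  obtain ⟨r, hr⟩ : ∃ r, r = m / ϰ := ⟨_, rfl⟩
  have hr1 : 1 ≤ r := by rw [hr, one_le_div hϰ]; exact hm.le
  have hmr : m ≤ r := by
    rw [hr, le_div_iff₀ hϰ]
    have : 0 < m := hϰ.trans hm
    nlinarith only [hϰ, hϰ1, hm]
  have hm0 : 0 < m := hϰ.trans hm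
  have e : N * (3 + κ) / ϰ ^ 4 * m ^ 4 = N * (3 + κ) * r ^ 4 := by
    rw [hr]; (clear * - hm0 hϰ hκ hN; field_simp)
  have hr2 : 1 ≤ r ^ 2 := one_le_pow₀ hr1
  have hr4 : r ^ 2 ≤ r ^ 4 := pow_le_pow_right₀ hr1 (by norm_num)
  have hr4' : r ≤ r ^ 4 := by
    calc r = r ^ 1 := (pow_one r).symm
      _ ≤ r ^ 4 := pow_le_pow_right₀ hr1 (by norm_num)
  have a1 : -N ≤ f := by linarith only [e0, neg_abs_le f]
  have a2 : fx * η ≤ N * r ^ 4 := by
    calc fx * η ≤ |fx * η| := le_abs_self _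
      _ = |fx| * |η| := abs_mul _ _
      _ ≤ N * m := by (clear * - e1 hη hN; gcongr)
      _ ≤ N * r ^ 4 := by gcongr; exact hmr.trans hr4'
  have a3 : -(N / 2 * (r ^ 4 + κ)) ≤ fxx / 2 * (η ^ 2 - κ * δ) := by
    have b1 : |η ^ 2 - κ * δ| ≤ r ^ 4 + κ := by
      have c1 : η ^ 2 ≤ r ^ 4 := by
        rw [← sq_abs]
        calc |η| ^ 2 ≤ m ^ 2 := by (clear * - hη; gcongr)
          _ ≤ r ^ 2 := by (clear * - hm0 hmr; gcongr)
          _ ≤ r ^ 4 := hr4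
      have c2 : κ * δ ≤ κ := by nlinarith only [hκ, hδ1]
      have c3 : 0 ≤ κ * δ := by (clear * - hκ hδ; positivity)
      rw [abs_le]
      constructor <;> nlinarith only [hr4, c2, hκ, c1, c3]
    have b2 : |fxx / 2 * (η ^ 2 - κ * δ)| ≤ N / 2 * (r ^ 4 + κ) := by
      rw [abs_mul, abs_div, abs_two]
      (clear * - e2 b1 hN; gcongr)
    linarith only [b2, neg_abs_le (fxx / 2 * (η ^ 2 - κ * δ))]
  rw [e]
  have hr41 : 1 ≤ r ^ 4 := hr2.trans hr4
  have a4 : N * κ ≤ N * κ * r ^ 4 := by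
    have : 0 ≤ N * κ := by (clear * - hN hκ; positivity)
    nlinarith only [hr2, hr4, this]
  have a5 : N ≤ N * r ^ 4 := by nlinarith only [hN, hr2, hr4]
  nlinarith only [hN, hκ, a1, a2, a3, a5]

/-- One step of the supermartingale inequality, on a compact set of states. -/
theorem T_step {κ : ℝ} (hκ : 0 < κ) {F FX FXX FY FU a : ℂ → ℝ → ℝ} (hr : Reg F FX FXX FY FU)
    (ha : ContinuousOn (Function.uncurry a) ({Z : ℂ | 0 < Z.im} ×ˢ univ))
    {K : Set (ℂ × ℝ)} (hK : IsCompact K) (hKim : ∀ x ∈ K, 0 < x.1.im) :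
    ∃ ϰ > 0, ∃ δ₀ > 0, ∃ err : ℝ → ℝ, Tendsto err (𝓝[>] 0) (𝓝 0) ∧
      ∀ {Ω : Type*} [MeasurableSpace Ω] {P : Measure Ω} {W : ℝ → Ω → ℝ} (_ : IsDrv κ P W)
        (z : ℂ) (t δ : ℝ) (_ : 0 ≤ t) (_ : 0 < δ) (_ : δ ≤ δ₀) (A : Set Ω)
        (_ : MeasurableSet[past W t] A)
        (_ : ∀ ω ∈ A, z ∈ loewnerDomain (fun u => W u ω) t ∧
          (Zf (fun u => W u ω) z t, Uf (fun u => W u ω) z t) ∈ K ∧
          gen κ FX FXX FY FU (Zf (fun u => W u ω) z t) (Uf (fun u => W u ω) z t) +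
            a (Zf (fun u => W u ω) z t) (Uf (fun u => W u ω) z t) ≤ 0),
        (∀ ω ∈ A, osc W t δ ω ≤ ϰ → z ∈ loewnerDomain (fun u => W u ω) (t + δ)) ∧
        IntegrableOn (fun ω => St F (fun u => W u ω) z (t + δ) +
          ∫ u in t..(t + δ), St a (fun u => W u ω) z u) (A ∩ {ω | osc W t δ ω ≤ ϰ}) P ∧
        ∫ ω in A ∩ {ω | osc W t δ ω ≤ ϰ}, (St F (fun u => W u ω) z (t + δ) +
          ∫ u in t..(t + δ), St a (fun u => W u ω) z u) ∂P ≤
            ∫ ω in A, St F (fun u => W u ω) z t ∂P + δ * err δ * (P A).toReal := by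
  obtain ⟨M, δ₀, ϰ, hM, hδ₀, hδ₀1, hϰ, hϰ1, hbasic, hfine⟩ := step_det hr ha hK hKim
  obtain ⟨C₂, hC₂, o2⟩ := osc_moment κ hκ 2
  obtain ⟨C₄, hC₄, o4⟩ := osc_moment κ hκ 4
  obtain ⟨N₀, hN₀, n0⟩ := bdd_on_compact hr.cF hK hKim
  obtain ⟨N₁, hN₁, n1⟩ := bdd_on_compact hr.cX hK hKim
  obtain ⟨N₂, hN₂, n2⟩ := bdd_on_compact hr.cXX hK hKim
  set N := N₀ + N₁ + N₂ with hN
  have hNpos : 0 < N := by (clear * - hN₀ hN₁ hN₂; positivity)
  have hfine' : ∀ ε : ℝ, ∃ D : ℝ, 0 < ε → 0 ≤ D ∧ ∀ {W : ℝ → ℝ} {z : ℂ} {t δ m : ℝ},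
      StepHyp K W z t δ m → δ ≤ δ₀ → m ≤ ϰ →
        |stepE F FX FXX FY FU a W z t δ| ≤ ε * (δ + m ^ 2) + D * (δ ^ 2 + m ^ 4) := by
    intro ε
    by_cases hε : 0 < ε
    · obtain ⟨D, hD, H⟩ := hfine ε hε
      exact ⟨D, fun _ => ⟨hD, H⟩⟩
    · exact ⟨0, fun h => absurd h hε⟩
  choose D hD using hfine'
  set Cϰ := N * (3 + κ) / ϰ ^ 4 with hCϰ
  have hCϰpos : 0 < Cϰ := by (clear * - hN₀ hN₁ hN₂ hκ hϰ; positivity)
  have hβ : ∀ ε, 0 < ε → 0 ≤ D ε * (1 + C₄) + Cϰ * C₄ := by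
    intro ε hε
    have := (hD ε hε).1
    (clear * - this hC₄ hN₀ hN₁ hN₂ hκ hϰ; positivity)
  refine ⟨ϰ, hϰ, δ₀, hδ₀, errF (1 + C₂) (fun ε => D ε * (1 + C₄) + Cϰ * C₄),
    errF_tendsto (by positivity) hβ, ?_⟩
  intro Ω mΩ P W hW z t δ ht hδ hδδ₀ A hA hAω
  have := hW.prob
  have hAm : MeasurableSet A := hW.past_le _ hA
  have hoscm : Measurable (osc W t δ) := (hW.meas_osc hδ.le).mono hW.fut_le le_rfl
  have hBm : MeasurableSet {ω | osc W t δ ω ≤ ϰ} := measurableSet_le hoscm measurable_const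
  obtain ⟨i2, j2⟩ := o2 hW t δ ht hδ.le
  obtain ⟨i4, j4⟩ := o4 hW t δ ht hδ.le
  have s2 : √δ ^ 2 = δ := Real.sq_sqrt hδ.le
  have s4 : √δ ^ 4 = δ ^ 2 := by
    rw [show (4 : ℕ) = 2 * 2 by norm_num, pow_mul, s2]
  rw [s2] at j2
  rw [s4] at j4
  have hyp : ∀ ω ∈ A, StepHyp K (fun u => W u ω) z t δ (osc W t δ ω) := fun ω hω =>
    stepHyp_osc hW ht hδ.le (hAω ω hω).1 (hAω ω hω).2.1
  set G : Ω → ℝ := fun ω => St F (fun u => W u ω) z (t + δ) +
    ∫ u in t..(t + δ), St a (fun u => W u ω) z u with hG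
  have hGm : Measurable G :=
    ((St_past' hW hr.cF (by linarith only [ht, hδ]) z).mono hW.past_le le_rfl).add
      ((timeint_past1 hW ha ht (by linarith only [hδ]) z).mono hW.past_le le_rfl)
  have hGint : IntegrableOn G (A ∩ {ω | osc W t δ ω ≤ ϰ}) P := by
    refine Measure.integrableOn_of_bounded (M := 2 * M) (measure_ne_top _ _)
      hGm.aestronglyMeasurable ?_
    refine (ae_restrict_iff' (hAm.inter hBm)).2 (Eventually.of_forall fun ω hω => ?_)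
    obtain ⟨-, h1, h2⟩ := hbasic (hyp ω hω.1) hδδ₀ hω.2
    have h3 := intervalIntegral.norm_integral_le_of_norm_le_const (a := t) (b := t + δ)
      (f := fun u => St a (fun u => W u ω) z u) (C := M) (by
        intro u hu
        rw [uIoc_of_le (by linarith only [hδ])] at hu
        exact h2 u ⟨hu.1.le, hu.2⟩)
    rw [add_sub_cancel_left, abs_of_pos hδ] at h3
    have h4 : M * δ ≤ M * 1 := by
      gcongr
      linarith only [hδ₀1, hδδ₀]
    rw [hG]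
    refine (norm_add_le _ _).trans ?_
    rw [Real.norm_eq_abs]
    linarith only [h1, h3, h4]
  refine ⟨fun ω hω hosc => (hbasic (hyp ω hω) hδδ₀ hosc).1, hGint, ?_⟩
  -- the main inequality, for each `ε`
  have key : ∀ ε : ℝ, 0 < ε → ∫ ω in A ∩ {ω | osc W t δ ω ≤ ϰ}, G ω ∂P ≤
      ∫ ω in A, St F (fun u => W u ω) z t ∂P +
        (P A).toReal * (δ * (ε * (1 + C₂) + (D ε * (1 + C₄) + Cϰ * C₄) * δ)) := by
    intro ε hε
    obtain ⟨hD0, hDε⟩ := hD ε hε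
    have bound : ∀ {H : ℂ → ℝ → ℝ} (_ : ∀ x ∈ K, |H x.1 x.2| ≤ N) (ω : Ω),
        |A.indicator (fun ω => St H (fun u => W u ω) z t) ω| ≤ N := by
      intro H hH ω
      by_cases hω : ω ∈ A
      · rw [indicator_of_mem hω, St_of_mem (hAω ω hω).1]
        exact hH _ (hAω ω hω).2.1
      · rw [indicator_of_notMem hω, abs_zero]
        exact hNpos.le
    have b0 := bound (H := F) fun x hx => (n0 x hx).trans (by rw [hN]; linarith only [hN₁, hN₂])
    have b1 := bound (H := FX) fun x hx => (n1 x hx).trans (by rw [hN]; linarith only [hN₀, hN₂])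
    have b2 := bound (H := FXX) fun x hx => (n2 x hx).trans (by rw [hN]; linarith only [hN₀, hN₁])
    have m0 : Measurable[past W t] (A.indicator (fun ω => St F (fun u => W u ω) z t)) :=
      (St_past' hW hr.cF ht z).indicator hA
    have m1 : Measurable[past W t] (A.indicator (fun ω => St FX (fun u => W u ω) z t)) :=
      (St_past' hW hr.cX ht z).indicator hA
    have m2 : Measurable[past W t] (A.indicator (fun ω => St FXX (fun u => W u ω) z t)) :=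
      (St_past' hW hr.cXX ht z).indicator hA
    obtain ⟨I1, I2⟩ := step_integral hκ hW ht hδ.le hA m0 m1 m2 b0 b1 b2 i2 i4
      (ε * δ + D ε * δ ^ 2) ε (D ε + Cϰ)
    rw [← integral_indicator (hAm.inter hBm)]
    refine (integral_mono ((integrable_indicator_iff (hAm.inter hBm)).2 hGint) I1 ?_).trans ?_
    · intro ω
      have hosc0 := hW.osc_nonneg (t := t) hδ.le ω
      simp only
      by_cases hω : ω ∈ A
      · rw [indicator_of_mem hω, indicator_of_mem hω, indicator_of_mem hω, indicator_of_mem hω]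
        obtain ⟨hz, hZK, hgen⟩ := hAω ω hω
        by_cases hB : osc W t δ ω ≤ ϰ
        · rw [indicator_of_mem (show ω ∈ A ∩ {ω | osc W t δ ω ≤ ϰ} from ⟨hω, hB⟩)]
          have h1 := (le_abs_self _).trans (hDε (hyp ω hω) hδδ₀ hB)
          unfold stepE at h1
          rw [St_of_mem hz, St_of_mem hz, St_of_mem hz]
          have h2 : gen κ FX FXX FY FU (Zf (fun u => W u ω) z t) (Uf (fun u => W u ω) z t) =
              κ / 2 * FXX (Zf (fun u => W u ω) z t) (Uf (fun u => W u ω) z t) +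
              gen 0 FX FXX FY FU (Zf (fun u => W u ω) z t) (Uf (fun u => W u ω) z t) := by
            unfold gen; ring
          rw [h2] at hgen
          have h3 := mul_le_mul_of_nonneg_left hgen hδ.le
          have h4 : 0 ≤ Cϰ * osc W t δ ω ^ 4 := by (clear * - hN₀ hN₁ hN₂ hκ hϰ; positivity)
          simp only [Pi.one_apply, hG]
          nlinarith only [h1, h3, h4]
        · rw [indicator_of_notMem (show ω ∉ A ∩ {ω | osc W t δ ω ≤ ϰ} from fun h => hB h.2)]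
          push Not at hB
          rw [St_of_mem hz, St_of_mem hz, St_of_mem hz]
          have e0 : |F (Zf (fun u => W u ω) z t) (Uf (fun u => W u ω) z t)| ≤ N :=
            (n0 _ hZK).trans (by rw [hN]; linarith only [hN₁, hN₂])
          have e1 : |FX (Zf (fun u => W u ω) z t) (Uf (fun u => W u ω) z t)| ≤ N :=
            (n1 _ hZK).trans (by rw [hN]; linarith only [hN₀, hN₂])
          have e2 : |FXX (Zf (fun u => W u ω) z t) (Uf (fun u => W u ω) z t)| ≤ N :=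
            (n2 _ hZK).trans (by rw [hN]; linarith only [hN₀, hN₁])
          have hη : |W (t + δ) ω - W t ω| ≤ osc W t δ ω :=
            hW.le_osc ω ⟨by linarith only [hδ], le_rfl⟩
          simp only [Pi.one_apply]
          have := far_alg hNpos hκ.le hδ.le (hδδ₀.trans hδ₀1) hϰ hϰ1 hB e0 e1 e2 hη
          have h5 : 0 ≤ D ε * δ ^ 2 := by (clear * - hD0 hδ; positivity)
          have h6 : 0 ≤ ε * δ := by (clear * - hε hδ; positivity)
          have h7 : 0 ≤ ε * osc W t δ ω ^ 2 := by (clear * - hε; positivity)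
          have h8 : 0 ≤ D ε * osc W t δ ω ^ 4 := by (clear * - hD0; positivity)
          rw [← hCϰ] at this
          linarith only [this, h5, h6, h7, h8]
      · rw [indicator_of_notMem hω, indicator_of_notMem hω, indicator_of_notMem hω,
          indicator_of_notMem hω,
          indicator_of_notMem (show ω ∉ A ∩ {ω | osc W t δ ω ≤ ϰ} from fun h => hω h.1)]
        simp
    · rw [I2, integral_indicator hAm]
      have hp : 0 ≤ (P A).toReal := ENNReal.toReal_nonneg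
      have h1 : ε * δ + D ε * δ ^ 2 + ε * ∫ ω, osc W t δ ω ^ 2 ∂P +
          (D ε + Cϰ) * ∫ ω, osc W t δ ω ^ 4 ∂P ≤
          δ * (ε * (1 + C₂) + (D ε * (1 + C₄) + Cϰ * C₄) * δ) := by
        have h2 : ε * ∫ ω, osc W t δ ω ^ 2 ∂P ≤ ε * (C₂ * δ) := by (clear * - j2 hε; gcongr)
        have h3 : (D ε + Cϰ) * ∫ ω, osc W t δ ω ^ 4 ∂P ≤ (D ε + Cϰ) * (C₄ * δ ^ 2) := by (clear * - j4 hD0 hN₀ hN₁ hN₂ hκ hϰ; gcongr)
        linarith only [h2, h3]
      have := mul_le_mul_of_nonneg_left h1 hp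
      linarith only [this]
  have : Nonempty {ε : ℝ // 0 < ε} := ⟨⟨1, one_pos⟩⟩
  have hp : 0 ≤ (P A).toReal * δ := mul_nonneg ENNReal.toReal_nonneg hδ.le
  have h1 : δ * errF (1 + C₂) (fun ε => D ε * (1 + C₄) + Cϰ * C₄) δ * (P A).toReal =
      ⨅ ε : {ε : ℝ // 0 < ε}, (P A).toReal * δ *
        (ε.1 * (1 + C₂) + (D ε.1 * (1 + C₄) + Cϰ * C₄) * δ) := by
    rw [← Real.mul_iInf_of_nonneg hp]
    unfold errF
    ring
  rw [h1, ← sub_le_iff_le_add']
  refine le_ciInf fun ε => ?_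
  have := key ε.1 ε.2
  linarith only [this]

end Vale.Agent.P164
end

section

/-!
# Regular functions of the state: `c(U) Y^p |Z|^{-s}` and sums

In particular `c(U) sn^p` (`s = p`) and `c(U) sn^p |Z|^2` (`s = p - 2`).
-/

namespace Vale.Agent.P164

open Set Metric Filter Topology MeasureTheory
open scoped NNReal ENNReal

noncomputable section

lemma normsq_eq (Z : ℂ) : ‖Z‖ ^ 2 = Z.re ^ 2 + Z.im ^ 2 := by
  rw [Complex.sq_norm, Complex.normSq_apply]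
  ring

lemma norm_pos_of_im {Z : ℂ} (h : 0 < Z.im) : 0 < ‖Z‖ :=
  norm_pos_iff.2 fun h0 => by simp [h0] at h

lemma log_normsq (Z : ℂ) : Real.log (Z.re ^ 2 + Z.im ^ 2) = 2 * Real.log ‖Z‖ := by
  rw [← normsq_eq, Real.log_pow]
  push_cast
  ring

/-- `Y^p |Z|^{-s}`. -/
def hY (p s : ℝ) (Z : ℂ) : ℝ :=
  Real.exp (p * Real.log Z.im - s / 2 * Real.log (Z.re ^ 2 + Z.im ^ 2))

lemma hY_pos (p s : ℝ) (Z : ℂ) : 0 < hY p s Z := Real.exp_pos _

lemma hY_sn {Z : ℂ} (h : 0 < Z.im) (p : ℝ) : hY p p Z = sn Z ^ p := by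
  have h1 := norm_pos_of_im h
  have h2 : sn Z = Real.exp (Real.log Z.im - Real.log ‖Z‖) := by
    rw [Real.exp_sub, Real.exp_log h, Real.exp_log h1, sn]
  rw [h2, ← Real.exp_mul, hY, log_normsq]
  congr 1
  ring

lemma hY_dX {Z : ℂ} (h : 0 < Z.im) (p s : ℝ) :
    HasDerivAt (fun x : ℝ => hY p s ⟨x, Z.im⟩) (-(s * (Z.re / ‖Z‖ ^ 2)) * hY p s Z) Z.re := by
  have h0 : 0 < Z.re ^ 2 + Z.im ^ 2 := by positivity
  have h1 : HasDerivAt (fun x : ℝ => x ^ 2 + Z.im ^ 2) (2 * Z.re) Z.re := by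
    simpa only [hasDerivAt_add_const_iff, Nat.cast_ofNat, Nat.add_one_sub_one, pow_one] using     (hasDerivAt_pow 2 Z.re).add_const (Z.im ^ 2)
  have h2 := (((h1.log h0.ne').const_mul (s / 2)).const_sub (p * Real.log Z.im)).exp
  refine h2.congr_deriv ?_
  rw [normsq_eq, hY]
  field_simp

lemma hY_dY {Z : ℂ} (h : 0 < Z.im) (p s : ℝ) :
    HasDerivAt (fun y : ℝ => hY p s ⟨Z.re, y⟩)
      ((p / Z.im - s * (Z.im / ‖Z‖ ^ 2)) * hY p s Z) Z.im := by
  have h0 : 0 < Z.re ^ 2 + Z.im ^ 2 := by (clear * - h; positivity)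
  have h1 : HasDerivAt (fun y : ℝ => Z.re ^ 2 + y ^ 2) (2 * Z.im) Z.im := by
    simpa only [hasDerivAt_const_add_iff, Nat.cast_ofNat, Nat.add_one_sub_one, pow_one] using     (hasDerivAt_pow 2 Z.im).const_add (Z.re ^ 2)
  have h2 : HasDerivAt
      (fun y : ℝ => p * Real.log y - s / 2 * Real.log (Z.re ^ 2 + y ^ 2))
      (p * Z.im⁻¹ - s / 2 * (2 * Z.im / (Z.re ^ 2 + Z.im ^ 2))) Z.im :=
    ((Real.hasDerivAt_log h.ne').const_mul p).sub ((h1.log h0.ne').const_mul (s / 2))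
  refine h2.exp.congr_deriv ?_
  rw [normsq_eq, hY]
  (clear * - h; field_simp)

lemma hY_contOn (p s : ℝ) : ContinuousOn (hY p s) {Z : ℂ | 0 < Z.im} := by
  intro Z hZ
  have hZ' : 0 < Z.im := hZ
  have h0 : 0 < Z.re ^ 2 + Z.im ^ 2 := by (clear * - hZ'; positivity)
  have c1 : ContinuousAt (fun Z : ℂ => Real.log Z.im) Z :=
    Complex.continuous_im.continuousAt.log hZ'.ne'
  have c2 : ContinuousAt (fun Z : ℂ => Real.log (Z.re ^ 2 + Z.im ^ 2)) Z :=
    ((Complex.continuous_re.pow 2).add (Complex.continuous_im.pow 2)).continuousAt.log h0.ne'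
  exact (((continuousAt_const.mul c1).sub (continuousAt_const.mul c2)).rexp).continuousWithinAt

lemma XoverZ_contOn : ContinuousOn (fun Z : ℂ => Z.re / ‖Z‖ ^ 2) {Z : ℂ | 0 < Z.im} :=
  Complex.continuous_re.continuousOn.div (continuous_norm.pow 2).continuousOn fun _Z hZ =>
    pow_ne_zero 2 (norm_pos_of_im hZ).ne'

lemma YoverZ_contOn : ContinuousOn (fun Z : ℂ => Z.im / ‖Z‖ ^ 2) {Z : ℂ | 0 < Z.im} :=
  Complex.continuous_im.continuousOn.div (continuous_norm.pow 2).continuousOn fun _Z hZ =>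
    pow_ne_zero 2 (norm_pos_of_im hZ).ne'

/-- Product of a function of `U` and a function of `Z`. -/
lemma contOn_prod {c : ℝ → ℝ} {f : ℂ → ℝ} (hc : Continuous c)
    (hf : ContinuousOn f {Z : ℂ | 0 < Z.im}) :
    ContinuousOn (Function.uncurry fun Z U => c U * f Z) ({Z : ℂ | 0 < Z.im} ×ˢ univ) := by
  have h1 : ContinuousOn (fun x : ℂ × ℝ => f x.1) ({Z : ℂ | 0 < Z.im} ×ˢ univ) :=
    hf.comp continuousOn_fst fun x hx => hx.1
  have h2 : ContinuousOn (fun x : ℂ × ℝ => c x.2) ({Z : ℂ | 0 < Z.im} ×ˢ univ) :=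
    (hc.comp continuous_snd).continuousOn
  exact h2.mul h1

/-- The functions `c(U) Y^p |Z|^{-s}` are regular. -/
theorem reg_pow {c c' : ℝ → ℝ} (hc : ∀ U, HasDerivAt c (c' U) U) (hc' : Continuous c')
    (p s : ℝ) :
    Reg (fun Z U => c U * hY p s Z)
      (fun Z U => c U * (-(s * (Z.re / ‖Z‖ ^ 2)) * hY p s Z))
      (fun Z U => c U * ((s * (s + 2) * (Z.re / ‖Z‖ ^ 2) ^ 2 - s / ‖Z‖ ^ 2) * hY p s Z))
      (fun Z U => c U * ((p / Z.im - s * (Z.im / ‖Z‖ ^ 2)) * hY p s Z))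
      (fun Z U => c' U * hY p s Z) := by
  have hcc : Continuous c := continuous_iff_continuousAt.2 fun U => (hc U).continuousAt
  have hN : ContinuousOn (fun Z : ℂ => s / ‖Z‖ ^ 2) {Z : ℂ | 0 < Z.im} :=
    continuousOn_const.div (continuous_norm.pow 2).continuousOn fun _Z hZ =>
      pow_ne_zero 2 (norm_pos_of_im hZ).ne'
  have hI : ContinuousOn (fun Z : ℂ => p / Z.im) {Z : ℂ | 0 < Z.im} :=
    continuousOn_const.div Complex.continuous_im.continuousOn fun _Z hZ => (ne_of_gt hZ)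
  refine ⟨?_, ?_, ?_, ?_, ?_, ?_, ?_, ?_, ?_⟩
  · intro Z U hZ
    exact (hY_dX hZ p s).const_mul (c U)
  · intro Z U hZ
    have h0 : 0 < Z.re ^ 2 + Z.im ^ 2 := by (clear * - hZ; positivity)
    have h1 : HasDerivAt (fun x : ℝ => x ^ 2 + Z.im ^ 2) (2 * Z.re) Z.re := by
      simpa using (hasDerivAt_pow 2 Z.re).add_const (Z.im ^ 2)
    have h2 : HasDerivAt (fun x : ℝ => x / (x ^ 2 + Z.im ^ 2))
        ((1 * (Z.re ^ 2 + Z.im ^ 2) - Z.re * (2 * Z.re)) / (Z.re ^ 2 + Z.im ^ 2) ^ 2) Z.re :=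
      (hasDerivAt_id Z.re).div h1 h0.ne'
    have h3 : HasDerivAt (fun x : ℝ => -(s * (x / ‖(⟨x, Z.im⟩ : ℂ)‖ ^ 2)) * hY p s ⟨x, Z.im⟩)
        (-(s * ((1 * (Z.re ^ 2 + Z.im ^ 2) - Z.re * (2 * Z.re)) / (Z.re ^ 2 + Z.im ^ 2) ^ 2)) *
            hY p s Z +
          -(s * (Z.re / ‖Z‖ ^ 2)) * (-(s * (Z.re / ‖Z‖ ^ 2)) * hY p s Z)) Z.re := by
      have e : (fun x : ℝ => -(s * (x / ‖(⟨x, Z.im⟩ : ℂ)‖ ^ 2)) * hY p s ⟨x, Z.im⟩) =
          fun x : ℝ => -(s * (x / (x ^ 2 + Z.im ^ 2))) * hY p s ⟨x, Z.im⟩ := by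
        funext x
        rw [normsq_eq]
      rw [e]
      have h4 := ((h2.const_mul s).neg).mul (hY_dX hZ p s)
      refine h4.congr_deriv ?_
      rw [normsq_eq]
      rfl
    refine (h3.const_mul (c U)).congr_deriv ?_
    have h5 : ‖Z‖ ^ 2 = Z.re ^ 2 + Z.im ^ 2 := normsq_eq Z
    rw [h5]
    field_simp
    ring
  · intro Z U hZ
    exact (hY_dY hZ p s).const_mul (c U)
  · intro Z U _
    exact (hc U).mul_const _
  · exact contOn_prod hcc (hY_contOn p s)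
  · exact contOn_prod hcc (((continuousOn_const.mul XoverZ_contOn).neg).mul (hY_contOn p s))
  · exact contOn_prod hcc
      (((continuousOn_const.mul (XoverZ_contOn.pow 2)).sub hN).mul (hY_contOn p s))
  · exact contOn_prod hcc ((hI.sub (continuousOn_const.mul YoverZ_contOn)).mul (hY_contOn p s))
  · exact contOn_prod hc' (hY_contOn p s)

/-- The generator of `c(U) Y^p |Z|^{-s}`. -/
theorem gen_pow (κ : ℝ) (c c' : ℝ → ℝ) (p s : ℝ) {Z : ℂ} (hZ : 0 < Z.im) (U : ℝ) :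
    gen κ (fun Z U => c U * (-(s * (Z.re / ‖Z‖ ^ 2)) * hY p s Z))
      (fun Z U => c U * ((s * (s + 2) * (Z.re / ‖Z‖ ^ 2) ^ 2 - s / ‖Z‖ ^ 2) * hY p s Z))
      (fun Z U => c U * ((p / Z.im - s * (Z.im / ‖Z‖ ^ 2)) * hY p s Z))
      (fun Z U => c' U * hY p s Z) Z U =
    hY p s Z / ‖Z‖ ^ 2 * (c U * ((κ / 2 * s * (s + 2) - 4 * s) * cs Z ^ 2 - κ / 2 * s
      - 2 * p + 2 * s) - 4 * sn Z ^ 2 * c' U) := by
  have h1 := norm_pos_of_im hZ
  have h2 : Z.im ^ 2 = ‖Z‖ ^ 2 - Z.re ^ 2 := by rw [normsq_eq]; ring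
  simp only [gen, sn, cs]
  field_simp
  rw [h2]
  ring

theorem Reg.add {F FX FXX FY FU G GX GXX GY GU : ℂ → ℝ → ℝ} (h : Reg F FX FXX FY FU)
    (h' : Reg G GX GXX GY GU) :
    Reg (fun Z U => F Z U + G Z U) (fun Z U => FX Z U + GX Z U) (fun Z U => FXX Z U + GXX Z U)
      (fun Z U => FY Z U + GY Z U) (fun Z U => FU Z U + GU Z U) :=
  ⟨fun Z U hZ => (h.dX Z U hZ).add (h'.dX Z U hZ), fun Z U hZ => (h.dXX Z U hZ).add (h'.dXX Z U hZ),
    fun Z U hZ => (h.dY Z U hZ).add (h'.dY Z U hZ), fun Z U hZ => (h.dU Z U hZ).add (h'.dU Z U hZ),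
    h.cF.add h'.cF, h.cX.add h'.cX, h.cXX.add h'.cXX, h.cY.add h'.cY, h.cU.add h'.cU⟩

theorem gen_add (κ : ℝ) (FX FXX FY FU GX GXX GY GU : ℂ → ℝ → ℝ) (Z : ℂ) (U : ℝ) :
    gen κ (fun Z U => FX Z U + GX Z U) (fun Z U => FXX Z U + GXX Z U)
      (fun Z U => FY Z U + GY Z U) (fun Z U => FU Z U + GU Z U) Z U =
    gen κ FX FXX FY FU Z U + gen κ GX GXX GY GU Z U := by
  simp only [gen]
  ring

/-- A function of `U` alone. -/
theorem reg_U {c c' : ℝ → ℝ} (hc : ∀ U, HasDerivAt c (c' U) U) (hc' : Continuous c') :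
    Reg (fun _ U => c U) (fun _ _ => 0) (fun _ _ => 0) (fun _ _ => 0) (fun _ U => c' U) := by
  have hcc : Continuous c := continuous_iff_continuousAt.2 fun U => (hc U).continuousAt
  refine ⟨fun Z U _ => hasDerivAt_const _ _, fun Z U _ => hasDerivAt_const _ _,
    fun Z U _ => hasDerivAt_const _ _, fun Z U _ => hc U, ?_, continuousOn_const,
    continuousOn_const, continuousOn_const, ?_⟩
  · exact (hcc.comp continuous_snd).continuousOn
  · exact (hc'.comp continuous_snd).continuousOn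

theorem gen_U (κ : ℝ) (c' : ℝ → ℝ) (Z : ℂ) (U : ℝ) :
    gen κ (fun _ _ => 0) (fun _ _ => 0) (fun _ _ => 0) (fun _ U => c' U) Z U =
      -(4 * sn Z ^ 2 / ‖Z‖ ^ 2 * c' U) := by
  simp only [gen]
  ring

end

end Vale.Agent.P164
end

section

/-!
# Regularity and generator of the functionals used in the first moment estimates
-/

namespace Vale.Agent.P164

open Set Metric Filter Topology MeasureTheory ProbabilityTheory
open scoped NNReal ENNReal

namespace FM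

lemma normC (x y : ℝ) : ‖(⟨x, y⟩ : ℂ)‖ = Real.sqrt (x ^ 2 + y ^ 2) := by
  rw [Complex.norm_def, Complex.normSq_mk]
  ring_nf

lemma norm_pos {Z : ℂ} (h : 0 < Z.im) : 0 < ‖Z‖ := by
  rw [norm_pos_iff]
  rintro rfl
  simp at h

lemma norm_sq (Z : ℂ) : ‖Z‖ ^ 2 = Z.re ^ 2 + Z.im ^ 2 := by
  rw [Complex.sq_norm, Complex.normSq_apply]
  ring

lemma norm_x {Z : ℂ} (h : 0 < Z.im) :
    HasDerivAt (fun x : ℝ => ‖(⟨x, Z.im⟩ : ℂ)‖) (Z.re / ‖Z‖) Z.re := by
  have h1 : HasDerivAt (fun x : ℝ => x ^ 2 + Z.im ^ 2) (2 * Z.re) Z.re := by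
    simpa using (hasDerivAt_pow 2 Z.re).add_const (Z.im ^ 2)
  have h2 := h1.sqrt (by (clear * - h; positivity))
  have h3 : (fun x : ℝ => ‖(⟨x, Z.im⟩ : ℂ)‖) = fun x => Real.sqrt (x ^ 2 + Z.im ^ 2) := by
    funext x; exact normC _ _
  have h4 : Real.sqrt (Z.re ^ 2 + Z.im ^ 2) = ‖Z‖ := by rw [← normC]
  rw [h3]
  rw [h4] at h2
  refine h2.congr_deriv ?_
  have := norm_pos h
  (clear * - this; field_simp)

lemma norm_y {Z : ℂ} (h : 0 < Z.im) :
    HasDerivAt (fun y : ℝ => ‖(⟨Z.re, y⟩ : ℂ)‖) (Z.im / ‖Z‖) Z.im := by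
  have h1 : HasDerivAt (fun y : ℝ => Z.re ^ 2 + y ^ 2) (2 * Z.im) Z.im := by
    simpa only [hasDerivAt_const_add_iff, Nat.cast_ofNat, Nat.add_one_sub_one, pow_one] using     (hasDerivAt_pow 2 Z.im).const_add (Z.re ^ 2)
  have h2 := h1.sqrt (by positivity)
  have h3 : (fun y : ℝ => ‖(⟨Z.re, y⟩ : ℂ)‖) = fun y => Real.sqrt (Z.re ^ 2 + y ^ 2) := by
    funext x; exact normC _ _
  have h4 : Real.sqrt (Z.re ^ 2 + Z.im ^ 2) = ‖Z‖ := by rw [← normC]
  rw [h3]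
  rw [h4] at h2
  refine h2.congr_deriv ?_
  have := norm_pos h
  field_simp

lemma sn_x {Z : ℂ} (h : 0 < Z.im) :
    HasDerivAt (fun x : ℝ => sn ⟨x, Z.im⟩) (-(Z.re / ‖Z‖ ^ 2) * sn Z) Z.re := by
  have hn := norm_pos h
  have h1 := (hasDerivAt_const Z.re Z.im).div (norm_x h) (by
    have : (⟨Z.re, Z.im⟩ : ℂ) = Z := rfl
    rw [this]; exact hn.ne')
  refine h1.congr_deriv ?_
  have : (⟨Z.re, Z.im⟩ : ℂ) = Z := rfl
  rw [this]
  unfold sn
  field_simp
  ring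

lemma sn_y {Z : ℂ} (h : 0 < Z.im) :
    HasDerivAt (fun y : ℝ => sn ⟨Z.re, y⟩) (Z.re ^ 2 / (Z.im * ‖Z‖ ^ 2) * sn Z) Z.im := by
  have hn := norm_pos h
  have h1 := (hasDerivAt_id Z.im).div (norm_y h) (by
    have : (⟨Z.re, Z.im⟩ : ℂ) = Z := rfl
    rw [this]; exact hn.ne')
  refine h1.congr_deriv ?_
  have : (⟨Z.re, Z.im⟩ : ℂ) = Z := rfl
  rw [this]
  unfold sn
  have h2 := norm_sq Z
  simp only [id]
  field_simp
  nlinarith only [h2]

lemma snp_x {Z : ℂ} (h : 0 < Z.im) (p : ℝ) :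
    HasDerivAt (fun x : ℝ => sn ⟨x, Z.im⟩ ^ p) (-p * (Z.re / ‖Z‖ ^ 2) * sn Z ^ p) Z.re := by
  have hs := sn_pos h
  have h1 := (sn_x h).rpow_const (p := p) (Or.inl (by
    have : (⟨Z.re, Z.im⟩ : ℂ) = Z := rfl
    rw [this]; exact hs.ne'))
  refine h1.congr_deriv ?_
  have : (⟨Z.re, Z.im⟩ : ℂ) = Z := rfl
  rw [this, Real.rpow_sub_one hs.ne']
  (clear * - hs; field_simp)

lemma snp_y {Z : ℂ} (h : 0 < Z.im) (p : ℝ) :
    HasDerivAt (fun y : ℝ => sn ⟨Z.re, y⟩ ^ p) (p * (Z.re ^ 2 / (Z.im * ‖Z‖ ^ 2)) * sn Z ^ p)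
      Z.im := by
  have hs := sn_pos h
  have h1 := (sn_y h).rpow_const (p := p) (Or.inl (by
    have : (⟨Z.re, Z.im⟩ : ℂ) = Z := rfl
    rw [this]; exact hs.ne'))
  refine h1.congr_deriv ?_
  have : (⟨Z.re, Z.im⟩ : ℂ) = Z := rfl
  rw [this, Real.rpow_sub_one hs.ne']
  field_simp

lemma nsq_x (Z : ℂ) : HasDerivAt (fun x : ℝ => ‖(⟨x, Z.im⟩ : ℂ)‖ ^ 2) (2 * Z.re) Z.re := by
  have h3 : (fun x : ℝ => ‖(⟨x, Z.im⟩ : ℂ)‖ ^ 2) = fun x => x ^ 2 + Z.im ^ 2 := by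
    funext x; exact norm_sq _
  rw [h3]
  simpa using (hasDerivAt_pow 2 Z.re).add_const (Z.im ^ 2)

lemma snp_xx {Z : ℂ} (h : 0 < Z.im) (p : ℝ) :
    HasDerivAt (fun x : ℝ => -p * (x / ‖(⟨x, Z.im⟩ : ℂ)‖ ^ 2) * sn ⟨x, Z.im⟩ ^ p)
      ((p * (p + 2) * cs Z ^ 2 - p) / ‖Z‖ ^ 2 * sn Z ^ p) Z.re := by
  have hn := norm_pos h
  have e : (⟨Z.re, Z.im⟩ : ℂ) = Z := rfl
  have h1 := (((hasDerivAt_id' Z.re).fun_div (nsq_x Z) (by
    rw [e]; (clear * - hn; positivity))).const_mul (-p)).fun_mul (snp_x h p)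
  refine h1.congr_deriv ?_
  simp only [e]
  unfold cs
  field_simp
  ring

/-- the open half plane times the line -/
def HS : Set (ℂ × ℝ) := {Z : ℂ | 0 < Z.im} ×ˢ univ

lemma c_re : ContinuousOn (fun p : ℂ × ℝ => p.1.re) HS :=
  (Complex.continuous_re.comp continuous_fst).continuousOn

lemma c_im : ContinuousOn (fun p : ℂ × ℝ => p.1.im) HS :=
  (Complex.continuous_im.comp continuous_fst).continuousOn

lemma c_norm : ContinuousOn (fun p : ℂ × ℝ => ‖p.1‖) HS :=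
  (continuous_norm.comp continuous_fst).continuousOn

lemma n_ne {p : ℂ × ℝ} (hp : p ∈ HS) : ‖p.1‖ ≠ 0 := (norm_pos hp.1).ne'

lemma c_sn : ContinuousOn (fun p : ℂ × ℝ => sn p.1) HS :=
  c_im.div c_norm fun _ hp => n_ne hp

lemma c_cs : ContinuousOn (fun p : ℂ × ℝ => cs p.1) HS :=
  c_re.div c_norm fun _ hp => n_ne hp

lemma c_snp (q : ℝ) : ContinuousOn (fun p : ℂ × ℝ => sn p.1 ^ q) HS :=
  c_sn.rpow_const fun _ hp => Or.inl (sn_pos hp.1).ne'

lemma c_u {f : ℝ → ℝ} (hf : Continuous f) : ContinuousOn (fun p : ℂ × ℝ => f p.2) HS :=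
  (hf.comp continuous_snd).continuousOn

lemma c_xn : ContinuousOn (fun p : ℂ × ℝ => p.1.re / ‖p.1‖ ^ 2) HS :=
  c_re.div (c_norm.pow 2) fun _ hp => pow_ne_zero 2 (n_ne hp)

lemma c_yn : ContinuousOn (fun p : ℂ × ℝ => p.1.re ^ 2 / (p.1.im * ‖p.1‖ ^ 2)) HS :=
  (c_re.pow 2).div (c_im.mul (c_norm.pow 2)) fun _ hp =>
    mul_ne_zero (ne_of_gt hp.1) (pow_ne_zero 2 (n_ne hp))

lemma c_csn (q : ℝ) : ContinuousOn (fun p : ℂ × ℝ =>
    (q * (q + 2) * cs p.1 ^ 2 - q) / ‖p.1‖ ^ 2) HS :=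
  ((continuousOn_const.mul (c_cs.pow 2)).sub continuousOn_const).div (c_norm.pow 2)
    fun _ hp => pow_ne_zero 2 (n_ne hp)

/-- Functions `f(U) sn^p + g(U)` are regular. -/
theorem reg_pow {f f' g g' : ℝ → ℝ} (hf : ∀ U, HasDerivAt f (f' U) U)
    (hg : ∀ U, HasDerivAt g (g' U) U) (cf' : Continuous f') (cg' : Continuous g') (p : ℝ) :
    Reg (fun Z U => f U * sn Z ^ p + g U)
      (fun Z U => f U * (-p * (Z.re / ‖Z‖ ^ 2) * sn Z ^ p))
      (fun Z U => f U * ((p * (p + 2) * cs Z ^ 2 - p) / ‖Z‖ ^ 2 * sn Z ^ p))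
      (fun Z U => f U * (p * (Z.re ^ 2 / (Z.im * ‖Z‖ ^ 2)) * sn Z ^ p))
      (fun Z U => f' U * sn Z ^ p + g' U) := by
  have cf : Continuous f := continuous_iff_continuousAt.2 fun U => (hf U).continuousAt
  have cg : Continuous g := continuous_iff_continuousAt.2 fun U => (hg U).continuousAt
  refine ⟨?_, ?_, ?_, ?_, ?_, ?_, ?_, ?_, ?_⟩
  · intro Z U h
    exact ((snp_x h p).const_mul (f U)).add_const (g U)
  · intro Z U h
    exact (snp_xx h p).const_mul (f U)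
  · intro Z U h
    exact ((snp_y h p).const_mul (f U)).add_const (g U)
  · intro Z U h
    exact ((hf U).mul_const (sn Z ^ p)).add (hg U)
  · exact ((c_u cf).mul (c_snp p)).add (c_u cg)
  · exact (c_u cf).mul ((continuousOn_const.mul c_xn).mul (c_snp p))
  · exact (c_u cf).mul ((c_csn p).mul (c_snp p))
  · exact (c_u cf).mul ((continuousOn_const.mul c_yn).mul (c_snp p))
  · exact ((c_u cf').mul (c_snp p)).add (c_u cg')

lemma be_mul {κ : ℝ} (h0 : 0 < κ) : κ * be κ = 8 - κ := by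
  unfold be
  (clear * - h0; field_simp)

/-- The generator of `f(U) sn^be + g(U)`. -/
theorem gen_pow {κ : ℝ} (h0 : 0 < κ) (f f' g' : ℝ → ℝ) {Z : ℂ} (hZ : 0 < Z.im) (U : ℝ) :
    gen κ (fun Z U => f U * (-be κ * (Z.re / ‖Z‖ ^ 2) * sn Z ^ be κ))
      (fun Z U => f U * ((be κ * (be κ + 2) * cs Z ^ 2 - be κ) / ‖Z‖ ^ 2 * sn Z ^ be κ))
      (fun Z U => f U * (be κ * (Z.re ^ 2 / (Z.im * ‖Z‖ ^ 2)) * sn Z ^ be κ))
      (fun Z U => f' U * sn Z ^ be κ + g' U) Z U =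
      -(rate Z * (sn Z ^ be κ * (xx κ * f U + f' U))) - rate Z * g' U := by
  have hn := norm_pos hZ
  have hb := be_mul h0
  have h2 : sn Z ^ 2 = 1 - cs Z ^ 2 := by
    have := sn_sq_add_cs_sq (Z := Z) (by rintro rfl; simp at hZ)
    linarith only [this]
  have h3 : Z.re ^ 2 = cs Z ^ 2 * ‖Z‖ ^ 2 := by
    unfold cs; field_simp
  unfold gen rate xx
  have e1 : 2 * Z.re / ‖Z‖ ^ 2 * (f U * (-be κ * (Z.re / ‖Z‖ ^ 2) * sn Z ^ be κ))
      = -(2 * be κ * cs Z ^ 2) * f U * sn Z ^ be κ / ‖Z‖ ^ 2 := by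
    have : 2 * Z.re / ‖Z‖ ^ 2 * (f U * (-be κ * (Z.re / ‖Z‖ ^ 2) * sn Z ^ be κ))
      = -(2 * be κ * (Z.re ^ 2)) * f U * sn Z ^ be κ / (‖Z‖ ^ 2 * ‖Z‖ ^ 2) := by
      (clear * - hn; field_simp)
    rw [this, h3]
    (clear * - hn; field_simp)
  have e2 : 2 * Z.im / ‖Z‖ ^ 2 * (f U * (be κ * (Z.re ^ 2 / (Z.im * ‖Z‖ ^ 2)) * sn Z ^ be κ))
      = (2 * be κ * cs Z ^ 2) * f U * sn Z ^ be κ / ‖Z‖ ^ 2 := by
    rw [h3]
    (clear * - hZ hn; field_simp)
  rw [e1, e2, h2]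
  have e3 : κ / 2 * (f U * ((be κ * (be κ + 2) * cs Z ^ 2 - be κ) / ‖Z‖ ^ 2 * sn Z ^ be κ))
      = f U * sn Z ^ be κ / ‖Z‖ ^ 2 *
        ((κ * be κ) / 2 * ((be κ + 2) * cs Z ^ 2 - 1)) := by
    (clear * - hn h0; field_simp)
  rw [e3, hb]
  have e4 : (8 - κ) / 2 * ((be κ + 2) * cs Z ^ 2 - 1)
      = (4 * be κ - (κ * be κ) / 2 + (8 - κ)) * cs Z ^ 2 - (8 - κ) / 2 := by ring
  rw [e4, hb]
  field_simp
  ring

end FM

end Vale.Agent.P164
end

section

/-!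
# Auxiliary lemmas for the exponential supermartingale theorem
-/

namespace Vale.Agent.P164

open Set Metric Filter Topology MeasureTheory ProbabilityTheory
open scoped NNReal ENNReal

lemma ethm_osc_le_iff {Ω : Type*} {W : ℝ → Ω → ℝ} {t δ a : ℝ} {ω : Ω}
    (hc : Continuous fun t => W t ω) (hδ : 0 ≤ δ) :
    osc W t δ ω ≤ a ↔ ∀ u : Icc (0 : ℝ) δ, |W (t + u) ω - W t ω| ≤ a := by
  have : Nonempty (Icc (0 : ℝ) δ) := ⟨⟨0, le_rfl, hδ⟩⟩
  have hcont : Continuous fun u : Icc (0 : ℝ) δ => |W (t + u) ω - W t ω| := by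
    have h1 : Continuous fun u : Icc (0 : ℝ) δ => W (t + u) ω :=
      hc.comp (continuous_const.add continuous_subtype_val)
    exact (h1.sub continuous_const).abs
  have hb : BddAbove (range fun u : Icc (0 : ℝ) δ => |W (t + u) ω - W t ω|) :=
    (isCompact_range hcont).bddAbove
  constructor
  · intro h u
    exact (le_ciSup hb u).trans h
  · intro h
    exact ciSup_le h

lemma ethm_meas_abs {Ω : Type*} [MeasurableSpace Ω] {f g : Ω → ℝ} (hf : Measurable f)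
    (hg : Measurable g) (a : ℝ) : MeasurableSet {ω | |f ω - g ω| ≤ a} :=
  measurableSet_le (hf.sub hg).abs measurable_const

lemma ethm_meas_add {Ω : Type*} [MeasurableSpace Ω] {f g : Ω → ℝ} (hf : Measurable f)
    (hg : Measurable g) : Measurable fun ω => f ω + g ω := hf.add hg

lemma ethm_meas_exp {Ω : Type*} [MeasurableSpace Ω] {f : Ω → ℝ} (hf : Measurable f) :
    Measurable fun ω => Real.exp (f ω) := hf.exp

/-- The oscillation is measurable with respect to the past. -/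
lemma ethm_meas_osc {Ω : Type*} [MeasurableSpace Ω] {W : ℝ → Ω → ℝ}
    (hc : ∀ ω, Continuous fun t => W t ω) {t δ : ℝ} (ht : 0 ≤ t) (hδ : 0 ≤ δ) (a : ℝ) :
    MeasurableSet[past W (t + δ)] {ω | osc W t δ ω ≤ a} := by
  obtain ⟨Q, hQc, hQd⟩ := TopologicalSpace.exists_countable_dense (Icc (0 : ℝ) δ)
  have h1 : {ω | osc W t δ ω ≤ a} = ⋂ u ∈ Q, {ω | |W (t + (u : ℝ)) ω - W t ω| ≤ a} := by
    ext ω
    simp only [mem_ofPred_eq, mem_iInter]
    rw [ethm_osc_le_iff (hc ω) hδ]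
    constructor
    · intro h u _
      exact h u
    · intro h u
      have hcont : Continuous fun u : Icc (0 : ℝ) δ => |W (t + u) ω - W t ω| := by
        have h1 : Continuous fun u : Icc (0 : ℝ) δ => W (t + u) ω :=
          (hc ω).comp (continuous_const.add continuous_subtype_val)
        exact (h1.sub continuous_const).abs
      have hcl : IsClosed {u : Icc (0 : ℝ) δ | |W (t + u) ω - W t ω| ≤ a} :=
        isClosed_le hcont continuous_const
      have hsub : Q ⊆ {u : Icc (0 : ℝ) δ | |W (t + u) ω - W t ω| ≤ a} := fun u hu => h u hu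
      have := closure_minimal hsub hcl
      rw [hQd.closure_eq] at this
      exact this (mem_univ u)
  rw [h1]
  refine MeasurableSet.biInter hQc fun u _ => ?_
  have m1 : Measurable[past W (t + δ)] (W (t + (u : ℝ))) :=
    IsDrv.meas_past (add_nonneg ht u.2.1) (by linarith only [u.2.2])
  have m2 : Measurable[past W (t + δ)] (W t) := IsDrv.meas_past ht (by linarith only [hδ])
  exact @ethm_meas_abs Ω (past W (t + δ)) _ _ m1 m2 a

section

variable {Ω : Type*} {W : ℝ → Ω → ℝ} {D : Set ℂ} {u₁ ϰ t₀ δ : ℝ}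
  {A : Set Ω} {m : ℕ} {d : Fin m → ℝ → ℝ} {q : Fin m → ℝ}

end

end Vale.Agent.P164
end

section

/-!
# Height before death
-/

namespace Vale.Agent.P164

open Set Metric Filter Topology
open scoped NNReal

/-- If `z` is dead at time `t` then it reaches every height before. -/
theorem TStopH_exists {W : ℝ → ℝ} (hW : Continuous W) {z : ℂ} (hz : 0 < z.im) {t : ℝ}
    (ht : 0 ≤ t) (hd : z ∉ loewnerDomain W t) {y₀ : ℝ} (hy₀ : 0 < y₀) :
    ∃ u : ℝ, 0 ≤ u ∧ u < t ∧ z ∈ loewnerDomain W u ∧ (Zf W z u).im ≤ y₀ := by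
  set c : ℝ := min y₀ z.im with hc
  have hc0 : 0 < c := lt_min hy₀ hz
  obtain ⟨α, hα0, hα⟩ := exists_global (v := fun s x => 2 / (lift c x - (W s : ℂ)))
    (K := (2 / c ^ 2).toNNReal) (L := (2 / c).toNNReal) ht
    (fun s _ => lift_field_lip hc0 (W s))
    (fun x => by
      refine ContinuousOn.div continuousOn_const ?_ ?_
      · exact continuousOn_const.sub (Complex.continuous_ofReal.comp hW).continuousOn
      · intro s _
        exact sub_ne_zero_of_im (hc0.trans_le (lift_im _ x)) _)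
    (fun s _ x => by
      rw [Real.coe_toNNReal _ (by positivity)]
      exact norm_field_le hc0 (lift_im _ x) (W s)) z
  have hαc : ContinuousOn α (Icc 0 t) := fun u hu => (hα u hu).continuousWithinAt
  have hαi : ContinuousOn (fun u => (α u).im) (Icc 0 t) :=
    Complex.continuous_im.comp_continuousOn hαc
  have hanti : AntitoneOn (fun u => (α u).im) (Icc 0 t) := by
    refine antitoneOn_of_hasDerivWithinAt_nonpos (convex_Icc 0 t)
      (f' := fun u => (2 / (lift c (α u) - (W u : ℂ))).im) hαi ?_ ?_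
    · intro u hu
      have h1 := hα u (interior_subset hu)
      exact Complex.imCLM.hasFDerivAt.comp_hasDerivWithinAt u (h1.mono interior_subset)
    · intro u _
      have h1 : 0 < (lift c (α u)).im := hc0.trans_le (lift_im _ _)
      rw [Complex.div_im]
      have e : (lift c (α u) - (W u : ℂ)).im = (lift c (α u)).im := by simp
      rw [e]
      have h2 : 0 < Complex.normSq (lift c (α u) - (W u : ℂ)) :=
        Complex.normSq_pos.2 (sub_ne_zero_of_im h1 _)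
      have h3 : (2 : ℂ).im = 0 := by simp
      have h4 : (2 : ℂ).re = 2 := by simp
      rw [h3, h4, zero_mul, zero_div]
      have : 0 ≤ 2 * (lift c (α u)).im / Complex.normSq (lift c (α u) - (W u : ℂ)) := by
        (clear * - h1 h2; positivity)
      linarith
  have hsol : ∀ σ, σ ≤ t → (∀ x ∈ Icc 0 σ, c ≤ (α x).im) → IsLoewnerSol W z σ α := by
    intro σ hσ h
    refine ⟨hα0, fun s hs => ⟨hc0.trans_le (h s hs), ?_⟩⟩
    have h1 := hα s ⟨hs.1, hs.2.trans hσ⟩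
    rw [lift_eq (h s hs)] at h1
    exact h1.mono (Icc_subset_Icc_right hσ)
  have hlt : (α t).im < c := by
    by_contra hcon
    push Not at hcon
    refine hd ⟨α, hsol t le_rfl fun x hx => hcon.trans ?_⟩
    exact hanti hx ⟨ht, le_rfl⟩ hx.2
  have hc1 : c ≤ (α 0).im := by rw [hα0]; exact min_le_right _ _
  obtain ⟨σ, hσ, hσc⟩ := intermediate_value_Icc' ht hαi ⟨hlt.le, hc1⟩
  simp only at hσc
  have hσt : σ < t := by
    rcases hσ.2.lt_or_eq with h | h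
    · exact h
    · rw [h] at hσc
      linarith only [hlt, hσc]
  have hs := hsol σ hσ.2 fun x hx => by
    rw [← hσc]
    exact hanti ⟨hx.1, hx.2.trans hσ.2⟩ hσ hx.2
  refine ⟨σ, hσ.1, hσt, ⟨α, hs⟩, ?_⟩
  rw [Zf_im_eq, gf_eq hs ⟨hσ.1, le_rfl⟩, hσc]
  exact min_le_left _ _

theorem TStopH_height_of_death {W : ℝ → ℝ} (hW : Continuous W) {z : ℂ} (hz : 0 < z.im) {t : ℝ}
    (ht : 0 ≤ t) (hd : z ∉ loewnerDomain W t) {y₀ : ℝ} (hy₀ : 0 < y₀) :
    ∃ u v : ℝ, 0 ≤ u ∧ u < v ∧ v ≤ t ∧ z ∉ loewnerDomain W v ∧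
      ∀ x ∈ Ico u v, z ∈ loewnerDomain W x ∧ (Zf W z x).im ≤ y₀ := by
  set S : Set ℝ := {x | 0 ≤ x ∧ x ≤ t ∧ z ∈ loewnerDomain W x} with hS
  have hS0 : (0 : ℝ) ∈ S := ⟨le_rfl, ht, dom_zero.2 hz⟩
  have hSb : BddAbove S := ⟨t, fun x hx => hx.2.1⟩
  have hle : ∀ x ∈ S, x ≤ sSup S := fun x hx => le_csSup hSb hx
  have hv0 : 0 ≤ sSup S := hle 0 hS0
  have hvt : sSup S ≤ t := csSup_le ⟨0, hS0⟩ fun x hx => hx.2.1
  have hvd : z ∉ loewnerDomain W (sSup S) := by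
    intro h
    have h1 : 0 < (Zf W z (sSup S)).im := Zf_im_pos hv0 h
    obtain ⟨u, hu0, hut, hu, hui⟩ := TStopH_exists hW hz ht hd (half_pos h1)
    have h2 : u ≤ sSup S := hle u ⟨hu0, hut.le, hu⟩
    have h3 := im_le_of_le hu0 h2 h
    linarith only [h1, hui, h3]
  obtain ⟨u, hu0, hut, hu, hui⟩ := TStopH_exists hW hz ht hd hy₀
  have huv : u ≤ sSup S := hle u ⟨hu0, hut.le, hu⟩
  have huv' : u < sSup S := lt_of_le_of_ne huv fun h => hvd (h ▸ hu)
  refine ⟨u, sSup S, hu0, huv', hvt, hvd, fun x hx => ?_⟩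
  obtain ⟨y, hy, hxy⟩ := exists_lt_of_lt_csSup ⟨0, hS0⟩ hx.2
  have hxd : z ∈ loewnerDomain W x := dom_mono hxy.le hy.2.2
  exact ⟨hxd, (im_le_of_le hu0 hx.1 hxd).trans hui⟩

end Vale.Agent.P164
end
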