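import Vale.Agent.P164.MathlibUsed
import Vale.Agent.P164.Bdl.B2
import Vale.Agent.P164.Bdl.B1

set_option linter.all false

namespace AFast02c1ebx6a
theorem a0 : ContinuousSMul ℂ ℂ := inferInstance
theorem a1 : IsTopologicalSemiring ℂ := inferInstance
theorem a2 : IsTopologicalRing ℂ := inferInstance
theorem a3 : IsModuleTopology ℂ ℂ := inferInstance
theorem a4 : CharZero ℝ := inferInstance
@[reducible] noncomputable def a5 : SMulZeroClass ℝ ℂ := inferInstance
@[reducible] noncomputable def a6 : DistribSMul ℝ ℂ := inferInstance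
@[reducible] noncomputable def a7 : DistribMulAction ℝ ℂ := inferInstance
@[reducible] def a8 : SMulZeroClass ℂ ℂ := inferInstance
@[reducible] def a9 : DistribMulAction ℂ ℂ := inferInstance
theorem a10 : ContinuousAdd ℂ := inferInstance
@[reducible] noncomputable def a11 : Module ℝ ℂ := inferInstance
theorem a12 : LinearMap.CompatibleSMul ℂ ℂ ℝ ℂ := inferInstance
theorem a13 : IsSemitopologicalSemiring ℂ := inferInstance
theorem a14 : IsSemitopologicalRing ℂ := inferInstance
@[reducible] noncomputable def a15 : MeasureTheory.MeasureSpace ℂ := inferInstance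
@[reducible] noncomputable def a16 : NormedSpace ℝ ℂ := inferInstance
theorem a17 : PosMulReflectLT ℝ := inferInstance
theorem a18 : ExistsAddOfLE ℝ := inferInstance
theorem a19 : PosMulReflectLE ℝ := inferInstance
theorem a20 : PosMulStrictMono ℝ := inferInstance
theorem a21 : IsTopologicalDivisionRing ℂ := inferInstance
theorem a22 : AddRightReflectLE ℝ := inferInstance
theorem a23 : IsCancelMulZero ℂ := inferInstance
theorem a24 : ContinuousSMul ℝ ℂ := inferInstance
theorem a25 : IsLeftCancelMulZero ℂ := inferInstance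
@[reducible] noncomputable def a26 : Algebra ℝ (Module.End ℝ ℂ) := inferInstance
theorem a27 : IsRightCancelAdd ℝ := inferInstance
@[reducible] noncomputable def a28 : NormedSpace ℝ ℝ := inferInstance
theorem a29 : IsBoundedSMul ℂ ℂ := inferInstance
theorem a30 : Algebra.IsIntegral ℝ ℂ := inferInstance
theorem a31 : ContinuousMul ℂ := inferInstance
theorem a32 : Algebra.IsAlgebraic ℝ ℂ := inferInstance
theorem a33 : CovariantClass ℝ ℝ (Function.swap fun x1 x2 => x1 + x2) fun x1 x2 => x1 ≤ x2 := inferInstance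
@[reducible] noncomputable def a34 : MulAction ℝ ℂ := inferInstance
theorem a35 : IsScalarTower ℝ ℝ ℂ := inferInstance
theorem a36 : ContinuousSMul ℝ ℝ := inferInstance
theorem a37 : AddLeftReflectLE ℝ := inferInstance
theorem a38 : AddRightStrictMono ℝ := inferInstance
end AFast02c1ebx6a
attribute [local instance] AFast02c1ebx6a.a0 AFast02c1ebx6a.a1 AFast02c1ebx6a.a2 AFast02c1ebx6a.a3
  AFast02c1ebx6a.a4 AFast02c1ebx6a.a5 AFast02c1ebx6a.a6 AFast02c1ebx6a.a7 AFast02c1ebx6a.a8
  AFast02c1ebx6a.a9 AFast02c1ebx6a.a10 AFast02c1ebx6a.a11 AFast02c1ebx6a.a12 AFast02c1ebx6a.a13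
  AFast02c1ebx6a.a14 AFast02c1ebx6a.a15 AFast02c1ebx6a.a16 AFast02c1ebx6a.a17 AFast02c1ebx6a.a18
  AFast02c1ebx6a.a19 AFast02c1ebx6a.a20 AFast02c1ebx6a.a21 AFast02c1ebx6a.a22 AFast02c1ebx6a.a23
  AFast02c1ebx6a.a24 AFast02c1ebx6a.a25 AFast02c1ebx6a.a26 AFast02c1ebx6a.a27 AFast02c1ebx6a.a28
  AFast02c1ebx6a.a29 AFast02c1ebx6a.a30 AFast02c1ebx6a.a31 AFast02c1ebx6a.a32 AFast02c1ebx6a.a33
  AFast02c1ebx6a.a34 AFast02c1ebx6a.a35 AFast02c1ebx6a.a36 AFast02c1ebx6a.a37 AFast02c1ebx6a.a38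
namespace AFast02c1ebx6b
theorem a0 : Module.Free ℝ ℂ := inferInstance
theorem a1 : Module.Flat ℝ ℂ := inferInstance
end AFast02c1ebx6b
attribute [local instance] AFast02c1ebx6b.a0 AFast02c1ebx6b.a1
section

open Complex MeasureTheory Metric Set Filter Topology
open scoped Real ComplexConjugate Nat

namespace Vale.Agent.P142

noncomputable section

variable {f : ℂ → ℂ}

/-! ### Power series jets -/

end

end Vale.Agent.P142
end

section

open Complex MeasureTheory Metric Set Filter Topology intervalIntegral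
open scoped Real ComplexConjugate ENNReal

namespace Vale.Agent.P142

noncomputable section

/-- Spherical area density at scale `d`. -/
def psi (d : ℝ) (w : ℂ) : ℝ := d ^ 2 / (‖w‖ ^ 2 + d ^ 2) ^ 2

lemma psi_nonneg (d : ℝ) (w : ℂ) : 0 ≤ psi d w := by unfold psi; (clear * -; positivity)

lemma continuous_psi {d : ℝ} (hd : 0 < d) : Continuous (psi d) := by
  unfold psi
  apply Continuous.div (by fun_prop) (by (clear * -; fun_prop))
  intro x
  (clear * - hd; positivity)

lemma abs_det_holo (a : ℂ) :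
    |((ContinuousLinearMap.toSpanSingleton ℂ a).restrictScalars ℝ).det| = ‖a‖ ^ 2 := by
  simp [ContinuousLinearMap.det, LinearMap.det_restrictScalars,
      Algebra.norm_complex_eq, Complex.normSq_eq_norm_sq]

lemma lintegral_psi_le {d : ℝ} (hd : 0 < d) :
    ∫⁻ w : ℂ, ENNReal.ofReal (psi d w) ≤ ENNReal.ofReal π := by
  rw [← Complex.lintegral_comp_polarCoord_symm]
  have hm : Measurable fun p : ℝ × ℝ => ENNReal.ofReal (p.1 * (d ^ 2 / (p.1 ^ 2 + d ^ 2) ^ 2)) := by
    fun_prop
  have e1 : ∀ p ∈ polarCoord.target,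
      ENNReal.ofReal p.1 • ENNReal.ofReal (psi d (Complex.polarCoord.symm p)) =
      ENNReal.ofReal (p.1 * (d ^ 2 / (p.1 ^ 2 + d ^ 2) ^ 2)) := by
    intro p hp
    have hp1 : 0 < p.1 := by
      have := hp.1
      simpa only [gt_iff_lt, mem_Ioi] using this
    rw [smul_eq_mul, ← ENNReal.ofReal_mul hp1.le]
    unfold psi
    rw [norm_polarCoord_symm, abs_of_pos hp1]
  rw [setLIntegral_congr_fun polarCoord.open_target.measurableSet e1]
  have e2 : polarCoord.target = Ioi (0 : ℝ) ×ˢ Ioo (-π) π := rfl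
  rw [e2, Measure.volume_eq_prod, setLIntegral_prod _ (hm.aemeasurable)]
  simp only [lintegral_const, Measure.restrict_apply, MeasurableSet.univ, univ_inter,
    Real.volume_Ioo]
  rw [lintegral_mul_const _ (by (clear * -; fun_prop))]
  have hder : ∀ x ∈ Ici (0 : ℝ), HasDerivAt (fun x : ℝ => -(d ^ 2 / 2) / (x ^ 2 + d ^ 2))
      (x * (d ^ 2 / (x ^ 2 + d ^ 2) ^ 2)) x := by
    intro x _
    have hne : x ^ 2 + d ^ 2 ≠ 0 := by (clear * - hd; positivity)
    have h1 : HasDerivAt (fun x : ℝ => x ^ 2 + d ^ 2) (2 * x) x := by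
      simpa only [hasDerivAt_add_const_iff, Nat.cast_ofNat, Nat.add_one_sub_one, pow_one] using     (hasDerivAt_pow 2 x).add_const (d ^ 2)
    have h2 := (hasDerivAt_const x (-(d ^ 2 / 2))).div h1 hne
    refine h2.congr_deriv ?_
    field_simp
    ring
  have hlim : Tendsto (fun x : ℝ => -(d ^ 2 / 2) / (x ^ 2 + d ^ 2)) atTop (𝓝 0) := by
    apply Tendsto.const_div_atTop
    exact tendsto_atTop_add_const_right _ _ (tendsto_pow_atTop (by norm_num))
  have hpos : ∀ x ∈ Ioi (0 : ℝ), 0 ≤ x * (d ^ 2 / (x ^ 2 + d ^ 2) ^ 2) := by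
    intro x hx
    have : (0 : ℝ) < x := hx
    positivity
  have hint := integral_Ioi_of_hasDerivAt_of_nonneg' hder hpos hlim
  have hintb := integrableOn_Ioi_deriv_of_nonneg' hder hpos hlim
  rw [← ofReal_integral_eq_lintegral_ofReal hintb
    ((ae_restrict_iff' measurableSet_Ioi).mpr (Eventually.of_forall hpos)), hint,
    ← ENNReal.ofReal_mul']
  · apply ENNReal.ofReal_le_ofReal
    apply le_of_eq
    have : d ≠ 0 := hd.ne'
    field_simp
    ring
  · linarith only [Real.pi_pos]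

variable {F : ℂ → ℂ}

lemma area_ineq (hF : DifferentiableOn ℂ F (ball 0 1)) (hinj : InjOn F (ball 0 1))
    {d : ℝ} (hd : 0 < d) {ρ : ℝ} (hρ : ρ ≤ 1) :
    ∫⁻ z in ball (0 : ℂ) ρ, ENNReal.ofReal (‖deriv F z‖ ^ 2 * psi d (F z)) ≤
      ENNReal.ofReal π := by
  have hsub : ball (0 : ℂ) ρ ⊆ ball 0 1 := ball_subset_ball hρ
  have h1 := lintegral_image_eq_lintegral_abs_det_fderiv_mul volume (s := ball (0 : ℂ) ρ)
    (f := F) (f' := fun z => (ContinuousLinearMap.toSpanSingleton ℂ (deriv F z)).restrictScalars ℝ)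
    measurableSet_ball (fun z hz =>
      (((hF.differentiableAt (isOpen_ball.mem_nhds (hsub hz))).hasDerivAt.hasFDerivAt).restrictScalars
        ℝ).hasFDerivWithinAt) (hinj.mono hsub) (fun w => ENNReal.ofReal (psi d w))
  simp only [abs_det_holo] at h1
  calc ∫⁻ z in ball (0 : ℂ) ρ, ENNReal.ofReal (‖deriv F z‖ ^ 2 * psi d (F z))
      = ∫⁻ z in ball (0 : ℂ) ρ, ENNReal.ofReal (‖deriv F z‖ ^ 2) * ENNReal.ofReal (psi d (F z)) := by
        congr 1; ext z; rw [ENNReal.ofReal_mul (by (clear * -; positivity))]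
    _ = ∫⁻ w in F '' ball (0 : ℂ) ρ, ENNReal.ofReal (psi d w) := h1.symm
    _ ≤ ∫⁻ w : ℂ, ENNReal.ofReal (psi d w) := setLIntegral_le_lintegral _ _
    _ ≤ ENNReal.ofReal π := lintegral_psi_le hd

end

end Vale.Agent.P142
end

section

open Complex MeasureTheory Metric Set Filter Topology intervalIntegral
open scoped Real ComplexConjugate ENNReal

namespace Vale.Agent.P142

noncomputable section

variable {F : ℂ → ℂ}

/-- The integrand of the boundary form of the spherical area. -/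
def Hd (F : ℂ → ℂ) (d : ℝ) (z : ℂ) : ℂ :=
  z * deriv F z * conj (F z) * (F z * conj (F z) + (d : ℂ) ^ 2)⁻¹

/-- The area density. -/
def Gd (F : ℂ → ℂ) (d : ℝ) (z : ℂ) : ℝ := ‖deriv F z‖ ^ 2 * psi d (F z)

lemma denom_eq (F : ℂ → ℂ) (d : ℝ) (z : ℂ) :
    F z * conj (F z) + (d : ℂ) ^ 2 = ((‖F z‖ ^ 2 + d ^ 2 : ℝ) : ℂ) := by
  rw [mul_conj, normSq_eq_norm_sq]
  push_cast
  ring

lemma denom_ne (F : ℂ → ℂ) {d : ℝ} (hd : 0 < d) (z : ℂ) :
    F z * conj (F z) + (d : ℂ) ^ 2 ≠ 0 := by
  rw [denom_eq]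
  have : 0 < ‖F z‖ ^ 2 + d ^ 2 := by positivity
  exact_mod_cast this.ne'

lemma differentiableOn_deriv (hF : DifferentiableOn ℂ F (ball 0 1)) :
    DifferentiableOn ℂ (deriv F) (ball 0 1) := hF.deriv isOpen_ball

lemma Hd_hasW (hF : DifferentiableOn ℂ F (ball 0 1)) {d : ℝ} (hd : 0 < d) {z : ℂ}
    (hz : z ∈ ball (0 : ℂ) 1) :
    HasW (Hd F d)
      ((1 * deriv F z + z * deriv (deriv F) z) * conj (F z) *
        (F z * conj (F z) + (d : ℂ) ^ 2)⁻¹ +
        z * deriv F z * conj (F z) *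
          (-(deriv F z * conj (F z)) / (F z * conj (F z) + (d : ℂ) ^ 2) ^ 2))
      (z * deriv F z * conj (deriv F z) * (d : ℂ) ^ 2 / (F z * conj (F z) + (d : ℂ) ^ 2) ^ 2) z := by
  have hnhds := isOpen_ball.mem_nhds hz
  have h1 : HasDerivAt F (deriv F z) z := (hF.differentiableAt hnhds).hasDerivAt
  have h2 : HasDerivAt (deriv F) (deriv (deriv F) z) z :=
    ((differentiableOn_deriv hF).differentiableAt hnhds).hasDerivAt
  have hA : HasW (fun z => z * deriv F z) (1 * deriv F z + z * deriv (deriv F) z) 0 z :=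
    HasW.of_hasDerivAt ((hasDerivAt_id z).mul h2)
  have hW : HasW F (deriv F z) 0 z := HasW.of_hasDerivAt h1
  have hB := hW.conj
  have hD : HasW (fun z => F z * conj (F z) + (d : ℂ) ^ 2) (deriv F z * conj (F z))
      (F z * conj (deriv F z)) z :=
    ((hW.mul hB).add (HasW.const ((d : ℂ) ^ 2) z)).congr_coeff (by simp) (by simp)
  have hDi := hD.inv (denom_ne F hd z)
  have hfin := (hA.mul hB).mul hDi
  have hne := denom_ne F hd z
  refine hfin.congr_coeff ?_ ?_
  · simp only [one_mul, map_zero, mul_zero, add_zero]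
  · simp only [zero_mul, zero_add]
    field_simp
    ring

lemma continuousOn_Gd (hF : DifferentiableOn ℂ F (ball 0 1)) {d : ℝ} (hd : 0 < d) :
    ContinuousOn (Gd F d) (ball 0 1) := by
  have h1 := hF.continuousOn
  have h2 := (differentiableOn_deriv hF).continuousOn
  unfold Gd
  exact (h2.norm.pow 2).mul ((continuous_psi hd).comp_continuousOn h1)

lemma continuousOn_Hd (hF : DifferentiableOn ℂ F (ball 0 1)) {d : ℝ} (hd : 0 < d) :
    ContinuousOn (Hd F d) (ball 0 1) := fun _ hz =>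
  (Hd_hasW hF hd hz).continuousAt.continuousWithinAt

lemma green_deriv (hF : DifferentiableOn ℂ F (ball 0 1)) {d : ℝ} (hd : 0 < d) {s : ℝ}
    (hs0 : 0 < s) (hs1 : s < 1) :
    HasDerivAt (fun s : ℝ => ∫ θ in (-π)..π, Hd F d (circleMap 0 s θ))
      (((2 * s) * ∫ θ in (-π)..π, Gd F d (circleMap 0 s θ) : ℝ) : ℂ) s := by
  have h1 := hF.continuousOn
  have h2 := (differentiableOn_deriv hF).continuousOn
  have h3 := (differentiableOn_deriv (differentiableOn_deriv hF)).continuousOn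
  have hc1 : ContinuousOn (fun z => conj (F z)) (ball 0 1) :=
    Complex.continuous_conj.comp_continuousOn h1
  have hc2 : ContinuousOn (fun z => conj (deriv F z)) (ball 0 1) :=
    Complex.continuous_conj.comp_continuousOn h2
  have hD : ContinuousOn (fun z => F z * conj (F z) + (d : ℂ) ^ 2) (ball 0 1) :=
    (h1.mul hc1).add continuousOn_const
  have hDi : ContinuousOn (fun z => (F z * conj (F z) + (d : ℂ) ^ 2)⁻¹) (ball 0 1) :=
    hD.inv₀ (fun z _ => denom_ne F hd z)
  have key := (circle_integral_wirt (fun z hz => Hd_hasW hF hd hz) ?_ ?_ hs0 hs1).1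
  · refine key.congr_deriv ?_
    have e : ∀ θ : ℝ, (circleMap 0 s θ * deriv F (circleMap 0 s θ) *
        conj (deriv F (circleMap 0 s θ)) * (d : ℂ) ^ 2 /
        (F (circleMap 0 s θ) * conj (F (circleMap 0 s θ)) + (d : ℂ) ^ 2) ^ 2) *
        conj (circleMap 0 s θ) = ((s ^ 2 * Gd F d (circleMap 0 s θ) : ℝ) : ℂ) := by
      intro θ
      have e1 : circleMap 0 s θ * conj (circleMap 0 s θ) = ((s ^ 2 : ℝ) : ℂ) := by
        rw [mul_conj, normSq_eq_norm_sq, norm_circleMap_zero, sq_abs]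
      have e2 : deriv F (circleMap 0 s θ) * conj (deriv F (circleMap 0 s θ)) =
          ((‖deriv F (circleMap 0 s θ)‖ ^ 2 : ℝ) : ℂ) := by
        rw [mul_conj, normSq_eq_norm_sq]
      rw [denom_eq]
      unfold Gd psi
      calc _ = (circleMap 0 s θ * conj (circleMap 0 s θ)) *
            (deriv F (circleMap 0 s θ) * conj (deriv F (circleMap 0 s θ))) *
            ((d : ℂ) ^ 2 / (((‖F (circleMap 0 s θ)‖ ^ 2 + d ^ 2 : ℝ) : ℂ)) ^ 2) := by ring
        _ = _ := by rw [e1, e2]; push_cast; ring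
    simp only [e]
    rw [intervalIntegral.integral_ofReal, intervalIntegral.integral_const_mul]
    push_cast
    have hs : (s : ℂ) ≠ 0 := by exact_mod_cast hs0.ne'
    field_simp
  · have e := (((((continuousOn_const (c := (1 : ℂ))).mul h2).add
        (continuousOn_id.mul h3)).mul hc1).mul hDi).add
      (((continuousOn_id.mul h2).mul hc1).mul
        ((h2.mul hc1).neg.div (hD.pow 2) (fun z _ => pow_ne_zero 2 (denom_ne F hd z))))
    exact e
  · exact (((continuousOn_id.mul h2).mul hc2).mul continuousOn_const).div (hD.pow 2)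
      (fun z _ => pow_ne_zero 2 (denom_ne F hd z))

/-- The area density integrated in polar coordinates is at most `π`. -/
lemma polar_area_le (hF : DifferentiableOn ℂ F (ball 0 1)) (hinj : InjOn F (ball 0 1))
    {d : ℝ} (hd : 0 < d) {e ρ : ℝ} (he : 0 < e) (heρ : e ≤ ρ) (hρ : ρ < 1) :
    ∫ s in e..ρ, s * ∫ θ in (-π)..π, Gd F d (circleMap 0 s θ) ≤ π := by
  have hG0 : ∀ z, 0 ≤ Gd F d z := fun z => by
    unfold Gd; exact mul_nonneg (by (clear * -; positivity)) (psi_nonneg _ _)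
  have hpi : (-π) ≤ π := by linarith [Real.pi_pos]
  have harea := area_ineq hF hinj hd (le_refl (1 : ℝ))
  -- continuity of the polar integrand
  have hcont : ContinuousOn (fun p : ℝ × ℝ => p.1 * Gd F d (circleMap 0 p.1 p.2))
      (Icc e ρ ×ˢ Icc (-π) π) := by
    apply continuousOn_fst.mul
    exact (continuousOn_Gd hF hd).comp continuous_circleMap_uncurry.continuousOn
      (fun p hp => circleMap_mem_unit (by linarith only [he, hp.1.1]) (by linarith [hp.1.2]) _)
  have hintOn : IntegrableOn (fun p : ℝ × ℝ => p.1 * Gd F d (circleMap 0 p.1 p.2))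
      (Icc e ρ ×ˢ Icc (-π) π) (volume.prod volume) :=
    hcont.integrableOn_compact (isCompact_Icc.prod isCompact_Icc)
  have hintOn' : IntegrableOn (fun p : ℝ × ℝ => p.1 * Gd F d (circleMap 0 p.1 p.2))
      (Ioo e ρ ×ˢ Ioo (-π) π) (volume.prod volume) :=
    hintOn.mono_set (prod_mono Ioo_subset_Icc_self Ioo_subset_Icc_self)
  have e1 : ∫ s in e..ρ, s * ∫ θ in (-π)..π, Gd F d (circleMap 0 s θ) =
      ∫ p in Ioo e ρ ×ˢ Ioo (-π) π, p.1 * Gd F d (circleMap 0 p.1 p.2) ∂(volume.prod volume) := by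
    rw [setIntegral_prod _ hintOn', intervalIntegral.integral_of_le heρ,
      integral_Ioc_eq_integral_Ioo]
    apply setIntegral_congr_fun measurableSet_Ioo
    intro s _
    simp only
    rw [intervalIntegral.integral_of_le hpi, integral_Ioc_eq_integral_Ioo, MeasureTheory.integral_const_mul]
  rw [e1]
  have hnn : ∀ p ∈ Ioo e ρ ×ˢ Ioo (-π) π, 0 ≤ p.1 * Gd F d (circleMap 0 p.1 p.2) := by
    intro p hp
    exact mul_nonneg (by linarith only [he, hp.1.1]) (hG0 _)
  rw [integral_eq_lintegral_of_nonneg_ae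
    ((ae_restrict_iff' (measurableSet_Ioo.prod measurableSet_Ioo)).mpr (Eventually.of_forall hnn))
    hintOn'.aestronglyMeasurable]
  apply ENNReal.toReal_le_of_le_ofReal Real.pi_pos.le
  refine le_trans ?_ harea
  rw [← lintegral_indicator measurableSet_ball, ← Complex.lintegral_comp_polarCoord_symm]
  have e2 : polarCoord.target = Ioi (0 : ℝ) ×ˢ Ioo (-π) π := rfl
  have hsub : Ioo e ρ ×ˢ Ioo (-π) π ⊆ polarCoord.target := by
    rw [e2]
    exact prod_mono (fun x hx => lt_trans he hx.1) (subset_refl _)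
  refine le_trans ?_ (lintegral_mono_set hsub)
  rw [← Measure.volume_eq_prod]
  apply le_of_eq
  apply setLIntegral_congr_fun (measurableSet_Ioo.prod measurableSet_Ioo)
  intro p hp
  have hp0 : 0 < p.1 := lt_trans he hp.1.1
  have hp1 : p.1 < 1 := lt_trans hp.1.2 hρ
  have e3 : Complex.polarCoord.symm p = circleMap 0 p.1 p.2 := by
    rw [Complex.polarCoord_symm_apply, circleMap_zero, Complex.exp_mul_I]
    push_cast
    ring
  simp only
  rw [e3, indicator_of_mem (circleMap_mem_unit hp0.le hp1 _), smul_eq_mul,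
    ← ENNReal.ofReal_mul hp0.le]
  rfl

/-- The boundary form of the spherical area is at most `2π`. -/
lemma green_ineq (hF : DifferentiableOn ℂ F (ball 0 1)) (hinj : InjOn F (ball 0 1))
    {d : ℝ} (hd : 0 < d) {ρ : ℝ} (hρ0 : 0 < ρ) (hρ : ρ < 1) :
    (∫ θ in (-π)..π, Hd F d (circleMap 0 ρ θ)).re ≤ 2 * π := by
  set N : ℝ → ℂ := fun s => ∫ θ in (-π)..π, Hd F d (circleMap 0 s θ) with hN
  have hpi : (-π) ≤ π := by linarith [Real.pi_pos]
  have hstep : ∀ e : ℝ, 0 < e → e ≤ ρ → (N ρ).re ≤ 2 * π + (N e).re := by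
    intro e he heρ
    have hder : ∀ s ∈ uIcc e ρ, HasDerivAt (fun s => (N s).re)
        ((2 * s) * ∫ θ in (-π)..π, Gd F d (circleMap 0 s θ)) s := by
      intro s hs
      rw [uIcc_of_le heρ] at hs
      have h := green_deriv hF hd (lt_of_lt_of_le he hs.1) (lt_of_le_of_lt hs.2 hρ)
      have h2 := Complex.reCLM.hasFDerivAt.comp_hasDerivAt s h
      exact h2.congr_deriv (by simp only [ofReal_mul, ofReal_ofNat, reCLM_apply, mul_re, re_ofNat, ofReal_re, im_ofNat, ofReal_im, mul_zero, sub_zero, mul_im, zero_mul, add_zero])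
    have hcont : ContinuousOn (fun s : ℝ => (2 * s) * ∫ θ in (-π)..π, Gd F d (circleMap 0 s θ))
        (uIcc e ρ) := by
      rw [uIcc_of_le heρ]
      apply ContinuousOn.mul (by fun_prop)
      exact (continuousOn_circle_integral (continuousOn_Gd hF hd)).mono
        (fun x hx => ⟨by linarith only [he, hx.1], lt_of_le_of_lt hx.2 hρ⟩)
    have h := intervalIntegral.integral_eq_sub_of_hasDerivAt hder hcont.intervalIntegrable
    have h2 := polar_area_le hF hinj hd he heρ hρ
    have h3 : ∫ s in e..ρ, (2 * s) * ∫ θ in (-π)..π, Gd F d (circleMap 0 s θ) =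
        2 * ∫ s in e..ρ, s * ∫ θ in (-π)..π, Gd F d (circleMap 0 s θ) := by
      rw [← intervalIntegral.integral_const_mul]
      congr 1; ext s; ring
    rw [h3] at h
    linarith
  have hN0 : N 0 = 0 := by
    simp only [hN, Hd, circleMap_zero_radius, Function.const_apply, zero_mul, intervalIntegral.integral_zero]
  have hNc : ContinuousOn N (Ioo (-1) 1) := continuousOn_circle_integral (continuousOn_Hd hF hd)
  have hlim : Tendsto (fun e : ℝ => 2 * π + (N e).re) (𝓝[>] 0) (𝓝 (2 * π + (N 0).re)) := by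
    have h1 : ContinuousAt N 0 := hNc.continuousAt (Ioo_mem_nhds (by norm_num) (by norm_num))
    have h2 : ContinuousAt (fun e : ℝ => 2 * π + (N e).re) 0 :=
      (continuousAt_const.add (Complex.continuous_re.continuousAt.comp h1))
    exact h2.tendsto.mono_left nhdsWithin_le_nhds
  rw [hN0, zero_re, add_zero] at hlim
  refine ge_of_tendsto hlim ?_
  filter_upwards [Ioo_mem_nhdsGT hρ0] with e he
  exact hstep e he.1 he.2.le

end

end Vale.Agent.P142
end

section

open Complex MeasureTheory Metric Set Filter Topology intervalIntegral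
open scoped Real ComplexConjugate Nat

namespace Vale.Agent.P142

noncomputable section

variable {F : ℂ → ℂ}

lemma dslope_diff (hF : DifferentiableOn ℂ F (ball 0 1)) :
    DifferentiableOn ℂ (dslope F 0) (ball 0 1) :=
  (Complex.differentiableOn_dslope (isOpen_ball.mem_nhds (mem_ball_self one_pos))).mpr hF

lemma F_eq_mul_dslope (h0 : F 0 = 0) (z : ℂ) : F z = z * dslope F 0 z := by
  have h := sub_smul_dslope F 0 z
  simp only [sub_zero, smul_eq_mul, h0] at h
  exact h.symm

lemma dslope_ne (hinj : InjOn F (ball 0 1)) (h0 : F 0 = 0) (h1 : deriv F 0 = 1) {z : ℂ}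
    (hz : z ∈ ball (0 : ℂ) 1) : dslope F 0 z ≠ 0 := by
  by_cases hz0 : z = 0
  · rw [hz0, dslope_same, h1]; exact one_ne_zero
  · intro h
    have : F z = F 0 := by rw [F_eq_mul_dslope h0 z, h, mul_zero, h0]
    exact hz0 (hinj hz (mem_ball_self one_pos) this)

/-- `R z = z / F z`. -/
def Rfun (F : ℂ → ℂ) (z : ℂ) : ℂ := (dslope F 0 z)⁻¹

lemma Rfun_diff (hF : DifferentiableOn ℂ F (ball 0 1)) (hinj : InjOn F (ball 0 1))
    (h0 : F 0 = 0) (h1 : deriv F 0 = 1) : DifferentiableOn ℂ (Rfun F) (ball 0 1) := by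
  unfold Rfun
  exact (dslope_diff hF).fun_inv (fun z hz => dslope_ne hinj h0 h1 hz)

lemma Rfun_ne (hinj : InjOn F (ball 0 1)) (h0 : F 0 = 0) (h1 : deriv F 0 = 1) {z : ℂ}
    (hz : z ∈ ball (0 : ℂ) 1) : Rfun F z ≠ 0 := inv_ne_zero (dslope_ne hinj h0 h1 hz)

lemma F_eq_div (h0 : F 0 = 0) (z : ℂ) : F z = z * (Rfun F z)⁻¹ := by
  rw [F_eq_mul_dslope h0 z, Rfun, inv_inv]

/-- Mean value property on circles about the origin. -/
lemma mean_value {J : ℂ → ℂ} (hJ : DifferentiableOn ℂ J (ball 0 1)) {s : ℝ} (hs0 : 0 ≤ s)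
    (hs1 : s < 1) : ∫ θ in (-π)..π, J (circleMap 0 s θ) = 2 * π * J 0 := by
  have h := parseval (U := J) (W := fun _ => 1) (a := tc J) (b := fun n => if n = 0 then 1 else 0)
    hs0 hs1 hJ.continuousOn (fun z hz => hasSum_tc hJ hz) (fun z _ => by
      have : HasSum (fun n : ℕ => (if n = 0 then (1 : ℂ) else 0) * z ^ n)
          ((if (0 : ℕ) = 0 then (1 : ℂ) else 0) * z ^ 0) := by
        apply hasSum_single
        intro n hn
        simp only [hn, ↓reduceIte, zero_mul]
      simpa only [ite_mul, one_mul, zero_mul, ↓reduceIte, pow_zero, mul_one] using this)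
  have h2 : HasSum (fun n : ℕ => 2 * π * (tc J n * conj (if n = 0 then (1 : ℂ) else 0) *
      (s : ℂ) ^ (2 * n))) (2 * π * (tc J 0 * conj (if (0 : ℕ) = 0 then (1 : ℂ) else 0) *
      (s : ℂ) ^ (2 * 0))) := by
    apply hasSum_single
    intro n hn
    simp [hn]
  have h3 := h.unique h2
  simp only [map_one, mul_one] at h3
  rw [h3]
  simp [tc]

lemma deriv_F_eq (hF : DifferentiableOn ℂ F (ball 0 1)) (hinj : InjOn F (ball 0 1))
    (h0 : F 0 = 0) (h1 : deriv F 0 = 1) {z : ℂ} (hz : z ∈ ball (0 : ℂ) 1) :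
    deriv F z = (Rfun F z)⁻¹ - z * (deriv (Rfun F) z / (Rfun F z) ^ 2) := by
  have hR : HasDerivAt (Rfun F) (deriv (Rfun F) z) z :=
    ((Rfun_diff hF hinj h0 h1).differentiableAt (isOpen_ball.mem_nhds hz)).hasDerivAt
  have hne := Rfun_ne hinj h0 h1 hz
  have h2 : HasDerivAt (fun z => z * (Rfun F z)⁻¹)
      (1 * (Rfun F z)⁻¹ + z * (-(deriv (Rfun F) z) / (Rfun F z) ^ 2)) z :=
    (hasDerivAt_id z).mul (hR.fun_inv hne)
  have h3 : (fun z => z * (Rfun F z)⁻¹) = F := by
    ext w; exact (F_eq_div h0 w).symm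
  rw [h3] at h2
  rw [h2.deriv]
  ring

/-- The key inequality on each circle. -/
lemma circle_ineq (hF : DifferentiableOn ℂ F (ball 0 1)) (hinj : InjOn F (ball 0 1))
    (h0 : F 0 = 0) (h1 : deriv F 0 = 1) {s : ℝ} (hs0 : 0 < s) (hs1 : s < 1) :
    0 ≤ (∫ θ in (-π)..π, (Rfun F (circleMap 0 s θ) -
      circleMap 0 s θ * deriv (Rfun F) (circleMap 0 s θ)) *
        conj (Rfun F (circleMap 0 s θ))).re := by
  have hRd := Rfun_diff hF hinj h0 h1
  have hRc : ContinuousOn (Rfun F) (ball 0 1) := hRd.continuousOn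
  have hR'c : ContinuousOn (deriv (Rfun F)) (ball 0 1) := (hRd.deriv isOpen_ball).continuousOn
  have hmem := fun θ : ℝ => circleMap_mem_unit hs0.le hs1 θ
  have hpi : (-π) ≤ π := by linarith only [Real.pi_pos]
  set z : ℝ → ℂ := fun θ => circleMap 0 s θ with hz
  have hzc : Continuous z := continuous_circleMap 0 s
  have hRz : Continuous (fun θ => Rfun F (z θ)) := hRc.comp_continuous hzc hmem
  have hR'z : Continuous (fun θ => deriv (Rfun F) (z θ)) := hR'c.comp_continuous hzc hmem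
  have hne : ∀ θ, Rfun F (z θ) ≠ 0 := fun θ => Rfun_ne hinj h0 h1 (hmem θ)
  -- J = 1 - z R' / R
  set J : ℂ → ℂ := fun w => 1 - w * (deriv (Rfun F) w / Rfun F w) with hJ
  have hJd : DifferentiableOn ℂ J (ball 0 1) := by
    apply DifferentiableOn.sub (differentiableOn_const _)
    exact differentiableOn_id.mul ((hRd.deriv isOpen_ball).div hRd
      (fun w hw => Rfun_ne hinj h0 h1 hw))
  have hJint : ∫ θ in (-π)..π, J (z θ) = 2 * π := by
    rw [mean_value hJd hs0.le hs1]
    simp [hJ]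
  have hJc : Continuous (fun θ => J (z θ)) := hJd.continuousOn.comp_continuous hzc hmem
  have nz : ∀ θ, ‖z θ‖ = s := fun θ => by rw [hz]; simp only; rw [norm_circleMap_zero, abs_of_pos hs0]
  -- identity for the integrand
  have key : ∀ d : ℝ, 0 < d → ∀ θ, Hd F d (z θ) = J (z θ) *
      ((1 - d ^ 2 * (‖Rfun F (z θ)‖ ^ 2 / s ^ 2) + d ^ 4 * ((‖Rfun F (z θ)‖ ^ 2 / s ^ 2) ^ 2 /
        (1 + d ^ 2 * (‖Rfun F (z θ)‖ ^ 2 / s ^ 2))) : ℝ) : ℂ) := by
    intro d hd θ
    have e1 : deriv F (z θ) = (Rfun F (z θ))⁻¹ -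
        z θ * (deriv (Rfun F) (z θ) / (Rfun F (z θ)) ^ 2) := deriv_F_eq hF hinj h0 h1 (hmem θ)
    have hR0 := hne θ
    have hz0 : z θ ≠ 0 := by
      intro h
      have := nz θ
      rw [h, norm_zero] at this
      exact hs0.ne this
    have hF0 : F (z θ) ≠ 0 := by
      rw [F_eq_div h0]
      exact mul_ne_zero hz0 (inv_ne_zero hR0)
    have eJ : z θ * deriv F (z θ) = J (z θ) * F (z θ) := by
      rw [F_eq_div h0 (z θ), hJ]
      simp only
      rw [e1]
      (clear * - hR0 hz0; field_simp)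
    unfold Hd
    rw [eJ, denom_eq, mul_assoc (J (z θ)), mul_conj, normSq_eq_norm_sq, mul_assoc]
    congr 1
    have hn : ‖F (z θ)‖ ^ 2 = s ^ 2 / ‖Rfun F (z θ)‖ ^ 2 := by
      rw [F_eq_div h0 (z θ), norm_mul, norm_inv, nz θ]
      (clear * - hR0 hs0; field_simp)
    have hRn : 0 < ‖Rfun F (z θ)‖ := norm_pos_iff.mpr hR0
    rw [hn, ← ofReal_inv, ← ofReal_mul]
    congr 1
    have hs2 : s ≠ 0 := hs0.ne'
    have hpos : 0 < s ^ 2 + d ^ 2 * ‖Rfun F (z θ)‖ ^ 2 := by (clear * - hs0 hd hR0; positivity)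
    field_simp
    ring
  -- abbreviations
  set q : ℝ → ℝ := fun θ => ‖Rfun F (z θ)‖ ^ 2 / s ^ 2 with hq
  have hqc : Continuous q := by
    have := hRz.norm
    simp only [hq]
    fun_prop
  have hq0 : ∀ θ, 0 ≤ q θ := fun θ => by simp only [hq]; (clear * - hs0; positivity)
  set A : ℂ := ∫ θ in (-π)..π, J (z θ) * (q θ : ℂ) with hA
  set E : ℝ → ℂ := fun d => ∫ θ in (-π)..π, J (z θ) * ((q θ ^ 2 / (1 + d ^ 2 * q θ) : ℝ) : ℂ) with hE
  have hdenc : ∀ d : ℝ, Continuous (fun θ => q θ ^ 2 / (1 + d ^ 2 * q θ)) := by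
    intro d
    apply Continuous.div (by fun_prop) (by fun_prop)
    intro θ
    have := hq0 θ
    (clear * - hs0; positivity)
  have hint : ∀ d : ℝ, 0 < d → ∫ θ in (-π)..π, Hd F d (z θ) =
      2 * π - (d : ℂ) ^ 2 * A + (d : ℂ) ^ 4 * E d := by
    intro d hd
    have e : ∀ θ, Hd F d (z θ) = (J (z θ) - (d : ℂ) ^ 2 * (J (z θ) * (q θ : ℂ))) +
        (d : ℂ) ^ 4 * (J (z θ) * ((q θ ^ 2 / (1 + d ^ 2 * q θ) : ℝ) : ℂ)) := by
      intro θ
      rw [key d hd θ]
      show J (z θ) * ((1 - d ^ 2 * q θ + d ^ 4 * (q θ ^ 2 / (1 + d ^ 2 * q θ)) : ℝ) : ℂ) = _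
      push_cast
      ring
    simp only [e]
    have c1 : Continuous (fun θ => (d : ℂ) ^ 2 * (J (z θ) * (q θ : ℂ))) :=
      continuous_const.mul (hJc.mul (continuous_ofReal.comp hqc))
    have c0 : Continuous (fun θ => J (z θ) - (d : ℂ) ^ 2 * (J (z θ) * (q θ : ℂ))) := hJc.sub c1
    have c2 : Continuous (fun θ => (d : ℂ) ^ 4 *
        (J (z θ) * ((q θ ^ 2 / (1 + d ^ 2 * q θ) : ℝ) : ℂ))) :=
      continuous_const.mul (hJc.mul (continuous_ofReal.comp (hdenc d)))
    rw [intervalIntegral.integral_add (c0.intervalIntegrable _ _)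
      (c2.intervalIntegrable _ _), intervalIntegral.integral_sub (hJc.intervalIntegrable _ _)
      (c1.intervalIntegrable _ _), intervalIntegral.integral_const_mul,
      intervalIntegral.integral_const_mul, hJint]
  -- bound on E
  obtain ⟨C, hC⟩ := (isCompact_Icc (a := -π) (b := π)).exists_bound_of_continuousOn
    (hJc.mul (continuous_ofReal.comp (hqc.pow 2))).continuousOn
  have hEb : ∀ d : ℝ, ‖E d‖ ≤ C * |π - (-π)| := by
    intro d
    apply intervalIntegral.norm_integral_le_of_norm_le_const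
    intro θ hθ
    rw [uIoc_of_le hpi] at hθ
    refine le_trans ?_ (hC θ (Ioc_subset_Icc_self hθ))
    simp only [Function.comp_apply, Pi.mul_apply, Pi.pow_apply, norm_mul, Complex.norm_real]
    have hqq := hq0 θ
    gcongr
    rw [Real.norm_eq_abs, Real.norm_eq_abs, abs_of_nonneg (by (clear * - hs0; positivity)),
      abs_of_nonneg (by (clear * -; positivity))]
    apply div_le_self (by (clear * -; positivity))
    nlinarith only [hqq]
  -- A.re ≥ - d^2 * C'
  have hAd : ∀ d : ℝ, 0 < d → -(d ^ 2 * (C * |π - (-π)|)) ≤ A.re := by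
    intro d hd
    have h2 := green_ineq hF hinj hd hs0 hs1
    rw [show (fun θ => Hd F d (circleMap 0 s θ)) = fun θ => Hd F d (z θ) from rfl] at h2
    rw [hint d hd] at h2
    have e2 : (2 * π - (d : ℂ) ^ 2 * A + (d : ℂ) ^ 4 * E d).re =
        2 * π - d ^ 2 * A.re + d ^ 4 * (E d).re := by
      rw [← ofReal_pow, ← ofReal_pow, add_re, sub_re, re_ofReal_mul, re_ofReal_mul]
      simp
    rw [e2] at h2
    have h3 : d ^ 2 * (d ^ 2 * (E d).re) ≤ d ^ 2 * A.re := by nlinarith only [h2]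
    have h4 : d ^ 2 * (E d).re ≤ A.re := le_of_mul_le_mul_left h3 (by (clear * - hd; positivity))
    have h5 : -(C * |π - (-π)|) ≤ (E d).re := by
      have := (abs_le.mp (Complex.abs_re_le_norm (E d))).1
      linarith only [this, hEb d]
    nlinarith only [h4, h5]
  have hA0 : 0 ≤ A.re := by
    have hlim : Tendsto (fun d : ℝ => -(d ^ 2 * (C * |π - (-π)|))) (𝓝[>] 0)
        (𝓝 (-((0 : ℝ) ^ 2 * (C * |π - (-π)|)))) := by
      have : Continuous (fun d : ℝ => -(d ^ 2 * (C * |π - (-π)|))) := by fun_prop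
      exact (this.tendsto 0).mono_left nhdsWithin_le_nhds
    simp only [ne_eq, OfNat.ofNat_ne_zero, not_false_eq_true, zero_pow, zero_mul, neg_zero] at hlim
    refine le_of_tendsto hlim ?_
    filter_upwards [self_mem_nhdsWithin] with d hd
    exact hAd d hd
  have efin : (∫ θ in (-π)..π, (Rfun F (z θ) - z θ * deriv (Rfun F) (z θ)) *
        conj (Rfun F (z θ))) = (s : ℂ) ^ 2 * A := by
    rw [hA, ← intervalIntegral.integral_const_mul]
    congr 1
    ext θ
    have hR0 := hne θ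
    have hsn : (s : ℂ) ≠ 0 := by exact_mod_cast hs0.ne'
    have e3 : ((q θ : ℝ) : ℂ) = Rfun F (z θ) * conj (Rfun F (z θ)) / (s : ℂ) ^ 2 := by
      rw [mul_conj, normSq_eq_norm_sq, hq]
      push_cast
      ring
    rw [e3]
    simp only [hJ]
    (clear * - hR0 hsn; field_simp)
  rw [efin, ← ofReal_pow, re_ofReal_mul]
  (clear * - hs0 hA0; positivity)

/-- Gronwall's area theorem. -/
theorem area_theorem (hF : DifferentiableOn ℂ F (ball 0 1)) (hinj : InjOn F (ball 0 1))
    (h0 : F 0 = 0) (h1 : deriv F 0 = 1) (m : ℕ) :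
    ∑ k ∈ Finset.range m, ((k : ℝ) + 1) * ‖tc (Rfun F) (k + 2)‖ ^ 2 ≤ 1 := by
  have hRd := Rfun_diff hF hinj h0 h1
  set r : ℕ → ℂ := tc (Rfun F) with hr
  have hr0 : r 0 = 1 := by
    simp only [hr, tc, Nat.factorial_zero, Nat.cast_one, inv_one, iteratedDeriv_zero, Rfun, dslope_same, h1, mul_one]
  -- for each s
  have hstep : ∀ s : ℝ, 0 < s → s < 1 →
      ∑ k ∈ Finset.range m, ((k : ℝ) + 1) * ‖r (k + 2)‖ ^ 2 * s ^ (2 * (k + 2)) ≤ 1 := by
    intro s hs0 hs1
    have hpos := circle_ineq hF hinj h0 h1 hs0 hs1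
    have hU : ∀ w ∈ ball (0 : ℂ) 1, HasSum (fun n : ℕ => ((1 - (n : ℂ)) * r n) * w ^ n)
        (Rfun F w - w * deriv (Rfun F) w) := by
      intro w hw
      refine hasSum_of_eq (fun n => ?_) ((hasSum_tc hRd hw).sub (hasSum_tc_mul_deriv hRd hw))
      rw [hr]; ring
    have hUc : ContinuousOn (fun w => Rfun F w - w * deriv (Rfun F) w) (ball 0 1) :=
      hRd.continuousOn.sub (continuousOn_id.mul (hRd.deriv isOpen_ball).continuousOn)
    have hP := parseval hs0.le hs1 hUc hU (fun w hw => hasSum_tc hRd hw)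
    have hS : HasSum (fun n : ℕ => 2 * π * ((1 - (n : ℝ)) * ‖r n‖ ^ 2 * s ^ (2 * n)))
        (∫ θ in (-π)..π, (Rfun F (circleMap 0 s θ) -
      circleMap 0 s θ * deriv (Rfun F) (circleMap 0 s θ)) *
        conj (Rfun F (circleMap 0 s θ))).re := by
      have h := Complex.hasSum_re hP
      have e : ∀ n : ℕ, (2 * π * ((1 - (n : ℂ)) * r n * conj (r n) *
          (s : ℂ) ^ (2 * n))).re = 2 * π * ((1 - (n : ℝ)) * ‖r n‖ ^ 2 * s ^ (2 * n)) := by
        intro n
        have : 2 * π * ((1 - (n : ℂ)) * r n * conj (r n) * (s : ℂ) ^ (2 * n)) =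
            ((2 * π * ((1 - (n : ℝ)) * ‖r n‖ ^ 2 * s ^ (2 * n)) : ℝ) : ℂ) := by
          rw [mul_assoc (1 - (n : ℂ)), mul_conj, normSq_eq_norm_sq]
          push_cast
          ring
        rw [this, ofReal_re]
      rw [← funext e]
      exact h
    -- partial sums dominate the total
    have hpart : 0 ≤ ∑ n ∈ Finset.range (m + 2),
        2 * π * ((1 - (n : ℝ)) * ‖r n‖ ^ 2 * s ^ (2 * n)) := by
      refine le_trans hpos ?_
      have h := sum_le_hasSum (Finset.range (m + 2)) (fun n hn => ?_) hS.neg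
      · simp only [Finset.sum_neg_distrib] at h
        linarith only [h]
      · have hn2 : m + 2 ≤ n := by simpa only [Finset.mem_range, not_lt] using hn
        have h3 : (1 : ℝ) - n ≤ 0 := by
          have : ((m + 2 : ℕ) : ℝ) ≤ n := by exact_mod_cast hn2
          push_cast at this
          have hm : (0 : ℝ) ≤ m := Nat.cast_nonneg m
          linarith only [this]
        have h4 : 0 ≤ (n - 1 : ℝ) * ‖r n‖ ^ 2 * s ^ (2 * n) := by
          have : (0 : ℝ) ≤ n - 1 := by linarith only [h3]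
          (clear * - this hs0; positivity)
        have h5 : 0 ≤ 2 * π * ((n - 1 : ℝ) * ‖r n‖ ^ 2 * s ^ (2 * n)) :=
          mul_nonneg (by positivity) h4
        linarith only [h5]
    rw [← Finset.mul_sum] at hpart
    have hpart2 : 0 ≤ ∑ n ∈ Finset.range (m + 2), ((1 - (n : ℝ)) * ‖r n‖ ^ 2 * s ^ (2 * n)) :=
      nonneg_of_mul_nonneg_right hpart (by positivity)
    rw [Finset.sum_range_succ', Finset.sum_range_succ', hr0] at hpart2
    have e3 : ∑ k ∈ Finset.range m, (1 - ((k + 1 + 1 : ℕ) : ℝ)) * ‖r (k + 1 + 1)‖ ^ 2 *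
        s ^ (2 * (k + 1 + 1)) = - ∑ k ∈ Finset.range m, ((k : ℝ) + 1) * ‖r (k + 2)‖ ^ 2 *
          s ^ (2 * (k + 2)) := by
      rw [← Finset.sum_neg_distrib]
      apply Finset.sum_congr rfl
      intro k _
      push_cast
      ring
    rw [e3] at hpart2
    simp only [zero_add, Nat.cast_one, sub_self, zero_mul, mul_one, add_zero, CharP.cast_eq_zero, sub_zero, norm_one, one_pow, mul_zero, pow_zero, le_neg_add_iff_add_le] at hpart2
    linarith only [hpart2]
  have hlim : Tendsto (fun s : ℝ => ∑ k ∈ Finset.range m, ((k : ℝ) + 1) * ‖r (k + 2)‖ ^ 2 *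
      s ^ (2 * (k + 2))) (𝓝[<] 1) (𝓝 (∑ k ∈ Finset.range m, ((k : ℝ) + 1) * ‖r (k + 2)‖ ^ 2 *
      1 ^ (2 * (k + 2)))) := by
    have : Continuous (fun s : ℝ => ∑ k ∈ Finset.range m, ((k : ℝ) + 1) * ‖r (k + 2)‖ ^ 2 *
      s ^ (2 * (k + 2))) := by (clear * -; fun_prop)
    exact (this.tendsto 1).mono_left nhdsWithin_le_nhds
  simp only [one_pow, mul_one] at hlim
  refine le_of_tendsto hlim ?_
  filter_upwards [Ioo_mem_nhdsLT (show (0 : ℝ) < 1 by norm_num)] with s hs
  exact hstep s hs.1 hs.2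

end

end Vale.Agent.P142
end

section

open Complex Metric Set Filter Topology
open scoped Real ComplexConjugate Nat

namespace Vale.Agent.P142

noncomputable section

variable {f : ℂ → ℂ} {z : ℂ}

/-! ### The function `G` and its Taylor coefficients -/

end

end Vale.Agent.P142
end

section

open Complex Metric Set Filter Topology
open scoped Real ComplexConjugate Nat

namespace Vale.Agent.P142

noncomputable section

variable {F f : ℂ → ℂ} {z : ℂ}

/-- Tail bound for `R = ζ / F` on the circle of radius `3/5`. -/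
lemma Rfun_tail (hF : DifferentiableOn ℂ F (ball 0 1)) (hinj : InjOn F (ball 0 1))
    (h0 : F 0 = 0) (h1 : deriv F 0 = 1) {ζ : ℂ} (hζ : ‖ζ‖ = 3 / 5) :
    ‖Rfun F ζ - tc (Rfun F) 1 * ζ‖ ≤ 29 / 20 := by
  have hR := Rfun_diff hF hinj h0 h1
  have hζb : ζ ∈ ball (0 : ℂ) 1 := by rw [mem_ball_zero_iff, hζ]; norm_num
  have hs := hasSum_tc hR hζb
  have ht0 : tc (Rfun F) 0 = 1 := by simp [tc, Rfun, h1]
  set t := tc (Rfun F) with ht
  have hs2 : HasSum (fun n => t (n + 2) * ζ ^ (n + 2)) (Rfun F ζ - (1 + t 1 * ζ)) := by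
    have := (hasSum_nat_add_iff' 2).mpr hs
    refine hasSum_of_eq (fun n => rfl) ?_
    rw [Finset.sum_range_succ, Finset.sum_range_one, ht0] at this
    simpa only [pow_zero, mul_one, pow_one] using this
  have hb : ‖Rfun F ζ - (1 + t 1 * ζ)‖ ≤ 9 / 20 := by
    have hl := hs2.tendsto_sum_nat
    refine le_of_tendsto (hl.norm) (Eventually.of_forall fun N => ?_)
    have hA := area_theorem hF hinj h0 h1 N
    have hg : ∑ n ∈ Finset.range N, ((3 / 5 : ℝ) ^ (n + 2)) ^ 2 ≤ (9 / 20) ^ 2 := by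
      have e : ∀ n : ℕ, ((3 / 5 : ℝ) ^ (n + 2)) ^ 2 = (81 / 625) * (9 / 25) ^ n := by
        intro n
        rw [← pow_mul, add_mul, pow_add, mul_comm n 2, pow_mul]
        norm_num
        ring
      simp only [e]
      rw [← Finset.mul_sum]
      have h2 : ∑ n ∈ Finset.range N, (9 / 25 : ℝ) ^ n ≤ (1 - 9 / 25)⁻¹ := by
        have hsum := hasSum_geometric_of_lt_one (r := (9 / 25 : ℝ)) (by norm_num) (by norm_num)
        exact sum_le_hasSum _ (fun i _ => by positivity) hsum
      calc (81 / 625 : ℝ) * ∑ n ∈ Finset.range N, (9 / 25 : ℝ) ^ n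
          ≤ (81 / 625) * (1 - 9 / 25)⁻¹ := by (clear * - h2; gcongr)
        _ ≤ (9 / 20) ^ 2 := by norm_num
    calc ‖∑ n ∈ Finset.range N, t (n + 2) * ζ ^ (n + 2)‖
        ≤ ∑ n ∈ Finset.range N, ‖t (n + 2)‖ * (3 / 5 : ℝ) ^ (n + 2) := by
          refine le_trans (norm_sum_le _ _) (le_of_eq ?_)
          apply Finset.sum_congr rfl
          intro n _
          rw [norm_mul, norm_pow, hζ]
      _ ≤ 9 / 20 := by
          have hcs := Finset.sum_mul_sq_le_sq_mul_sq (Finset.range N) (fun n => ‖t (n + 2)‖)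
            (fun n => (3 / 5 : ℝ) ^ (n + 2))
          have h3 : ∑ n ∈ Finset.range N, ‖t (n + 2)‖ ^ 2 ≤ 1 := by
            refine le_trans (Finset.sum_le_sum ?_) hA
            intro n _
            have hn : (0 : ℝ) ≤ n := Nat.cast_nonneg n
            nlinarith only []
          have h4 : (∑ n ∈ Finset.range N, ‖t (n + 2)‖ * (3 / 5 : ℝ) ^ (n + 2)) ^ 2 ≤
              (9 / 20) ^ 2 := by
            refine le_trans hcs ?_
            have h5 : (0 : ℝ) ≤ ∑ n ∈ Finset.range N, ((3 / 5 : ℝ) ^ (n + 2)) ^ 2 :=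
              Finset.sum_nonneg (fun i _ => by positivity)
            nlinarith only [hg, h3, h5]
          exact le_of_sq_le_sq₀ h4
  have e : Rfun F ζ - t 1 * ζ = (Rfun F ζ - (1 + t 1 * ζ)) + 1 := by ring
  rw [e]
  refine le_trans (norm_add_le _ _) ?_
  rw [norm_one]
  linarith only [hb]
where
  le_of_sq_le_sq₀ {a : ℝ} (h : a ^ 2 ≤ (9 / 20) ^ 2) : a ≤ 9 / 20 := by nlinarith

/-- A cheap bound for the second coefficient. -/
lemma norm_tc_one_le (hF : DifferentiableOn ℂ F (ball 0 1)) (hinj : InjOn F (ball 0 1))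
    (h0 : F 0 = 0) (h1 : deriv F 0 = 1) : ‖tc (Rfun F) 1‖ ≤ 29 / 6 := by
  by_contra hcon
  push Not at hcon
  set b := tc (Rfun F) 1 with hb
  set d : ℝ := 3 / 5 * ‖b‖ - 29 / 20 with hd
  have hd1 : 29 / 20 < d := by rw [hd]; linarith only [hcon]
  have hdiff : DifferentiableOn ℂ (fun ζ => 1 - b * F ζ) (ball 0 1) :=
    (differentiableOn_const _).sub (hF.const_mul b)
  have hcl : closedBall (0 : ℂ) (3 / 5) ⊆ ball 0 1 := by
    apply closedBall_subset_ball; norm_num
  have hdc : DiffContOnCl ℂ (fun ζ => 1 - b * F ζ) (ball 0 (3 / 5)) := by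
    apply DifferentiableOn.diffContOnCl
    rw [closure_ball _ (by norm_num)]
    exact hdiff.mono hcl
  have hbd : ∀ ζ ∈ frontier (ball (0 : ℂ) (3 / 5)), ‖1 - b * F ζ‖ ≤ (29 / 20) / d := by
    intro ζ hζ
    rw [frontier_ball _ (by norm_num), mem_sphere_zero_iff_norm] at hζ
    have hζb : ζ ∈ ball (0 : ℂ) 1 := by rw [mem_ball_zero_iff, hζ]; norm_num
    have ht := Rfun_tail hF hinj h0 h1 hζ
    rw [← hb] at ht
    have hR0 := Rfun_ne hinj h0 h1 hζb
    have hRd : d ≤ ‖Rfun F ζ‖ := by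
      have h2 : ‖b * ζ‖ ≤ ‖Rfun F ζ‖ + ‖Rfun F ζ - b * ζ‖ := by
        have : b * ζ = Rfun F ζ - (Rfun F ζ - b * ζ) := by ring
        calc ‖b * ζ‖ = ‖Rfun F ζ - (Rfun F ζ - b * ζ)‖ := by rw [← this]
          _ ≤ _ := norm_sub_le _ _
      rw [norm_mul, hζ] at h2
      rw [hd]
      linarith only [ht, h2]
    have e : 1 - b * F ζ = (Rfun F ζ - b * ζ) / Rfun F ζ := by
      rw [F_eq_div h0 ζ]
      (clear * - hR0; field_simp)
    rw [e, norm_div]
    have hdpos : 0 < d := by linarith only [hcon, hd]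
    (clear * - ht hd1 hRd; gcongr)
  have hmax := Complex.norm_le_of_forall_mem_frontier_norm_le isBounded_ball hdc hbd
    (subset_closure (mem_ball_self (x := (0 : ℂ)) (by norm_num)))
  rw [h0, mul_zero, sub_zero, norm_one, le_div_iff₀ (by linarith)] at hmax
  linarith only [hcon, hd, hmax]

end

end Vale.Agent.P142
end

section

namespace Vale.Agent.P164

open Set Metric Filter Topology MeasureTheory
open scoped NNReal

/-- A cheap Koebe theorem: an omitted value of a normalised univalent function is at distance at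
least `1/10` of the origin. -/
theorem koebe_omitted {F : ℂ → ℂ} (hF : DifferentiableOn ℂ F (ball 0 1))
    (hinj : InjOn F (ball 0 1)) (h0 : F 0 = 0) (h1 : deriv F 0 = 1) {a : ℂ}
    (ha : ∀ ζ ∈ ball (0 : ℂ) 1, F ζ ≠ a) : 1 / 10 ≤ ‖a‖ := by
  have hm0 : (0 : ℂ) ∈ ball (0 : ℂ) 1 := mem_ball_self one_pos
  have ha0 : a ≠ 0 := fun h => ha 0 hm0 (by rw [h0, h])
  set G : ℂ → ℂ := fun ζ => a * F ζ / (a - F ζ) with hG
  have hden : ∀ ζ ∈ ball (0 : ℂ) 1, a - F ζ ≠ 0 := fun ζ hζ => sub_ne_zero.2 (ha ζ hζ).symm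
  have hGd : DifferentiableOn ℂ G (ball 0 1) :=
    (hF.const_mul a).div ((differentiableOn_const a).sub hF) hden
  have hGi : InjOn G (ball 0 1) := by
    intro x hx y hy hxy
    apply hinj hx hy
    have e := hxy
    simp only [hG] at e
    rw [div_eq_div_iff (hden x hx) (hden y hy)] at e
    have : a * a * (F x - F y) = 0 := by linear_combination e
    rcases mul_eq_zero.1 this with h | h
    · exact absurd (mul_self_eq_zero.1 h) ha0
    · exact sub_eq_zero.1 h
  have hG0 : G 0 = 0 := by simp only [hG, h0, mul_zero, sub_zero, zero_div]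
  have hFat : DifferentiableAt ℂ F 0 := (hF 0 hm0).differentiableAt (isOpen_ball.mem_nhds hm0)
  have hFd : HasDerivAt F 1 0 := h1 ▸ hFat.hasDerivAt
  have hG1 : deriv G 0 = 1 := by
    have h2 : HasDerivAt G ((a * 1 * (a - F 0) - a * F 0 * -1) / (a - F 0) ^ 2) 0 :=
      (hFd.const_mul a).div (hFd.const_sub a) (hden 0 hm0)
    rw [h2.deriv, h0]
    field_simp
    ring
  have hb1 := P142.norm_tc_one_le hF hinj h0 h1
  have hb2 := P142.norm_tc_one_le hGd hGi hG0 hG1
  have htc : ∀ V : ℂ → ℂ, P142.tc V 1 = deriv V 0 := fun V => by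
    simp only [P142.tc, Nat.factorial_one, Nat.cast_one, inv_one, iteratedDeriv_one, one_mul]
  have hRel : P142.Rfun G =ᶠ[𝓝 0] fun ζ => P142.Rfun F ζ - ζ / a := by
    have hmem : ball (0 : ℂ) 1 ∈ 𝓝 (0 : ℂ) := isOpen_ball.mem_nhds hm0
    filter_upwards [hmem] with ζ hζ
    rcases eq_or_ne ζ 0 with rfl | hne
    · simp only [P142.Rfun, dslope_same, hG1, inv_one, h1, zero_div, sub_zero]
    · have hFne : F ζ ≠ 0 := fun h => hne (hinj hζ hm0 (by rw [h, h0]))
      simp only [P142.Rfun]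
      rw [dslope_of_ne _ hne, dslope_of_ne _ hne, slope_def_field, slope_def_field, hG0, h0]
      simp only [hG, sub_zero]
      have := hden ζ hζ
      field_simp
  have hRFd : DifferentiableAt ℂ (P142.Rfun F) 0 :=
    (P142.Rfun_diff hF hinj h0 h1 0 hm0).differentiableAt (isOpen_ball.mem_nhds hm0)
  have hd : deriv (P142.Rfun G) 0 = deriv (P142.Rfun F) 0 - 1 / a := by
    rw [hRel.deriv_eq]
    have h3 : HasDerivAt (fun ζ : ℂ => P142.Rfun F ζ - ζ / a) (deriv (P142.Rfun F) 0 - 1 / a) 0 :=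
      hRFd.hasDerivAt.sub ((hasDerivAt_id (0 : ℂ)).div_const a)
    exact h3.deriv
  rw [htc] at hb1 hb2
  have h4 : ‖1 / a‖ ≤ 29 / 3 := by
    have e : 1 / a = deriv (P142.Rfun F) 0 - deriv (P142.Rfun G) 0 := by rw [hd]; ring
    rw [e]
    refine (norm_sub_le _ _).trans ?_
    linarith only [hb1, hb2]
  rw [norm_div, norm_one] at h4
  have hapos : 0 < ‖a‖ := norm_pos_iff.2 ha0
  rw [div_le_iff₀ hapos] at h4
  linarith only [h4, hapos]

/-- The inverse of the (centred) Loewner map. -/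
noncomputable def invflow (W : ℝ → ℝ) (t : ℝ) (w : ℂ) : ℂ :=
  Function.invFunOn (flow W t) (loewnerDomain W t) w

lemma exists_flow_eq {W : ℝ → ℝ} {t : ℝ} (ht : 0 ≤ t) (hW : ContinuousOn W (Icc 0 t)) {w : ℂ}
    (hw : 0 < w.im) : ∃ z ∈ loewnerDomain W t, flow W t z = w := by
  have hw' : 0 < (w + (W t : ℂ)).im := by simpa only [Complex.add_im, Complex.ofReal_im, add_zero] using hw
  obtain ⟨z, g, hg, hgt⟩ := exists_preimage ht hW hw'
  exact ⟨z, ⟨g, hg⟩, by rw [flow_eq ht hg, hgt]; ring⟩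

lemma invflow_mem {W : ℝ → ℝ} {t : ℝ} (ht : 0 ≤ t) (hW : ContinuousOn W (Icc 0 t)) {w : ℂ}
    (hw : 0 < w.im) : invflow W t w ∈ loewnerDomain W t :=
  Function.invFunOn_mem (exists_flow_eq ht hW hw)

lemma flow_invflow {W : ℝ → ℝ} {t : ℝ} (ht : 0 ≤ t) (hW : ContinuousOn W (Icc 0 t)) {w : ℂ}
    (hw : 0 < w.im) : flow W t (invflow W t w) = w :=
  Function.invFunOn_eq (exists_flow_eq ht hW hw)

lemma invflow_flow {W : ℝ → ℝ} {t : ℝ} (ht : 0 ≤ t) (hW : ContinuousOn W (Icc 0 t)) {z : ℂ}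
    (hz : z ∈ loewnerDomain W t) : invflow W t (flow W t z) = z := by
  have him := flow_im_pos hz ⟨ht, le_rfl⟩
  exact flow_injOn ht hW (invflow_mem ht hW him) hz (flow_invflow ht hW him)

lemma dflow_ne_zero (W : ℝ → ℝ) (t : ℝ) (z : ℂ) : dflow W t z ≠ 0 := Complex.exp_ne_zero _

lemma hasDerivAt_invflow {W : ℝ → ℝ} {t : ℝ} (ht : 0 ≤ t) (hW : ContinuousOn W (Icc 0 t)) {w : ℂ}
    (hw : 0 < w.im) : HasDerivAt (invflow W t) (dflow W t (invflow W t w))⁻¹ w := by
  set z := invflow W t w with hz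
  have hzm : z ∈ loewnerDomain W t := invflow_mem ht hW hw
  have hopen := isOpen_domain ht hW
  have hdiff : DifferentiableOn ℂ (flow W t) (loewnerDomain W t) := fun x hx =>
    (hasDerivAt_flow ht hW hx).differentiableAt.differentiableWithinAt
  have han : AnalyticAt ℂ (flow W t) z := hdiff.analyticAt (hopen.mem_nhds hzm)
  have hs : HasStrictDerivAt (flow W t) (dflow W t z) z := by
    have h1 := han.hasStrictDerivAt
    rwa [(hasDerivAt_flow ht hW hzm).deriv] at h1
  have hl : ∀ᶠ x in 𝓝 z, invflow W t (flow W t x) = x := by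
    filter_upwards [hopen.mem_nhds hzm] with x hx using invflow_flow ht hW hx
  have h2 := hs.to_local_left_inverse (dflow_ne_zero W t z) hl
  rw [flow_invflow ht hW hw] at h2
  exact h2.hasDerivAt

/-- Koebe: the disc of radius `exp U / 10` around an alive point is alive. -/
theorem ball_subset_domain {W : ℝ → ℝ} {t : ℝ} (ht : 0 ≤ t) (hW : ContinuousOn W (Icc 0 t))
    {z : ℂ} (hz : z ∈ loewnerDomain W t) :
    ball z (Real.exp (logUps W t z) / 10) ⊆ loewnerDomain W t := by
  intro z₁ hz₁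
  by_contra hnot
  set w := flow W t z with hw
  have hY : 0 < w.im := flow_im_pos hz ⟨ht, le_rfl⟩
  set Y : ℝ := w.im with hYdef
  have hYc : (Y : ℂ) ≠ 0 := by exact_mod_cast hY.ne'
  set D := dflow W t z with hD
  have hD0 : D ≠ 0 := dflow_ne_zero W t z
  have hpos : ∀ ζ ∈ ball (0 : ℂ) 1, 0 < (w + Y * ζ).im := by
    intro ζ hζ
    rw [mem_ball_zero_iff] at hζ
    have h1 : |ζ.im| ≤ ‖ζ‖ := Complex.abs_im_le_norm ζ
    have h2 : -1 < ζ.im := by
      have := neg_abs_le ζ.im
      linarith only [hζ, h1, this]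
    rw [Complex.add_im, Complex.im_ofReal_mul, ← hYdef]
    nlinarith only [hY, h2]
  have hinv0 : invflow W t w = z := invflow_flow ht hW hz
  set F : ℂ → ℂ := fun ζ => (invflow W t (w + Y * ζ) - z) * (D / Y) with hF
  have hDY : D / Y ≠ 0 := div_ne_zero hD0 hYc
  have hder : ∀ ζ ∈ ball (0 : ℂ) 1, HasDerivAt F
      ((dflow W t (invflow W t (w + Y * ζ)))⁻¹ * Y * (D / Y)) ζ := by
    intro ζ hζ
    have h1 := hasDerivAt_invflow ht hW (hpos ζ hζ)
    have h2 : HasDerivAt (fun ζ : ℂ => w + Y * ζ) (Y : ℂ) ζ := by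
      simpa using ((hasDerivAt_id ζ).const_mul (Y : ℂ)).const_add w
    exact ((h1.comp ζ h2).sub_const z).mul_const (D / Y)
  have hFd : DifferentiableOn ℂ F (ball 0 1) := fun ζ hζ =>
    (hder ζ hζ).differentiableAt.differentiableWithinAt
  have hFi : InjOn F (ball 0 1) := by
    intro x hx y hy hxy
    have h1 : invflow W t (w + Y * x) = invflow W t (w + Y * y) := by
      have := mul_right_cancel₀ hDY hxy
      linear_combination this
    have h2 := congrArg (flow W t) h1
    rw [flow_invflow ht hW (hpos x hx), flow_invflow ht hW (hpos y hy)] at h2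
    exact mul_left_cancel₀ hYc (add_left_cancel h2)
  have hm0 : (0 : ℂ) ∈ ball (0 : ℂ) 1 := mem_ball_self one_pos
  have hF0 : F 0 = 0 := by simp only [hF, mul_zero, add_zero, hinv0, sub_self, zero_mul]
  have hF1 : deriv F 0 = 1 := by
    rw [(hder 0 hm0).deriv, mul_zero, add_zero, hinv0]
    field_simp
    exact div_self hD0
  have ha : ∀ ζ ∈ ball (0 : ℂ) 1, F ζ ≠ (z₁ - z) * (D / Y) := by
    intro ζ hζ h
    have h1 := mul_right_cancel₀ hDY h
    have h2 : invflow W t (w + Y * ζ) = z₁ := by linear_combination h1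
    exact hnot (h2 ▸ invflow_mem ht hW (hpos ζ hζ))
  have key := koebe_omitted hFd hFi hF0 hF1 ha
  rw [norm_mul, norm_div, Complex.norm_real, Real.norm_eq_abs, abs_of_pos hY, hD,
    norm_dflow ht hW hz, ← hw, ← hYdef, mul_div_assoc', mul_comm Y, ← mul_assoc,
    mul_div_assoc, div_self hY.ne', mul_one, Real.exp_neg] at key
  rw [mem_ball, dist_eq_norm] at hz₁
  have hE := Real.exp_pos (logUps W t z)
  have h3 : ‖z₁ - z‖ * (Real.exp (logUps W t z))⁻¹ < 1 / 10 := by
    rw [← div_eq_mul_inv, div_lt_iff₀ hE]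
    linarith only [hz₁]
  linarith only [key, h3]

/-- Schwarz: an alive disc around `z` has radius at most `2 exp U`. -/
theorem radius_le {W : ℝ → ℝ} {t : ℝ} (ht : 0 ≤ t) (hW : ContinuousOn W (Icc 0 t))
    {z : ℂ} {δ : ℝ} (hδ : 0 < δ) (h : ball z δ ⊆ loewnerDomain W t) :
    δ ≤ 2 * Real.exp (logUps W t z) := by
  have hz : z ∈ loewnerDomain W t := h (mem_ball_self hδ)
  set w := flow W t z with hw
  have hY : 0 < w.im := flow_im_pos hz ⟨ht, le_rfl⟩
  set φ : ℂ → ℂ := fun x => (x - w) / (x - (starRingEnd ℂ) w) with hφ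
  have hden : ∀ x : ℂ, 0 < x.im → x - (starRingEnd ℂ) w ≠ 0 := by
    intro x hx h0
    have := congrArg Complex.im h0
    simp only [Complex.sub_im, Complex.conj_im, Complex.zero_im] at this
    linarith only [hY, hx, this]
  have hφd : ∀ x : ℂ, 0 < x.im → HasDerivAt φ
      ((1 * (x - (starRingEnd ℂ) w) - (x - w) * 1) / (x - (starRingEnd ℂ) w) ^ 2) x :=
    fun x hx => ((hasDerivAt_id x).sub_const w).div ((hasDerivAt_id x).sub_const _) (hden x hx)
  have hφ1 : ∀ x : ℂ, 0 < x.im → ‖φ x‖ ≤ 1 := by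
    intro x hx
    rw [hφ]
    simp only
    rw [norm_div, div_le_one (norm_pos_iff.2 (hden x hx)), Complex.norm_def, Complex.norm_def]
    apply Real.sqrt_le_sqrt
    rw [Complex.normSq_apply, Complex.normSq_apply]
    simp only [Complex.sub_re, Complex.sub_im, Complex.conj_re, Complex.conj_im]
    nlinarith only [hY, hx]
  set ψ : ℂ → ℂ := fun x => φ (flow W t x) with hψ
  have hψd : ∀ x ∈ ball z δ, DifferentiableAt ℂ ψ x := fun x hx =>
    ((hφd _ (flow_im_pos (h hx) ⟨ht, le_rfl⟩)).comp x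
      (hasDerivAt_flow ht hW (h hx))).differentiableAt
  have hψ0 : ψ z = 0 := by simp only [hψ, hφ, ← hw, sub_self, zero_div]
  have hmaps : MapsTo ψ (ball z δ) (closedBall (ψ z) 1) := by
    intro x hx
    rw [hψ0, mem_closedBall_zero_iff]
    exact hφ1 _ (flow_im_pos (h hx) ⟨ht, le_rfl⟩)
  have key := Complex.norm_deriv_le_div_of_mapsTo_ball
    (fun x hx => (hψd x hx).differentiableWithinAt) hmaps hδ
  have hd : deriv ψ z = (w - (starRingEnd ℂ) w)⁻¹ * dflow W t z := by
    have h1 := ((hφd w hY).comp z (hasDerivAt_flow ht hW hz))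
    have h2 : deriv ψ z = _ := h1.deriv
    rw [h2]
    have := hden w hY
    field_simp
    ring
  have e2 : w - (starRingEnd ℂ) w = ((2 * w.im : ℝ) : ℂ) * Complex.I := by
    apply Complex.ext <;> simp
    ring
  rw [hd, e2, norm_mul, norm_inv, norm_mul, Complex.norm_I, mul_one, Complex.norm_real,
    Real.norm_eq_abs, abs_of_pos (by linarith only [hY]), norm_dflow ht hW hz, ← hw] at key
  have hE := Real.exp_pos (logUps W t z)
  have e3 : (2 * w.im)⁻¹ * (w.im * Real.exp (-logUps W t z)) =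
      (2 * Real.exp (logUps W t z))⁻¹ := by
    rw [Real.exp_neg]
    field_simp
  rw [e3, one_div] at key
  exact (inv_le_inv₀ (by positivity) hδ).1 key

end Vale.Agent.P164
end

section

namespace Vale.Agent.P164

open Set Metric Filter Topology MeasureTheory
open scoped NNReal ENNReal

lemma det_mul_real (d : ℂ) :
    ((ContinuousLinearMap.toSpanSingleton ℂ d).restrictScalars ℝ : ℂ →L[ℝ] ℂ).det = ‖d‖ ^ 2 := by
  have h1 : ((ContinuousLinearMap.toSpanSingleton ℂ d).restrictScalars ℝ : ℂ →L[ℝ] ℂ).det =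
      LinearMap.det (Algebra.lmul ℝ ℂ d) := by
    rw [ContinuousLinearMap.det]
    congr 1
    ext x
    simp [mul_comm]
  rw [h1, ← Algebra.norm_apply, Algebra.norm_complex_apply, Complex.sq_norm]

/-- Change of variables for the Loewner map at a fixed time. -/
theorem change_var {W : ℝ → ℝ} {t : ℝ} (ht : 0 ≤ t) (hW : ContinuousOn W (Icc 0 t))
    {D : Set ℂ} (hD : MeasurableSet D) (G : ℂ → ℝ≥0∞) :
    ∫⁻ z in D ∩ loewnerDomain W t,
      ENNReal.ofReal ((flow W t z).im ^ 2 * Real.exp (-2 * logUps W t z)) * G (flow W t z) ≤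
    ∫⁻ w in {w : ℂ | 0 < w.im}, G w := by
  have hmeas : MeasurableSet (D ∩ loewnerDomain W t) :=
    hD.inter (isOpen_domain ht hW).measurableSet
  have h1 := lintegral_image_eq_lintegral_abs_det_fderiv_mul volume hmeas
    (f := flow W t)
    (f' := fun z => ((ContinuousLinearMap.toSpanSingleton ℂ (dflow W t z)).restrictScalars ℝ :
      ℂ →L[ℝ] ℂ))
    (fun z hz => ((hasDerivAt_flow ht hW hz.2).hasFDerivAt.restrictScalars ℝ).hasFDerivWithinAt)
    ((flow_injOn ht hW).mono inter_subset_right) G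
  have h2 : ∫⁻ z in D ∩ loewnerDomain W t,
      ENNReal.ofReal ((flow W t z).im ^ 2 * Real.exp (-2 * logUps W t z)) * G (flow W t z) =
      ∫⁻ x in flow W t '' (D ∩ loewnerDomain W t), G x := by
    rw [h1]
    refine setLIntegral_congr_fun hmeas fun z hz => ?_
    rw [det_mul_real, norm_dflow ht hW hz.2, abs_of_nonneg (by (clear * -; positivity))]
    congr 2
    rw [mul_pow, ← Real.exp_nat_mul]
    congr 2
    push_cast
    ring
  rw [h2]
  refine lintegral_mono_set ?_
  rintro _ ⟨z, hz, rfl⟩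
  exact flow_im_pos hz.2 ⟨ht, le_rfl⟩

end Vale.Agent.P164
end

section

/-!
# The flow is a conformal bijection (bridge to `Vale.Agent.P164.Holo`, `Koebe`, `ChangeVar`)
-/

namespace Vale.Agent.P164

open Set Metric Filter Topology MeasureTheory
open scoped ENNReal

variable {W : ℝ → ℝ} {z z' : ℂ} {s t ρ : ℝ}

theorem Zf_injOn (hW : Continuous W) (ht : 0 ≤ t) :
    InjOn (fun z => Zf W z t) (loewnerDomain W t) :=
  flow_injOn ht hW.continuousOn

theorem Zf_surj (hW : Continuous W) (ht : 0 ≤ t) {w : ℂ} (hw : 0 < w.im) :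
    ∃ z ∈ loewnerDomain W t, Zf W z t = w :=
  exists_flow_eq ht hW.continuousOn hw

theorem Zf_hasDerivAt (hW : Continuous W) (ht : 0 ≤ t) (h : z ∈ loewnerDomain W t) :
    HasDerivAt (fun z => Zf W z t)
      (Complex.exp (-∫ s in (0 : ℝ)..t, 2 / (Zf W z s) ^ 2)) z :=
  hasDerivAt_flow ht hW.continuousOn h

theorem norm_deriv_Zf (hW : Continuous W) (ht : 0 ≤ t) (h : z ∈ loewnerDomain W t) :
    ‖deriv (fun z => Zf W z t) z‖ = (Zf W z t).im * Real.exp (-Uf W z t) := by
  have h1 : deriv (fun z => Zf W z t) z = dflow W t z :=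
    (hasDerivAt_flow ht hW.continuousOn h).deriv
  rw [h1]
  exact norm_dflow ht hW.continuousOn h

/-- Koebe: the ball of radius `exp U / 10` is alive. -/
theorem ball_subset_dom (hW : Continuous W) (ht : 0 ≤ t) (h : z ∈ loewnerDomain W t) :
    ball z (Real.exp (Uf W z t) / 10) ⊆ loewnerDomain W t :=
  ball_subset_domain ht hW.continuousOn h

/-- Schwarz: if the ball of radius `ρ` is alive then `ρ ≤ 2 exp U`. -/
theorem le_exp_Uf (hW : Continuous W) (ht : 0 ≤ t) (hρ : 0 < ρ)
    (h : ball z ρ ⊆ loewnerDomain W t) : ρ ≤ 2 * Real.exp (Uf W z t) :=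
  radius_le ht hW.continuousOn hρ h

/-- Harnack inequality. -/
theorem exp_Uf_ge (hW : Continuous W) (ht : 0 ≤ t) (h : z ∈ loewnerDomain W t)
    (hz' : dist z' z ≤ Real.exp (Uf W z t) / 20) :
    z' ∈ loewnerDomain W t ∧ Real.exp (Uf W z t) / 40 ≤ Real.exp (Uf W z' t) := by
  have he := Real.exp_pos (Uf W z t)
  have hb : ball z' (Real.exp (Uf W z t) / 20) ⊆ loewnerDomain W t := by
    refine Subset.trans (ball_subset_ball' ?_) (ball_subset_dom hW ht h)
    linarith
  refine ⟨hb (mem_ball_self (by positivity)), ?_⟩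
  have := le_exp_Uf hW ht (by positivity) hb
  linarith only [this]

theorem isOpen_dom (hW : Continuous W) (ht : 0 ≤ t) : IsOpen (loewnerDomain W t) :=
  isOpen_domain ht hW.continuousOn

/-- Change of variables inequality. -/
theorem chvar (hW : Continuous W) (ht : 0 ≤ t) {D : Set ℂ} (hD : MeasurableSet D)
    (G : ℂ → ℝ≥0∞) :
    ∫⁻ z in D ∩ loewnerDomain W t, ENNReal.ofReal ((Zf W z t).im ^ 2 *
        Real.exp (-2 * Uf W z t)) * G (Zf W z t) ≤
      ∫⁻ w in {w : ℂ | 0 < w.im}, G w :=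
  change_var ht hW.continuousOn hD G

end Vale.Agent.P164
end

section

/-!
# With a simple trace, points with `U` bounded below stay away from the tip
-/

namespace Vale.Agent.P164

open Set Metric Filter Topology MeasureTheory

variable {W : ℝ → ℝ} {γ : ℝ → ℂ}

end Vale.Agent.P164
end

section

namespace Vale.Agent.P164

open Set Metric Filter Topology MeasureTheory
open scoped NNReal ENNReal Real

end Vale.Agent.P164
end

section

/-!
# Harnack inequalities for the Loewner flow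
-/

namespace Vale.Agent.P164

open Set Metric Filter Topology MeasureTheory

variable {W : ℝ → ℝ} {z z' : ℂ} {t : ℝ}

/-- Koebe theorem, image form (constant `1/10`). -/
theorem koebe_image {F : ℂ → ℂ} {c : ℂ} {ρ : ℝ} (hρ : 0 < ρ)
    (hF : DifferentiableOn ℂ F (ball c ρ)) (hinj : InjOn F (ball c ρ)) :
    ball (F c) (ρ * ‖deriv F c‖ / 10) ⊆ F '' ball c ρ := by
  intro w hw
  rw [mem_ball, dist_eq_norm] at hw
  have hρc : (ρ : ℂ) ≠ 0 := by exact_mod_cast hρ.ne'
  have hd0 : deriv F c ≠ 0 := by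
    intro h0
    rw [h0, norm_zero, mul_zero, zero_div] at hw
    exact absurd hw (not_lt.2 (norm_nonneg _))
  have hdpos : 0 < ‖deriv F c‖ := norm_pos_iff.2 hd0
  by_contra hcon
  have hden : (ρ : ℂ) * deriv F c ≠ 0 := mul_ne_zero hρc hd0
  have hmap : ∀ ζ ∈ ball (0 : ℂ) 1, c + (ρ : ℂ) * ζ ∈ ball c ρ := by
    intro ζ hζ
    rw [mem_ball_zero_iff] at hζ
    rw [mem_ball, dist_eq_norm, add_sub_cancel_left, norm_mul, Complex.norm_real,
      Real.norm_eq_abs, abs_of_pos hρ]
    nlinarith only [hρ, hζ]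
  have hlin : ∀ ζ : ℂ, HasDerivAt (fun ζ : ℂ => c + (ρ : ℂ) * ζ) (ρ : ℂ) ζ := by
    intro ζ
    simpa using ((hasDerivAt_id ζ).const_mul (ρ : ℂ)).const_add c
  have hFat : ∀ ζ ∈ ball (0 : ℂ) 1, HasDerivAt (fun ζ : ℂ => F (c + (ρ : ℂ) * ζ))
      (deriv F (c + (ρ : ℂ) * ζ) * (ρ : ℂ)) ζ := by
    intro ζ hζ
    have h1 := ((hF _ (hmap ζ hζ)).differentiableAt (isOpen_ball.mem_nhds (hmap ζ hζ))).hasDerivAt
    exact h1.comp ζ (hlin ζ)
  have hG : ∀ ζ ∈ ball (0 : ℂ) 1,
      HasDerivAt (fun ζ : ℂ => (F (c + (ρ : ℂ) * ζ) - F c) / ((ρ : ℂ) * deriv F c))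
        (deriv F (c + (ρ : ℂ) * ζ) * (ρ : ℂ) / ((ρ : ℂ) * deriv F c)) ζ := by
    intro ζ hζ
    exact ((hFat ζ hζ).sub_const (F c)).div_const _
  have h0m : (0 : ℂ) ∈ ball (0 : ℂ) 1 := mem_ball_self one_pos
  have hkey := koebe_omitted
    (F := fun ζ : ℂ => (F (c + (ρ : ℂ) * ζ) - F c) / ((ρ : ℂ) * deriv F c))
    (a := (w - F c) / ((ρ : ℂ) * deriv F c))
    (fun ζ hζ => (hG ζ hζ).differentiableAt.differentiableWithinAt)
    (by
      intro x hx y hy hxy
      have h1 : F (c + (ρ : ℂ) * x) = F (c + (ρ : ℂ) * y) := by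
        have h2 := (div_left_inj' hden).1 hxy
        exact sub_left_inj.1 h2
      have h3 := hinj (hmap x hx) (hmap y hy) h1
      exact mul_left_cancel₀ hρc (add_left_cancel h3))
    (by simp)
    (by
      rw [(hG 0 h0m).deriv, mul_zero, add_zero, mul_comm (deriv F c)]
      exact div_self hden)
    (by
      intro ζ hζ h1
      have h2 := (div_left_inj' hden).1 h1
      exact hcon ⟨_, hmap ζ hζ, sub_left_inj.1 h2⟩)
  rw [norm_div, norm_mul, Complex.norm_real, Real.norm_eq_abs, abs_of_pos hρ,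
    le_div_iff₀ (by (clear * - hρ hd0; positivity))] at hkey
  linarith only [hw, hkey]

theorem harnack_step (hW : Continuous W) (ht : 0 ≤ t) (h : z ∈ loewnerDomain W t)
    (h' : z' ∈ loewnerDomain W t) (hd : dist (Zf W z' t) (Zf W z t) ≤ (Zf W z t).im / 400) :
    dist z' z ≤ Real.exp (Uf W z t) / 20 ∧
      Real.exp (Uf W z t) / 40 ≤ Real.exp (Uf W z' t) ∧
        Real.exp (Uf W z' t) ≤ 40 * Real.exp (Uf W z t) := by
  have he := Real.exp_pos (Uf W z t)
  have hY := Zf_im_pos ht h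
  have hsub : ball z (Real.exp (Uf W z t) / 20) ⊆ loewnerDomain W t :=
    (ball_subset_ball (by linarith only [he])).trans (ball_subset_dom hW ht h)
  have hdiff : DifferentiableOn ℂ (fun z => Zf W z t) (ball z (Real.exp (Uf W z t) / 20)) :=
    fun x hx => (Zf_hasDerivAt hW ht (hsub hx)).differentiableAt.differentiableWithinAt
  have hinj : InjOn (fun z => Zf W z t) (ball z (Real.exp (Uf W z t) / 20)) :=
    (Zf_injOn hW ht).mono hsub
  have himg := koebe_image (by positivity) hdiff hinj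
  rw [norm_deriv_Zf hW ht h] at himg
  have hrad : Real.exp (Uf W z t) / 20 * ((Zf W z t).im * Real.exp (-Uf W z t)) / 10 =
      (Zf W z t).im / 200 := by
    rw [Real.exp_neg]
    field_simp
    ring
  rw [hrad] at himg
  have hmem : Zf W z' t ∈ ball (Zf W z t) ((Zf W z t).im / 200) := by
    rw [mem_ball]; linarith only [hd, hY]
  obtain ⟨x, hx, hxe⟩ := himg hmem
  have hxz : x = z' := Zf_injOn hW ht (hsub hx) h' hxe
  rw [hxz, mem_ball] at hx
  refine ⟨hx.le, (exp_Uf_ge hW ht h hx.le).2, ?_⟩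
  by_cases hc : dist z z' ≤ Real.exp (Uf W z' t) / 20
  · have := (exp_Uf_ge hW ht h' hc).2
    linarith only [this]
  · rw [not_le, dist_comm] at hc
    linarith only [he, hx, hc]

/-- The points of the chain. -/
theorem harnack_chain_aux (n : ℕ) (hn : 0 < n) {W : ℝ → ℝ} (hW : Continuous W) {t : ℝ}
    (ht : 0 ≤ t) {z z' : ℂ} (h : z ∈ loewnerDomain W t) (h' : z' ∈ loewnerDomain W t)
    (hd : dist (Zf W z' t) (Zf W z t) ≤ n / 400 * min (Zf W z t).im (Zf W z' t).im) (k : ℕ)
    (hk : k ≤ n) :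
    ∃ x ∈ loewnerDomain W t,
      Zf W x t = Zf W z t + ((k / n : ℝ) : ℂ) * (Zf W z' t - Zf W z t) ∧
      dist x z ≤ k * 40 ^ k * Real.exp (Uf W z t) ∧
      Real.exp (Uf W x t) ≤ 40 ^ k * Real.exp (Uf W z t) ∧
      Real.exp (Uf W z t) ≤ 40 ^ k * Real.exp (Uf W x t) := by
  have hn' : (0 : ℝ) < n := by exact_mod_cast hn
  have he := Real.exp_pos (Uf W z t)
  have hY := Zf_im_pos ht h
  have hY' := Zf_im_pos ht h'
  have him : ∀ j : ℕ, j ≤ n → min (Zf W z t).im (Zf W z' t).im ≤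
      (Zf W z t + ((j / n : ℝ) : ℂ) * (Zf W z' t - Zf W z t)).im := by
    intro j hj
    have hj1 : (j / n : ℝ) ≤ 1 := by
      rw [div_le_one hn']; exact_mod_cast hj
    have hj0 : (0 : ℝ) ≤ j / n := by (clear * - hn; positivity)
    rw [Complex.add_im, Complex.im_ofReal_mul, Complex.sub_im]
    have h1 := min_le_left (Zf W z t).im (Zf W z' t).im
    have h2 := min_le_right (Zf W z t).im (Zf W z' t).im
    nlinarith only [hj1, hj0, h1, h2]
  have hm : 0 < min (Zf W z t).im (Zf W z' t).im := lt_min hY hY'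
  induction k with
  | zero =>
    refine ⟨z, h, ?_, ?_, ?_, ?_⟩
    · simp
    · simp
    · simp
    · simp
  | succ k ih =>
    obtain ⟨x, hx, hxe, hxd, hx1, hx2⟩ := ih (by omega)
    obtain ⟨y, hy, hye⟩ := Zf_surj hW ht (lt_of_lt_of_le hm (him (k + 1) hk))
    have hdist : dist (Zf W y t) (Zf W x t) ≤ (Zf W x t).im / 400 := by
      have e1 : Zf W y t - Zf W x t = ((1 / n : ℝ) : ℂ) * (Zf W z' t - Zf W z t) := by
        rw [hye, hxe]
        push_cast
        ring
      have h1 := him k (by omega)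
      rw [← hxe] at h1
      rw [dist_eq_norm, e1, norm_mul, Complex.norm_real, Real.norm_eq_abs,
        abs_of_pos (by positivity), ← dist_eq_norm]
      calc 1 / (n : ℝ) * dist (Zf W z' t) (Zf W z t)
          ≤ 1 / (n : ℝ) * (n / 400 * min (Zf W z t).im (Zf W z' t).im) := by (clear * - hd hn; gcongr)
        _ = min (Zf W z t).im (Zf W z' t).im / 400 := by (clear * - hn hY hY'; field_simp)
        _ ≤ (Zf W x t).im / 400 := by (clear * - h1; gcongr)
    obtain ⟨s1, s2, s3⟩ := harnack_step hW ht hx hy hdist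
    refine ⟨y, hy, ?_, ?_, ?_, ?_⟩
    · exact hye
    · have h40 : (0 : ℝ) < 40 ^ k := by positivity
      calc dist y z ≤ dist y x + dist x z := dist_triangle _ _ _
        _ ≤ Real.exp (Uf W x t) / 20 + k * 40 ^ k * Real.exp (Uf W z t) := add_le_add s1 hxd
        _ ≤ 40 ^ k * Real.exp (Uf W z t) + k * 40 ^ k * Real.exp (Uf W z t) := by
            have := Real.exp_pos (Uf W x t)
            linarith only [hx1, this]
        _ = (k + 1) * 40 ^ k * Real.exp (Uf W z t) := by ring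
        _ ≤ ((k + 1 : ℕ) : ℝ) * 40 ^ (k + 1) * Real.exp (Uf W z t) := by
            push_cast
            have : (40 : ℝ) ^ k ≤ 40 ^ (k + 1) := by
              apply pow_le_pow_right₀ (by norm_num) (by (clear * -; omega))
            (clear * - this; gcongr)
    · calc Real.exp (Uf W y t) ≤ 40 * Real.exp (Uf W x t) := s3
        _ ≤ 40 * (40 ^ k * Real.exp (Uf W z t)) := by (clear * - hx1; gcongr)
        _ = 40 ^ (k + 1) * Real.exp (Uf W z t) := by ring
    · calc Real.exp (Uf W z t) ≤ 40 ^ k * Real.exp (Uf W x t) := hx2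
        _ ≤ 40 ^ k * (40 * Real.exp (Uf W y t)) := by
            gcongr
            linarith only [s2]
        _ = 40 ^ (k + 1) * Real.exp (Uf W y t) := by ring

/-- Harnack chain. -/
theorem harnack_chain {A : ℝ} (hA : 0 < A) :
    ∃ C : ℝ, 1 ≤ C ∧ ∀ {W : ℝ → ℝ} (_ : Continuous W) {t : ℝ} (_ : 0 ≤ t) {z z' : ℂ}
      (_ : z ∈ loewnerDomain W t) (_ : z' ∈ loewnerDomain W t)
      (_ : dist (Zf W z' t) (Zf W z t) ≤ A * min (Zf W z t).im (Zf W z' t).im),
      dist z' z ≤ C * Real.exp (Uf W z t) ∧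
        Real.exp (Uf W z' t) ≤ C * Real.exp (Uf W z t) ∧
          Real.exp (Uf W z t) ≤ C * Real.exp (Uf W z' t) := by
  obtain ⟨n, hn⟩ : ∃ n : ℕ, 400 * A ≤ n := exists_nat_ge _
  have hn0 : 0 < n := by
    have : (0 : ℝ) < n := by linarith
    exact_mod_cast this
  have hn' : (0 : ℝ) < n := by exact_mod_cast hn0
  have h40 : (1 : ℝ) ≤ 40 ^ n := one_le_pow₀ (by norm_num)
  have hC : (40 : ℝ) ^ n ≤ (n + 1) * 40 ^ n := by nlinarith only [h40]
  refine ⟨(n + 1) * 40 ^ n, h40.trans hC, ?_⟩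
  intro W hW t ht z z' h h' hd
  have he := Real.exp_pos (Uf W z t)
  have he' := Real.exp_pos (Uf W z' t)
  have hm : 0 < min (Zf W z t).im (Zf W z' t).im :=
    lt_min (Zf_im_pos ht h) (Zf_im_pos ht h')
  have hd' : dist (Zf W z' t) (Zf W z t) ≤ n / 400 * min (Zf W z t).im (Zf W z' t).im := by
    refine hd.trans ?_
    gcongr
    linarith only [hn]
  obtain ⟨x, hx, hxe, h1, h2, h3⟩ := harnack_chain_aux n hn0 hW ht h h' hd' n le_rfl
  have hxz : x = z' := by
    apply Zf_injOn hW ht hx h'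
    change Zf W x t = Zf W z' t
    rw [hxe, div_self hn'.ne']
    push_cast
    ring
  subst hxz
  refine ⟨?_, ?_, ?_⟩
  · refine h1.trans ?_
    gcongr
    linarith only []
  · exact h2.trans (by (clear * - hC; gcongr))
  · exact h3.trans (by (clear * - hC; gcongr))

/-- Nearby points have nearby images. -/
theorem pull_close (hW : Continuous W) (ht : 0 ≤ t) (h : z ∈ loewnerDomain W t)
    (hd : dist z' z ≤ Real.exp (Uf W z t) / 20) :
    z' ∈ loewnerDomain W t ∧
      dist (Zf W z' t) (Zf W z t) ≤ 40 * (Zf W z t).im * (dist z' z) * Real.exp (-Uf W z t) := by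
  have he := Real.exp_pos (Uf W z t)
  refine ⟨(exp_Uf_ge hW ht h hd).1, ?_⟩
  have hsub := ball_subset_dom hW ht h
  have h1 := schwarz_half_dist (F := fun z => Zf W z t) (c := z) (z := z')
    (ρ := Real.exp (Uf W z t) / 10) (by positivity)
    (fun x hx => (Zf_hasDerivAt hW ht (hsub hx)).differentiableAt.differentiableWithinAt)
    (fun x hx => Zf_im_pos ht (hsub hx)) (by linarith)
  refine h1.trans (le_of_eq ?_)
  rw [Real.exp_neg]
  field_simp
  ring

end Vale.Agent.P164
end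

section

/-!
# A lattice in a disc
-/

namespace Vale.Agent.P164

open Set Metric Filter Topology

/-- The lattice of mesh `e` in `closedBall I (7/10)`. -/
def latt (e : ℝ) : Set ℂ :=
  {z | (∃ j k : ℤ, z = (j * e : ℝ) + (k * e : ℝ) * Complex.I) ∧ dist z Complex.I ≤ 7 / 10}

/-- index box containing all lattice points -/
noncomputable def lattBox (e : ℝ) : Finset (ℤ × ℤ) :=
  Finset.Icc (-⌊(7 / 10) / e⌋) ⌊(7 / 10) / e⌋ ×ˢ Finset.Icc 0 ⌊(17 / 10) / e⌋

theorem latt_subset {e : ℝ} (he : 0 < e) :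
    latt e ⊆ (((lattBox e).image
      (fun p : ℤ × ℤ => (((p.1 : ℝ) * e : ℝ) : ℂ) + (((p.2 : ℝ) * e : ℝ) : ℂ) * Complex.I) :
        Finset ℂ) : Set ℂ) := by
  rintro z ⟨⟨j, k, rfl⟩, hd⟩
  rw [Complex.dist_eq] at hd
  have hre := (Complex.abs_re_le_norm _).trans hd
  have him := (Complex.abs_im_le_norm _).trans hd
  simp only [Complex.sub_re, Complex.add_re, Complex.ofReal_re, Complex.mul_re, Complex.I_re, mul_zero, Complex.ofReal_im, Complex.I_im, mul_one, sub_zero, add_zero, Complex.sub_im, Complex.add_im, Complex.mul_im, zero_add] at hre him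
  rw [abs_le] at hre him
  simp only [Finset.coe_image, Set.mem_image, Finset.mem_coe]
  refine ⟨(j, k), ?_, rfl⟩
  simp only [lattBox, Finset.mem_product, Finset.mem_Icc]
  have h1 : (j : ℝ) ≤ (7 / 10) / e := by
    rw [le_div_iff₀ he]; linarith only [hre]
  have h2 : ((-j : ℤ) : ℝ) ≤ (7 / 10) / e := by
    rw [le_div_iff₀ he]; push_cast; linarith only [hre]
  have h3 : (k : ℝ) ≤ (17 / 10) / e := by
    rw [le_div_iff₀ he]; linarith only [him]
  have h4 : (0 : ℝ) ≤ (k : ℝ) := by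
    by_contra hk
    push Not at hk
    have : (k : ℝ) * e < 0 := mul_neg_of_neg_of_pos hk he
    linarith only [him, this]
  refine ⟨⟨?_, Int.le_floor.2 h1⟩, by exact_mod_cast h4, Int.le_floor.2 h3⟩
  have := Int.le_floor.2 h2
  linarith only [this]

theorem latt_finite {e : ℝ} (he : 0 < e) : (latt e).Finite :=
  (Finset.finite_toSet _).subset (latt_subset he)

theorem latt_card {e : ℝ} (he : 0 < e) (he1 : e ≤ 1) : ((latt e).ncard : ℝ) ≤ 100 / e ^ 2 := by
  have h0 : (latt e).ncard ≤ (lattBox e).card := by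
    refine (Set.ncard_le_ncard (latt_subset he) (Finset.finite_toSet _)).trans ?_
    rw [Set.ncard_coe_finset]
    exact Finset.card_image_le
  have h1 : ((lattBox e).card : ℝ) ≤ (24 / 10 / e) * (27 / 10 / e) := by
    rw [lattBox, Finset.card_product, Nat.cast_mul]
    have hinv : 1 ≤ 1 / e := by rw [le_div_iff₀ he]; linarith only [he1]
    have hA : (0 : ℤ) ≤ ⌊(7 / 10) / e⌋ := Int.floor_nonneg.2 (by (clear * - he; positivity))
    have hB : (0 : ℤ) ≤ ⌊(17 / 10) / e⌋ := Int.floor_nonneg.2 (by positivity)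
    have hA' : ((⌊(7 / 10) / e⌋ : ℤ) : ℝ) ≤ (7 / 10) / e := Int.floor_le _
    have hB' : ((⌊(17 / 10) / e⌋ : ℤ) : ℝ) ≤ (17 / 10) / e := Int.floor_le _
    have c1 : ((Finset.Icc (-⌊(7 / 10) / e⌋) ⌊(7 / 10) / e⌋).card : ℝ) ≤ 24 / 10 / e := by
      rw [Int.card_Icc]
      have : (((⌊(7 / 10) / e⌋ + 1 - -⌊(7 / 10) / e⌋).toNat : ℤ) : ℝ)
          = 2 * ((⌊(7 / 10) / e⌋ : ℤ) : ℝ) + 1 := by
        rw [Int.toNat_of_nonneg (by linarith only [hA])]; push_cast; ring
      rw [Int.cast_natCast] at this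
      rw [this]
      have e1 : 24 / 10 / e = 2 * ((7 / 10) / e) + 1 / e := by ring
      rw [e1]; linarith only [hinv, hA']
    have c2 : ((Finset.Icc (0 : ℤ) ⌊(17 / 10) / e⌋).card : ℝ) ≤ 27 / 10 / e := by
      rw [Int.card_Icc]
      have : (((⌊(17 / 10) / e⌋ + 1 - 0).toNat : ℤ) : ℝ)
          = ((⌊(17 / 10) / e⌋ : ℤ) : ℝ) + 1 := by
        rw [Int.toNat_of_nonneg (by linarith only [hB])]; push_cast; ring
      rw [Int.cast_natCast] at this
      rw [this]
      have e1 : 27 / 10 / e = (17 / 10) / e + 1 / e := by ring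
      rw [e1]; linarith only [hinv, hB']
    exact mul_le_mul c1 c2 (by (clear * - hB; positivity)) (by positivity)
  have h2 : (24 / 10 / e) * (27 / 10 / e) ≤ 100 / e ^ 2 := by
    rw [div_mul_div_comm, ← pow_two]
    gcongr
    norm_num
  calc ((latt e).ncard : ℝ) ≤ ((lattBox e).card : ℝ) := by exact_mod_cast h0
    _ ≤ _ := h1
    _ ≤ _ := h2

theorem latt_near {e : ℝ} (he : 0 < e) (he1 : e ≤ 1 / 10) {p : ℂ}
    (hp : dist p Complex.I ≤ 3 / 5) : ∃ z ∈ latt e, dist p z ≤ e := by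
  have key : ∀ x : ℝ, |x - (round (x / e) : ℝ) * e| ≤ e / 2 := by
    intro x
    have h := abs_sub_round (x / e)
    have : x - (round (x / e) : ℝ) * e = (x / e - (round (x / e) : ℝ)) * e := by
      (clear * - he; field_simp)
    rw [this, abs_mul, abs_of_pos he]
    calc |x / e - (round (x / e) : ℝ)| * e ≤ 1 / 2 * e := by gcongr
      _ = e / 2 := by ring
  set z : ℂ := ((round (p.re / e) : ℝ) * e : ℝ) + ((round (p.im / e) : ℝ) * e : ℝ) * Complex.I
    with hz
  have hd : dist p z ≤ e := by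
    rw [Complex.dist_eq]
    refine (Complex.norm_le_abs_re_add_abs_im _).trans ?_
    have e1 : (p - z).re = p.re - (round (p.re / e) : ℝ) * e := by simp only [hz, Complex.ofReal_mul, Complex.ofReal_intCast, Complex.sub_re, Complex.add_re, Complex.mul_re, Complex.intCast_re, Complex.ofReal_re, Complex.intCast_im, Complex.ofReal_im, mul_zero, sub_zero, Complex.I_re, Complex.mul_im, zero_mul, add_zero, Complex.I_im, mul_one, sub_self]
    have e2 : (p - z).im = p.im - (round (p.im / e) : ℝ) * e := by simp only [hz, Complex.ofReal_mul, Complex.ofReal_intCast, Complex.sub_im, Complex.add_im, Complex.mul_im, Complex.intCast_re, Complex.ofReal_im, mul_zero, Complex.intCast_im, Complex.ofReal_re, zero_mul, add_zero, Complex.mul_re, sub_zero, Complex.I_im, mul_one, Complex.I_re, zero_add]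
    rw [e1, e2]
    linarith only [key p.re, key p.im]
  refine ⟨z, ⟨⟨round (p.re / e), round (p.im / e), rfl⟩, ?_⟩, hd⟩
  calc dist z Complex.I ≤ dist z p + dist p Complex.I := dist_triangle _ _ _
    _ ≤ e + 3 / 5 := by rw [dist_comm z p]; linarith only [hp, hd]
    _ ≤ 7 / 10 := by linarith only [he1]

end Vale.Agent.P164
end

section

/-!
# Blumenthal's zero-one law for the driving function
-/

namespace Vale.Agent.P164

open Set Metric Filter Topology MeasureTheory ProbabilityTheory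
open scoped NNReal ENNReal

variable {Ω : Type*} [mΩ : MeasurableSpace Ω] {κ : ℝ} {P : Measure Ω} {W : ℝ → Ω → ℝ}

/-- The increments of the driving function on `[s, s + ε]`. -/
@[reducible] def germ (W : ℝ → Ω → ℝ) (s ε : ℝ) : MeasurableSpace Ω :=
  ⨆ u : Icc (0 : ℝ) ε, MeasurableSpace.comap (fun ω => W (s + u) ω - W s ω) inferInstance

omit mΩ in
lemma meas_germ {s ε u : ℝ} (hu : 0 ≤ u) (huε : u ≤ ε) :
    Measurable[germ W s ε] (fun ω => W (s + u) ω - W s ω) := by
  have h : MeasurableSpace.comap (fun ω => W (s + u) ω - W s ω) inferInstance ≤ germ W s ε :=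
    le_iSup_of_le (⟨u, hu, huε⟩ : Icc (0 : ℝ) ε) le_rfl
  exact (comap_measurable (fun ω => W (s + u) ω - W s ω)).mono h le_rfl

omit mΩ in
lemma germ_mono {s ε ε' : ℝ} (h : ε ≤ ε') : germ W s ε ≤ germ W s ε' :=
  iSup_le fun u => le_iSup_of_le (⟨u, u.2.1, u.2.2.trans h⟩ : Icc (0 : ℝ) ε') le_rfl

lemma germ_le_past {s ε : ℝ} (hs : 0 ≤ s) (hε : 0 ≤ ε) : germ W s ε ≤ past W (s + ε) := by
  refine iSup_le fun u => ?_
  have h1 : Measurable[past W (s + ε)] (W (s + u)) :=
    IsDrv.meas_past (by linarith [u.2.1]) (by linarith only [u.2.2])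
  have h2 : Measurable[past W (s + ε)] (W s) := IsDrv.meas_past hs (by linarith)
  exact (h1.sub h2).comap_le

lemma fut_anti {s t : ℝ} (hst : s ≤ t) : fut W t ≤ fut W s := by
  refine iSup_le fun u => ?_
  have h1 : Measurable[fut W s] (fun ω => W u ω - W s ω) := by
    have h : MeasurableSpace.comap (fun ω => W u ω - W s ω) inferInstance ≤ fut W s :=
      le_iSup_of_le (⟨u, hst.trans u.2⟩ : Ici s) le_rfl
    exact (comap_measurable (fun ω => W u ω - W s ω)).mono h le_rfl
  have h2 : Measurable[fut W s] (fun ω => W t ω - W s ω) := by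
    have h : MeasurableSpace.comap (fun ω => W t ω - W s ω) inferInstance ≤ fut W s :=
      le_iSup_of_le (⟨t, hst⟩ : Ici s) le_rfl
    exact (comap_measurable (fun ω => W t ω - W s ω)).mono h le_rfl
  have h3 : (fun ω => W u ω - W t ω) = fun ω => (W u ω - W s ω) - (W t ω - W s ω) := by
    funext ω; ring
  rw [h3]
  exact (h1.sub h2).comap_le

/-- Blumenthal's zero-one law: an event which is determined by the increments on `[s, s + ε]` for
every `ε > 0` has probability zero or one. -/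
theorem blumenthal (hW : IsDrv κ P W) {s : ℝ} (hs : 0 ≤ s) {A : Set Ω}
    (hA : ∀ ε : ℝ, 0 < ε → MeasurableSet[germ W s ε] A) : P A = 0 ∨ P A = 1 := by
  have := hW.prob
  set m : ℕ → MeasurableSpace Ω := fun n => fut W (s + 1 / ((n : ℝ) + 1)) with hm
  have hpos : ∀ n : ℕ, (0 : ℝ) < 1 / ((n : ℝ) + 1) := fun n => by (clear * -; positivity)
  have hmono : Monotone m := by
    intro n k hnk
    refine fut_anti ?_
    have : (1 : ℝ) / ((k : ℝ) + 1) ≤ 1 / ((n : ℝ) + 1) := by
      apply one_div_le_one_div_of_le (by positivity)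
      have : (n : ℝ) ≤ k := by exact_mod_cast hnk
      linarith only [this]
    linarith only [this]
  have hAm : MeasurableSet A := by
    have h1 := hA 1 one_pos
    exact (germ_le_past hs zero_le_one).trans hW.past_le _ h1
  -- independence from each `m n`
  have hind : ∀ n, Indep (m n) (MeasurableSpace.generateFrom {A}) P := by
    intro n
    have h1 := hW.indep (s + 1 / ((n : ℝ) + 1)) (by have := hpos n; linarith only [hs, this])
    refine (indep_of_indep_of_le_left h1 ?_).symm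
    refine MeasurableSpace.generateFrom_le ?_
    intro B hB
    rw [mem_singleton_iff] at hB
    subst hB
    exact germ_le_past hs (hpos n).le _ (hA _ (hpos n))
  have hsup : Indep (⨆ n, m n) (MeasurableSpace.generateFrom {A}) P :=
    indep_iSup_of_monotone hind (fun n => hW.fut_le)
      (MeasurableSpace.generateFrom_le fun B hB => by
        rw [mem_singleton_iff] at hB; subst hB; exact hAm) hmono
  -- `A` is measurable for the supremum
  have hle : germ W s 1 ≤ ⨆ n, m n := by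
    refine iSup_le fun u => ?_
    rcases u.2.1.eq_or_lt with h0 | h0
    · have e : (fun ω => W (s + (u : ℝ)) ω - W s ω) = fun _ => 0 := by
        funext ω
        rw [← h0]; simp
      rw [e]
      exact (@measurable_const _ _ _ (⨆ n, m n) (0 : ℝ)).comap_le
    · have hlim : ∀ ω, Tendsto (fun n : ℕ => if 1 / ((n : ℝ) + 1) ≤ u then
          W (s + u) ω - W (s + 1 / ((n : ℝ) + 1)) ω else 0) atTop
          (𝓝 (W (s + u) ω - W s ω)) := by
        intro ω
        have h1 : Tendsto (fun n : ℕ => s + 1 / ((n : ℝ) + 1)) atTop (𝓝 s) := by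
          have := tendsto_one_div_add_atTop_nhds_zero_nat (𝕜 := ℝ)
          simpa only [one_div, add_zero] using this.const_add s
        have h2 := ((hW.cont ω).tendsto s).comp h1
        have h3 := h2.const_sub (W (s + u) ω)
        refine h3.congr' ?_
        have h4 := (tendsto_one_div_add_atTop_nhds_zero_nat (𝕜 := ℝ)).eventually
          (ge_mem_nhds h0)
        filter_upwards [h4] with n hn
        rw [if_pos hn]
        rfl
      have hmeas : ∀ n : ℕ, Measurable[⨆ n, m n] (fun ω => if 1 / ((n : ℝ) + 1) ≤ u then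
          W (s + u) ω - W (s + 1 / ((n : ℝ) + 1)) ω else 0) := by
        intro n
        by_cases hn : 1 / ((n : ℝ) + 1) ≤ u
        · simp only [if_pos hn]
          have h : MeasurableSpace.comap (fun ω => W (s + u) ω -
              W (s + 1 / ((n : ℝ) + 1)) ω) inferInstance ≤ m n :=
            le_iSup_of_le (⟨s + u, by simpa only [one_div, mem_Ici, add_le_add_iff_left] using hn⟩ : Ici (s + 1 / ((n : ℝ) + 1))) le_rfl
          exact (comap_measurable _).mono (h.trans (le_iSup m n)) le_rfl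
        · simp only [if_neg hn]
          exact @measurable_const _ _ _ (⨆ n, m n) (0 : ℝ)
      have h5 : Measurable[⨆ n, m n] (fun ω => W (s + u) ω - W s ω) :=
        @measurable_of_tendsto_metrizable _ _ (⨆ n, m n) _ _ _ _ _ _ hmeas
          (tendsto_pi_nhds.2 hlim)
      exact h5.comap_le
  have h6 : MeasurableSet[⨆ n, m n] A := hle _ (hA 1 one_pos)
  have h7 := (Indep_iff _ _ _).1 hsup A A h6 (MeasurableSpace.measurableSet_generateFrom rfl)
  rw [inter_self] at h7
  have h8 : P A ≤ 1 := prob_le_one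
  rcases eq_or_ne (P A) 0 with h0 | h0
  · exact Or.inl h0
  · right
    have h9 : P A ≠ ⊤ := measure_ne_top P A
    have h10 : P A * 1 = P A * P A := by rw [mul_one]; exact h7
    exact ((ENNReal.mul_right_inj h0 h9).1 h10).symm

end Vale.Agent.P164
end
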