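import Vale.Agent.P164.MathlibUsed
import Vale.Agent.P164.Bdl.B1
import Vale.Agent.P164.Bdl.B2

set_option linter.all false

section

/-!
# The good event at a finite level: definitions
-/

namespace Vale.Agent.P164

open Set Metric Filter Topology MeasureTheory
open scoped NNReal ENNReal

noncomputable section

/-- The gauge function near `0`: `r^d (log log (1/r))^{1-d/2}`. -/
def hh (κ r : ℝ) : ℝ := r ^ dd κ * Real.log (Real.log (1 / r)) ^ (xx κ / 2)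

end

end Vale.Agent.P164
end

section

/-!
# Grid events
-/

namespace Vale.Agent.P164

open Set Metric Filter Topology MeasureTheory ProbabilityTheory
open scoped NNReal ENNReal

variable {Ω : Type*}

/-- Not killed up to grid index `l`: `z` is alive with state in a compact set at the grid times
`iδ`, `i ≤ l`, and the oscillation over the steps before is at most `c`. -/
def NK (ϰ c δ : ℝ) (W : ℝ → Ω → ℝ) (z : ℂ) (l : ℕ) : Set Ω :=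
  {ω | (∀ i ≤ l, z ∈ loewnerDomain (fun u => W u ω) (i * δ) ∧
      ϰ ≤ (Zf (fun u => W u ω) z (i * δ)).im ∧ ‖Zf (fun u => W u ω) z (i * δ)‖ ≤ 1 / ϰ ∧
      -(1 / ϰ) ≤ Uf (fun u => W u ω) z (i * δ)) ∧
    ∀ i < l, osc W (i * δ) δ ω ≤ c}

/-- `l` is the first grid index with `U ≤ u`. -/
def Fst (δ u : ℝ) (W : ℝ → Ω → ℝ) (z : ℂ) (l : ℕ) : Set Ω :=
  {ω | Uf (fun v => W v ω) z (l * δ) ≤ u ∧ ∀ i < l, u < Uf (fun v => W v ω) z (i * δ)}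

/-- No good scale so far: the content of the disc at scale `u` is below the threshold at
time `t`. -/
def NG (κ C R ε u : ℝ) (W : ℝ → Ω → ℝ) (z : ℂ) (t : ℝ) : Set Ω :=
  {ω | mu κ ε (fun v => W v ω) (ball z (C * Real.exp u)) 0 t <
    R ^ xx κ * Real.exp (dd κ * u) / C}

end Vale.Agent.P164
end

section

/-!
# Real-variable part of the one-step expansion of the powers of the sine
-/

namespace Vale.Agent.P164

open Set Real

lemma powc_exp3 (A : ℝ) : ∃ K : ℝ, 0 < K ∧ ∀ x : ℝ, |x| ≤ A →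
    |exp x - (1 + x + x ^ 2 / 2)| ≤ K * |x| ^ 3 := by
  refine ⟨1 + exp A + A ^ 2 + 1 + |A|, by (clear * -; positivity), fun x hx => ?_⟩
  rcases le_or_gt |x| 1 with h | h
  · have h1 := Real.exp_bound h (n := 3) (by norm_num)
    have h2 : (∑ m ∈ Finset.range 3, x ^ m / (m.factorial : ℝ)) = 1 + x + x ^ 2 / 2 := by
      simp only [Finset.sum_range_succ, Finset.range_one, Finset.sum_singleton, pow_zero, Nat.factorial, Nat.cast_one, ne_eq, one_ne_zero, not_false_eq_true, div_self, pow_one, Nat.succ_eq_add_one, zero_add, mul_one, div_one, Nat.reduceAdd, Nat.cast_ofNat]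
    rw [h2] at h1
    refine h1.trans ?_
    rw [mul_comm]
    refine mul_le_mul_of_nonneg_right ?_ (by (clear * -; positivity))
    have : ((Nat.succ 3 : ℕ) : ℝ) / ((Nat.factorial 3 : ℕ) * (3 : ℕ)) ≤ 1 := by
      norm_num [Nat.factorial]
    have h3 : 0 ≤ exp A + A ^ 2 + 1 + |A| := by (clear * -; positivity)
    linarith only [h3]
  · have hA : 0 ≤ A := (abs_nonneg x).trans hx
    have h1 : exp x ≤ exp A := exp_le_exp.2 ((le_abs_self x).trans hx)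
    have h2 : |exp x - (1 + x + x ^ 2 / 2)| ≤ exp A + 1 + A + A ^ 2 := by
      have h3 : |x ^ 2| ≤ A ^ 2 := by
        rw [abs_pow]
        exact pow_le_pow_left₀ (abs_nonneg x) hx 2
      have h4 : 0 < exp x := exp_pos x
      have h5 := abs_le.1 hx
      have h6 := abs_le.1 h3
      rw [abs_le]
      constructor
      · nlinarith only [h1, h4, h5]
      · nlinarith only [h1, h5]
    have h7 : (1 : ℝ) ≤ |x| ^ 3 := one_le_pow₀ h.le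
    have h8 : 0 ≤ 1 + exp A + A ^ 2 + 1 + |A| := by positivity
    calc |exp x - (1 + x + x ^ 2 / 2)| ≤ exp A + 1 + A + A ^ 2 := h2
      _ ≤ (1 + exp A + A ^ 2 + 1 + |A|) * 1 := by linarith only [le_abs_self A]
      _ ≤ _ := mul_le_mul_of_nonneg_left h7 h8

lemma powc_exp1 (A : ℝ) : ∃ K : ℝ, 0 < K ∧ ∀ x : ℝ, |x| ≤ A →
    |exp x - 1| ≤ K * |x| := by
  refine ⟨2 + exp A, by (clear * -; positivity), fun x hx => ?_⟩
  rcases le_or_gt |x| 1 with h | h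
  · have h1 := Real.abs_exp_sub_one_le h
    refine h1.trans (mul_le_mul_of_nonneg_right ?_ (abs_nonneg x))
    linarith [exp_pos A]
  · have h1 : exp x ≤ exp A := exp_le_exp.2 ((le_abs_self x).trans hx)
    have h4 : 0 < exp x := exp_pos x
    have h2 : |exp x - 1| ≤ 2 + exp A := by
      rw [abs_le]
      constructor <;> linarith only [h1, h4]
    calc |exp x - 1| ≤ (2 + exp A) * 1 := by linarith
      _ ≤ _ := mul_le_mul_of_nonneg_left h.le (by positivity)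

lemma powc_log {x : ℝ} (h : |x| ≤ 1 / 2) :
    |log (1 + x) - (x - x ^ 2 / 2)| ≤ 2 * |x| ^ 3 := by
  have h1 := Real.abs_log_sub_add_sum_range_le (x := -x) (by rw [abs_neg]; linarith only [h]) 2
  have h2 : (∑ i ∈ Finset.range 2, (-x) ^ (i + 1) / ((i : ℝ) + 1)) = -(x - x ^ 2 / 2) := by
    simp only [Finset.sum_range_succ, Finset.range_one, Finset.sum_singleton, zero_add, pow_one, CharP.cast_eq_zero, div_one, Nat.reduceAdd, even_two, Even.neg_pow, Nat.cast_one, neg_sub]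
    ring
  rw [h2, abs_neg, sub_neg_eq_add] at h1
  have h3 : log (1 + x) - (x - x ^ 2 / 2) = -(x - x ^ 2 / 2) + log (1 + x) := by ring
  rw [h3]
  refine h1.trans ?_
  rw [div_le_iff₀ (by linarith only [h])]
  have h4 : 0 ≤ |x| ^ 3 := by (clear * -; positivity)
  norm_num
  nlinarith only [h, h4]

/-- abstract product estimate -/
lemma powc_mul {a b A B s : ℝ} (ha : |a| ≤ A) (hb : |b| ≤ B) (h : A * B ≤ s) : |a * b| ≤ s := by
  rw [abs_mul]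
  exact (mul_le_mul ha hb (abs_nonneg b) ((abs_nonneg a).trans ha)).trans h

lemma powc_f1 {δ m : ℝ} (hm0 : 0 ≤ m) :
    δ * (δ + m) ≤ δ ^ 2 + δ * m + m ^ 3 := by
  have := pow_nonneg hm0 3
  nlinarith only [this]

lemma powc_f2 {δ m M : ℝ} (hm0 : 0 ≤ m) (hM : 0 ≤ M) (hm : m ≤ M) (hδ0 : 0 ≤ δ) :
    (δ + m ^ 2) * (δ + m) ≤ (1 + M) * (δ ^ 2 + δ * m + m ^ 3) := by
  have h1 : m * (δ * m) ≤ M * (δ * m) := mul_le_mul_of_nonneg_right hm (by positivity)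
  have h2 : 0 ≤ M * m ^ 3 := by positivity
  have h3 : 0 ≤ M * δ ^ 2 := by positivity
  have e : (δ + m ^ 2) * (δ + m) = δ ^ 2 + δ * m + m * (δ * m) + m ^ 3 := by ring
  rw [e]
  linarith only [h1, h2, h3]

lemma powc_f3 {δ m M : ℝ} (hm0 : 0 ≤ m) (hM : 0 ≤ M) (hm : m ≤ M) (hδ0 : 0 ≤ δ) (hδ1 : δ ≤ 1) :
    (δ + m) ^ 3 ≤ (4 + 3 * M) * (δ ^ 2 + δ * m + m ^ 3) := by
  have h1 : m * (δ * m) ≤ M * (δ * m) := mul_le_mul_of_nonneg_right hm (by positivity)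
  have h2 : δ * (δ * m) ≤ 1 * (δ * m) := mul_le_mul_of_nonneg_right hδ1 (by positivity)
  have h3 : δ * δ ^ 2 ≤ 1 * δ ^ 2 := mul_le_mul_of_nonneg_right hδ1 (by positivity)
  have h4 : 0 ≤ M * m ^ 3 := by positivity
  have h5 : 0 ≤ M * δ ^ 2 := by (clear * - hM; positivity)
  have h6 : 0 ≤ δ * m := by positivity
  have h7 : 0 ≤ m ^ 3 := by positivity
  have h8 : 0 ≤ δ ^ 2 := by positivity
  have e : (δ + m) ^ 3 = δ * δ ^ 2 + 3 * (δ * (δ * m)) + 3 * (m * (δ * m)) + m ^ 3 := by ring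
  rw [e]
  linarith only [h1, h2, h3, h4, h5, h6, h7, h8]

lemma powc_f4 {δ m M : ℝ} (hm0 : 0 ≤ m) (hM : 0 ≤ M) (hm : m ≤ M) (hδ0 : 0 ≤ δ) :
    δ + m ^ 2 ≤ (1 + M) * (δ + m) := by
  have h1 : m * m ≤ M * m := mul_le_mul_of_nonneg_right hm hm0
  have h2 : 0 ≤ M * δ := by positivity
  nlinarith only [hm0, h1, h2]

lemma powc_f5 {δ m : ℝ} (hδ0 : 0 ≤ δ) (hδ1 : δ ≤ 1) :
    (δ + m) ^ 2 ≤ 2 * (δ + m ^ 2) := by
  have h1 : δ * δ ≤ 1 * δ := mul_le_mul_of_nonneg_right hδ1 hδ0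
  nlinarith only [h1, sq_nonneg (δ - m)]

lemma powc_bounds {k M C₁ C₂ : ℝ} (hk : 0 ≤ k) (hM : 0 ≤ M) (hC₁ : 0 ≤ C₁) (hC₂ : 0 ≤ C₂)
    {a b g η δ m ρ dL : ℝ} (ha : |a| ≤ k) (hb0 : 0 ≤ b) (hb : b ≤ k ^ 2) (hg : |g| ≤ 1)
    (hη : |η| ≤ m) (hm : m ≤ M) (hδ0 : 0 ≤ δ) (hδ1 : δ ≤ 1)
    (hr : |ρ + 2 * a * η - b * η ^ 2 - 4 * δ * g * b| ≤ C₁ * δ * (δ + m))
    (hd : |dL + 2 * δ * b| ≤ C₂ * δ * (δ + m)) :
    |ρ + 2 * a * η| ≤ (5 * k ^ 2 + C₁ * (1 + M)) * (δ + m ^ 2) ∧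
    |ρ| ≤ (2 * k + k ^ 2 * M + 4 * k ^ 2 + C₁ * (1 + M)) * (δ + m) ∧
    |dL| ≤ (2 * k ^ 2 + C₂ * (1 + M)) * δ := by
  have hm0 : 0 ≤ m := (abs_nonneg η).trans hη
  have f6 : (δ + m) ≤ 1 + M := by linarith only [hm, hδ1]
  have hη2 : η ^ 2 ≤ m ^ 2 := by
    rw [← sq_abs]
    exact pow_le_pow_left₀ (abs_nonneg η) hη 2
  have hb2 : |b * η ^ 2| ≤ k ^ 2 * m ^ 2 :=
    powc_mul (A := k ^ 2) (B := m ^ 2) (by rwa [abs_of_nonneg hb0])
      (by rwa [abs_of_nonneg (sq_nonneg η)]) le_rfl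
  have hg2 : |4 * δ * g * b| ≤ 4 * δ * k ^ 2 := by
    refine powc_mul (A := 4 * δ) (B := k ^ 2) ?_ (by rwa [abs_of_nonneg hb0]) le_rfl
    exact powc_mul (A := 4 * δ) (B := 1) (by rw [abs_of_nonneg (by positivity)]) hg (by simp)
  have ha2 : |2 * a * η| ≤ 2 * k * m := by
    refine powc_mul (A := 2 * k) (B := m) ?_ hη le_rfl
    exact powc_mul (A := 2) (B := k) (by norm_num) ha le_rfl
  have hr' : C₁ * δ * (δ + m) ≤ C₁ * (1 + M) * δ := by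
    have := mul_le_mul_of_nonneg_left f6 (mul_nonneg hC₁ hδ0)
    linarith only [this]
  have hd' : C₂ * δ * (δ + m) ≤ C₂ * (1 + M) * δ := by
    have := mul_le_mul_of_nonneg_left f6 (mul_nonneg hC₂ hδ0)
    linarith only [this]
  refine ⟨?_, ?_, ?_⟩
  · have e : ρ + 2 * a * η = (ρ + 2 * a * η - b * η ^ 2 - 4 * δ * g * b) + b * η ^ 2 +
      4 * δ * g * b := by ring
    rw [e]
    refine (abs_add_three _ _ _).trans ?_
    have h1 : 0 ≤ C₁ * (1 + M) * m ^ 2 := by (clear * - hC₁ hM; positivity)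
    have h2 : 0 ≤ k ^ 2 * m ^ 2 := by (clear * -; positivity)
    have h3 : 0 ≤ k ^ 2 * δ := by (clear * - hδ0; positivity)
    (clear * - hr hb2 hg2 hr' h1 h2 h3; linarith)
  · have e : ρ = (ρ + 2 * a * η - b * η ^ 2 - 4 * δ * g * b) + b * η ^ 2 +
      4 * δ * g * b - 2 * a * η := by ring
    have h0 := abs_add_three (ρ + 2 * a * η - b * η ^ 2 - 4 * δ * g * b) (b * η ^ 2)
      (4 * δ * g * b)
    have h00 := abs_sub ((ρ + 2 * a * η - b * η ^ 2 - 4 * δ * g * b) + b * η ^ 2 +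
      4 * δ * g * b) (2 * a * η)
    rw [← e] at h00
    have h1 : 0 ≤ C₁ * (1 + M) * m := by (clear * - hC₁ hM hm0; positivity)
    have h2 : k ^ 2 * (m * m) ≤ k ^ 2 * (M * m) :=
      mul_le_mul_of_nonneg_left (mul_le_mul_of_nonneg_right hm hm0) (by (clear * -; positivity))
    have h3 : 0 ≤ k ^ 2 * M * δ := by (clear * - hM hδ0; positivity)
    have h4 : 0 ≤ k ^ 2 * m := by (clear * - hm0; positivity)
    have h5 : 0 ≤ k * δ := by (clear * - hk hδ0; positivity)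
    linarith only [hr, hb2, hg2, ha2, hr', h0, h00, h1, h2, h3, h4, h5]
  · have e : dL = (dL + 2 * δ * b) - 2 * δ * b := by ring
    have h00 := abs_sub (dL + 2 * δ * b) (2 * δ * b)
    rw [← e] at h00
    have h1 : |2 * δ * b| ≤ 2 * δ * k ^ 2 := by
      refine powc_mul (A := 2 * δ) (B := k ^ 2) ?_ (by rwa [abs_of_nonneg hb0]) le_rfl
      rw [abs_of_nonneg (by (clear * - hδ0; positivity))]
    linarith only [hd, hd', h00, h1]

lemma powc_y {p R L M δ m ρ dL : ℝ} (hp : 0 ≤ p) (hL : 0 ≤ L) (hM : 0 ≤ M) (hm0 : 0 ≤ m)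
    (hm : m ≤ M) (hδ0 : 0 ≤ δ) (hδ1 : δ ≤ 1) (hρ : |ρ| ≤ 1 / 2) (hρR : |ρ| ≤ R * (δ + m))
    (hdL : |dL| ≤ L * δ) :
    |p * dL + p / 2 * (ρ - log (1 + ρ))| ≤ (p * L + 3 / 2 * p * R ^ 2) * (δ + m ^ 2) ∧
    |p * dL - p / 2 * log (1 + ρ)| ≤
      ((p * L + 3 / 2 * p * R ^ 2) * (1 + M) + p * R / 2) * (δ + m) := by
  have hlog := powc_log hρ
  have hρ2 : |ρ| ^ 2 ≤ R ^ 2 * (δ + m) ^ 2 := by
    rw [← mul_pow]
    exact pow_le_pow_left₀ (abs_nonneg ρ) hρR 2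
  have h1 : |ρ - log (1 + ρ)| ≤ 3 / 2 * |ρ| ^ 2 := by
    have e : ρ - log (1 + ρ) = ρ ^ 2 / 2 - (log (1 + ρ) - (ρ - ρ ^ 2 / 2)) := by ring
    rw [e]
    refine (abs_sub _ _).trans ?_
    have h2 : |ρ ^ 2 / 2| = |ρ| ^ 2 / 2 := by
      rw [abs_div, abs_pow]
      norm_num
    rw [h2]
    have h3 : |ρ| ^ 3 ≤ 1 / 2 * |ρ| ^ 2 := by
      have := mul_le_mul_of_nonneg_right hρ (pow_nonneg (abs_nonneg ρ) 2)
      nlinarith only [this]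
    linarith only [hlog, h3]
  have hyY : |p * dL + p / 2 * (ρ - log (1 + ρ))| ≤
      (p * L + 3 / 2 * p * R ^ 2) * (δ + m ^ 2) := by
    refine (abs_add_le _ _).trans ?_
    rw [abs_mul, abs_mul, abs_of_nonneg hp, abs_of_nonneg (by positivity : 0 ≤ p / 2)]
    have h4 : p * |dL| ≤ p * (L * δ) := mul_le_mul_of_nonneg_left hdL hp
    have h5 : p / 2 * |ρ - log (1 + ρ)| ≤ p / 2 * (3 / 2 * (R ^ 2 * (2 * (δ + m ^ 2)))) := by
      refine mul_le_mul_of_nonneg_left (h1.trans ?_) (by (clear * - hp; positivity))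
      refine mul_le_mul_of_nonneg_left (hρ2.trans ?_) (by norm_num)
      exact mul_le_mul_of_nonneg_left (powc_f5 hδ0 hδ1) (by positivity)
    have h6 : 0 ≤ p * L * m ^ 2 := by positivity
    linarith only [h4, h5, h6]
  refine ⟨hyY, ?_⟩
  have hxe : p * dL - p / 2 * log (1 + ρ) =
      (p * dL + p / 2 * (ρ - log (1 + ρ))) - p / 2 * ρ := by ring
  have hpρ : |p / 2 * ρ| ≤ p * R / 2 * (δ + m) := by
    rw [abs_mul, abs_of_nonneg (by positivity : 0 ≤ p / 2)]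
    have := mul_le_mul_of_nonneg_left hρR (by (clear * - hp; positivity) : 0 ≤ p / 2)
    linarith only [this]
  have hY0 : 0 ≤ p * L + 3 / 2 * p * R ^ 2 := by (clear * - hp hL; positivity)
  have h7 := mul_le_mul_of_nonneg_left (powc_f4 hm0 hM hm hδ0) hY0
  rw [hxe]
  refine (abs_sub _ _).trans ?_
  linarith only [hyY, hpρ, h7]

lemma powc_id {p a b g η δ ρ dL : ℝ} :
    exp (p * dL - p / 2 * log (1 + ρ)) -
        (1 + p * a * η + (-(p / 2) * b + p * (p + 2) / 2 * a ^ 2) * η ^ 2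
          - 2 * p * δ * b * (1 + g)) =
      (p * (dL + 2 * δ * b) - p / 2 * (ρ + 2 * a * η - b * η ^ 2 - 4 * δ * g * b)
        - p / 2 * (log (1 + ρ) - (ρ - ρ ^ 2 / 2))) +
        p * (p + 2) / 8 * ((ρ + 2 * a * η) * ((ρ + 2 * a * η) - 4 * (a * η))) +
        (p * dL + p / 2 * (ρ - log (1 + ρ))) *
          ((p * dL - p / 2 * log (1 + ρ)) - p / 2 * ρ) / 2 +
        (exp (p * dL - p / 2 * log (1 + ρ)) - (1 + (p * dL - p / 2 * log (1 + ρ)) +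
          (p * dL - p / 2 * log (1 + ρ)) ^ 2 / 2)) := by
  ring

lemma powc_core {p k M C₁ C₂ : ℝ} (hp : 0 ≤ p) (hk : 0 ≤ k) (hM : 0 ≤ M) (hC₁ : 0 ≤ C₁)
    (hC₂ : 0 ≤ C₂) :
    ∃ C : ℝ, 0 < C ∧ ∀ {a b g η δ m ρ dL : ℝ}, |a| ≤ k → 0 ≤ b → b ≤ k ^ 2 → |g| ≤ 1 →
      |η| ≤ m → m ≤ M → 0 ≤ δ → δ ≤ 1 → |ρ| ≤ 1 / 2 →
      |ρ + 2 * a * η - b * η ^ 2 - 4 * δ * g * b| ≤ C₁ * δ * (δ + m) →
      |dL + 2 * δ * b| ≤ C₂ * δ * (δ + m) →
      |exp (p * dL - p / 2 * log (1 + ρ)) -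
        (1 + p * a * η + (-(p / 2) * b + p * (p + 2) / 2 * a ^ 2) * η ^ 2
          - 2 * p * δ * b * (1 + g))| ≤ C * (δ ^ 2 + δ * m + m ^ 3) := by
  obtain ⟨R, hR⟩ : ∃ R : ℝ, R = 2 * k + k ^ 2 * M + 4 * k ^ 2 + C₁ * (1 + M) := ⟨_, rfl⟩
  obtain ⟨D, hD⟩ : ∃ D : ℝ, D = 5 * k ^ 2 + C₁ * (1 + M) := ⟨_, rfl⟩
  obtain ⟨L, hL⟩ : ∃ L : ℝ, L = 2 * k ^ 2 + C₂ * (1 + M) := ⟨_, rfl⟩
  have hR0 : 0 ≤ R := by rw [hR]; (clear * - hk hM hC₁; positivity)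
  have hD0 : 0 ≤ D := by rw [hD]; (clear * - hC₁ hM; positivity)
  have hL0 : 0 ≤ L := by rw [hL]; positivity
  obtain ⟨Y, hY⟩ : ∃ Y : ℝ, Y = p * L + 3 / 2 * p * R ^ 2 := ⟨_, rfl⟩
  have hY0 : 0 ≤ Y := by rw [hY]; (clear * - hp hL0; positivity)
  obtain ⟨X, hX⟩ : ∃ X : ℝ, X = Y * (1 + M) + p * R / 2 := ⟨_, rfl⟩
  have hX0 : 0 ≤ X := by rw [hX]; (clear * - hY0 hM hp hR0; positivity)
  obtain ⟨K, hK0, hK⟩ := powc_exp3 (X * (1 + M))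
  obtain ⟨T, hT⟩ : ∃ T : ℝ, T = 4 + 3 * M := ⟨_, rfl⟩
  have hT0 : 0 ≤ T := by rw [hT]; (clear * - hM; positivity)
  refine ⟨p * C₂ + p / 2 * C₁ + p * R ^ 3 * T + p * (p + 2) / 8 * (D * (D * (1 + M) + 4 * k)) *
    (1 + M) + Y * (X + p * R / 2) * (1 + M) / 2 + K * X ^ 3 * T + 1, by (clear * - hp hC₂ hC₁ hR0 hT0 hD0 hM hk hY0 hX0 hK0; positivity), ?_⟩
  intro a b g η δ m ρ dL ha hb0 hb hg hη hm hδ0 hδ1 hρ hr hd
  have hm0 : 0 ≤ m := (abs_nonneg η).trans hη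
  have hS : 0 ≤ δ + m := by (clear * - hδ0 hm0; positivity)
  have f1 := powc_f1 (δ := δ) hm0
  have f2 := powc_f2 hm0 hM hm hδ0
  have f3 := powc_f3 hm0 hM hm hδ0 hδ1
  rw [← hT] at f3
  have f4 := powc_f4 hm0 hM hm hδ0
  obtain ⟨hdd, hρR, hdL⟩ := powc_bounds hk hM hC₁ hC₂ ha hb0 hb hg hη hm hδ0 hδ1 hr hd
  rw [← hD] at hdd
  rw [← hR] at hρR
  rw [← hL] at hdL
  obtain ⟨hyY, hxX⟩ := powc_y hp hL0 hM hm0 hm hδ0 hδ1 hρ hρR hdL
  rw [← hY] at hyY hxX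
  rw [← hX] at hxX
  have hlog := powc_log hρ
  have hρ3 : |ρ| ^ 3 ≤ R ^ 3 * (δ + m) ^ 3 := by
    rw [← mul_pow]
    exact pow_le_pow_left₀ (abs_nonneg ρ) hρR 3
  have hpρ : |p / 2 * ρ| ≤ p * R / 2 * (δ + m) := by
    rw [abs_mul, abs_of_nonneg (by (clear * - hp; positivity) : 0 ≤ p / 2)]
    have := mul_le_mul_of_nonneg_left hρR (by (clear * - hp; positivity) : 0 ≤ p / 2)
    linarith only [this]
  have hxA : |p * dL - p / 2 * log (1 + ρ)| ≤ X * (1 + M) :=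
    hxX.trans (mul_le_mul_of_nonneg_left (by linarith only [hm, hδ1]) hX0)
  have hexp := hK _ hxA
  have hx3 : |p * dL - p / 2 * log (1 + ρ)| ^ 3 ≤ X ^ 3 * (δ + m) ^ 3 := by
    rw [← mul_pow]
    exact pow_le_pow_left₀ (abs_nonneg _) hxX 3
  have haη : |a * η| ≤ k * m := powc_mul ha hη le_rfl
  rw [powc_id]
  generalize hQ : δ ^ 2 + δ * m + m ^ 3 = Q at *
  generalize p * dL + p / 2 * (ρ - log (1 + ρ)) = y at *
  generalize p * dL - p / 2 * log (1 + ρ) = x at *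
  generalize log (1 + ρ) - (ρ - ρ ^ 2 / 2) = e3 at *
  generalize ρ + 2 * a * η - b * η ^ 2 - 4 * δ * g * b = e1 at *
  generalize dL + 2 * δ * b = e2 at *
  generalize exp x - (1 + x + x ^ 2 / 2) = e4 at *
  have b1 : |p * e2 - p / 2 * e1 - p / 2 * e3| ≤
      (p * C₂ + p / 2 * C₁ + p * R ^ 3 * T) * Q := by
    refine (abs_sub _ _).trans ?_
    have h0 := abs_sub (p * e2) (p / 2 * e1)
    rw [abs_mul, abs_mul, abs_of_nonneg hp, abs_of_nonneg (by (clear * - hp; positivity) : 0 ≤ p / 2)] at h0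
    rw [abs_mul (p / 2) e3, abs_of_nonneg (by (clear * - hp; positivity) : 0 ≤ p / 2)]
    have h1 : p * |e2| ≤ p * (C₂ * Q) := by
      refine mul_le_mul_of_nonneg_left (hd.trans ?_) hp
      rw [mul_assoc]
      exact mul_le_mul_of_nonneg_left f1 hC₂
    have h2 : p / 2 * |e1| ≤ p / 2 * (C₁ * Q) := by
      refine mul_le_mul_of_nonneg_left (hr.trans ?_) (by (clear * - hp; positivity))
      rw [mul_assoc]
      exact mul_le_mul_of_nonneg_left f1 hC₁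
    have h3 : p / 2 * |e3| ≤ p / 2 * (2 * (R ^ 3 * (T * Q))) := by
      refine mul_le_mul_of_nonneg_left (hlog.trans ?_) (by (clear * - hp; positivity))
      refine mul_le_mul_of_nonneg_left (hρ3.trans ?_) (by norm_num)
      exact mul_le_mul_of_nonneg_left f3 (by (clear * - hR0; positivity))
    linarith only [h0, h1, h2, h3]
  have b2 : |p * (p + 2) / 8 * ((ρ + 2 * a * η) * ((ρ + 2 * a * η) - 4 * (a * η)))| ≤
      p * (p + 2) / 8 * (D * (D * (1 + M) + 4 * k)) * (1 + M) * Q := by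
    have h1 : |(ρ + 2 * a * η) - 4 * (a * η)| ≤ (D * (1 + M) + 4 * k) * (δ + m) := by
      refine (abs_sub _ _).trans ?_
      have h2 : |4 * (a * η)| ≤ 4 * (k * m) := by
        rw [abs_mul, abs_of_nonneg (by norm_num : (0 : ℝ) ≤ 4)]
        linarith only [haη]
      have h3 := mul_le_mul_of_nonneg_left f4 hD0
      have h4 : 0 ≤ k * δ := by (clear * - hk hδ0; positivity)
      linarith only [hdd, h2, h3, h4]
    have h5 : |(ρ + 2 * a * η) * ((ρ + 2 * a * η) - 4 * (a * η))| ≤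
        D * (D * (1 + M) + 4 * k) * ((1 + M) * Q) := by
      refine powc_mul hdd h1 ?_
      have h6 : 0 ≤ D * (D * (1 + M) + 4 * k) := by (clear * - hD0 hM hk; positivity)
      have := mul_le_mul_of_nonneg_left f2 h6
      linarith only [this]
    rw [abs_mul, abs_of_nonneg (by (clear * - hp; positivity) : 0 ≤ p * (p + 2) / 8)]
    have := mul_le_mul_of_nonneg_left h5 (by (clear * - hp; positivity) : 0 ≤ p * (p + 2) / 8)
    linarith only [this]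
  have b3 : |y * (x - p / 2 * ρ) / 2| ≤
      Y * (X + p * R / 2) * (1 + M) / 2 * Q := by
    have h1 : |x - p / 2 * ρ| ≤ (X + p * R / 2) * (δ + m) := by
      refine (abs_sub _ _).trans ?_
      linarith only [hpρ, hxX]
    have h5 : |y * (x - p / 2 * ρ)| ≤
        Y * (X + p * R / 2) * ((1 + M) * Q) := by
      refine powc_mul hyY h1 ?_
      have h6 : 0 ≤ Y * (X + p * R / 2) := by (clear * - hY0 hX0 hp hR0; positivity)
      have := mul_le_mul_of_nonneg_left f2 h6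
      linarith only [this]
    rw [abs_div, abs_of_nonneg (by norm_num : (0 : ℝ) ≤ 2)]
    linarith only [h5]
  have b4 : |e4| ≤ K * X ^ 3 * T * Q := by
    refine hexp.trans ?_
    have h1 := mul_le_mul_of_nonneg_left (hx3.trans
      (mul_le_mul_of_nonneg_left f3 (by (clear * - hX0; positivity) : 0 ≤ X ^ 3))) hK0.le
    linarith only [h1]
  have hQ0 : 0 ≤ Q := by
    rw [← hQ]
    (clear * - hδ0 hm0; positivity)
  have h0 := abs_add_le ((p * e2 - p / 2 * e1 - p / 2 * e3) +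
        p * (p + 2) / 8 * ((ρ + 2 * a * η) * ((ρ + 2 * a * η) - 4 * (a * η))) +
        y * (x - p / 2 * ρ) / 2) e4
  have h1 := abs_add_three (p * e2 - p / 2 * e1 - p / 2 * e3)
        (p * (p + 2) / 8 * ((ρ + 2 * a * η) * ((ρ + 2 * a * η) - 4 * (a * η))))
        (y * (x - p / 2 * ρ) / 2)
  linarith only [b1, b2, b3, b4, hQ0, h0, h1]

lemma powc_crude {q k M C₁ C₂ : ℝ} (hq : 0 ≤ q) (hk : 0 ≤ k) (hM : 0 ≤ M) (hC₁ : 0 ≤ C₁)
    (hC₂ : 0 ≤ C₂) :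
    ∃ C : ℝ, 0 < C ∧ ∀ {a b g η δ m ρ dL : ℝ}, |a| ≤ k → 0 ≤ b → b ≤ k ^ 2 → |g| ≤ 1 →
      |η| ≤ m → m ≤ M → 0 ≤ δ → δ ≤ 1 → |ρ| ≤ 1 / 2 →
      |ρ + 2 * a * η - b * η ^ 2 - 4 * δ * g * b| ≤ C₁ * δ * (δ + m) →
      |dL + 2 * δ * b| ≤ C₂ * δ * (δ + m) →
      |exp (q * dL - q / 2 * log (1 + ρ)) - 1| ≤ C * (δ + m) ∧
      |exp (q * dL - q / 2 * log (1 + ρ)) / (1 + ρ) - 1| ≤ C * (δ + m) := by
  obtain ⟨R, hR⟩ : ∃ R : ℝ, R = 2 * k + k ^ 2 * M + 4 * k ^ 2 + C₁ * (1 + M) := ⟨_, rfl⟩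
  obtain ⟨L, hL⟩ : ∃ L : ℝ, L = 2 * k ^ 2 + C₂ * (1 + M) := ⟨_, rfl⟩
  have hR0 : 0 ≤ R := by rw [hR]; (clear * - hk hM hC₁; positivity)
  have hL0 : 0 ≤ L := by rw [hL]; (clear * - hC₂ hM; positivity)
  obtain ⟨X, hX⟩ : ∃ X : ℝ, X = (q * L + 3 / 2 * q * R ^ 2) * (1 + M) + q * R / 2 := ⟨_, rfl⟩
  have hX0 : 0 ≤ X := by rw [hX]; (clear * - hq hL0 hM hR0; positivity)
  obtain ⟨V, hV⟩ : ∃ V : ℝ, V = (2 * 0 + 3 / 2 * 2 * R ^ 2) * (1 + M) + 2 * R / 2 := ⟨_, rfl⟩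
  have hV0 : 0 ≤ V := by rw [hV]; (clear * - hM hR0; positivity)
  obtain ⟨K, hK0, hK⟩ := powc_exp1 ((X + V) * (1 + M))
  refine ⟨K * (X + V) + 1, by (clear * - hK0 hX0 hV0; positivity), ?_⟩
  intro a b g η δ m ρ dL ha hb0 hb hg hη hm hδ0 hδ1 hρ hr hd
  have hm0 : 0 ≤ m := (abs_nonneg η).trans hη
  have hS : 0 ≤ δ + m := by (clear * - hδ0 hm0; positivity)
  obtain ⟨-, hρR, hdL⟩ := powc_bounds hk hM hC₁ hC₂ ha hb0 hb hg hη hm hδ0 hδ1 hr hd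
  rw [← hR] at hρR
  rw [← hL] at hdL
  obtain ⟨-, hxX⟩ := powc_y hq hL0 hM hm0 hm hδ0 hδ1 hρ hρR hdL
  rw [← hX] at hxX
  obtain ⟨-, hlV⟩ := powc_y (p := 2) (L := 0) (dL := 0) (by norm_num) le_rfl hM hm0 hm hδ0 hδ1
    hρ hρR (by simp)
  rw [← hV] at hlV
  have hl : (2 : ℝ) * 0 - 2 / 2 * log (1 + ρ) = -log (1 + ρ) := by ring
  rw [hl] at hlV
  have hpos : 0 < 1 + ρ := by linarith only [(abs_le.1 hρ).1]
  have hA : ∀ x : ℝ, |x| ≤ (X + V) * (δ + m) → |exp x - 1| ≤ (K * (X + V) + 1) * (δ + m) := by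
    intro x hx
    have h1 : |x| ≤ (X + V) * (1 + M) :=
      hx.trans (mul_le_mul_of_nonneg_left (by linarith only [hm, hδ1]) (by (clear * - hX0 hV0; positivity)))
    have h2 := hK x h1
    have h3 := mul_le_mul_of_nonneg_left hx hK0.le
    linarith only [hδ0, hm0, h2, h3]
  constructor
  · apply hA
    have : 0 ≤ V * (δ + m) := by (clear * - hV0 hδ0 hm0; positivity)
    linarith only [hxX, this]
  · have e : exp (q * dL - q / 2 * log (1 + ρ)) / (1 + ρ) =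
        exp ((q * dL - q / 2 * log (1 + ρ)) + -log (1 + ρ)) := by
      rw [exp_add, exp_neg, exp_log hpos]
      rfl
    rw [e]
    apply hA
    refine (abs_add_le _ _).trans ?_
    linarith only [hxX, hlV]

lemma powc_geom_id {Z Z' e : ℂ} {δ η : ℝ} (hZ : Z ≠ 0)
    (hee : e = Z' - Z - (2 / Z) * (δ : ℂ) + (η : ℂ)) :
    (‖Z'‖ ^ 2 / ‖Z‖ ^ 2 - 1) + 2 * (Z.re / ‖Z‖ ^ 2) * η - 1 / ‖Z‖ ^ 2 * η ^ 2 -
        4 * δ * ((Z.re ^ 2 - Z.im ^ 2) / ‖Z‖ ^ 2) * (1 / ‖Z‖ ^ 2) =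
      (1 / ‖Z‖ ^ 2) * (2 * (Z.re * e.re + Z.im * e.im)) +
        (1 / ‖Z‖ ^ 2) * (‖Z' - Z‖ ^ 2 - η ^ 2) := by
  have hN : 0 < ‖Z‖ := norm_pos_iff.2 hZ
  obtain ⟨d, hd⟩ : ∃ d : ℂ, d = Z' - Z := ⟨_, rfl⟩
  have hre : ∀ x : ℂ, ‖Z + x‖ ^ 2 = ‖Z‖ ^ 2 + 2 * (Z.re * x.re + Z.im * x.im) + ‖x‖ ^ 2 := by
    intro x
    simp only [Complex.sq_norm, Complex.normSq_apply, Complex.add_re, Complex.add_im]
    ring
  have hNsq : ‖Z‖ ^ 2 = Z.re ^ 2 + Z.im ^ 2 := by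
    rw [Complex.sq_norm, Complex.normSq_apply]
    ring
  have hN2 : 0 < Z.re ^ 2 + Z.im ^ 2 := by rw [← hNsq]; positivity
  have hZ' : ‖Z'‖ ^ 2 = ‖Z‖ ^ 2 + 2 * (Z.re * d.re + Z.im * d.im) + ‖d‖ ^ 2 := by
    rw [← hre, hd]
    congr 2
    ring
  have h1 : d = (2 / Z) * (δ : ℂ) + e - (η : ℂ) := by rw [hd, hee]; ring
  have hdre : d.re = 2 * δ * Z.re / ‖Z‖ ^ 2 - η + e.re := by
    rw [h1, hNsq]
    simp only [Complex.sub_re, Complex.add_re, Complex.mul_re, Complex.div_re, Complex.re_ofNat, Complex.normSq_apply, Complex.im_ofNat, zero_mul, zero_div, add_zero, Complex.ofReal_re, Complex.div_im, zero_sub, Complex.ofReal_im, mul_zero, sub_zero]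
    field_simp
    ring
  have hdim : d.im = -(2 * δ * Z.im / ‖Z‖ ^ 2) + e.im := by
    rw [h1, hNsq]
    simp only [Complex.sub_im, Complex.add_im, Complex.mul_im, Complex.div_re, Complex.re_ofNat, Complex.normSq_apply, Complex.im_ofNat, zero_mul, zero_div, add_zero, Complex.ofReal_im, mul_zero, Complex.div_im, zero_sub, Complex.ofReal_re, neg_mul, zero_add, sub_zero, add_left_inj, neg_inj]
    (clear * - hN2; field_simp)
  have hne : ‖Z‖ ≠ 0 := hN.ne'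
  rw [← hd, hZ', hdre, hdim]
  field_simp
  ring

lemma powc_geom1 {k M C F : ℝ} {Z Z' e : ℂ} {δ m η : ℝ} (hk0 : 0 < k) (hM0 : 0 ≤ M) (hC : 0 ≤ C)
    (hF : F = 2 * k + C * (1 + M)) (hN : 0 < ‖Z‖) (hNk : 1 / ‖Z‖ ≤ k)
    (hδ : 0 ≤ δ) (hm : m ≤ M) (hη : |η| ≤ m) (hδ1 : δ ≤ 1)
    (hee : e = Z' - Z - (2 / Z) * (δ : ℂ) + (η : ℂ)) (he : ‖e‖ ≤ C * δ * (δ + m)) :
    |(‖Z'‖ ^ 2 / ‖Z‖ ^ 2 - 1) + 2 * (Z.re / ‖Z‖ ^ 2) * η - 1 / ‖Z‖ ^ 2 * η ^ 2 -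
        4 * δ * ((Z.re ^ 2 - Z.im ^ 2) / ‖Z‖ ^ 2) * (1 / ‖Z‖ ^ 2)| ≤
      (2 * k * C + k ^ 2 * (F * (F + 2))) * δ * (δ + m) := by
  have hF0 : 0 ≤ F := by rw [hF]; (clear * - hk0 hC hM0; positivity)
  have hm0 : 0 ≤ m := (abs_nonneg η).trans hη
  have hZ0 : Z ≠ 0 := norm_pos_iff.1 hN
  rw [powc_geom_id hZ0 hee]
  obtain ⟨d, hd⟩ : ∃ d : ℂ, d = Z' - Z := ⟨_, rfl⟩
  rw [← hd]
  have hde : d + (η : ℂ) = (2 / Z) * (δ : ℂ) + e := by rw [hd, hee]; ring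
  have he' : ‖e‖ ≤ C * (1 + M) * δ := by
    refine he.trans ?_
    have := mul_le_mul_of_nonneg_left (by linarith only [hm, hδ1] : δ + m ≤ 1 + M) (mul_nonneg hC hδ)
    linarith only [this]
  have hn2 : ‖(2 / Z) * (δ : ℂ)‖ ≤ 2 * k * δ := by
    rw [norm_mul, norm_div, Complex.norm_real, Real.norm_of_nonneg hδ]
    have : ‖(2 : ℂ)‖ / ‖Z‖ = 2 * (1 / ‖Z‖) := by
      rw [Complex.norm_ofNat]
      ring
    rw [this]
    exact mul_le_mul_of_nonneg_right (mul_le_mul_of_nonneg_left hNk (by norm_num)) hδ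
  have hdη : ‖d + (η : ℂ)‖ ≤ F * δ := by
    rw [hde]
    refine (norm_add_le _ _).trans ?_
    rw [hF]
    linarith only [he', hn2]
  -- ‖d‖² versus η²
  have hdn : |‖d‖ ^ 2 - η ^ 2| ≤ F * (F + 2) * δ * (δ + m) := by
    have h1 : |(‖d‖ - |η|)| ≤ F * δ := by
      have h2 := abs_norm_sub_norm_le d (-(η : ℂ))
      rw [norm_neg, Complex.norm_real, Real.norm_eq_abs, sub_neg_eq_add] at h2
      exact h2.trans hdη
    have h3 : ‖d‖ ^ 2 - η ^ 2 = (‖d‖ - |η|) * (‖d‖ + |η|) := by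
      rw [← sq_abs η]
      ring
    have h4 : |(‖d‖ + |η|)| ≤ F * δ + 2 * m := by
      rw [abs_of_nonneg (by (clear * -; positivity))]
      have := (abs_le.1 h1).2
      linarith only [hη, this]
    rw [h3]
    refine powc_mul h1 h4 ?_
    have h5 : 0 ≤ F * F * (δ * m) := by (clear * - hF0 hδ hm0; positivity)
    have h6 : 0 ≤ F * (δ * δ) := by (clear * - hF0 hδ; positivity)
    linarith only [h5, h6]
  have hcs : |Z.re * e.re + Z.im * e.im| ≤ ‖Z‖ * ‖e‖ := by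
    have h1 : Z.re * e.re + Z.im * e.im = ((starRingEnd ℂ) Z * e).re := by
      simp only [Complex.mul_re, Complex.conj_re, Complex.conj_im, neg_mul, sub_neg_eq_add]
    rw [h1]
    refine (Complex.abs_re_le_norm _).trans ?_
    rw [norm_mul, RCLike.norm_conj]
  have hNk0 : 0 < 1 / ‖Z‖ := by (clear * - hZ0; positivity)
  have hk2 : 1 / ‖Z‖ ^ 2 ≤ k ^ 2 := by
    have : 1 / ‖Z‖ ^ 2 = (1 / ‖Z‖) ^ 2 := by ring
    rw [this]
    exact pow_le_pow_left₀ hNk0.le hNk 2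
  refine (abs_add_le _ _).trans ?_
  have h1 : |1 / ‖Z‖ ^ 2 * (2 * (Z.re * e.re + Z.im * e.im))| ≤ 2 * k * C * (δ * (δ + m)) := by
    rw [abs_mul, abs_mul, abs_of_nonneg (by positivity : 0 ≤ 1 / ‖Z‖ ^ 2),
      abs_of_nonneg (by norm_num : (0 : ℝ) ≤ 2)]
    have h2 : 1 / ‖Z‖ ^ 2 * (2 * |Z.re * e.re + Z.im * e.im|) ≤
        1 / ‖Z‖ ^ 2 * (2 * (‖Z‖ * ‖e‖)) :=
      mul_le_mul_of_nonneg_left (mul_le_mul_of_nonneg_left hcs (by norm_num)) (by positivity)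
    have h3 : 1 / ‖Z‖ ^ 2 * (2 * (‖Z‖ * ‖e‖)) = 2 * ((1 / ‖Z‖) * ‖e‖) := by
      (clear * - hZ0; field_simp)
    have h4 : (1 / ‖Z‖) * ‖e‖ ≤ k * (C * δ * (δ + m)) :=
      mul_le_mul hNk he (norm_nonneg _) hk0.le
    rw [h3] at h2
    linarith only [h2, h4]
  have h5 : |1 / ‖Z‖ ^ 2 * (‖d‖ ^ 2 - η ^ 2)| ≤ k ^ 2 * (F * (F + 2) * δ * (δ + m)) := by
    rw [abs_mul, abs_of_nonneg (by positivity : 0 ≤ 1 / ‖Z‖ ^ 2)]
    exact mul_le_mul hk2 hdn (abs_nonneg _) (by positivity)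
  linarith only [h1, h5]

lemma powc_half {k M C₁ a b g η δ m ρ : ℝ} (hC₁0 : 0 ≤ C₁)
    (hb0 : 0 ≤ b) (hb : b ≤ k ^ 2) (hg : |g| ≤ 1) (hm : m ≤ M) (hδ : 0 ≤ δ) (hδ1 : δ ≤ 1)
    (h1 : |2 * a * η| ≤ 1 / 4) (h2 : |b * η ^ 2| ≤ 1 / 64)
    (h5 : (4 * k ^ 2 + C₁ * (1 + M)) * δ ≤ 1 / 8)
    (hfirst : |ρ + 2 * a * η - b * η ^ 2 - 4 * δ * g * b| ≤ C₁ * δ * (δ + m)) :
    |ρ| ≤ 1 / 2 := by
  have h3 : |4 * δ * g * b| ≤ 4 * δ * k ^ 2 := by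
    refine powc_mul (A := 4 * δ) (B := k ^ 2) ?_ ?_ le_rfl
    · exact powc_mul (A := 4 * δ) (B := 1) (by rw [abs_of_nonneg (by positivity)]) hg (by simp)
    · rwa [abs_of_nonneg hb0]
  have h4 : C₁ * δ * (δ + m) ≤ C₁ * (1 + M) * δ := by
    have := mul_le_mul_of_nonneg_left (by linarith only [hm, hδ1] : δ + m ≤ 1 + M) (mul_nonneg hC₁0 hδ)
    linarith only [this]
  have a0 := abs_le.1 hfirst
  have a1 := abs_le.1 h1
  have a2 := abs_le.1 h2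
  have a3 := abs_le.1 h3
  rw [abs_le]
  constructor <;> linarith only [h5, h4, a0, a1, a2, a3]

/-- The data `a = Re Z/|Z|²`, `b = 1/|Z|²`, `g = cos² - sin²`. -/
lemma powc_data {k : ℝ} {Z : ℂ} (hN : 0 < ‖Z‖) (hNk : 1 / ‖Z‖ ≤ k) :
    |Z.re / ‖Z‖ ^ 2| ≤ 1 / ‖Z‖ ∧ |Z.re / ‖Z‖ ^ 2| ≤ k ∧ 0 ≤ 1 / ‖Z‖ ^ 2 ∧
      1 / ‖Z‖ ^ 2 ≤ k ^ 2 ∧ |(Z.re ^ 2 - Z.im ^ 2) / ‖Z‖ ^ 2| ≤ 1 := by
  have hNk0 : 0 < 1 / ‖Z‖ := by positivity
  have hNsq : ‖Z‖ ^ 2 = Z.re ^ 2 + Z.im ^ 2 := by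
    rw [Complex.sq_norm, Complex.normSq_apply]
    ring
  have hare : |Z.re / ‖Z‖ ^ 2| ≤ 1 / ‖Z‖ := by
    rw [abs_div, abs_of_nonneg (by positivity : 0 ≤ ‖Z‖ ^ 2)]
    rw [div_le_div_iff₀ (by positivity) hN]
    have := Complex.abs_re_le_norm Z
    nlinarith only [hN, this]
  refine ⟨hare, hare.trans hNk, by positivity, ?_, ?_⟩
  · have : 1 / ‖Z‖ ^ 2 = (1 / ‖Z‖) ^ 2 := by ring
    rw [this]
    exact pow_le_pow_left₀ hNk0.le hNk 2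
  · rw [abs_div, abs_of_nonneg (by positivity : 0 ≤ ‖Z‖ ^ 2), div_le_one (by positivity), hNsq,
      abs_le]
    constructor <;> nlinarith only []

lemma powc_geom {ϰ C : ℝ} (hϰ : 0 < ϰ) (hC : 0 ≤ C) :
    ∃ C₁ δ₀ : ℝ, 0 ≤ C₁ ∧ 0 < δ₀ ∧ δ₀ ≤ 1 ∧ ∀ {Z Z' : ℂ} {δ m η : ℝ}, ϰ ≤ ‖Z‖ → 0 ≤ δ → δ ≤ δ₀ →
      m ≤ ϰ / 8 → |η| ≤ m → ‖Z' - Z - (2 / Z) * (δ : ℂ) + (η : ℂ)‖ ≤ C * δ * (δ + m) →
      |(‖Z'‖ ^ 2 / ‖Z‖ ^ 2 - 1) + 2 * (Z.re / ‖Z‖ ^ 2) * η - 1 / ‖Z‖ ^ 2 * η ^ 2 -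
        4 * δ * ((Z.re ^ 2 - Z.im ^ 2) / ‖Z‖ ^ 2) * (1 / ‖Z‖ ^ 2)| ≤ C₁ * δ * (δ + m) ∧
      |‖Z'‖ ^ 2 / ‖Z‖ ^ 2 - 1| ≤ 1 / 2 := by
  obtain ⟨k, hk⟩ : ∃ k : ℝ, k = 1 / ϰ := ⟨_, rfl⟩
  have hk0 : 0 < k := by rw [hk]; positivity
  obtain ⟨M, hM⟩ : ∃ M : ℝ, M = ϰ / 8 := ⟨_, rfl⟩
  have hM0 : 0 ≤ M := by rw [hM]; positivity
  obtain ⟨F, hF⟩ : ∃ F : ℝ, F = 2 * k + C * (1 + M) := ⟨_, rfl⟩
  have hF0 : 0 ≤ F := by rw [hF]; (clear * - hk0 hC hM0; positivity)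
  obtain ⟨C₁, hC₁⟩ : ∃ C₁ : ℝ, C₁ = 2 * k * C + k ^ 2 * (F * (F + 2)) := ⟨_, rfl⟩
  have hC₁0 : 0 ≤ C₁ := by rw [hC₁]; (clear * - hk0 hC hF0; positivity)
  obtain ⟨δ₀, hδ₀⟩ : ∃ δ₀ : ℝ, δ₀ = 1 / (8 * (4 * k ^ 2 + C₁ * (1 + M) + 1)) := ⟨_, rfl⟩
  have hG0 : 0 < 4 * k ^ 2 + C₁ * (1 + M) + 1 := by (clear * - hk0 hC₁0 hM0; positivity)
  have hδ₀0 : 0 < δ₀ := by rw [hδ₀]; positivity
  have hδ₀1 : δ₀ ≤ 1 := by
    rw [hδ₀, div_le_one (by (clear * - hk0 hC₁0 hM0; positivity))]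
    have : 0 ≤ 4 * k ^ 2 + C₁ * (1 + M) := by (clear * - hk0 hC₁0 hM0; positivity)
    linarith only [this]
  refine ⟨C₁, δ₀, hC₁0, hδ₀0, hδ₀1, ?_⟩
  intro Z Z' δ m η hZ hδ hδδ hm hη he
  have hm0 : 0 ≤ m := (abs_nonneg η).trans hη
  have hN : 0 < ‖Z‖ := hϰ.trans_le hZ
  have hNk : 1 / ‖Z‖ ≤ k := by
    rw [hk]
    exact one_div_le_one_div_of_le hϰ hZ
  have hδ1 : δ ≤ 1 := hδδ.trans hδ₀1
  rw [← hM] at hm
  have hfirst := powc_geom1 hk0 hM0 hC hF hN hNk hδ hm hη hδ1 rfl he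
  rw [← hC₁] at hfirst
  refine ⟨hfirst, ?_⟩
  obtain ⟨d1, d2, d3, d4, d5⟩ := powc_data hN hNk
  have hη8 : 1 / ‖Z‖ * |η| ≤ 1 / 8 := by
    have h1 : |η| ≤ ‖Z‖ / 8 := hη.trans (by rw [hM] at hm; linarith only [hZ, hm])
    rw [div_mul_eq_mul_div, div_le_iff₀ hN]
    linarith only [hM, hZ, hm, hη]
  refine powc_half hC₁0 d3 d4 d5 hm hδ hδ1 ?_ ?_ ?_ hfirst
  · rw [abs_mul, abs_mul, abs_of_nonneg (by norm_num : (0 : ℝ) ≤ 2)]
    have := mul_le_mul_of_nonneg_right d1 (abs_nonneg η)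
    linarith only [hη8, this]
  · have e1 : 1 / ‖Z‖ ^ 2 * η ^ 2 = (1 / ‖Z‖ * |η|) ^ 2 := by
      rw [mul_pow, sq_abs]
      ring
    rw [e1, abs_of_nonneg (by (clear * -; positivity))]
    calc (1 / ‖Z‖ * |η|) ^ 2 ≤ (1 / 8) ^ 2 := pow_le_pow_left₀ (by (clear * - hN; positivity)) hη8 2
      _ = 1 / 64 := by norm_num
  · have h6 : (4 * k ^ 2 + C₁ * (1 + M) + 1) * δ ≤ (4 * k ^ 2 + C₁ * (1 + M) + 1) * δ₀ :=
      mul_le_mul_of_nonneg_left hδδ hG0.le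
    have h7 : (4 * k ^ 2 + C₁ * (1 + M) + 1) * δ₀ = 1 / 8 := by
      rw [hδ₀]
      (clear * - hk0 hC₁0 hM0; field_simp)
    linarith only [hδ, h6, h7]

/-- Powers of the ratio `Im Z/|Z|` through exponentials. -/
lemma powc_ratio {Z Z' : ℂ} (h : 0 < Z.im) (h' : 0 < Z'.im) (p : ℝ) :
    (Z'.im / ‖Z'‖) ^ p = (Z.im / ‖Z‖) ^ p * exp (p * (log Z'.im - log Z.im) -
      p / 2 * log (1 + (‖Z'‖ ^ 2 / ‖Z‖ ^ 2 - 1))) := by
  have hZ : 0 < ‖Z‖ := norm_pos_iff.2 fun h0 => by simp [h0] at h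
  have hZ' : 0 < ‖Z'‖ := norm_pos_iff.2 fun h0 => by simp [h0] at h'
  rw [rpow_def_of_pos (by positivity), rpow_def_of_pos (by positivity), ← exp_add,
    log_div h'.ne' hZ'.ne', log_div h.ne' hZ.ne']
  have e : (1 : ℝ) + (‖Z'‖ ^ 2 / ‖Z‖ ^ 2 - 1) = ‖Z'‖ ^ 2 / ‖Z‖ ^ 2 := by ring
  rw [e, log_div (by positivity) (by positivity), log_pow, log_pow]
  congr 1
  push_cast
  ring

end Vale.Agent.P164
end

section

/-!
# One-step expansion of the powers of the sine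
-/

namespace Vale.Agent.P164

open Set Metric Filter Topology MeasureTheory

/-- The common preparation: one step from `t` to `t + δ` in terms of `ρ` and `dL`. -/
lemma pow_prep {ϰ : ℝ} (hϰ : 0 < ϰ) :
    ∃ C₁ C₂ δ₀ : ℝ, 0 ≤ C₁ ∧ 0 ≤ C₂ ∧ 0 < δ₀ ∧ δ₀ ≤ 1 ∧
      ∀ {W : ℝ → ℝ} (_ : Continuous W) {z : ℂ} {t : ℝ} (_ : 0 ≤ t)
      (_ : z ∈ loewnerDomain W t) (_ : ϰ ≤ ‖Zf W z t‖) {δ m : ℝ} (_ : 0 ≤ δ) (_ : δ ≤ δ₀)
      (_ : m ≤ ϰ / 8) (_ : ∀ u ∈ Icc t (t + δ), |W u - W t| ≤ m),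
      ∃ ρ dL : ℝ, |ρ| ≤ 1 / 2 ∧ ‖Zf W z (t + δ)‖ ^ 2 = ‖Zf W z t‖ ^ 2 * (1 + ρ) ∧
        (∀ p : ℝ, sn (Zf W z (t + δ)) ^ p = sn (Zf W z t) ^ p *
          Real.exp (p * dL - p / 2 * Real.log (1 + ρ))) ∧
        |ρ + 2 * ((Zf W z t).re / ‖Zf W z t‖ ^ 2) * (W (t + δ) - W t) -
          1 / ‖Zf W z t‖ ^ 2 * (W (t + δ) - W t) ^ 2 -
          4 * δ * (((Zf W z t).re ^ 2 - (Zf W z t).im ^ 2) / ‖Zf W z t‖ ^ 2) *
            (1 / ‖Zf W z t‖ ^ 2)| ≤ C₁ * δ * (δ + m) ∧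
        |dL + 2 * δ * (1 / ‖Zf W z t‖ ^ 2)| ≤ C₂ * δ * (δ + m) := by
  obtain ⟨C, δ₁, hC, hδ₁, h1⟩ := one_step hϰ
  obtain ⟨C₁, δ₂, hC₁, hδ₂, hδ₂1, h2⟩ := powc_geom hϰ hC.le
  refine ⟨C₁, C, min δ₁ δ₂, hC₁, hC.le, lt_min hδ₁ hδ₂, (min_le_right _ _).trans hδ₂1, ?_⟩
  intro W hW z t ht hz hκ δ m hδ hδδ hm hosc
  obtain ⟨hz', h3⟩ := h1 hW ht hz hκ hδ (hδδ.trans (min_le_left _ _)) hm hosc
  obtain ⟨-, -, h4, h5, -⟩ := h3 (t + δ) ⟨by linarith only [hδ], le_rfl⟩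
  rw [add_sub_cancel_left] at h4 h5
  have hη : |W (t + δ) - W t| ≤ m := hosc _ ⟨by linarith only [hδ], le_rfl⟩
  obtain ⟨h6, h7⟩ := h2 hκ hδ (hδδ.trans (min_le_right _ _)) hm hη h4
  have hN : 0 < ‖Zf W z t‖ := Zf_norm_pos ht hz
  refine ⟨_, Real.log (Zf W z (t + δ)).im - Real.log (Zf W z t).im, h7, ?_, ?_, h6, ?_⟩
  · field_simp
    ring
  · intro p
    exact powc_ratio (Zf_im_pos ht hz) (Zf_im_pos (by linarith only [ht, hδ]) hz') p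
  · have e : 2 * δ * (1 / ‖Zf W z t‖ ^ 2) = 2 * δ / ‖Zf W z t‖ ^ 2 := by ring
    rw [e]
    exact h5

/-- Second-order relative expansion of `sn ^ p` over a short time step. -/
theorem one_step_pow {ϰ p : ℝ} (hϰ : 0 < ϰ) (hp : 0 ≤ p) :
    ∃ C δ₀ : ℝ, 0 < C ∧ 0 < δ₀ ∧ ∀ {W : ℝ → ℝ} (_ : Continuous W) {z : ℂ} {t : ℝ} (_ : 0 ≤ t)
      (_ : z ∈ loewnerDomain W t) (_ : ϰ ≤ ‖Zf W z t‖) {δ m : ℝ} (_ : 0 ≤ δ) (_ : δ ≤ δ₀)
      (_ : m ≤ ϰ / 8) (_ : ∀ u ∈ Icc t (t + δ), |W u - W t| ≤ m),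
        |sn (Zf W z (t + δ)) ^ p - sn (Zf W z t) ^ p *
            (1 + p * ((Zf W z t).re / ‖Zf W z t‖ ^ 2) * (W (t + δ) - W t)
              + (-(p / 2) / ‖Zf W z t‖ ^ 2 + p * (p + 2) / 2 * cs (Zf W z t) ^ 2 / ‖Zf W z t‖ ^ 2)
                * (W (t + δ) - W t) ^ 2
              - 4 * p * δ * cs (Zf W z t) ^ 2 / ‖Zf W z t‖ ^ 2)| ≤
          C * sn (Zf W z t) ^ p * (δ ^ 2 + δ * m + m ^ 3) := by
  obtain ⟨C₁, C₂, δ₀, hC₁, hC₂, hδ₀, hδ₀1, h⟩ := pow_prep hϰ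
  obtain ⟨C, hC, hc⟩ := powc_core (p := p) (k := 1 / ϰ) (M := ϰ / 8) hp (by positivity)
    (by positivity) hC₁ hC₂
  refine ⟨C, δ₀, hC, hδ₀, ?_⟩
  intro W hW z t ht hz hκ δ m hδ hδδ hm hosc
  obtain ⟨ρ, dL, hρ, -, hpow, hr, hd⟩ := h hW ht hz hκ hδ hδδ hm hosc
  have hN : 0 < ‖Zf W z t‖ := Zf_norm_pos ht hz
  have hNk : 1 / ‖Zf W z t‖ ≤ 1 / ϰ := one_div_le_one_div_of_le hϰ hκ
  obtain ⟨-, d2, d3, d4, d5⟩ := powc_data hN hNk
  have hη : |W (t + δ) - W t| ≤ m := hosc _ ⟨by linarith only [hδ], le_rfl⟩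
  have key := hc d2 d3 d4 d5 hη hm hδ (hδδ.trans hδ₀1) hρ hr hd
  have hs : 0 < sn (Zf W z t) ^ p := Real.rpow_pos_of_pos (sn_pos (Zf_im_pos ht hz)) p
  have hNsq : ‖Zf W z t‖ ^ 2 = (Zf W z t).re ^ 2 + (Zf W z t).im ^ 2 := by
    rw [Complex.sq_norm, Complex.normSq_apply]
    ring
  have hg : 1 + ((Zf W z t).re ^ 2 - (Zf W z t).im ^ 2) / ‖Zf W z t‖ ^ 2 =
      2 * (Zf W z t).re ^ 2 / ‖Zf W z t‖ ^ 2 := by
    rw [eq_div_iff (by (clear * - hN; positivity)), add_mul, div_mul_cancel₀ _ (by positivity), hNsq]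
    ring
  have e : (1 + p * ((Zf W z t).re / ‖Zf W z t‖ ^ 2) * (W (t + δ) - W t)
              + (-(p / 2) / ‖Zf W z t‖ ^ 2 + p * (p + 2) / 2 * cs (Zf W z t) ^ 2 / ‖Zf W z t‖ ^ 2)
                * (W (t + δ) - W t) ^ 2
              - 4 * p * δ * cs (Zf W z t) ^ 2 / ‖Zf W z t‖ ^ 2) =
      1 + p * ((Zf W z t).re / ‖Zf W z t‖ ^ 2) * (W (t + δ) - W t) +
        (-(p / 2) * (1 / ‖Zf W z t‖ ^ 2) + p * (p + 2) / 2 *
          ((Zf W z t).re / ‖Zf W z t‖ ^ 2) ^ 2) * (W (t + δ) - W t) ^ 2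
          - 2 * p * δ * (1 / ‖Zf W z t‖ ^ 2) *
            (1 + ((Zf W z t).re ^ 2 - (Zf W z t).im ^ 2) / ‖Zf W z t‖ ^ 2) := by
    rw [hg]
    unfold cs
    field_simp
    ring
  rw [e, hpow p, ← mul_sub, abs_mul, abs_of_pos hs]
  have := mul_le_mul_of_nonneg_left key hs.le
  linarith only [this]

/-- Crude relative continuity over a short time step. -/
theorem one_step_rew {ϰ q : ℝ} (hϰ : 0 < ϰ) (hq : 0 ≤ q) :
    ∃ C δ₀ : ℝ, 0 < C ∧ 0 < δ₀ ∧ ∀ {W : ℝ → ℝ} (_ : Continuous W) {z : ℂ} {t : ℝ} (_ : 0 ≤ t)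
      (_ : z ∈ loewnerDomain W t) (_ : ϰ ≤ ‖Zf W z t‖) {δ m : ℝ} (_ : 0 ≤ δ) (_ : δ ≤ δ₀)
      (_ : m ≤ ϰ / 8) (_ : ∀ u ∈ Icc t (t + δ), |W u - W t| ≤ m) (u : ℝ) (_ : u ∈ Icc t (t + δ)),
        |sn (Zf W z u) ^ q - sn (Zf W z t) ^ q| ≤ C * sn (Zf W z t) ^ q * (δ + m) ∧
        |sn (Zf W z u) ^ q / ‖Zf W z u‖ ^ 2 - sn (Zf W z t) ^ q / ‖Zf W z t‖ ^ 2| ≤
          C * sn (Zf W z t) ^ q * (δ + m) := by
  obtain ⟨C₁, C₂, δ₀, hC₁, hC₂, hδ₀, hδ₀1, h⟩ := pow_prep hϰ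
  obtain ⟨C, hC, hc⟩ := powc_crude (q := q) (k := 1 / ϰ) (M := ϰ / 8) hq (by positivity)
    (by positivity) hC₁ hC₂
  refine ⟨C * (1 + (1 / ϰ) ^ 2), δ₀, by positivity, hδ₀, ?_⟩
  intro W hW z t ht hz hκ δ' m hδ' hδδ' hm hosc u hu
  obtain ⟨δ, hδu⟩ : ∃ δ : ℝ, δ = u - t := ⟨_, rfl⟩
  have hut : u = t + δ := by rw [hδu]; ring
  have hδ : 0 ≤ δ := by rw [hδu]; linarith only [hu.1]
  have hδle : δ ≤ δ' := by rw [hδu]; linarith only [hu.2]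
  have hδδ : δ ≤ δ₀ := hδle.trans hδδ'
  have hosc' : ∀ v ∈ Icc t (t + δ), |W v - W t| ≤ m := fun v hv =>
    hosc v ⟨hv.1, hv.2.trans (by linarith only [hδle])⟩
  obtain ⟨ρ, dL, hρ, hn, hpow, hr, hd⟩ := h hW ht hz hκ hδ hδδ hm hosc'
  have hN : 0 < ‖Zf W z t‖ := Zf_norm_pos ht hz
  have hNk : 1 / ‖Zf W z t‖ ≤ 1 / ϰ := one_div_le_one_div_of_le hϰ hκ
  obtain ⟨-, d2, d3, d4, d5⟩ := powc_data hN hNk
  have hη : |W (t + δ) - W t| ≤ m := hosc' _ ⟨by linarith only [hδ], le_rfl⟩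
  obtain ⟨k1, k2⟩ := hc d2 d3 d4 d5 hη hm hδ (hδδ.trans hδ₀1) hρ hr hd
  have hs : 0 < sn (Zf W z t) ^ q := Real.rpow_pos_of_pos (sn_pos (Zf_im_pos ht hz)) q
  have hm0 : 0 ≤ m := (abs_nonneg _).trans hη
  have hpos : 0 < 1 + ρ := by linarith only [(abs_le.1 hρ).1]
  have hle : C * (δ + m) ≤ C * (δ' + m) := mul_le_mul_of_nonneg_left (by linarith only [hδle]) hC.le
  have hk2 : 0 ≤ (1 / ϰ) ^ 2 := by positivity
  have hS : 0 ≤ C * (δ' + m) := by (clear * - hC hδ' hm0; positivity)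
  rw [hut]
  constructor
  · rw [hpow q]
    have e : sn (Zf W z t) ^ q * Real.exp (q * dL - q / 2 * Real.log (1 + ρ)) -
        sn (Zf W z t) ^ q =
        sn (Zf W z t) ^ q * (Real.exp (q * dL - q / 2 * Real.log (1 + ρ)) - 1) := by ring
    rw [e, abs_mul, abs_of_pos hs]
    have h3 := mul_le_mul_of_nonneg_left (k1.trans hle) hs.le
    have h4 : 0 ≤ sn (Zf W z t) ^ q * ((1 / ϰ) ^ 2 * (C * (δ' + m))) := by (clear * - hs hϰ hC hδ' hm0; positivity)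
    linarith only [h3, h4]
  · rw [hpow q, hn]
    have e : sn (Zf W z t) ^ q * Real.exp (q * dL - q / 2 * Real.log (1 + ρ)) /
          (‖Zf W z t‖ ^ 2 * (1 + ρ)) - sn (Zf W z t) ^ q / ‖Zf W z t‖ ^ 2 =
        sn (Zf W z t) ^ q * (1 / ‖Zf W z t‖ ^ 2 *
          (Real.exp (q * dL - q / 2 * Real.log (1 + ρ)) / (1 + ρ) - 1)) := by
      (clear * - hpos hN hs; field_simp)
    rw [e, abs_mul, abs_of_pos hs, abs_mul, abs_of_nonneg d3]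
    have h3 : 1 / ‖Zf W z t‖ ^ 2 *
        |Real.exp (q * dL - q / 2 * Real.log (1 + ρ)) / (1 + ρ) - 1| ≤
        (1 / ϰ) ^ 2 * (C * (δ' + m)) :=
      mul_le_mul d4 (k2.trans hle) (abs_nonneg _) hk2
    have h4 := mul_le_mul_of_nonneg_left h3 hs.le
    have h5 : 0 ≤ sn (Zf W z t) ^ q * (C * (δ' + m)) := by (clear * - hs hC hδ' hm0; positivity)
    linarith only [h4, h5]

end Vale.Agent.P164
end

section

/-!
# One-step expansion of the field functional (deterministic)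
-/

namespace Vale.Agent.P164

open Set Metric Filter Topology MeasureTheory

lemma Band.continuous {u₁ : ℝ} {f f' : ℝ → ℝ} (h : Band u₁ f f') : Continuous f :=
  continuous_iff_continuousAt.2 fun U => (h.deriv U).continuousAt

lemma continuous_of_lip_abs {f : ℝ → ℝ} {C : ℝ} (hC : ∀ U V, |f U - f V| ≤ C * |U - V|) :
    Continuous f := by
  have hL : LipschitzWith (Real.toNNReal C) f := by
    refine LipschitzWith.of_dist_le_mul fun U V => ?_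
    rw [Real.dist_eq, Real.dist_eq]
    exact (hC U V).trans (mul_le_mul_of_nonneg_right (Real.le_coe_toNNReal C) (abs_nonneg _))
  exact hL.continuous

lemma Band.continuous_deriv {u₁ : ℝ} {f f' : ℝ → ℝ} (h : Band u₁ f f') : Continuous f' := by
  obtain ⟨C, hC⟩ := h.lip
  exact continuous_of_lip_abs hC

lemma BandRew.continuous {u₁ : ℝ} {f : ℝ → ℝ} (h : BandRew u₁ f) : Continuous f := by
  obtain ⟨C, hC⟩ := h.lip
  exact continuous_of_lip_abs hC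

lemma Band.supp_deriv {u₁ : ℝ} {f f' : ℝ → ℝ} (h : Band u₁ f f') {U : ℝ} (hU : U ≤ u₁) :
    f' U = 0 := by
  have h1 : HasDerivWithinAt f (f' U) (Iic U) U := (h.deriv U).hasDerivWithinAt
  have h2 : HasDerivWithinAt f 0 (Iic U) U :=
    (hasDerivWithinAt_const U (Iic U) (0 : ℝ)).congr
      (fun V hV => h.supp V (le_trans hV hU)) (h.supp U hU)
  exact (uniqueDiffWithinAt_Iic U).eq_deriv _ h1 h2

lemma Band.second {u₁ : ℝ} {f f' : ℝ → ℝ} (h : Band u₁ f f') :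
    ∃ L, 0 ≤ L ∧ ∀ U V, |f V - f U - f' U * (V - U)| ≤ L * |V - U| ^ 2 := by
  obtain ⟨L, hL⟩ := h.lip
  refine ⟨|L|, abs_nonneg L, fun U V => ?_⟩
  have key := Convex.norm_image_sub_le_of_norm_hasDerivWithin_le
    (f := fun x => f x - f' U * x) (f' := fun x => f' x - f' U) (s := uIcc U V)
    (x := U) (y := V) (C := |L| * |V - U|)
    (fun x _ => (((h.deriv x).sub ((hasDerivAt_id x).const_mul (f' U))).congr_deriv
      (by simp)).hasDerivWithinAt)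
    (fun x hx => ?_) (convex_uIcc U V) left_mem_uIcc right_mem_uIcc
  · have e : f V - f U - f' U * (V - U) = (f V - f' U * V) - (f U - f' U * U) := by ring
    rw [e]
    refine key.trans (le_of_eq ?_)
    rw [Real.norm_eq_abs]
    ring
  · rw [Real.norm_eq_abs]
    refine (hL x U).trans ?_
    have h1 : |x - U| ≤ |V - U| := abs_sub_left_of_mem_uIcc hx
    exact mul_le_mul (le_abs_self L) h1 (abs_nonneg _) (abs_nonneg _)

lemma sn_nonneg_of_im {Z : ℂ} (h : 0 ≤ Z.im) : 0 ≤ sn Z := div_nonneg h (norm_nonneg _)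

lemma cs_sq_le_one (Z : ℂ) : cs Z ^ 2 ≤ 1 := by
  rcases eq_or_ne Z 0 with h | h
  · simp only [cs, h, Complex.zero_re, norm_zero, div_zero, ne_eq, OfNat.ofNat_ne_zero, not_false_eq_true, zero_pow, zero_le_one]
  · have := sn_sq_add_cs_sq h
    nlinarith only [this]

lemma sn_sq_le_one (Z : ℂ) : sn Z ^ 2 ≤ 1 := by
  rcases eq_or_ne Z 0 with h | h
  · simp only [sn, h, Complex.zero_im, norm_zero, div_zero, ne_eq, OfNat.ofNat_ne_zero, not_false_eq_true, zero_pow, zero_le_one]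
  · have := sn_sq_add_cs_sq h
    nlinarith only [this]

lemma sn_rpow_le_one {Z : ℂ} (h : 0 ≤ Z.im) {p : ℝ} (hp : 0 ≤ p) :
    0 ≤ sn Z ^ p ∧ sn Z ^ p ≤ 1 :=
  ⟨Real.rpow_nonneg (sn_nonneg_of_im h) _,
    Real.rpow_le_one (sn_nonneg_of_im h) (sn_le_one Z) hp⟩

lemma field_term_alg (c0 c1 c0' S S' X N η δ p κ s2 k2 D : ℝ) :
    c1 * S' - c0 * S + η * (c0 * (-p * (X / N)) * S)
      - η ^ 2 / 2 * (c0 * ((p * (p + 2) * k2 - p) / N) * S)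
      - δ * ((c0 * (p * (-κ / 2 + (κ / 2 * p - 4 + κ) * k2)) - 4 * s2 * c0') * S / N
          - κ / 2 * (c0 * ((p * (p + 2) * k2 - p) / N) * S)) =
      c0 * (S' - S * (1 + p * (X / N) * η
              + (-(p / 2) / N + p * (p + 2) / 2 * k2 / N) * η ^ 2
              - 4 * p * δ * k2 / N)) - c0' * (4 * δ * s2 / N) * (S' - S)
        + c0' * (D + 4 * δ * s2 / N) * S' + (c1 - c0 - c0' * D) * S' := by
  simp only [div_eq_mul_inv]
  ring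

lemma field_term_bound {c0 c1 c0' S S' X N η δ m p κ s2 k2 D B C₀ C₁ C₂ L ϰ d₀ : ℝ}
    (hϰ : 0 < ϰ) (hd₀ : 0 < d₀) (hB0 : 0 ≤ B) (hC₀ : 0 < C₀) (hC₁ : 0 < C₁) (hC₂ : 0 < C₂)
    (hL0 : 0 ≤ L) (hδ : 0 ≤ δ) (hm0 : 0 ≤ m) (e0 : δ ≤ d₀) (hm : m ≤ ϰ / 8)
    (hS1 : S ≤ 1) (hS'0 : 0 ≤ S') (hS'1 : S' ≤ 1)
    (hN : ϰ ^ 2 ≤ N) (hs2 : 0 ≤ s2) (hs2' : s2 ≤ 1) (hcU : |c0| ≤ B) (hc'U : |c0'| ≤ B)
    (hr : |S' - S * (1 + p * (X / N) * η
              + (-(p / 2) / N + p * (p + 2) / 2 * k2 / N) * η ^ 2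
              - 4 * p * δ * k2 / N)| ≤ C₁ * S * (δ ^ 2 + δ * m + m ^ 3))
    (hσb : |D + 4 * δ * s2 / N| ≤ C₀ * δ * (δ + m))
    (hρ : |c1 - c0 - c0' * D| ≤ L * |D| ^ 2)
    (hSS : |S' - S| ≤ C₂ * S * (δ + m)) :
    |c1 * S' - c0 * S + η * (c0 * (-p * (X / N)) * S)
      - η ^ 2 / 2 * (c0 * ((p * (p + 2) * k2 - p) / N) * S)
      - δ * ((c0 * (p * (-κ / 2 + (κ / 2 * p - 4 + κ) * k2)) - 4 * s2 * c0') * S / N
          - κ / 2 * (c0 * ((p * (p + 2) * k2 - p) / N) * S))| ≤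
    (B * C₁ + B * (4 / ϰ ^ 2) * C₂ + B * C₀ + L * (4 / ϰ ^ 2 + C₀ * (d₀ + ϰ / 8)) ^ 2 + 1) *
      (δ ^ 2 + δ * m + m ^ 3) := by
  rw [field_term_alg c0 c1 c0' S S' X N η δ p κ s2 k2 D]
  obtain ⟨K, hK⟩ : ∃ K, K = 4 / ϰ ^ 2 + C₀ * (d₀ + ϰ / 8) := ⟨_, rfl⟩
  obtain ⟨e, he⟩ : ∃ e, e = δ ^ 2 + δ * m + m ^ 3 := ⟨_, rfl⟩
  obtain ⟨r, hr'⟩ : ∃ r, r = S' - S * (1 + p * (X / N) * η
              + (-(p / 2) / N + p * (p + 2) / 2 * k2 / N) * η ^ 2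
              - 4 * p * δ * k2 / N) := ⟨_, rfl⟩
  obtain ⟨a, ha⟩ : ∃ a, a = 4 * δ * s2 / N := ⟨_, rfl⟩
  obtain ⟨σ, hσ⟩ : ∃ σ, σ = D + a := ⟨_, rfl⟩
  obtain ⟨ρ, hρ'⟩ : ∃ ρ, ρ = c1 - c0 - c0' * D := ⟨_, rfl⟩
  rw [← hr', ← he] at hr
  rw [← ha, ← hσ] at hσb
  rw [← hρ'] at hρ
  rw [← hr', ← ha, ← hσ, ← hρ', ← he, ← hK]
  have hK0 : 0 ≤ K := by rw [hK]; positivity
  have he0 : 0 ≤ e := by rw [he]; (clear * - hδ hm0; positivity)
  have hN0 : 0 < N := lt_of_lt_of_le (by positivity) hN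
  have hrb : |r| ≤ C₁ * e := by
    refine hr.trans ?_
    have : C₁ * S ≤ C₁ * 1 := by (clear * - hS1 hC₁; gcongr)
    calc C₁ * S * e ≤ C₁ * 1 * e := by (clear * - this he0; gcongr)
      _ = C₁ * e := by ring
  have hab : |a| ≤ 4 / ϰ ^ 2 * δ := by
    have h1 : 0 ≤ a := by rw [ha]; (clear * - hδ hs2 hN0; positivity)
    rw [abs_of_nonneg h1, ha]
    calc 4 * δ * s2 / N ≤ 4 * δ * 1 / ϰ ^ 2 := by (clear * - hδ hs2' hϰ hN; gcongr)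
      _ = 4 / ϰ ^ 2 * δ := by ring
  have hΔ : |D| ≤ K * δ := by
    have h1 : D = σ - a := by rw [hσ]; ring
    rw [h1]
    refine (abs_sub _ _).trans ?_
    have h2 : C₀ * δ * (δ + m) ≤ C₀ * δ * (d₀ + ϰ / 8) := by (clear * - e0 hm hC₀ hδ; gcongr)
    calc |σ| + |a| ≤ C₀ * δ * (d₀ + ϰ / 8) + 4 / ϰ ^ 2 * δ := add_le_add (hσb.trans h2) hab
      _ = K * δ := by rw [hK]; ring
  have hρb : |ρ| ≤ L * K ^ 2 * δ ^ 2 := by
    refine hρ.trans ?_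
    calc L * |D| ^ 2 ≤ L * (K * δ) ^ 2 := by (clear * - hΔ hL0; gcongr)
      _ = L * K ^ 2 * δ ^ 2 := by ring
  have hSS' : |S' - S| ≤ C₂ * (δ + m) := by
    refine hSS.trans ?_
    have : C₂ * S ≤ C₂ * 1 := by (clear * - hS1 hC₂; gcongr)
    calc C₂ * S * (δ + m) ≤ C₂ * 1 * (δ + m) := by (clear * - this hδ hm0; gcongr)
      _ = C₂ * (δ + m) := by ring
  have t1 : |c0 * r| ≤ B * C₁ * e := by
    rw [abs_mul, mul_assoc]
    exact mul_le_mul hcU hrb (abs_nonneg _) hB0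
  have hδm : δ * (δ + m) ≤ e := by
    have h1 : 0 ≤ m ^ 3 := by (clear * - hm0; positivity)
    have h2 : e = δ * (δ + m) + m ^ 3 := by rw [he]; ring
    linarith only [he, h1]
  have t2 : |c0' * a * (S' - S)| ≤ B * (4 / ϰ ^ 2) * C₂ * e := by
    rw [abs_mul, abs_mul]
    calc |c0'| * |a| * |S' - S| ≤ B * (4 / ϰ ^ 2 * δ) * (C₂ * (δ + m)) := by (clear * - hc'U hab hB0 hSS' hϰ hδ; gcongr)
      _ = B * (4 / ϰ ^ 2) * C₂ * (δ * (δ + m)) := by ring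
      _ ≤ B * (4 / ϰ ^ 2) * C₂ * e := by (clear * - hδm hB0 hϰ hC₂; gcongr)
  have t3 : |c0' * σ * S'| ≤ B * C₀ * e := by
    rw [abs_mul, abs_mul, abs_of_nonneg hS'0]
    calc |c0'| * |σ| * S' ≤ B * (C₀ * δ * (δ + m)) * 1 := by (clear * - hc'U hσb hB0 hS'1 hS'0 hC₀ hδ hm0; gcongr)
      _ = B * C₀ * (δ * (δ + m)) := by ring
      _ ≤ B * C₀ * e := by (clear * - hδm hB0 hC₀; gcongr)
  have t4 : |ρ * S'| ≤ L * K ^ 2 * e := by
    rw [abs_mul, abs_of_nonneg hS'0]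
    have h2 : δ ^ 2 ≤ e := by
      rw [he]
      have : 0 ≤ δ * m := by (clear * - hδ hm0; positivity)
      have : 0 ≤ m ^ 3 := by (clear * - hm0; positivity)
      (clear c0 c1 c0' S S' X N η p κ s2 k2 D B C₀ C₁ C₂ L ϰ d₀ hϰ hd₀ hB0 hC₀ hC₁ hC₂ hL0 e0 hm hS1 hS'0 hS'1 hN hs2 hs2' hcU hc'U hSS K hK r hr hr' a ha σ hσb hσ ρ hρ hρ' hK0 he0 hN0 hrb hab hΔ hρb hSS' t1 t2 t3 this; linarith)
    calc |ρ| * S' ≤ (L * K ^ 2 * δ ^ 2) * 1 := by (clear * - hρb hS'1 hS'0 hL0; gcongr)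
      _ = L * K ^ 2 * δ ^ 2 := by ring
      _ ≤ L * K ^ 2 * e := by (clear * - h2 hL0; gcongr)
  have t5 : |c0 * r - c0' * a * (S' - S) + c0' * σ * S' + ρ * S'| ≤
      |c0 * r| + |c0' * a * (S' - S)| + |c0' * σ * S'| + |ρ * S'| := by
    refine (abs_add_le _ _).trans ?_
    gcongr
    refine (abs_add_le _ _).trans ?_
    gcongr
    exact abs_sub _ _
  refine t5.trans ?_
  calc _ ≤ B * C₁ * e + B * (4 / ϰ ^ 2) * C₂ * e + B * C₀ * e + L * K ^ 2 * e := by (clear * - t1 t2 t3 t4; gcongr)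
    _ ≤ B * C₁ * e + B * (4 / ϰ ^ 2) * C₂ * e + B * C₀ * e + L * K ^ 2 * e + e :=
        le_add_of_nonneg_right he0
    _ = (B * C₁ + B * (4 / ϰ ^ 2) * C₂ + B * C₀ + L * K ^ 2 + 1) * e := by ring

/-- One term of the one-step expansion of the field functional. -/
theorem field_term_step (κ : ℝ) {c c' : ℝ → ℝ} {p u₁ ϰ : ℝ} (hp : 0 ≤ p) (hc : Band u₁ c c')
    (hϰ : 0 < ϰ) :
    ∃ C δ₀ : ℝ, 0 < C ∧ 0 < δ₀ ∧ ∀ {W : ℝ → ℝ} (_ : Continuous W) {z : ℂ} {t : ℝ} (_ : 0 ≤ t)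
      (_ : z ∈ loewnerDomain W t) (_ : ϰ ≤ ‖Zf W z t‖) {δ m : ℝ} (_ : 0 ≤ δ) (_ : δ ≤ δ₀)
      (_ : m ≤ ϰ / 8) (_ : ∀ u ∈ Icc t (t + δ), |W u - W t| ≤ m),
      |c (Uf W z (t + δ)) * sn (Zf W z (t + δ)) ^ p - c (Uf W z t) * sn (Zf W z t) ^ p
        + (W (t + δ) - W t) *
          (c (Uf W z t) * (-p * ((Zf W z t).re / ‖Zf W z t‖ ^ 2)) * sn (Zf W z t) ^ p)
        - (W (t + δ) - W t) ^ 2 / 2 *
          (c (Uf W z t) * ((p * (p + 2) * cs (Zf W z t) ^ 2 - p) / ‖Zf W z t‖ ^ 2) *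
            sn (Zf W z t) ^ p)
        - δ * ((c (Uf W z t) * (p * (-κ / 2 + (κ / 2 * p - 4 + κ) * cs (Zf W z t) ^ 2)) -
            4 * sn (Zf W z t) ^ 2 * c' (Uf W z t)) * sn (Zf W z t) ^ p / ‖Zf W z t‖ ^ 2
          - κ / 2 * (c (Uf W z t) *
            ((p * (p + 2) * cs (Zf W z t) ^ 2 - p) / ‖Zf W z t‖ ^ 2) * sn (Zf W z t) ^ p))| ≤
        C * (δ ^ 2 + δ * m + m ^ 3) := by
  obtain ⟨C₀, d₀, hC₀, hd₀, H₀⟩ := one_step hϰ
  obtain ⟨C₁, d₁, hC₁, hd₁, H₁⟩ := one_step_pow hϰ hp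
  obtain ⟨C₂, d₂, hC₂, hd₂, H₂⟩ := one_step_rew hϰ hp
  obtain ⟨B, hB⟩ := hc.bdd
  obtain ⟨L, hL0, hL⟩ := hc.second
  have hB0 : 0 ≤ B := (abs_nonneg _).trans (hB 0).1
  refine ⟨B * C₁ + B * (4 / ϰ ^ 2) * C₂ + B * C₀ +
    L * (4 / ϰ ^ 2 + C₀ * (d₀ + ϰ / 8)) ^ 2 + 1, min d₀ (min d₁ d₂), by (clear * - hB0 hC₁ hϰ hC₂ hC₀ hL0 hd₀; positivity),
    by (clear * - hd₀ hd₁ hd₂; positivity), ?_⟩
  intro W hW z t ht hz hZ δ m hδ hδd hm hosc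
  have hm0 : 0 ≤ m := by
    have := hosc t ⟨le_rfl, by linarith only [hδ]⟩
    simpa only [ge_iff_le, sub_self, abs_zero] using this
  have e0 : δ ≤ d₀ := hδd.trans (min_le_left _ _)
  have e1 : δ ≤ d₁ := hδd.trans ((min_le_right _ _).trans (min_le_left _ _))
  have e2 : δ ≤ d₂ := hδd.trans ((min_le_right _ _).trans (min_le_right _ _))
  obtain ⟨hz', hst⟩ := H₀ hW ht hz hZ hδ e0 hm hosc
  have hlast : t + δ ∈ Icc t (t + δ) := ⟨by linarith only [hδ], le_rfl⟩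
  obtain ⟨-, -, -, -, hU⟩ := hst (t + δ) hlast
  rw [add_sub_cancel_left] at hU
  have hpow := H₁ hW ht hz hZ hδ e1 hm hosc
  have hrew := (H₂ hW ht hz hZ hδ e2 hm hosc (t + δ) hlast).1
  have hZim : 0 < (Zf W z t).im := Zf_im_pos ht hz
  have hZ'im : 0 < (Zf W z (t + δ)).im := Zf_im_pos (by linarith only [ht, hδ]) hz'
  obtain ⟨hS0, hS1⟩ := sn_rpow_le_one hZim.le hp
  obtain ⟨hS'0, hS'1⟩ := sn_rpow_le_one hZ'im.le hp
  exact field_term_bound hϰ hd₀ hB0 hC₀ hC₁ hC₂ hL0 hδ hm0 e0 hm hS1 hS'0 hS'1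
    (by (clear * - hϰ hZ; gcongr)) (sq_nonneg _) (sn_sq_le_one _) (hB _).1 (hB _).2 hpow hU (hL _ _) hrew


/-! ### Measurability of the functionals -/

lemma measurable_sn : Measurable sn := Complex.measurable_im.div measurable_norm

lemma measurable_cs : Measurable cs := Complex.measurable_re.div measurable_norm

lemma measurable_EF {n : ℕ} {c : Fin n → ℝ → ℝ} {p : Fin n → ℝ} (hc : ∀ i, Measurable (c i)) :
    Measurable (Function.uncurry (EF c p)) := by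
  change Measurable fun x : ℂ × ℝ => ∑ i, c i x.2 * sn x.1 ^ p i
  refine Finset.measurable_sum _ fun i _ => ?_
  exact ((hc i).comp measurable_snd).mul ((measurable_sn.comp measurable_fst).pow_const _)

lemma measurable_EX {n : ℕ} {c : Fin n → ℝ → ℝ} {p : Fin n → ℝ} (hc : ∀ i, Measurable (c i)) :
    Measurable (Function.uncurry (EX c p)) := by
  change Measurable fun x : ℂ × ℝ =>
    ∑ i, c i x.2 * (-(p i) * (x.1.re / ‖x.1‖ ^ 2)) * sn x.1 ^ p i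
  refine Finset.measurable_sum _ fun i _ => ?_
  refine (((hc i).comp measurable_snd).mul (measurable_const.mul ?_)).mul
    ((measurable_sn.comp measurable_fst).pow_const _)
  exact (Complex.measurable_re.comp measurable_fst).div
    ((measurable_norm.comp measurable_fst).pow_const _)

lemma measurable_EXX {n : ℕ} {c : Fin n → ℝ → ℝ} {p : Fin n → ℝ} (hc : ∀ i, Measurable (c i)) :
    Measurable (Function.uncurry (EXX c p)) := by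
  change Measurable fun x : ℂ × ℝ =>
    ∑ i, c i x.2 * ((p i * (p i + 2) * cs x.1 ^ 2 - p i) / ‖x.1‖ ^ 2) * sn x.1 ^ p i
  refine Finset.measurable_sum _ fun i _ => ?_
  refine (((hc i).comp measurable_snd).mul ?_).mul
    ((measurable_sn.comp measurable_fst).pow_const _)
  exact ((((measurable_cs.comp measurable_fst).pow_const _).const_mul _).sub_const _).div
    ((measurable_norm.comp measurable_fst).pow_const _)

lemma measurable_EL {κ : ℝ} {n : ℕ} {c c' : Fin n → ℝ → ℝ} {p : Fin n → ℝ}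
    (hc : ∀ i, Measurable (c i)) (hc' : ∀ i, Measurable (c' i)) :
    Measurable (Function.uncurry (EL κ c c' p)) := by
  change Measurable fun x : ℂ × ℝ =>
    ∑ i, (c i x.2 * (p i * (-κ / 2 + (κ / 2 * p i - 4 + κ) * cs x.1 ^ 2)) -
      4 * sn x.1 ^ 2 * c' i x.2) * sn x.1 ^ p i / ‖x.1‖ ^ 2
  refine Finset.measurable_sum _ fun i _ => ?_
  refine (Measurable.mul (Measurable.sub ?_ ?_)
    ((measurable_sn.comp measurable_fst).pow_const _)).div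
    ((measurable_norm.comp measurable_fst).pow_const _)
  · exact ((hc i).comp measurable_snd).mul
      (((((measurable_cs.comp measurable_fst).pow_const _).const_mul _).const_add _).const_mul _)
  · exact (((measurable_sn.comp measurable_fst).pow_const _).const_mul _).mul
      ((hc' i).comp measurable_snd)

lemma measurable_EA {m : ℕ} {d : Fin m → ℝ → ℝ} {q : Fin m → ℝ} (hd : ∀ i, Measurable (d i)) :
    Measurable (Function.uncurry (EA d q)) := by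
  change Measurable fun x : ℂ × ℝ => ∑ i, d i x.2 * sn x.1 ^ q i / ‖x.1‖ ^ 2
  refine Finset.measurable_sum _ fun i _ => ?_
  exact (((hd i).comp measurable_snd).mul ((measurable_sn.comp measurable_fst).pow_const _)).div
    ((measurable_norm.comp measurable_fst).pow_const _)

/-! ### Bounds of the functionals -/

lemma abs_sum_le_sum_of_le {n : ℕ} {f B : Fin n → ℝ} (h : ∀ i, |f i| ≤ B i) :
    |∑ i, f i| ≤ ∑ i, B i :=
  (Finset.abs_sum_le_sum_abs _ _).trans (Finset.sum_le_sum fun i _ => h i)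

lemma abs_re_div_sq_le {Z : ℂ} {ϰ : ℝ} (hϰ : 0 < ϰ) (hZ : ϰ ≤ ‖Z‖) :
    |Z.re / ‖Z‖ ^ 2| ≤ 1 / ϰ := by
  have h0 : 0 < ‖Z‖ := hϰ.trans_le hZ
  rw [abs_div, abs_of_pos (pow_pos h0 2), div_le_div_iff₀ (by positivity) hϰ]
  have h1 := Complex.abs_re_le_norm Z
  calc |Z.re| * ϰ ≤ ‖Z‖ * ‖Z‖ := by gcongr
    _ = 1 * ‖Z‖ ^ 2 := by ring

/-- All functionals are bounded on alive points with `u₁ < U → ϰ ≤ ‖Z‖`. -/
lemma field_bounds (κ : ℝ) {n : ℕ} {c c' : Fin n → ℝ → ℝ} {p : Fin n → ℝ} {u₁ : ℝ}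
    (hp : ∀ i, 0 ≤ p i) (hc : ∀ i, Band u₁ (c i) (c' i)) {ϰ : ℝ} (hϰ : 0 < ϰ) :
    ∃ C : ℝ, 0 < C ∧ ∀ (Z : ℂ) (U : ℝ), 0 < Z.im →
      |EF c p Z U| ≤ C ∧ ((u₁ < U → ϰ ≤ ‖Z‖) →
      |EX c p Z U| ≤ C ∧ |EXX c p Z U| ≤ C ∧ |EL κ c c' p Z U| ≤ C) := by
  choose B hB using fun i => (hc i).bdd
  have hB0 : ∀ i, 0 ≤ B i := fun i => (abs_nonneg _).trans (hB i 0).1
  refine ⟨∑ i, B i + ∑ i, B i * (p i * (1 / ϰ)) +
    ∑ i, B i * ((p i * (p i + 2) + p i) / ϰ ^ 2) +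
    ∑ i, (B i * (p i * (|κ / 2| + |κ / 2 * p i - 4 + κ|)) + 4 * B i) / ϰ ^ 2 + 1, ?_, ?_⟩
  · have h1 : 0 ≤ ∑ i, B i := Finset.sum_nonneg fun i _ => hB0 i
    have h2 : 0 ≤ ∑ i, B i * (p i * (1 / ϰ)) := Finset.sum_nonneg fun i _ => by
      have := hB0 i; have := hp i; (clear κ u₁ hc h1; positivity)
    have h3 : 0 ≤ ∑ i, B i * ((p i * (p i + 2) + p i) / ϰ ^ 2) := Finset.sum_nonneg fun i _ => by
      have := hB0 i; have := hp i; (clear κ u₁ hc h1 h2; positivity)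
    have h4 : 0 ≤ ∑ i, (B i * (p i * (|κ / 2| + |κ / 2 * p i - 4 + κ|)) + 4 * B i) / ϰ ^ 2 :=
      Finset.sum_nonneg fun i _ => by
        have := hB0 i; have := hp i; (clear u₁ hc h1 h2 h3; positivity)
    linarith
  intro Z U hZ
  have h1 : 0 ≤ ∑ i, B i := Finset.sum_nonneg fun i _ => hB0 i
  have h2 : 0 ≤ ∑ i, B i * (p i * (1 / ϰ)) := Finset.sum_nonneg fun i _ => by
    have := hB0 i; have := hp i; (clear κ u₁ hc Z U hZ h1; positivity)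
  have h3 : 0 ≤ ∑ i, B i * ((p i * (p i + 2) + p i) / ϰ ^ 2) := Finset.sum_nonneg fun i _ => by
    have := hB0 i; have := hp i; (clear κ u₁ hc Z U hZ h1 h2; positivity)
  have h4 : 0 ≤ ∑ i, (B i * (p i * (|κ / 2| + |κ / 2 * p i - 4 + κ|)) + 4 * B i) / ϰ ^ 2 :=
    Finset.sum_nonneg fun i _ => by
      have := hB0 i; have := hp i; (clear u₁ hc Z U hZ h1 h2 h3; positivity)
  have hS : ∀ i, 0 ≤ sn Z ^ p i ∧ sn Z ^ p i ≤ 1 := fun i => sn_rpow_le_one hZ.le (hp i)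
  have hF : |EF c p Z U| ≤ ∑ i, B i := by
    refine abs_sum_le_sum_of_le fun i => ?_
    rw [abs_mul, abs_of_nonneg (hS i).1]
    calc |c i U| * sn Z ^ p i ≤ B i * 1 :=
          mul_le_mul (hB i U).1 (hS i).2 (hS i).1 (hB0 i)
      _ = B i := mul_one _
  refine ⟨by linarith only [h2, h3, h4, hF], fun hU => ?_⟩
  rcases le_or_gt U u₁ with hle | hgt
  · have hc0 : ∀ i, c i U = 0 := fun i => (hc i).supp U hle
    have hc0' : ∀ i, c' i U = 0 := fun i => (hc i).supp_deriv hle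
    have e1 : EX c p Z U = 0 := by simp only [EX, hc0, neg_mul, mul_neg, zero_mul, neg_zero, Finset.sum_const_zero]
    have e2 : EXX c p Z U = 0 := by simp only [EXX, hc0, zero_mul, Finset.sum_const_zero]
    have e3 : EL κ c c' p Z U = 0 := by simp only [EL, hc0, zero_mul, hc0', mul_zero, sub_self, zero_div, Finset.sum_const_zero]
    rw [e1, e2, e3, abs_zero]
    refine ⟨?_, ?_, ?_⟩ <;> linarith only [h1, h2, h3, h4]
  · have hZn := hU hgt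
    have hZ0 : 0 < ‖Z‖ := hϰ.trans_le hZn
    have hcs := cs_sq_le_one Z
    have hsn := sn_sq_le_one Z
    have hX : |EX c p Z U| ≤ ∑ i, B i * (p i * (1 / ϰ)) := by
      refine abs_sum_le_sum_of_le fun i => ?_
      rw [abs_mul, abs_mul, abs_mul, abs_of_nonneg (hS i).1, abs_neg, abs_of_nonneg (hp i)]
      have hpi := hp i
      have hBi := hB0 i
      have hre := abs_re_div_sq_le hϰ hZn
      calc |c i U| * (p i * |Z.re / ‖Z‖ ^ 2|) * sn Z ^ p i ≤ B i * (p i * (1 / ϰ)) * 1 := by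
            gcongr
            · exact (hS i).1
            · exact (hB i U).1
            · exact (hS i).2
        _ = _ := mul_one _
    have hXX : |EXX c p Z U| ≤ ∑ i, B i * ((p i * (p i + 2) + p i) / ϰ ^ 2) := by
      refine abs_sum_le_sum_of_le fun i => ?_
      have hpi := hp i
      have hBi := hB0 i
      rw [abs_mul, abs_mul, abs_of_nonneg (hS i).1, abs_div, abs_of_pos (pow_pos hZ0 2)]
      have h5 : |p i * (p i + 2) * cs Z ^ 2 - p i| ≤ p i * (p i + 2) + p i := by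
        refine (abs_sub _ _).trans ?_
        rw [abs_of_nonneg hpi, abs_of_nonneg (by (clear * - hpi; positivity))]
        have h6 : p i * (p i + 2) * cs Z ^ 2 ≤ p i * (p i + 2) :=
          mul_le_of_le_one_right (by (clear * - hpi; positivity)) hcs
        linarith only [h6]
      calc |c i U| * (|p i * (p i + 2) * cs Z ^ 2 - p i| / ‖Z‖ ^ 2) * sn Z ^ p i ≤
          B i * ((p i * (p i + 2) + p i) / ϰ ^ 2) * 1 := by
            gcongr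
            · exact (hS i).1
            · exact (hB i U).1
            · exact (hS i).2
        _ = _ := mul_one _
    have hL : |EL κ c c' p Z U| ≤
        ∑ i, (B i * (p i * (|κ / 2| + |κ / 2 * p i - 4 + κ|)) + 4 * B i) / ϰ ^ 2 := by
      refine abs_sum_le_sum_of_le fun i => ?_
      have hpi := hp i
      have hBi := hB0 i
      rw [abs_div, abs_mul, abs_of_nonneg (hS i).1, abs_of_pos (pow_pos hZ0 2)]
      have h5 : |c i U * (p i * (-κ / 2 + (κ / 2 * p i - 4 + κ) * cs Z ^ 2)) -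
          4 * sn Z ^ 2 * c' i U| ≤
          B i * (p i * (|κ / 2| + |κ / 2 * p i - 4 + κ|)) + 4 * B i := by
        refine (abs_sub _ _).trans ?_
        rw [abs_mul, abs_mul, abs_mul, abs_of_nonneg hpi, abs_of_nonneg (show 0 ≤ 4 * sn Z ^ 2 by
          (clear * -; positivity))]
        have h6 : |-κ / 2 + (κ / 2 * p i - 4 + κ) * cs Z ^ 2| ≤
            |κ / 2| + |κ / 2 * p i - 4 + κ| := by
          refine (abs_add_le _ _).trans ?_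
          rw [neg_div, abs_neg, abs_mul, abs_of_nonneg (sq_nonneg (cs Z))]
          gcongr
          exact mul_le_of_le_one_right (abs_nonneg _) hcs
        have h7 : 4 * sn Z ^ 2 ≤ 4 := by linarith only [hsn]
        have h8 := (hB i U).1
        have h9 := (hB i U).2
        (clear * - h8 h6 hpi hBi h7 h9; gcongr)
      calc _ ≤ (B i * (p i * (|κ / 2| + |κ / 2 * p i - 4 + κ|)) + 4 * B i) * 1 / ϰ ^ 2 := by
            gcongr
            · exact (hS i).1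
            · exact (hS i).2
        _ = _ := by rw [mul_one]
    refine ⟨?_, ?_, ?_⟩ <;> linarith only [h1, h2, h3, hL, h4, hXX, hX]

lemma reward_bounds {m : ℕ} {d : Fin m → ℝ → ℝ} {q : Fin m → ℝ} {u₁ : ℝ}
    (hq : ∀ i, 0 ≤ q i) (hd : ∀ i, BandRew u₁ (d i)) {ϰ : ℝ} (hϰ : 0 < ϰ) :
    ∃ C : ℝ, 0 < C ∧ ∀ (Z : ℂ) (U : ℝ), 0 < Z.im → (u₁ < U → ϰ ≤ ‖Z‖) → |EA d q Z U| ≤ C := by
  choose B hB using fun i => (hd i).bdd
  have hB0 : ∀ i, 0 ≤ B i := fun i => (abs_nonneg _).trans (hB i 0)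
  have h1 : 0 ≤ ∑ i, B i / ϰ ^ 2 := Finset.sum_nonneg fun i _ => by
    have := hB0 i; (clear * - this hϰ; positivity)
  refine ⟨∑ i, B i / ϰ ^ 2 + 1, by linarith only [h1], ?_⟩
  intro Z U hZ hU
  rcases le_or_gt U u₁ with hle | hgt
  · have e1 : EA d q Z U = 0 := by simp only [EA, fun i => (hd i).supp U hle, zero_mul, zero_div, Finset.sum_const_zero]
    rw [e1, abs_zero]
    linarith only [h1]
  · have hZn := hU hgt
    have hZ0 : 0 < ‖Z‖ := hϰ.trans_le hZn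
    have hX : |EA d q Z U| ≤ ∑ i, B i / ϰ ^ 2 := by
      refine abs_sum_le_sum_of_le fun i => ?_
      have hS := sn_rpow_le_one hZ.le (hq i)
      rw [abs_div, abs_mul, abs_of_nonneg hS.1, abs_of_pos (pow_pos hZ0 2)]
      have hBi := hB0 i
      calc |d i U| * sn Z ^ q i / ‖Z‖ ^ 2 ≤ B i * 1 / ϰ ^ 2 := by
            gcongr
            · exact hS.1
            · exact hB i U
            · exact hS.2
        _ = _ := by rw [mul_one]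
    linarith only [hX]


/-- Finitely many positive thresholds have a common positive lower bound. -/
lemma exists_pos_le_fin {n : ℕ} {f : Fin n → ℝ} (hf : ∀ i, 0 < f i) : ∃ δ > 0, ∀ i, δ ≤ f i := by
  have h : ∀ᶠ δ in 𝓝[>] (0 : ℝ), ∀ i, δ ≤ f i :=
    eventually_all.2 fun i => (eventually_le_nhds (hf i)).filter_mono nhdsWithin_le_nhds
  obtain ⟨δ, h1, h2⟩ := (h.and self_mem_nhdsWithin).exists
  exact ⟨δ, h2, h1⟩

/-- Pointwise one-step expansion of the field functional. -/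
theorem field_pt_step (κ : ℝ) {n : ℕ} {c c' : Fin n → ℝ → ℝ} {p : Fin n → ℝ} {u₁ : ℝ}
    (hp : ∀ i, 0 ≤ p i) (hc : ∀ i, Band u₁ (c i) (c' i)) {ϰ : ℝ} (hϰ : 0 < ϰ) :
    ∃ C δ₀ : ℝ, 0 < C ∧ 0 < δ₀ ∧ ∀ {W : ℝ → ℝ} (_ : Continuous W) {z : ℂ} {t : ℝ} (_ : 0 ≤ t)
      (_ : z ∈ loewnerDomain W t → u₁ < Uf W z t → ϰ ≤ ‖Zf W z t‖)
      {δ m : ℝ} (_ : 0 ≤ δ) (_ : δ ≤ δ₀)
      (_ : m ≤ ϰ / 8) (_ : ∀ u ∈ Icc t (t + δ), |W u - W t| ≤ m),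
      |St (EF c p) W z (t + δ) - St (EF c p) W z t
        + (W (t + δ) - W t) * St (EX c p) W z t
        - (W (t + δ) - W t) ^ 2 / 2 * St (EXX c p) W z t
        - δ * (St (EL κ c c' p) W z t - κ / 2 * St (EXX c p) W z t)| ≤
        C * (δ ^ 2 + δ * m + m ^ 3) := by
  choose C d hC hd H using fun i => field_term_step κ (hp i) (hc i) hϰ
  obtain ⟨C₀, d₀, hC₀, hd₀, H₀⟩ := one_step hϰ
  obtain ⟨δ₁, hδ₁, hδ₁'⟩ := exists_pos_le_fin hd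
  have hsum : 0 ≤ ∑ i, C i := Finset.sum_nonneg fun i _ => (hC i).le
  refine ⟨∑ i, C i + 1, min d₀ δ₁, by linarith, lt_min hd₀ hδ₁, ?_⟩
  intro W hW z t ht hz δ m hδ hδd hm hosc
  have hm0 : 0 ≤ m := by
    have := hosc t ⟨le_rfl, by linarith only [hδ]⟩
    simpa only [ge_iff_le, sub_self, abs_zero] using this
  have he0 : 0 ≤ δ ^ 2 + δ * m + m ^ 3 := by (clear * - hδ hm0; positivity)
  by_cases hcase : z ∈ loewnerDomain W t ∧ u₁ < Uf W z t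
  · obtain ⟨hzt, hU⟩ := hcase
    have hZ := hz hzt hU
    have hz' := (H₀ hW ht hzt hZ hδ (hδd.trans (min_le_left _ _)) hm hosc).1
    rw [St_of_mem hz', St_of_mem hzt, St_of_mem hzt, St_of_mem hzt, St_of_mem hzt]
    have hterm := fun i => H i hW ht hzt hZ hδ ((hδd.trans (min_le_right _ _)).trans (hδ₁' i))
      hm hosc
    have hle := abs_sum_le_sum_of_le hterm
    rw [← Finset.sum_mul] at hle
    have hid : ∀ (Z Z' : ℂ) (U U' η : ℝ), EF c p Z' U' - EF c p Z U + η * EX c p Z U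
        - η ^ 2 / 2 * EXX c p Z U - δ * (EL κ c c' p Z U - κ / 2 * EXX c p Z U) =
        ∑ i, (c i U' * sn Z' ^ p i - c i U * sn Z ^ p i +
          η * (c i U * (-p i * (Z.re / ‖Z‖ ^ 2)) * sn Z ^ p i) -
          η ^ 2 / 2 * (c i U * ((p i * (p i + 2) * cs Z ^ 2 - p i) / ‖Z‖ ^ 2) * sn Z ^ p i) -
          δ * ((c i U * (p i * (-κ / 2 + (κ / 2 * p i - 4 + κ) * cs Z ^ 2)) -
              4 * sn Z ^ 2 * c' i U) * sn Z ^ p i / ‖Z‖ ^ 2 -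
            κ / 2 * (c i U * ((p i * (p i + 2) * cs Z ^ 2 - p i) / ‖Z‖ ^ 2) * sn Z ^ p i))) := by
      intro Z Z' U U' η
      simp only [EF, EX, EXX, EL, Finset.mul_sum, ← Finset.sum_sub_distrib,
        ← Finset.sum_add_distrib]
    rw [hid]
    refine hle.trans ?_
    gcongr
    linarith only []
  · have hzero : ∀ (s : ℝ), t ≤ s → ∀ (G : ℂ → ℝ → ℝ), (∀ Z U, U ≤ u₁ → G Z U = 0) →
        St G W z s = 0 := by
      intro s hs G hG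
      by_cases hzs : z ∈ loewnerDomain W s
      · rw [St_of_mem hzs]
        have hzt := dom_mono hs hzs
        have hU : Uf W z t ≤ u₁ := not_lt.1 fun h => hcase ⟨hzt, h⟩
        exact hG _ _ ((Uf_le hW ht hs hzs).trans hU)
      · exact St_of_not_mem hzs
    rw [hzero (t + δ) (by linarith only [hδ]) (EF c p)
        (fun Z U hU => by simp only [EF, fun i => (hc i).supp U hU, zero_mul, Finset.sum_const_zero]),
      hzero t le_rfl (EF c p) (fun Z U hU => by simp only [EF, fun i => (hc i).supp U hU, zero_mul, Finset.sum_const_zero]),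
      hzero t le_rfl (EX c p) (fun Z U hU => by simp only [EX, fun i => (hc i).supp U hU, neg_mul, mul_neg, zero_mul, neg_zero, Finset.sum_const_zero]),
      hzero t le_rfl (EXX c p) (fun Z U hU => by simp only [EXX, fun i => (hc i).supp U hU, zero_mul, Finset.sum_const_zero]),
      hzero t le_rfl (EL κ c c' p) (fun Z U hU => by
        simp only [EL, fun i => (hc i).supp U hU, zero_mul, fun i => (hc i).supp_deriv hU, mul_zero, sub_self, zero_div, Finset.sum_const_zero])]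
    simp only [sub_self, mul_zero, add_zero, abs_zero]
    (clear * - hsum hδ hm0; positivity)

/-- Pointwise one-step continuity of the reward. -/
theorem reward_pt_step {n : ℕ} {d : Fin n → ℝ → ℝ} {q : Fin n → ℝ} {u₁ : ℝ}
    (hq : ∀ i, 0 ≤ q i) (hd : ∀ i, BandRew u₁ (d i)) {ϰ : ℝ} (hϰ : 0 < ϰ) :
    ∃ C δ₀ : ℝ, 0 < C ∧ 0 < δ₀ ∧ ∀ {W : ℝ → ℝ} (_ : Continuous W) {z : ℂ} {t : ℝ} (_ : 0 ≤ t)
      (_ : z ∈ loewnerDomain W t → u₁ < Uf W z t → ϰ ≤ ‖Zf W z t‖)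
      {δ m : ℝ} (_ : 0 ≤ δ) (_ : δ ≤ δ₀)
      (_ : m ≤ ϰ / 8) (_ : ∀ u ∈ Icc t (t + δ), |W u - W t| ≤ m) (u : ℝ)
      (_ : u ∈ Icc t (t + δ)),
      |St (EA d q) W z u| ≤ C ∧
      |St (EA d q) W z u - St (EA d q) W z t| ≤ C * (δ + m) := by
  choose C D hC hD H using fun i => one_step_rew hϰ (hq i)
  choose B hB using fun i => (hd i).bdd
  choose L hL using fun i => (hd i).lip
  have hB0 : ∀ i, 0 ≤ B i := fun i => (abs_nonneg _).trans (hB i 0)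
  have hL0 : ∀ i, 0 ≤ L i := fun i => by
    have := (abs_nonneg _).trans (hL i 1 0)
    simpa only [ge_iff_le, sub_zero, abs_one, mul_one] using this
  obtain ⟨C₀, d₀, hC₀, hd₀, H₀⟩ := one_step hϰ
  obtain ⟨C₂, hC₂, hC₂'⟩ := reward_bounds hq hd (half_pos hϰ)
  obtain ⟨δ₁, hδ₁, hδ₁'⟩ := exists_pos_le_fin hD
  obtain ⟨K, hK⟩ : ∃ K, K = 4 / ϰ ^ 2 + C₀ * (d₀ + ϰ / 8) := ⟨_, rfl⟩
  have hK0 : 0 ≤ K := by rw [hK]; positivity
  have hsum : 0 ≤ ∑ i, (L i * K * (4 / ϰ ^ 2) + B i * C i) := Finset.sum_nonneg fun i _ => by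
    have := hB0 i; have := hL0 i; have := hC i; (clear q u₁ hq hd D hD H H₀ C₂ hC₂ hC₂' δ₁ hδ₁ hδ₁'; positivity)
  refine ⟨C₂ + ∑ i, (L i * K * (4 / ϰ ^ 2) + B i * C i), min d₀ δ₁, by linarith only [hC₂, hsum],
    lt_min hd₀ hδ₁, ?_⟩
  intro W hW z t ht hz δ m hδ hδd hm hosc u hu
  have hm0 : 0 ≤ m := by
    have := hosc t ⟨le_rfl, by linarith only [hδ]⟩
    simpa only [ge_iff_le, sub_self, abs_zero] using this
  by_cases hcase : z ∈ loewnerDomain W t ∧ u₁ < Uf W z t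
  · obtain ⟨hzt, hU⟩ := hcase
    have hZ := hz hzt hU
    obtain ⟨hz', hst⟩ := H₀ hW ht hzt hZ hδ (hδd.trans (min_le_left _ _)) hm hosc
    obtain ⟨hZu, -, -, -, hUu⟩ := hst u hu
    have hzu : z ∈ loewnerDomain W u := dom_mono hu.2 hz'
    have hu0 : 0 ≤ u := ht.trans hu.1
    have hZuim : 0 < (Zf W z u).im := Zf_im_pos hu0 hzu
    have hterm := fun i => (H i hW ht hzt hZ hδ ((hδd.trans (min_le_right _ _)).trans (hδ₁' i))
      hm hosc u hu).2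
    rw [St_of_mem hzu, St_of_mem hzt]
    refine ⟨(hC₂' _ _ hZuim fun _ => hZu).trans (by linarith only [hsum]), ?_⟩
    have hZtim : 0 < (Zf W z t).im := Zf_im_pos ht hzt
    generalize Zf W z u = Z' at *
    generalize Zf W z t = Z at *
    generalize Uf W z u = U' at *
    generalize Uf W z t = U at *
    have hZn : 0 < ‖Z‖ := hϰ.trans_le hZ
    have hZ'n : 0 < ‖Z'‖ := (half_pos hϰ).trans_le hZu
    have hud : u - t ≤ δ := by linarith only [hu.2]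
    have hud0 : 0 ≤ u - t := by linarith only [hu.1]
    have hΔ : |U' - U| ≤ K * δ := by
      have h1 : U' - U = (U' - U + 4 * (u - t) * sn Z ^ 2 / ‖Z‖ ^ 2) -
        4 * (u - t) * sn Z ^ 2 / ‖Z‖ ^ 2 := by ring
      have h2 : |4 * (u - t) * sn Z ^ 2 / ‖Z‖ ^ 2| ≤ 4 / ϰ ^ 2 * δ := by
        rw [abs_of_nonneg (by (clear * - hud0 hZn; positivity))]
        calc 4 * (u - t) * sn Z ^ 2 / ‖Z‖ ^ 2 ≤ 4 * δ * 1 / ϰ ^ 2 := by
              gcongr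
              exact sn_sq_le_one Z
          _ = 4 / ϰ ^ 2 * δ := by ring
      have h3 : C₀ * (u - t) * (δ + m) ≤ C₀ * (d₀ + ϰ / 8) * δ := by
        have h4 : δ ≤ d₀ := hδd.trans (min_le_left _ _)
        calc C₀ * (u - t) * (δ + m) ≤ C₀ * δ * (d₀ + ϰ / 8) := by (clear * - hud hC₀ h4 hm hδ hm0; gcongr)
          _ = _ := by ring
      rw [h1]
      refine (abs_sub _ _).trans ?_
      calc _ ≤ C₀ * (d₀ + ϰ / 8) * δ + 4 / ϰ ^ 2 * δ := add_le_add (hUu.trans h3) h2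
        _ = K * δ := by rw [hK]; ring
    have e1 : EA d q Z' U' - EA d q Z U = ∑ i, ((d i U' - d i U) * (sn Z' ^ q i / ‖Z'‖ ^ 2) +
        d i U * (sn Z' ^ q i / ‖Z'‖ ^ 2 - sn Z ^ q i / ‖Z‖ ^ 2)) := by
      simp only [EA, ← Finset.sum_sub_distrib]
      refine Finset.sum_congr rfl fun i _ => ?_
      ring
    have e2 : |EA d q Z' U' - EA d q Z U| ≤
        ∑ i, (L i * K * (4 / ϰ ^ 2) + B i * C i) * (δ + m) := by
      rw [e1]
      refine abs_sum_le_sum_of_le fun i => ?_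
      have hS := sn_rpow_le_one hZtim.le (hq i)
      have hS' := sn_rpow_le_one hZuim.le (hq i)
      have hBi := hB0 i
      have hLi := hL0 i
      have hCi := hC i
      have f1 : |(d i U' - d i U) * (sn Z' ^ q i / ‖Z'‖ ^ 2)| ≤
          L i * K * (4 / ϰ ^ 2) * (δ + m) := by
        rw [abs_mul, abs_div, abs_of_nonneg hS'.1, abs_of_pos (pow_pos hZ'n 2)]
        have g1 : sn Z' ^ q i / ‖Z'‖ ^ 2 ≤ 4 / ϰ ^ 2 := by
          calc sn Z' ^ q i / ‖Z'‖ ^ 2 ≤ 1 / (ϰ / 2) ^ 2 := by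
                gcongr
                exact hS'.2
            _ = 4 / ϰ ^ 2 := by field_simp; norm_num
        have g2 : |d i U' - d i U| ≤ L i * (K * δ) :=
          (hL i U' U).trans (mul_le_mul_of_nonneg_left hΔ hLi)
        calc |d i U' - d i U| * (sn Z' ^ q i / ‖Z'‖ ^ 2) ≤ L i * (K * δ) * (4 / ϰ ^ 2) :=
              mul_le_mul g2 g1 (div_nonneg hS'.1 (by (clear * - hZ'n; positivity))) (by (clear * - hLi hK0 hδ; positivity))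
          _ = L i * K * (4 / ϰ ^ 2) * δ := by ring
          _ ≤ L i * K * (4 / ϰ ^ 2) * (δ + m) := by
              gcongr
              linarith only [hm0]
      have f2 : |d i U * (sn Z' ^ q i / ‖Z'‖ ^ 2 - sn Z ^ q i / ‖Z‖ ^ 2)| ≤
          B i * C i * (δ + m) := by
        rw [abs_mul]
        have g1 : C i * sn Z ^ q i * (δ + m) ≤ C i * 1 * (δ + m) := by
          gcongr
          exact hS.2
        calc _ ≤ B i * (C i * 1 * (δ + m)) :=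
              mul_le_mul (hB i U) ((hterm i).trans g1) (abs_nonneg _) hBi
          _ = B i * C i * (δ + m) := by ring
      calc _ ≤ L i * K * (4 / ϰ ^ 2) * (δ + m) + B i * C i * (δ + m) :=
            (abs_add_le _ _).trans (add_le_add f1 f2)
        _ = _ := by ring
    rw [← Finset.sum_mul] at e2
    refine e2.trans ?_
    gcongr
    linarith only [hC₂]
  · have hzero : ∀ (s : ℝ), t ≤ s → St (EA d q) W z s = 0 := by
      intro s hs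
      by_cases hzs : z ∈ loewnerDomain W s
      · rw [St_of_mem hzs]
        have hzt := dom_mono hs hzs
        have hU : Uf W z t ≤ u₁ := not_lt.1 fun h => hcase ⟨hzt, h⟩
        have hU' := (Uf_le hW ht hs hzs).trans hU
        simp only [EA, fun i => (hd i).supp _ hU', zero_mul, zero_div, Finset.sum_const_zero]
      · exact St_of_not_mem hzs
    rw [hzero u hu.1, hzero t le_rfl, sub_self, abs_zero]
    constructor <;> positivity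


lemma St_integrableOn {W : ℝ → ℝ} {t : ℝ} (hW : Continuous W) (ht : 0 ≤ t) {G : ℂ → ℝ → ℝ}
    (hG : Measurable (Function.uncurry G)) {D : Set ℂ} (hDm : MeasurableSet D)
    (hDv : volume D ≠ ⊤) {C : ℝ} (hC : ∀ z ∈ D, |St G W z t| ≤ C) :
    IntegrableOn (fun z => St G W z t) D volume := by
  refine Measure.integrableOn_of_bounded (M := C) hDv
    (St_measurable_z hW hG ht).aestronglyMeasurable ?_
  filter_upwards [ae_restrict_mem hDm] with z hz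
  exact hC z hz

lemma abs_setIntegral_le {f : ℂ → ℝ} {D : Set ℂ} (hDv : volume D ≠ ⊤) {C : ℝ}
    (hC : ∀ z ∈ D, |f z| ≤ C) : |∫ z in D, f z| ≤ C * (volume D).toReal := by
  have := norm_setIntegral_le_of_norm_le_const (μ := volume) (f := f) (C := C)
    (lt_top_iff_ne_top.2 hDv) (fun z hz => hC z hz)
  simpa only [ge_iff_le, Real.norm_eq_abs, Measure.real] using this

end Vale.Agent.P164
end

section

/-!
# Real-variable lemmas behind `kgen_abs`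

`A⁻¹ = p - q i`, `Z⁻¹ = r - t i`, `P = p² + q²`, `R = r² + t²`, `g = (P - R)/(P + R)`,
`mu = (p R + r P)/(P + R)`.
-/

namespace Vale.Agent.P164

open Set Metric Filter Topology MeasureTheory ProbabilityTheory
open scoped NNReal ENNReal

variable {A A' Z : ℂ}

/-- coordinates of the inverse -/
lemma kern_coord (hA : 0 < A.im) : ∃ p q P : ℝ, 0 < P ∧ P = p ^ 2 + q ^ 2 ∧ A.re = p / P ∧
    A.im = q / P ∧ ‖A‖ ^ 2 = 1 / P ∧ A⁻¹ = ⟨p, -q⟩ ∧ ‖A⁻¹‖ ^ 2 = P := by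
  have h1 : ‖A‖ ^ 2 = A.re ^ 2 + A.im ^ 2 := by
    rw [← Complex.normSq_eq_norm_sq, Complex.normSq_apply]
    ring
  have h2 : 0 < ‖A‖ ^ 2 := by
    rw [h1]
    positivity
  have hn : ‖A‖ ≠ 0 := by
    intro h
    rw [h] at h2
    norm_num at h2
  refine ⟨A.re / ‖A‖ ^ 2, A.im / ‖A‖ ^ 2, 1 / ‖A‖ ^ 2, by positivity, ?_, ?_, ?_, ?_, ?_, ?_⟩
  · rw [div_pow, div_pow, ← add_div, ← h1]
    field_simp
  · field_simp
  · (clear * - hn hA; field_simp)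
  · field_simp
  · apply Complex.ext
    · rw [Complex.inv_re, Complex.normSq_eq_norm_sq]
    · rw [Complex.inv_im, Complex.normSq_eq_norm_sq, neg_div]
  · rw [norm_inv, inv_pow, one_div]

lemma kern_kX_eq {p r P R : ℝ} (hP : 0 < P) (hR : 0 < R) (hAre : A.re = p / P)
    (hZre : Z.re = r / R) (hAn : ‖A‖ ^ 2 = 1 / P) (hZn : ‖Z‖ ^ 2 = 1 / R) :
    kX A Z = 6 * (p - r) * ((P - R) / (P + R)) := by
  unfold kX
  rw [hAre, hZre, hAn, hZn]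
  have hPR : 0 < P + R := by linarith only [hP, hR]
  field_simp
  ring

lemma kern_k3_eq {p q r t P R : ℝ} (hP : 0 < P) (hR : 0 < R) (hPpq : P = p ^ 2 + q ^ 2)
    (hAre : A.re = p / P) (hAim : A.im = q / P)
    (hZre : Z.re = r / R) (hZim : Z.im = t / R) (hAn : ‖A‖ ^ 2 = 1 / P) (hZn : ‖Z‖ ^ 2 = 1 / R) :
    k3 A Z = -12 * (p * (p - r) + q * (q - t)) +
      12 * (((p ^ 2 - q ^ 2) - (r ^ 2 - t ^ 2)) * ((P - R) / (P + R))) := by
  have hA4 : ‖A‖ ^ 4 = (1 / P) ^ 2 := by rw [← hAn]; ring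
  have hZ4 : ‖Z‖ ^ 4 = (1 / R) ^ 2 := by rw [← hZn]; ring
  have h1 : -12 / (1 / P) = -12 * (p ^ 2 + q ^ 2) := by
    rw [← hPpq]
    field_simp
  have hPR : 0 < P + R := by linarith only [hP, hR]
  unfold k3
  rw [hA4, hZ4, hAre, hZre, hAim, hZim, hAn, hZn, h1]
  field_simp
  ring

lemma kern_kXX_pre {p q r t P R : ℝ} (hP : 0 < P) (hR : 0 < R)
    (hAre : A.re = p / P) (hAim : A.im = q / P)
    (hZre : Z.re = r / R) (hZim : Z.im = t / R) (hAn : ‖A‖ ^ 2 = 1 / P) (hZn : ‖Z‖ ^ 2 = 1 / R) :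
    kXX A Z = 6 * (t ^ 2 - r ^ 2) + 6 * (q ^ 2 - p ^ 2) - 24 * (P * R) / (P + R) +
        24 * ((p * R + r * P) / (P + R)) ^ 2 := by
  have hA4 : ‖A‖ ^ 4 = (1 / P) ^ 2 := by rw [← hAn]; ring
  have hZ4 : ‖Z‖ ^ 4 = (1 / R) ^ 2 := by rw [← hZn]; ring
  have hPR : 0 < P + R := by (clear * - hP hR; linarith)
  unfold kXX
  rw [hA4, hZ4, hAre, hZre, hAim, hZim, hAn, hZn]
  field_simp
  ring

lemma kern_kXX_alg {p q r t P R : ℝ} (hP : 0 < P) (hR : 0 < R) (hPpq : P = p ^ 2 + q ^ 2)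
    (hRrt : R = r ^ 2 + t ^ 2) :
    6 * (t ^ 2 - r ^ 2) + 6 * (q ^ 2 - p ^ 2) - 24 * (P * R) / (P + R) =
      6 * ((P - R) * ((P - R) / (P + R))) - 12 * (p ^ 2 + r ^ 2) := by
  have h2 : q ^ 2 = P - p ^ 2 := by linarith only [hPpq]
  have h3 : t ^ 2 = R - r ^ 2 := by linarith only [hRrt]
  have hPR : 0 < P + R := by linarith
  rw [h2, h3]
  field_simp
  ring

lemma kern_mu_alg {p r P R : ℝ} (hP : 0 < P) (hR : 0 < R) :
    24 * ((p * R + r * P) / (P + R)) ^ 2 - 12 * (p ^ 2 + r ^ 2) =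
      12 * ((p - r) * (R / (P + R) * ((p * R + r * P) / (P + R) + r) -
        P / (P + R) * ((p * R + r * P) / (P + R) + p))) := by
  have hPR : 0 < P + R := by linarith
  field_simp
  ring

lemma kern_kXX_eq {p q r t P R : ℝ} (hP : 0 < P) (hR : 0 < R) (hPpq : P = p ^ 2 + q ^ 2)
    (hRrt : R = r ^ 2 + t ^ 2) (hAre : A.re = p / P) (hAim : A.im = q / P)
    (hZre : Z.re = r / R) (hZim : Z.im = t / R) (hAn : ‖A‖ ^ 2 = 1 / P) (hZn : ‖Z‖ ^ 2 = 1 / R) :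
    kXX A Z = 6 * ((P - R) * ((P - R) / (P + R))) +
      12 * ((p - r) * (R / (P + R) * ((p * R + r * P) / (P + R) + r) -
        P / (P + R) * ((p * R + r * P) / (P + R) + p))) := by
  rw [kern_kXX_pre hP hR hAre hAim hZre hZim hAn hZn, kern_kXX_alg hP hR hPpq hRrt,
    ← kern_mu_alg hP hR]
  ring

lemma kern_g {P R : ℝ} (hP : 0 < P) (hR : 0 < R) : |(P - R) / (P + R)| ≤ 1 := by
  have hPR : 0 < P + R := by linarith
  rw [abs_div, abs_of_pos hPR, div_le_one hPR, abs_le]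
  constructor <;> linarith only [hP, hR]

lemma kern_mu {p r P R x y : ℝ} (hP : 0 < P) (hR : 0 < R) (hx : 0 ≤ x) (hy : 0 ≤ y)
    (hp : |p| ≤ x) (hr : |r| ≤ y) : |(p * R + r * P) / (P + R)| ≤ x + y := by
  have hPR : 0 < P + R := by linarith only [hP, hR]
  rw [abs_div, abs_of_pos hPR, div_le_iff₀ hPR]
  refine (abs_add_le _ _).trans ?_
  rw [abs_mul, abs_mul, abs_of_pos hP, abs_of_pos hR]
  have h1 := mul_le_mul_of_nonneg_right hp hR.le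
  have h2 := mul_le_mul_of_nonneg_right hr hP.le
  have h3 := mul_nonneg hx hP.le
  have h4 := mul_nonneg hy hR.le
  have h5 : (x + y) * (P + R) = x * P + x * R + y * P + y * R := by ring
  rw [h5]
  linarith only [h1, h2, h3, h4]

lemma kern_third {p r P R x y : ℝ} (hP : 0 < P) (hR : 0 < R) (hx : 0 ≤ x) (hy : 0 ≤ y)
    (hp : |p| ≤ x) (hr : |r| ≤ y) :
    |R / (P + R) * ((p * R + r * P) / (P + R) + r) -
        P / (P + R) * ((p * R + r * P) / (P + R) + p)| ≤ 2 * (x + y) := by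
  have hm := kern_mu hP hR hx hy hp hr
  have hPR : 0 < P + R := by linarith only [hP, hR]
  have hlam : R / (P + R) + P / (P + R) = 1 := by
    field_simp
    ring
  have hl1 : 0 ≤ R / (P + R) := by positivity
  have hl2 : 0 ≤ P / (P + R) := by positivity
  have q1 : |(p * R + r * P) / (P + R) + r| ≤ 2 * (x + y) :=
    (abs_add_le _ _).trans (by linarith only [hx, hr, hm])
  have q2 : |(p * R + r * P) / (P + R) + p| ≤ 2 * (x + y) :=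
    (abs_add_le _ _).trans (by linarith only [hy, hp, hm])
  refine (abs_sub _ _).trans ?_
  rw [abs_mul, abs_mul, abs_of_nonneg hl1, abs_of_nonneg hl2]
  have q3 := mul_le_mul_of_nonneg_left q1 hl1
  have q4 := mul_le_mul_of_nonneg_left q2 hl2
  calc _ ≤ R / (P + R) * (2 * (x + y)) + P / (P + R) * (2 * (x + y)) := add_le_add q3 q4
    _ = (R / (P + R) + P / (P + R)) * (2 * (x + y)) := by ring
    _ = 2 * (x + y) := by rw [hlam, one_mul]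

/-- the elementary bounds -/
lemma kern_bounds {p q r t P R : ℝ} (hPpq : P = p ^ 2 + q ^ 2)
    (hRrt : R = r ^ 2 + t ^ 2) (hAinv : A⁻¹ = ⟨p, -q⟩) (hZinv : Z⁻¹ = ⟨r, -t⟩)
    (hAin : ‖A⁻¹‖ ^ 2 = P) (hZin : ‖Z⁻¹‖ ^ 2 = R) :
    |p - r| ≤ ‖A⁻¹ - Z⁻¹‖ ∧ |p| ≤ ‖A⁻¹‖ ∧ |r| ≤ ‖Z⁻¹‖ ∧
    |P - R| ≤ ‖A⁻¹ - Z⁻¹‖ * (‖A⁻¹‖ + ‖Z⁻¹‖) ∧
    |(p ^ 2 - q ^ 2) - (r ^ 2 - t ^ 2)| ≤ ‖A⁻¹ - Z⁻¹‖ * (‖A⁻¹‖ + ‖Z⁻¹‖) ∧
    |p * (p - r) + q * (q - t)| ≤ ‖A⁻¹ - Z⁻¹‖ * ‖A⁻¹‖ := by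
  have hu0 : 0 ≤ ‖A⁻¹ - Z⁻¹‖ := norm_nonneg _
  have hx0 : 0 ≤ ‖A⁻¹‖ := norm_nonneg _
  have hy0 : 0 ≤ ‖Z⁻¹‖ := norm_nonneg _
  have hw : A⁻¹ - Z⁻¹ = ⟨p - r, t - q⟩ := by
    rw [hAinv, hZinv]
    apply Complex.ext
    · simp
    · simp only [Complex.sub_im, sub_neg_eq_add]
      ring
  have hu2 : ‖A⁻¹ - Z⁻¹‖ ^ 2 = (p - r) ^ 2 + (q - t) ^ 2 := by
    rw [← Complex.normSq_eq_norm_sq, hw, Complex.normSq_mk]
    ring
  refine ⟨?_, ?_, ?_, ?_, ?_, ?_⟩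
  · refine abs_le_of_sq_le_sq ?_ hu0
    rw [hu2]
    linarith only [sq_nonneg (q - t)]
  · refine abs_le_of_sq_le_sq ?_ hx0
    rw [hAin, hPpq]
    linarith only [sq_nonneg q]
  · refine abs_le_of_sq_le_sq ?_ hy0
    rw [hZin, hRrt]
    linarith only [sq_nonneg t]
  · rw [← hAin, ← hZin, show ‖A⁻¹‖ ^ 2 - ‖Z⁻¹‖ ^ 2 =
      (‖A⁻¹‖ - ‖Z⁻¹‖) * (‖A⁻¹‖ + ‖Z⁻¹‖) by ring, abs_mul,
      abs_of_nonneg (add_nonneg hx0 hy0)]
    exact mul_le_mul_of_nonneg_right (abs_norm_sub_norm_le _ _) (add_nonneg hx0 hy0)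
  · have h1 : ((p ^ 2 - q ^ 2) - (r ^ 2 - t ^ 2)) = ((A⁻¹ - Z⁻¹) * (A⁻¹ + Z⁻¹)).re := by
      rw [hAinv, hZinv, Complex.mul_re]
      simp only [Complex.sub_re, Complex.add_re, Complex.sub_im, sub_neg_eq_add, Complex.add_im]
      ring
    rw [h1]
    refine (Complex.abs_re_le_norm _).trans ?_
    rw [norm_mul]
    exact mul_le_mul_of_nonneg_left (norm_add_le _ _) hu0
  · refine abs_le_of_sq_le_sq ?_ (mul_nonneg hu0 hx0)
    rw [mul_pow, hu2, hAin, hPpq]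
    linarith only [sq_nonneg (p * (q - t) - q * (p - r))]

lemma kern_c1 {a g u s : ℝ} (hs : 0 ≤ s) (hu : 0 ≤ u) (ha : |a| ≤ u) (hg : |g| ≤ 1) (hus : u ≤ s) :
    |(6 * a * g) ^ 2| ≤ 36 * (u * s) := by
  have h1 : (6 * a * g) ^ 2 = 36 * (|a| ^ 2 * |g| ^ 2) := by
    rw [sq_abs, sq_abs]
    ring
  rw [h1, abs_of_nonneg (by (clear * -; positivity))]
  have h2 : |a| ^ 2 ≤ u * s := by
    calc |a| ^ 2 ≤ u ^ 2 := pow_le_pow_left₀ (abs_nonneg _) ha 2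
      _ = u * u := sq u
      _ ≤ u * s := mul_le_mul_of_nonneg_left hus hu
  have h3 : |g| ^ 2 ≤ 1 := pow_le_one₀ (abs_nonneg _) hg
  have h4 : |a| ^ 2 * |g| ^ 2 ≤ (u * s) * 1 :=
    mul_le_mul h2 h3 (sq_nonneg _) (mul_nonneg hu hs)
  linarith only [h4]

lemma kern_c3 {a b g m k : ℝ} (ha : |a| ≤ k) (hb : |b| ≤ m) (hm : 0 ≤ m) (hkm : k ≤ m)
    (hg : |g| ≤ 1) : |-12 * a + 12 * (b * g)| ≤ 24 * m := by
  have h1 : |b| * |g| ≤ m * 1 := mul_le_mul hb hg (abs_nonneg _) hm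
  refine (abs_add_le _ _).trans ?_
  rw [abs_mul, abs_mul, abs_mul]
  norm_num
  linarith only [ha, hkm, h1]

lemma kern_c2 {a b g m u w s : ℝ} (hb : |b| ≤ m) (hg : |g| ≤ 1) (ha : |a| ≤ u) (hw : |w| ≤ 2 * s)
    (hu : 0 ≤ u) (hm : m = u * s) (hm0 : 0 ≤ m) : |6 * (b * g) + 12 * (a * w)| ≤ 30 * m := by
  have h1 : |b| * |g| ≤ m * 1 := mul_le_mul hb hg (abs_nonneg _) hm0
  have h2 : |a| * |w| ≤ u * (2 * s) := mul_le_mul ha hw (abs_nonneg _) hu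
  refine (abs_add_le _ _).trans ?_
  rw [abs_mul, abs_mul b, abs_mul 12, abs_mul a]
  norm_num
  subst hm
  linarith only [h2, h1]

lemma kern_fin {κ a b c m : ℝ} (h0 : 0 < κ) (h8 : κ < 8) (ha : |a| ≤ 36 * m) (hb : |b| ≤ 30 * m)
    (hc : |c| ≤ 24 * m) : |κ / 2 * (a + b) + c| ≤ 300 * m := by
  refine (abs_add_le _ _).trans ?_
  rw [abs_mul, abs_of_pos (by linarith : 0 < κ / 2)]
  have hm : 0 ≤ m := by
    have := (abs_nonneg a).trans ha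
    linarith only [this]
  have d1 : |a + b| ≤ 66 * m := (abs_add_le _ _).trans (by linarith)
  have d2 : κ / 2 * |a + b| ≤ 4 * (66 * m) :=
    mul_le_mul (by linarith only [h8]) d1 (abs_nonneg _) (by norm_num)
  linarith only [hc, hm, d2]

theorem kern_gen_abs {κ : ℝ} (h0 : 0 < κ) (h8 : κ < 8) (hA : 0 < A.im) (hZ : 0 < Z.im) :
    |κ / 2 * (kX A Z ^ 2 + kXX A Z) + k3 A Z| ≤
      300 * (‖A⁻¹ - Z⁻¹‖ * (‖A⁻¹‖ + ‖Z⁻¹‖)) := by
  obtain ⟨p, q, P, hP, hPpq, hAre, hAim, hAn, hAinv, hAin⟩ := kern_coord hA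
  obtain ⟨r, t, R, hR, hRrt, hZre, hZim, hZn, hZinv, hZin⟩ := kern_coord hZ
  obtain ⟨b1, hp, hr, b2, b3, b4⟩ := kern_bounds hPpq hRrt hAinv hZinv hAin hZin
  have hu0 : 0 ≤ ‖A⁻¹ - Z⁻¹‖ := norm_nonneg _
  have hx0 : 0 ≤ ‖A⁻¹‖ := norm_nonneg _
  have hy0 : 0 ≤ ‖Z⁻¹‖ := norm_nonneg _
  have hs0 : 0 ≤ ‖A⁻¹‖ + ‖Z⁻¹‖ := add_nonneg hx0 hy0
  have hg := kern_g hP hR
  refine kern_fin h0 h8 ?_ ?_ ?_
  · rw [kern_kX_eq hP hR hAre hZre hAn hZn]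
    exact kern_c1 hs0 hu0 b1 hg (norm_sub_le _ _)
  · rw [kern_kXX_eq hP hR hPpq hRrt hAre hAim hZre hZim hAn hZn]
    exact kern_c2 b2 hg b1 (kern_third hP hR hx0 hy0 hp hr) hu0 rfl (mul_nonneg hu0 hs0)
  · rw [kern_k3_eq hP hR hPpq hAre hAim hZre hZim hAn hZn]
    exact kern_c3 b4 b3 (mul_nonneg hu0 hs0)
      (mul_le_mul_of_nonneg_left (by linarith only [hy0]) hu0) hg

end Vale.Agent.P164
end

section

/-!
# X-A1. The two-point kernel: size, derivatives, closeness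

Notation: `A = Z_b`, `Z = Z_Q`, `v = Z⁻¹`, `w = A⁻¹`, `s = ‖A‖/‖Z‖`, `S = ‖A‖²+‖Z‖²`.
`K1 = A.im‖Z‖/(‖A‖‖A - conj Z‖) = η_b / |w - conj v|`.
-/

namespace Vale.Agent.P164

open Set Metric Filter Topology MeasureTheory ProbabilityTheory
open scoped NNReal ENNReal

variable {A A' Z : ℂ}

lemma Kern_ne_zero (hA : 0 < A.im) : A ≠ 0 := by
  rintro rfl
  simp at hA

lemma Kern_norm_pos (hA : 0 < A.im) : 0 < ‖A‖ := norm_pos_iff.2 (Kern_ne_zero hA)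

lemma Kern_im_le (hA : 0 < A.im) (hZ : 0 < Z.im) :
    A.im + Z.im ≤ ‖A - (starRingEnd ℂ) Z‖ := by
  have h := Complex.abs_im_le_norm (A - (starRingEnd ℂ) Z)
  rw [Complex.sub_im, Complex.conj_im, sub_neg_eq_add, abs_of_pos (by linarith only [hA, hZ])] at h
  exact h

lemma Kern_den_pos (hA : 0 < A.im) (hZ : 0 < Z.im) :
    0 < ‖A‖ * ‖A - (starRingEnd ℂ) Z‖ :=
  mul_pos (Kern_norm_pos hA) (by linarith only [hA, hZ, Kern_im_le hA hZ])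

lemma K1_pos (hA : 0 < A.im) (hZ : 0 < Z.im) : 0 < K1 A Z :=
  div_pos (mul_pos hA (Kern_norm_pos hZ)) (Kern_den_pos hA hZ)

lemma Kern_mul_le (hZ : 0 < Z.im) :
    A.im * ‖Z‖ ≤ ‖A‖ * ‖A - (starRingEnd ℂ) Z‖ := by
  have hn : 0 < ‖Z‖ := Kern_norm_pos hZ
  have h := Complex.abs_im_le_norm ((A - (starRingEnd ℂ) Z) * ((starRingEnd ℂ) A * Z))
  rw [norm_mul, norm_mul, Complex.norm_conj] at h
  have e : ((A - (starRingEnd ℂ) Z) * ((starRingEnd ℂ) A * Z)).im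
      = A.im * ‖Z‖ ^ 2 + Z.im * ‖A‖ ^ 2 := by
    rw [Complex.sq_norm, Complex.sq_norm, Complex.normSq_apply, Complex.normSq_apply]
    simp only [Complex.mul_im, Complex.mul_re, Complex.sub_im, Complex.sub_re, Complex.conj_im,
      Complex.conj_re]
    ring
  have h1 := (le_abs_self _).trans h
  rw [e] at h1
  have h2 : 0 ≤ Z.im * ‖A‖ ^ 2 := by (clear * - hZ; positivity)
  have h3 : (A.im * ‖Z‖) * ‖Z‖ ≤ (‖A‖ * ‖A - (starRingEnd ℂ) Z‖) * ‖Z‖ := by linarith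
  exact le_of_mul_le_mul_right h3 hn

/-- `‖A‖‖A - conj Z‖ ≥ A.im ‖Z‖`: if `u = A - conj Z` then `u.im = A.im + Z.im` and
`‖A‖‖u‖ ≥ |Im (A conj-rotated ...)|`; equivalently `|w - v| ≤ |w - conj v|` and
`|w - conj v| ≥ |Im w| = A.im/‖A‖²`. -/
lemma K1_le_one (hA : 0 < A.im) (hZ : 0 < Z.im) : K1 A Z ≤ 1 :=
  (div_le_one (Kern_den_pos hA hZ)).2 (Kern_mul_le hZ)

/-- (K-a) `K1 ≤ 2/s`: if `‖A‖ ≥ 2‖Z‖` then `‖A - conj Z‖ ≥ ‖A‖/2`; else `K1 ≤ 1 ≤ 2/s`. -/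
lemma K1_le_div (hA : 0 < A.im) (hZ : 0 < Z.im) : K1 A Z ≤ 2 * (‖Z‖ / ‖A‖) := by
  have h1 := Kern_norm_pos hA
  have h2 := Kern_im_le hA hZ
  have h3 : 0 ≤ ‖Z‖ := norm_nonneg Z
  unfold K1
  rw [div_le_iff₀ (Kern_den_pos hA hZ)]
  have e : 2 * (‖Z‖ / ‖A‖) * (‖A‖ * ‖A - (starRingEnd ℂ) Z‖)
      = 2 * ‖A - (starRingEnd ℂ) Z‖ * ‖Z‖ := by
    (clear * - h1; field_simp)
  rw [e]
  exact mul_le_mul_of_nonneg_right (by linarith only [hA, hZ, h2]) h3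

lemma K2_pos (hA : 0 < A.im) : 0 < K2 A Z := by
  have h := Kern_norm_pos hA
  unfold K2
  positivity

lemma K2_le_one (A Z : ℂ) : K2 A Z ≤ 1 :=
  div_le_one_of_le₀ (by nlinarith [sq_nonneg ‖Z‖]) (by positivity)

lemma K2_le (hZ : 0 < Z.im) : K2 A Z ≤ (‖A‖ / ‖Z‖) ^ 2 := by
  have h := Kern_norm_pos hZ
  rw [div_pow]
  unfold K2
  gcongr
  nlinarith only []

lemma KK_pos (hA : 0 < A.im) (hZ : 0 < Z.im) : 0 < KK A Z :=
  pow_pos (mul_pos (K1_pos hA hZ) (K2_pos hA)) 6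

lemma Kern_mul_le_K2 (hA : 0 < A.im) (hZ : 0 < Z.im) : K1 A Z * K2 A Z ≤ K2 A Z :=
  mul_le_of_le_one_left (K2_pos hA).le (K1_le_one hA hZ)

lemma KK_le_one (hA : 0 < A.im) (hZ : 0 < Z.im) : KK A Z ≤ 1 :=
  pow_le_one₀ (mul_pos (K1_pos hA hZ) (K2_pos hA)).le
    ((Kern_mul_le_K2 hA hZ).trans (K2_le_one A Z))

lemma Kern_K2_pow (hA : 0 < A.im) (hZ : 0 < Z.im) : K2 A Z ^ 6 ≤ (‖A‖ / ‖Z‖) ^ 12 := by
  have h := pow_le_pow_left₀ (K2_pos hA).le (K2_le (A := A) hZ) 6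
  rwa [← pow_mul] at h

lemma KK_le (hA : 0 < A.im) (hZ : 0 < Z.im) : KK A Z ≤ (‖A‖ / ‖Z‖) ^ 12 :=
  (pow_le_pow_left₀ (mul_pos (K1_pos hA hZ) (K2_pos hA)).le (Kern_mul_le_K2 hA hZ) 6).trans
    (Kern_K2_pow hA hZ)

lemma KT_nonneg (hA : 0 < A.im) (hZ : 0 < Z.im) : 0 ≤ KT A Z := by
  have h1 := K1_pos hA hZ
  have h2 := K2_pos (Z := Z) hA
  unfold KT
  (clear * - h1 h2; positivity)

/-- `K ≤ KT`. -/
lemma KK_le_KT (hA : 0 < A.im) (hZ : 0 < Z.im) : KK A Z ≤ KT A Z := by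
  have h1 := K1_pos hA hZ
  have h2 := K2_pos (Z := Z) hA
  have h3 := K1_le_one hA hZ
  have h4 : K1 A Z ^ 6 ≤ K1 A Z ^ 4 := pow_le_pow_of_le_one h1.le h3 (by norm_num)
  have h5 : (1 : ℝ) ≤ 1 + ‖Z‖ / ‖A‖ := by
    have : 0 ≤ ‖Z‖ / ‖A‖ := by (clear * -; positivity)
    linarith
  unfold KK KT
  rw [mul_pow]
  calc K1 A Z ^ 6 * K2 A Z ^ 6 ≤ K1 A Z ^ 4 * K2 A Z ^ 6 :=
        mul_le_mul_of_nonneg_right h4 (by (clear * - h2; positivity))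
    _ ≤ K1 A Z ^ 4 * K2 A Z ^ 6 * (1 + ‖Z‖ / ‖A‖) :=
        le_mul_of_one_le_right (by positivity) h5

/-- (K-a') `KT ≤ 2 min(1,s)^11`: `K2^6 ≤ min(1, s^12)`. -/
lemma KT_le (hA : 0 < A.im) (hZ : 0 < Z.im) : KT A Z ≤ 2 * min 1 (‖A‖ / ‖Z‖) ^ 11 := by
  have h1 := K1_pos hA hZ
  have h2 := K2_pos (Z := Z) hA
  have h3 := K1_le_one hA hZ
  have hnA := Kern_norm_pos hA
  have hnZ := Kern_norm_pos hZ
  have h4 : K1 A Z ^ 4 ≤ 1 := pow_le_one₀ h1.le h3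
  have h5 : KT A Z ≤ K2 A Z ^ 6 * (1 + ‖Z‖ / ‖A‖) := by
    unfold KT
    rw [mul_assoc]
    exact mul_le_of_le_one_left (by (clear * - h2 hnZ hnA; positivity)) h4
  refine h5.trans ?_
  rcases le_total 1 (‖A‖ / ‖Z‖) with h | h
  · rw [min_eq_left h, one_pow, mul_one]
    have h6 : K2 A Z ^ 6 ≤ 1 := pow_le_one₀ h2.le (K2_le_one A Z)
    have h7 : ‖Z‖ / ‖A‖ ≤ 1 := by
      rw [one_le_div hnZ] at h
      exact (div_le_one hnA).2 h
    have h8 : 0 ≤ ‖Z‖ / ‖A‖ := by positivity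
    calc K2 A Z ^ 6 * (1 + ‖Z‖ / ‖A‖) ≤ 1 * (1 + 1) := by gcongr
      _ = 2 := by norm_num
  · rw [min_eq_right h]
    have hs : 0 < ‖A‖ / ‖Z‖ := by (clear * - hnA hnZ; positivity)
    have h6 := Kern_K2_pow hA hZ
    have h7 : (‖A‖ / ‖Z‖) * (1 + ‖Z‖ / ‖A‖) ≤ 2 := by
      have e : (‖A‖ / ‖Z‖) * (1 + ‖Z‖ / ‖A‖) = ‖A‖ / ‖Z‖ + 1 := by
        (clear * - hnA hnZ; field_simp)
      rw [e]
      linarith only [h]
    calc K2 A Z ^ 6 * (1 + ‖Z‖ / ‖A‖) ≤ (‖A‖ / ‖Z‖) ^ 12 * (1 + ‖Z‖ / ‖A‖) :=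
          mul_le_mul_of_nonneg_right h6 (by positivity)
      _ = (‖A‖ / ‖Z‖) ^ 11 * ((‖A‖ / ‖Z‖) * (1 + ‖Z‖ / ‖A‖)) := by ring
      _ ≤ (‖A‖ / ‖Z‖) ^ 11 * 2 := mul_le_mul_of_nonneg_left h7 (by positivity)
      _ = 2 * (‖A‖ / ‖Z‖) ^ 11 := by ring

/-- (K-b) `K1 |w - v| ≤ η_b`. -/
theorem K1_mul_sub (hA : 0 < A.im) (hZ : 0 < Z.im) :
    K1 A Z * ‖A⁻¹ - Z⁻¹‖ ≤ A.im / ‖A‖ ^ 2 := by
  have hA0 : A ≠ 0 := by rintro rfl; simp at hA
  have hZ0 : Z ≠ 0 := by rintro rfl; simp at hZ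
  have ha : 0 < ‖A‖ := norm_pos_iff.2 hA0
  have hz : 0 < ‖Z‖ := norm_pos_iff.2 hZ0
  have h1 : ‖A⁻¹ - Z⁻¹‖ = ‖A - Z‖ / (‖A‖ * ‖Z‖) := by
    rw [inv_sub_inv hA0 hZ0, norm_div, norm_mul, norm_sub_rev]
  have h2 : ‖A - Z‖ ≤ ‖A - (starRingEnd ℂ) Z‖ := by
    rw [← sq_le_sq₀ (norm_nonneg _) (norm_nonneg _), ← Complex.normSq_eq_norm_sq,
      ← Complex.normSq_eq_norm_sq, Complex.normSq_apply, Complex.normSq_apply]
    simp only [Complex.sub_re, Complex.sub_im, Complex.conj_re, Complex.conj_im]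
    nlinarith only [hA, hZ]
  have h3 : 0 < ‖A - (starRingEnd ℂ) Z‖ := by
    rw [norm_pos_iff]
    intro h
    have := congrArg Complex.im h
    simp only [Complex.sub_im, Complex.conj_im, Complex.zero_im] at this
    linarith only [hA, hZ, this]
  have h4 : K1 A Z * ‖A⁻¹ - Z⁻¹‖ = A.im / ‖A‖ ^ 2 * (‖A - Z‖ / ‖A - (starRingEnd ℂ) Z‖) := by
    rw [h1, K1]
    field_simp
  rw [h4]
  exact mul_le_of_le_one_right (by positivity) ((div_le_one h3).2 h2)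

/-- `K |w - v|² ≤ K1⁴ K2⁶ η_b² = K1⁴ K2⁶ rate / 4`. -/
theorem KK_mul_sq (hA : 0 < A.im) (hZ : 0 < Z.im) :
    KK A Z * ‖A⁻¹ - Z⁻¹‖ ^ 2 ≤ K1 A Z ^ 4 * K2 A Z ^ 6 * (rate A / 4) := by
  have h1 := K1_mul_sub hA hZ
  have hA0 : A ≠ 0 := by rintro rfl; simp at hA
  have ha : 0 < ‖A‖ := norm_pos_iff.2 hA0
  have h0 : 0 ≤ K1 A Z := by
    unfold K1
    positivity
  have h2 : rate A / 4 = (A.im / ‖A‖ ^ 2) ^ 2 := by
    rw [rate, sn]
    field_simp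
  have h3 : KK A Z * ‖A⁻¹ - Z⁻¹‖ ^ 2 =
      K1 A Z ^ 4 * K2 A Z ^ 6 * (K1 A Z * ‖A⁻¹ - Z⁻¹‖) ^ 2 := by
    rw [KK]; ring
  rw [h2, h3]
  refine mul_le_mul_of_nonneg_left (pow_le_pow_left₀ (by (clear * - h0; positivity)) h1 2) ?_
  unfold K2
  (clear * - hA0; positivity)

/-- (K-c) `kX = (12/(1+s²) - 6) Re (w - v)`. -/
theorem kX_abs (hA : 0 < A.im) (hZ : 0 < Z.im) : |kX A Z| ≤ 6 * ‖A⁻¹ - Z⁻¹‖ := by
  have hA0 : A ≠ 0 := by rintro rfl; simp at hA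
  have hZ0 : Z ≠ 0 := by rintro rfl; simp at hZ
  have ha : 0 < ‖A‖ := norm_pos_iff.2 hA0
  have hz : 0 < ‖Z‖ := norm_pos_iff.2 hZ0
  have h1 : kX A Z = (12 * ‖Z‖ ^ 2 / (‖A‖ ^ 2 + ‖Z‖ ^ 2) - 6) * (A⁻¹ - Z⁻¹).re := by
    rw [kX, Complex.sub_re, Complex.inv_re, Complex.inv_re, Complex.normSq_eq_norm_sq,
      Complex.normSq_eq_norm_sq]
    field_simp
    ring
  have h2 : |12 * ‖Z‖ ^ 2 / (‖A‖ ^ 2 + ‖Z‖ ^ 2) - 6| ≤ 6 := by
    have h3 : 0 ≤ 12 * ‖Z‖ ^ 2 / (‖A‖ ^ 2 + ‖Z‖ ^ 2) := by positivity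
    have h4 : 12 * ‖Z‖ ^ 2 / (‖A‖ ^ 2 + ‖Z‖ ^ 2) ≤ 12 := by
      rw [div_le_iff₀ (by positivity)]
      nlinarith only []
    rw [abs_le]
    constructor <;> linarith only [h3, h4]
  rw [h1, abs_mul]
  exact mul_le_mul h2 (Complex.abs_re_le_norm _) (abs_nonneg _) (by norm_num)

/-- (K-d) the generator. With `κ' = 2 - κ/2`:
`k3 + (κ/2) kXX = 6 (-Re[(w-v)(2 conj w + κ'(w+v))]) +
  6 (2/(1+s²) κ' Re(w²-v²) - (κ/2) 4s²/(1+s²)² (Re(w-v))²)` and `kX² ≤ 36 (Re(w-v))²`. -/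
theorem kgen_abs {κ : ℝ} (h0 : 0 < κ) (h8 : κ < 8) (hA : 0 < A.im) (hZ : 0 < Z.im) :
    |κ / 2 * (kX A Z ^ 2 + kXX A Z) + k3 A Z| ≤
      300 * (‖A⁻¹ - Z⁻¹‖ * (‖A⁻¹‖ + ‖Z⁻¹‖)) := by
  exact kern_gen_abs h0 h8 hA hZ

/-- elementary bounds used for the crude estimates -/
lemma Kern_elem {a z x y p q : ℝ} (ha : 0 < a) (hz : 0 < z) (hx : x ^ 2 + y ^ 2 = z ^ 2)
    (hp : p ^ 2 + q ^ 2 = a ^ 2) :
    |6 * (y ^ 2 - x ^ 2) / z ^ 4 + 6 * (q ^ 2 - p ^ 2) / a ^ 4 -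
      12 * (2 / (a ^ 2 + z ^ 2) - 2 * (p + x) ^ 2 / (a ^ 2 + z ^ 2) ^ 2)| ≤
        200 * (a⁻¹ + z⁻¹) ^ 2 ∧
    |-12 / a ^ 2 + 12 * (x ^ 2 - y ^ 2) / z ^ 4 + 12 * (p ^ 2 - q ^ 2) / a ^ 4 +
      12 * (p * x + q * y) / (a ^ 2 * z ^ 2) -
      24 * ((p ^ 2 - q ^ 2) / a ^ 2 + (x ^ 2 - y ^ 2) / z ^ 2) / (a ^ 2 + z ^ 2)| ≤
        200 * (a⁻¹ + z⁻¹) ^ 2 := by
  have e1 : |(y ^ 2 - x ^ 2) / z ^ 4| ≤ 1 / z ^ 2 := by
    rw [abs_div, abs_of_pos (show (0 : ℝ) < z ^ 4 by positivity),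
      div_le_div_iff₀ (by positivity) (by positivity)]
    have h1 : |y ^ 2 - x ^ 2| ≤ z ^ 2 := by
      rw [abs_le]; constructor <;> linarith only [hx, sq_nonneg x, sq_nonneg y]
    calc |y ^ 2 - x ^ 2| * z ^ 2 ≤ z ^ 2 * z ^ 2 := mul_le_mul_of_nonneg_right h1 (sq_nonneg z)
      _ = 1 * z ^ 4 := by ring
  have e2 : |(q ^ 2 - p ^ 2) / a ^ 4| ≤ 1 / a ^ 2 := by
    rw [abs_div, abs_of_pos (show (0 : ℝ) < a ^ 4 by (clear * - ha; positivity)),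
      div_le_div_iff₀ (by positivity) (by positivity)]
    have h1 : |q ^ 2 - p ^ 2| ≤ a ^ 2 := by
      rw [abs_le]; constructor <;> linarith only [hp, sq_nonneg p, sq_nonneg q]
    calc |q ^ 2 - p ^ 2| * a ^ 2 ≤ a ^ 2 * a ^ 2 := mul_le_mul_of_nonneg_right h1 (sq_nonneg a)
      _ = 1 * a ^ 4 := by ring
  have e3 : 1 / (a ^ 2 + z ^ 2) ≤ 1 / a ^ 2 :=
    one_div_le_one_div_of_le (by positivity) (by linarith only [sq_nonneg z])
  have e3' : 0 ≤ 1 / (a ^ 2 + z ^ 2) := by positivity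
  have e4 : (p + x) ^ 2 / (a ^ 2 + z ^ 2) ^ 2 ≤ 2 * (1 / a ^ 2) := by
    have h1 : (p + x) ^ 2 ≤ 2 * (a ^ 2 + z ^ 2) := by
      linarith only [hx, hp, sq_nonneg (p - x), sq_nonneg y, sq_nonneg q]
    have h2 : (p + x) ^ 2 / (a ^ 2 + z ^ 2) ^ 2 ≤ 2 * (a ^ 2 + z ^ 2) / (a ^ 2 + z ^ 2) ^ 2 :=
      div_le_div_of_nonneg_right h1 (by positivity)
    have h3 : 2 * (a ^ 2 + z ^ 2) / (a ^ 2 + z ^ 2) ^ 2 = 2 * (1 / (a ^ 2 + z ^ 2)) := by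
      field_simp
    linarith only [e3, h2, h3]
  have e4' : 0 ≤ (p + x) ^ 2 / (a ^ 2 + z ^ 2) ^ 2 := by positivity
  have e5 : |(p * x + q * y) / (a ^ 2 * z ^ 2)| ≤ 1 / (a * z) := by
    rw [abs_div, abs_of_pos (show (0 : ℝ) < a ^ 2 * z ^ 2 by positivity),
      div_le_div_iff₀ (by positivity) (by positivity)]
    have h1 : |p * x + q * y| ≤ a * z := by
      refine abs_le_of_sq_le_sq ?_ (by positivity)
      rw [mul_pow, ← hx, ← hp]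
      linarith only [sq_nonneg (p * y - q * x)]
    calc |p * x + q * y| * (a * z) ≤ (a * z) * (a * z) :=
          mul_le_mul_of_nonneg_right h1 (by positivity)
      _ = 1 * (a ^ 2 * z ^ 2) := by ring
  have e6 : |((p ^ 2 - q ^ 2) / a ^ 2 + (x ^ 2 - y ^ 2) / z ^ 2) / (a ^ 2 + z ^ 2)| ≤
      2 * (1 / a ^ 2) := by
    have h1 : |(p ^ 2 - q ^ 2) / a ^ 2| ≤ 1 := by
      rw [abs_div, abs_of_pos (show (0 : ℝ) < a ^ 2 by positivity), div_le_one (by positivity),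
        abs_le]
      constructor <;> linarith only [hp, sq_nonneg p, sq_nonneg q]
    have h2 : |(x ^ 2 - y ^ 2) / z ^ 2| ≤ 1 := by
      rw [abs_div, abs_of_pos (show (0 : ℝ) < z ^ 2 by positivity), div_le_one (by positivity),
        abs_le]
      constructor <;> linarith only [hx, sq_nonneg x, sq_nonneg y]
    have h3 : |(p ^ 2 - q ^ 2) / a ^ 2 + (x ^ 2 - y ^ 2) / z ^ 2| ≤ 2 :=
      (abs_add_le _ _).trans (by linarith only [h1, h2])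
    rw [abs_div, abs_of_pos (show (0 : ℝ) < a ^ 2 + z ^ 2 by positivity)]
    calc |(p ^ 2 - q ^ 2) / a ^ 2 + (x ^ 2 - y ^ 2) / z ^ 2| / (a ^ 2 + z ^ 2)
        ≤ 2 / (a ^ 2 + z ^ 2) := div_le_div_of_nonneg_right h3 (by positivity)
      _ = 2 * (1 / (a ^ 2 + z ^ 2)) := by ring
      _ ≤ 2 * (1 / a ^ 2) := by linarith only [e3]
  have e7 : |(x ^ 2 - y ^ 2) / z ^ 4| ≤ 1 / z ^ 2 := by
    have : (x ^ 2 - y ^ 2) / z ^ 4 = -((y ^ 2 - x ^ 2) / z ^ 4) := by ring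
    rw [this, abs_neg]; exact e1
  have e8 : |(p ^ 2 - q ^ 2) / a ^ 4| ≤ 1 / a ^ 2 := by
    have : (p ^ 2 - q ^ 2) / a ^ 4 = -((q ^ 2 - p ^ 2) / a ^ 4) := by ring
    rw [this, abs_neg]; exact e2
  have ea : 0 < 1 / a ^ 2 := by positivity
  have ez : 0 < 1 / z ^ 2 := by positivity
  have eaz : 0 < 1 / (a * z) := by positivity
  have ef : (a⁻¹ + z⁻¹) ^ 2 = 1 / a ^ 2 + 2 * (1 / (a * z)) + 1 / z ^ 2 := by
    field_simp
    ring
  rw [abs_le] at e1 e2 e5 e6 e7 e8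
  rw [ef]
  constructor
  · have r : 6 * (y ^ 2 - x ^ 2) / z ^ 4 + 6 * (q ^ 2 - p ^ 2) / a ^ 4 -
      12 * (2 / (a ^ 2 + z ^ 2) - 2 * (p + x) ^ 2 / (a ^ 2 + z ^ 2) ^ 2) =
      6 * ((y ^ 2 - x ^ 2) / z ^ 4) + 6 * ((q ^ 2 - p ^ 2) / a ^ 4) -
      24 * (1 / (a ^ 2 + z ^ 2)) + 24 * ((p + x) ^ 2 / (a ^ 2 + z ^ 2) ^ 2) := by ring
    rw [r, abs_le]
    constructor <;> linarith only [e1.1, e2.1, e3, e4', ea, ez, eaz, e1.2, e2.2, e3', e4]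
  · have r : -12 / a ^ 2 + 12 * (x ^ 2 - y ^ 2) / z ^ 4 + 12 * (p ^ 2 - q ^ 2) / a ^ 4 +
      12 * (p * x + q * y) / (a ^ 2 * z ^ 2) -
      24 * ((p ^ 2 - q ^ 2) / a ^ 2 + (x ^ 2 - y ^ 2) / z ^ 2) / (a ^ 2 + z ^ 2) =
      -12 * (1 / a ^ 2) + 12 * ((x ^ 2 - y ^ 2) / z ^ 4) + 12 * ((p ^ 2 - q ^ 2) / a ^ 4) +
      12 * ((p * x + q * y) / (a ^ 2 * z ^ 2)) -
      24 * (((p ^ 2 - q ^ 2) / a ^ 2 + (x ^ 2 - y ^ 2) / z ^ 2) / (a ^ 2 + z ^ 2)) := by ring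
    rw [r, abs_le]
    constructor <;> linarith only [e5.1, e6.2, e7.1, e8.1, ea, ez, eaz, e5.2, e6.1, e7.2, e8.2]

/-- Crude bounds. -/

theorem k_crude (hA : 0 < A.im) (hZ : 0 < Z.im) :
    |kX A Z| ≤ 100 * (‖A‖⁻¹ + ‖Z‖⁻¹) ∧ |kXX A Z| ≤ 200 * (‖A‖⁻¹ + ‖Z‖⁻¹) ^ 2 ∧
      |k3 A Z| ≤ 200 * (‖A‖⁻¹ + ‖Z‖⁻¹) ^ 2 := by
  have hA0 : A ≠ 0 := by rintro rfl; simp at hA
  have hZ0 : Z ≠ 0 := by rintro rfl; simp at hZ
  have ha : 0 < ‖A‖ := norm_pos_iff.2 hA0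
  have hz : 0 < ‖Z‖ := norm_pos_iff.2 hZ0
  have hn : ∀ w : ℂ, w.re ^ 2 + w.im ^ 2 = ‖w‖ ^ 2 := fun w => by
    rw [← Complex.normSq_eq_norm_sq, Complex.normSq_apply]; ring
  refine ⟨?_, Kern_elem ha hz (hn Z) (hn A)⟩
  have h1 := kX_abs hA hZ
  have h2 : ‖A⁻¹ - Z⁻¹‖ ≤ ‖A‖⁻¹ + ‖Z‖⁻¹ := by
    refine (norm_sub_le _ _).trans (le_of_eq ?_)
    rw [norm_inv, norm_inv]
  have h3 : 0 < ‖A‖⁻¹ + ‖Z‖⁻¹ := by (clear * - hA0 hZ0; positivity)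
  linarith only [h1, h2, h3]

/-- Lower bound `A.im ≤ ‖A - conj Z‖`. -/
lemma Kern_im_le_conj (hA : 0 < A.im) (hZ : 0 < Z.im) :
    A.im ≤ ‖A - (starRingEnd ℂ) Z‖ := by
  have h1 : (A - (starRingEnd ℂ) Z).im = A.im + Z.im := by
    simp only [Complex.sub_im, Complex.conj_im, sub_neg_eq_add]
  have h2 : |(A - (starRingEnd ℂ) Z).im| ≤ ‖A - (starRingEnd ℂ) Z‖ := Complex.abs_im_le_norm _
  rw [h1, abs_of_pos (by linarith)] at h2
  linarith only [hZ, h2]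

/-- Closeness: `‖A' - A‖ ≤ A.im/400` changes `K` by a factor `≥ 0.9`. -/
theorem KK_close (hA : 0 < A.im) (hZ : 0 < Z.im) (hd : ‖A' - A‖ ≤ A.im / 400) :
    9 / 10 * KK A Z ≤ KK A' Z := by
  have hAn : A.im ≤ ‖A‖ := le_trans (le_abs_self _) (Complex.abs_im_le_norm _)
  have hZn : Z.im ≤ ‖Z‖ := le_trans (le_abs_self _) (Complex.abs_im_le_norm _)
  have hA0 : 0 < ‖A‖ := lt_of_lt_of_le hA hAn
  have hZ0 : 0 < ‖Z‖ := lt_of_lt_of_le hZ hZn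
  have hc := Kern_im_le_conj hA hZ
  have hc0 : 0 < ‖A - (starRingEnd ℂ) Z‖ := lt_of_lt_of_le hA hc
  have him : A'.im ≥ 399 / 400 * A.im := by
    have h1 : |(A' - A).im| ≤ ‖A' - A‖ := Complex.abs_im_le_norm _
    have h2 := (abs_le.mp (h1.trans hd)).1
    rw [Complex.sub_im] at h2
    linarith only [h2]
  have hA'0 : 0 < A'.im := by nlinarith only [hA, him]
  have hup : ‖A'‖ ≤ 401 / 400 * ‖A‖ := by
    have h1 : ‖A'‖ ≤ ‖A' - A‖ + ‖A‖ := by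
      have := norm_add_le (A' - A) A
      rwa [sub_add_cancel] at this
    linarith only [hd, hAn, h1]
  have hlo : 399 / 400 * ‖A‖ ≤ ‖A'‖ := by
    have h1 : ‖A‖ ≤ ‖A' - A‖ + ‖A'‖ := by
      have := norm_sub_le A' (A' - A)
      rw [sub_sub_cancel] at this
      linarith only [this]
    linarith only [hd, hAn, h1]
  have hA'n : 0 < ‖A'‖ := by nlinarith only [hA, hAn, hlo]
  have hcup : ‖A' - (starRingEnd ℂ) Z‖ ≤ 401 / 400 * ‖A - (starRingEnd ℂ) Z‖ := by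
    have h1 : ‖A' - (starRingEnd ℂ) Z‖ ≤ ‖A' - A‖ + ‖A - (starRingEnd ℂ) Z‖ := by
      have := norm_add_le (A' - A) (A - (starRingEnd ℂ) Z)
      rwa [sub_add_sub_cancel] at this
    linarith only [hd, hc, h1]
  have hc' : 0 < ‖A' - (starRingEnd ℂ) Z‖ :=
    lt_of_lt_of_le hA'0 (Kern_im_le_conj hA'0 hZ)
  -- K1
  have hK1 : (399 / 400) / (401 / 400) ^ 2 * K1 A Z ≤ K1 A' Z := by
    unfold K1
    have e : (399 / 400 : ℝ) / (401 / 400) ^ 2 *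
        (A.im * ‖Z‖ / (‖A‖ * ‖A - (starRingEnd ℂ) Z‖)) =
        (399 / 400 * A.im * ‖Z‖) /
          ((401 / 400 * ‖A‖) * (401 / 400 * ‖A - (starRingEnd ℂ) Z‖)) := by
      field_simp
    rw [e]
    apply div_le_div₀
    · (clear * - hA'0 hZ0; positivity)
    · exact mul_le_mul_of_nonneg_right him hZ0.le
    · (clear * - hA'n hc'; positivity)
    · exact mul_le_mul hup hcup hc'.le (by positivity)
  have hK2 : (399 / 400) ^ 2 * K2 A Z ≤ K2 A' Z := by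
    unfold K2
    rw [← mul_div_assoc, div_le_div_iff₀ (by positivity) (by (clear * - hA'n hZ0; positivity))]
    have h1 : (399 / 400 * ‖A‖) ^ 2 ≤ ‖A'‖ ^ 2 := by
      apply pow_le_pow_left₀ (by positivity) hlo
    have h2 : (399 / 400 : ℝ) ^ 2 * ‖A‖ ^ 2 ≤ ‖A'‖ ^ 2 := by
      rw [← mul_pow]; exact h1
    have h3 : (399 / 400 : ℝ) ^ 2 * ‖A‖ ^ 2 * ‖A'‖ ^ 2 ≤ ‖A'‖ ^ 2 * ‖A‖ ^ 2 := by
      have : 0 ≤ ‖A‖ ^ 2 * ‖A'‖ ^ 2 := by (clear * - hA0 hA'n; positivity)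
      nlinarith only []
    nlinarith only [h2]
  have hK1p : 0 ≤ K1 A Z := by unfold K1; positivity
  have hK2p : 0 ≤ K2 A Z := by unfold K2; positivity
  have hprod : ((399 / 400) / (401 / 400) ^ 2 * (399 / 400) ^ 2) * (K1 A Z * K2 A Z) ≤
      K1 A' Z * K2 A' Z := by
    calc ((399 / 400) / (401 / 400) ^ 2 * (399 / 400) ^ 2) * (K1 A Z * K2 A Z)
        = ((399 / 400) / (401 / 400) ^ 2 * K1 A Z) * ((399 / 400) ^ 2 * K2 A Z) := by ring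
      _ ≤ K1 A' Z * K2 A' Z := by
          apply mul_le_mul hK1 hK2 (by (clear * - hK2p; positivity))
          exact le_trans (by positivity) hK1
  unfold KK
  calc 9 / 10 * (K1 A Z * K2 A Z) ^ 6
      ≤ ((399 / 400) / (401 / 400) ^ 2 * (399 / 400) ^ 2) ^ 6 * (K1 A Z * K2 A Z) ^ 6 := by
        apply mul_le_mul_of_nonneg_right _ (by (clear * -; positivity))
        norm_num
    _ = (((399 / 400) / (401 / 400) ^ 2 * (399 / 400) ^ 2) * (K1 A Z * K2 A Z)) ^ 6 := by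
        rw [← mul_pow]
    _ ≤ (K1 A' Z * K2 A' Z) ^ 6 := pow_le_pow_left₀ (by (clear * - hK1p hK2p; positivity)) hprod 6

/-- `K1 ≥ 0.49`, `K2 ≥ 0.49` if the points are hyperbolically close. -/
theorem KK_near (hA : 0 < A.im) (hd : ‖A - Z‖ ≤ A.im / 100) : 1 / 5000 ≤ KK A Z := by
  have hAn : A.im ≤ ‖A‖ := le_trans (le_abs_self _) (Complex.abs_im_le_norm _)
  have hA0 : 0 < ‖A‖ := lt_of_lt_of_le hA hAn
  have hup : ‖Z‖ ≤ 101 / 100 * ‖A‖ := by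
    have h1 : ‖Z‖ ≤ ‖A‖ + ‖A - Z‖ := by
      have := norm_sub_le A (A - Z)
      rwa [sub_sub_cancel] at this
    linarith
  have hlo : 99 / 100 * ‖A‖ ≤ ‖Z‖ := by
    have h1 : ‖A‖ ≤ ‖A - Z‖ + ‖Z‖ := by
      have := norm_add_le (A - Z) Z
      rwa [sub_add_cancel] at this
    linarith only [hd, hAn, h1]
  have hZ0 : 0 < ‖Z‖ := by nlinarith only [hA, hAn, hlo]
  have him : |(A - Z).im| ≤ A.im / 100 := (Complex.abs_im_le_norm _).trans hd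
  rw [Complex.sub_im] at him
  have hZim := abs_le.mp him
  have hZim0 : 0 < Z.im := by linarith only [hA, hZim]
  have hconj : ‖A - (starRingEnd ℂ) Z‖ ≤ 203 / 100 * A.im := by
    have h1 : ‖A - (starRingEnd ℂ) Z‖ ≤ ‖A - Z‖ + ‖Z - (starRingEnd ℂ) Z‖ := by
      have := norm_add_le (A - Z) (Z - (starRingEnd ℂ) Z)
      rwa [sub_add_sub_cancel] at this
    have h2 : ‖Z - (starRingEnd ℂ) Z‖ = 2 * Z.im := by
      rw [Complex.sub_conj, norm_mul, Complex.norm_I, mul_one, Complex.norm_real,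
        Real.norm_of_nonneg (by (clear * - hZim0; positivity))]
    linarith only [hd, hZim, h1, h2]
  have hc0 : 0 < ‖A - (starRingEnd ℂ) Z‖ :=
    lt_of_lt_of_le hA (Kern_im_le_conj hA hZim0)
  have key : (246 : ℝ) / 1000 ≤ K1 A Z * K2 A Z := by
    have e : K1 A Z * K2 A Z =
        (A.im / ‖A - (starRingEnd ℂ) Z‖) * (‖Z‖ * ‖A‖ / (‖A‖ ^ 2 + ‖Z‖ ^ 2)) := by
      unfold K1 K2
      field_simp
    rw [e]
    have h1 : (100 : ℝ) / 203 ≤ A.im / ‖A - (starRingEnd ℂ) Z‖ := by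
      rw [div_le_div_iff₀ (by (clear * -; norm_num)) hc0]
      linarith only [hconj]
    have h2 : (4999 : ℝ) / 10000 ≤ ‖Z‖ * ‖A‖ / (‖A‖ ^ 2 + ‖Z‖ ^ 2) := by
      rw [div_le_div_iff₀ (by norm_num) (by (clear * - hA0 hZ0; positivity))]
      nlinarith only [hup, hlo]
    calc (246 : ℝ) / 1000 ≤ 100 / 203 * (4999 / 10000) := by norm_num
      _ ≤ _ := mul_le_mul h1 h2 (by norm_num) (by positivity)
  unfold KK
  calc (1 : ℝ) / 5000 ≤ (246 / 1000) ^ 6 := by norm_num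
    _ ≤ _ := pow_le_pow_left₀ (by norm_num) key 6

/-- On the arc from `Z` to the vertical: `‖A - conj Z‖ ≤ 2 A.im`, so `K1 ≥ 1/2`, `K2 = 1/2`. -/
theorem KK_arc (hZ : 0 < Z.im) (hn : ‖A‖ = ‖Z‖) (him : Z.im ≤ A.im)
    (hre : 0 ≤ A.re * Z.re) : 1 / 5000 ≤ KK A Z := by
  have hA : 0 < A.im := lt_of_lt_of_le hZ him
  have hZn : Z.im ≤ ‖Z‖ := le_trans (le_abs_self _) (Complex.abs_im_le_norm _)
  have hZ0 : 0 < ‖Z‖ := lt_of_lt_of_le hZ hZn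
  have hsq : A.re ^ 2 + A.im ^ 2 = Z.re ^ 2 + Z.im ^ 2 := by
    have h1 := Complex.sq_norm A
    have h2 := Complex.sq_norm Z
    rw [Complex.normSq_apply] at h1 h2
    rw [hn] at h1
    linarith
  have hre2 : A.re ^ 2 ≤ Z.re ^ 2 := by nlinarith only [hsq, hZ, him]
  have hre3 : A.re ^ 2 ≤ A.re * Z.re := by
    have h4 : (A.re ^ 2) ^ 2 ≤ (A.re * Z.re) ^ 2 := by
      nlinarith only [hre2]
    exact le_of_sq_le_sq h4 hre
  have hconj : ‖A - (starRingEnd ℂ) Z‖ ≤ 2 * A.im := by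
    have h1 : ‖A - (starRingEnd ℂ) Z‖ ^ 2 = (A.re - Z.re) ^ 2 + (A.im + Z.im) ^ 2 := by
      rw [Complex.sq_norm, Complex.normSq_apply]
      simp only [Complex.sub_re, Complex.sub_im, Complex.conj_re, Complex.conj_im]
      ring
    have h2 : ‖A - (starRingEnd ℂ) Z‖ ^ 2 ≤ (2 * A.im) ^ 2 := by
      rw [h1]
      nlinarith only [hsq, hre3]
    exact (sq_le_sq₀ (norm_nonneg _) (by linarith only [hZ, him])).mp h2
  have hc0 : 0 < ‖A - (starRingEnd ℂ) Z‖ := lt_of_lt_of_le hA (Kern_im_le_conj hA hZ)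
  have key : (1 : ℝ) / 4 ≤ K1 A Z * K2 A Z := by
    have e : K1 A Z * K2 A Z = (A.im / ‖A - (starRingEnd ℂ) Z‖) * (1 / 2) := by
      unfold K1 K2
      rw [hn]
      field_simp
      norm_num
    rw [e]
    have h1 : (1 : ℝ) / 2 ≤ A.im / ‖A - (starRingEnd ℂ) Z‖ := by
      rw [div_le_div_iff₀ (by norm_num) hc0]
      linarith only [hconj]
    linarith
  unfold KK
  calc (1 : ℝ) / 5000 ≤ (1 / 4) ^ 6 := by norm_num
    _ ≤ _ := pow_le_pow_left₀ (by norm_num) key 6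

lemma Kern_measurable_K1 : Measurable (fun p : ℂ × ℂ => K1 p.1 p.2) := by
  have h : Measurable (fun p : ℂ × ℂ => p.1 - (starRingEnd ℂ) p.2) :=
    measurable_fst.sub (Complex.continuous_conj.measurable.comp measurable_snd)
  have h1 : Measurable (fun p : ℂ × ℂ => p.1.im) := Complex.measurable_im.comp measurable_fst
  exact (h1.mul measurable_snd.norm).div (measurable_fst.norm.mul h.norm)

lemma Kern_measurable_K2 : Measurable (fun p : ℂ × ℂ => K2 p.1 p.2) :=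
  (measurable_fst.norm.pow_const 2).div
    ((measurable_fst.norm.pow_const 2).add (measurable_snd.norm.pow_const 2))

lemma measurable_KK : Measurable (fun p : ℂ × ℂ => KK p.1 p.2) :=
  (Kern_measurable_K1.mul Kern_measurable_K2).pow_const 6

lemma measurable_KT : Measurable (fun p : ℂ × ℂ => KT p.1 p.2) :=
  ((Kern_measurable_K1.pow_const 4).mul (Kern_measurable_K2.pow_const 6)).mul
    (measurable_const.add (measurable_snd.norm.div measurable_fst.norm))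

lemma measurable_kX : Measurable (fun p : ℂ × ℂ => kX p.1 p.2) := by
  have h1 : Measurable (fun p : ℂ × ℂ => p.1.re) := Complex.measurable_re.comp measurable_fst
  have h2 : Measurable (fun p : ℂ × ℂ => p.2.re) := Complex.measurable_re.comp measurable_snd
  have h3 : Measurable (fun p : ℂ × ℂ => ‖p.1‖) := measurable_fst.norm
  have h4 : Measurable (fun p : ℂ × ℂ => ‖p.2‖) := measurable_snd.norm
  unfold kX
  (clear * -; fun_prop)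

lemma measurable_kXX : Measurable (fun p : ℂ × ℂ => kXX p.1 p.2) := by
  have h1 : Measurable (fun p : ℂ × ℂ => p.1.re) := Complex.measurable_re.comp measurable_fst
  have h2 : Measurable (fun p : ℂ × ℂ => p.2.re) := Complex.measurable_re.comp measurable_snd
  have h3 : Measurable (fun p : ℂ × ℂ => ‖p.1‖) := measurable_fst.norm
  have h4 : Measurable (fun p : ℂ × ℂ => ‖p.2‖) := measurable_snd.norm
  have h5 : Measurable (fun p : ℂ × ℂ => p.1.im) := Complex.measurable_im.comp measurable_fst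
  have h6 : Measurable (fun p : ℂ × ℂ => p.2.im) := Complex.measurable_im.comp measurable_snd
  unfold kXX
  fun_prop

lemma measurable_k3 : Measurable (fun p : ℂ × ℂ => k3 p.1 p.2) := by
  have h1 : Measurable (fun p : ℂ × ℂ => p.1.re) := Complex.measurable_re.comp measurable_fst
  have h2 : Measurable (fun p : ℂ × ℂ => p.2.re) := Complex.measurable_re.comp measurable_snd
  have h3 : Measurable (fun p : ℂ × ℂ => ‖p.1‖) := measurable_fst.norm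
  have h4 : Measurable (fun p : ℂ × ℂ => ‖p.2‖) := measurable_snd.norm
  have h5 : Measurable (fun p : ℂ × ℂ => p.1.im) := Complex.measurable_im.comp measurable_fst
  have h6 : Measurable (fun p : ℂ × ℂ => p.2.im) := Complex.measurable_im.comp measurable_snd
  unfold k3
  fun_prop

end Vale.Agent.P164
end
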