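import Vale.Agent.P164.MathlibUsed
import Vale.Agent.P164.Bdl.B3
import Vale.Agent.P164.Bdl.B1
import Vale.Agent.P164.Bdl.B4
import Vale.Agent.P164.Bdl.B2
import Vale.Agent.P164.Bdl.B5

set_option linter.all false

section

/-!
# Supermartingale theorem for functions of the state of one point
-/

namespace Vale.Agent.P164

open Set Metric Filter Topology MeasureTheory ProbabilityTheory
open scoped NNReal ENNReal

lemma tthm_meas_abs {Ω : Type*} [MeasurableSpace Ω] {f g : Ω → ℝ} (hf : Measurable f)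
    (hg : Measurable g) (a : ℝ) : MeasurableSet {ω | |f ω - g ω| ≤ a} :=
  measurableSet_le (hf.sub hg).abs measurable_const

/-- The oscillation is measurable with respect to the past. -/
lemma tthm_meas_osc {Ω : Type*} [mΩ : MeasurableSpace Ω] {κ : ℝ} {P : Measure Ω}
    {W : ℝ → Ω → ℝ} (hW : IsDrv κ P W) {t δ : ℝ} (ht : 0 ≤ t) (hδ : 0 ≤ δ) (a : ℝ) :
    MeasurableSet[past W (t + δ)] {ω | osc W t δ ω ≤ a} := by
  have hne : Nonempty (Icc (0 : ℝ) δ) := ⟨⟨0, le_rfl, hδ⟩⟩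
  obtain ⟨Q, hQc, hQd⟩ := TopologicalSpace.exists_countable_dense (Icc (0 : ℝ) δ)
  have h1 : {ω | osc W t δ ω ≤ a} = ⋂ u ∈ Q, {ω | |W (t + (u : ℝ)) ω - W t ω| ≤ a} := by
    ext ω
    simp only [mem_ofPred_eq, mem_iInter]
    constructor
    · intro h u _
      exact (le_ciSup (hW.osc_bdd (t := t) (δ := δ) ω) u).trans h
    · intro h
      refine ciSup_le fun u => ?_
      have hcont : Continuous fun u : Icc (0 : ℝ) δ => |W (t + u) ω - W t ω| := by
        have h1 : Continuous fun u : Icc (0 : ℝ) δ => W (t + u) ω :=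
          (hW.cont ω).comp (continuous_const.add continuous_subtype_val)
        exact (h1.sub continuous_const).abs
      have hcl : IsClosed {u : Icc (0 : ℝ) δ | |W (t + u) ω - W t ω| ≤ a} :=
        isClosed_le hcont continuous_const
      have hsub : Q ⊆ {u : Icc (0 : ℝ) δ | |W (t + u) ω - W t ω| ≤ a} := fun u hu => h u hu
      have := closure_minimal hsub hcl
      rw [hQd.closure_eq] at this
      exact this (mem_univ u)
  rw [h1]
  refine MeasurableSet.biInter hQc fun u _ => ?_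
  have m1 : Measurable[past W (t + δ)] (W (t + (u : ℝ))) :=
    IsDrv.meas_past (add_nonneg ht u.2.1) (by linarith only [u.2.2])
  have m2 : Measurable[past W (t + δ)] (W t) := IsDrv.meas_past ht (by linarith only [hδ])
  exact @tthm_meas_abs Ω (past W (t + δ)) _ _ m1 m2 a

/-- Exhaustion of the state space. -/
def KN (n : ℕ) : Set (ℂ × ℝ) :=
  {x | |x.1.re| ≤ n ∧ 1 / ((n : ℝ) + 1) ≤ x.1.im ∧ x.1.im ≤ n ∧ |x.2| ≤ n}

lemma KN_im {n : ℕ} {x : ℂ × ℝ} (hx : x ∈ KN n) : 0 < x.1.im :=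
  lt_of_lt_of_le (by positivity) hx.2.1

lemma KN_compact (n : ℕ) : IsCompact (KN n) := by
  apply Metric.isCompact_of_isClosed_isBounded
  · have c1 : Continuous fun x : ℂ × ℝ => |x.1.re| :=
      (Complex.continuous_re.comp continuous_fst).abs
    have c2 : Continuous fun x : ℂ × ℝ => x.1.im := Complex.continuous_im.comp continuous_fst
    have c3 : Continuous fun x : ℂ × ℝ => |x.2| := continuous_snd.abs
    exact (isClosed_le c1 continuous_const).inter ((isClosed_le continuous_const c2).inter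
      ((isClosed_le c2 continuous_const).inter (isClosed_le c3 continuous_const)))
  · refine (isBounded_closedBall (x := (0 : ℂ × ℝ)) (r := 2 * n)).subset ?_
    rintro ⟨Z, U⟩ ⟨h1, h2, h3, h4⟩
    rw [mem_closedBall_zero_iff, Prod.norm_def]
    have him : 0 < Z.im := lt_of_lt_of_le (by (clear * -; positivity)) h2
    refine max_le ?_ ?_
    · refine (Complex.norm_le_abs_re_add_abs_im _).trans ?_
      simp only at h1 h3 ⊢
      rw [abs_of_pos him]
      linarith only [h1, h3]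
    · simp only [Real.norm_eq_abs] at h4 ⊢
      have := abs_nonneg U
      linarith only [h4]

lemma KN_mono {n m : ℕ} (h : n ≤ m) : KN n ⊆ KN m := by
  rintro x ⟨h1, h2, h3, h4⟩
  have h' : (n : ℝ) ≤ m := by exact_mod_cast h
  refine ⟨h1.trans h', ?_, h3.trans h', h4.trans h'⟩
  refine le_trans ?_ h2
  gcongr

/-- A living path stays in one of the compact sets. -/
lemma exists_KN {W : ℝ → ℝ} (hW : Continuous W) {z : ℂ} {s t : ℝ} (hs : 0 ≤ s) (hst : s ≤ t)
    (h : z ∈ loewnerDomain W t) :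
    ∃ n₀ : ℕ, ∀ n, n₀ ≤ n → ∀ u ∈ Icc s t, (Zf W z u, Uf W z u) ∈ KN n := by
  have hsub : Icc s t ⊆ Icc 0 t := Icc_subset_Icc_left hs
  have hZ : ContinuousOn (Zf W z) (Icc s t) := (Zf_cont hW (hs.trans hst) h).mono hsub
  have hU : ContinuousOn (Uf W z) (Icc s t) := (Uf_cont hW h).mono hsub
  have hpos : ∀ u ∈ Icc s t, 0 < (Zf W z u).im := fun u hu =>
    Zf_im_pos (hs.trans hu.1) (dom_mono hu.2 h)
  obtain ⟨C1, hC1⟩ := isCompact_Icc.exists_bound_of_continuousOn hZ
  obtain ⟨C2, hC2⟩ := isCompact_Icc.exists_bound_of_continuousOn hU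
  have hinv : ContinuousOn (fun u => ((Zf W z u).im)⁻¹) (Icc s t) :=
    (Complex.continuous_im.comp_continuousOn hZ).inv₀ fun u hu => (hpos u hu).ne'
  obtain ⟨C3, hC3⟩ := isCompact_Icc.exists_bound_of_continuousOn hinv
  obtain ⟨n₀, hn₀⟩ := exists_nat_ge (max C1 (max C2 C3))
  refine ⟨n₀, fun n hn u hu => KN_mono hn ⟨?_, ?_, ?_, ?_⟩⟩
  · exact (Complex.abs_re_le_norm _).trans ((hC1 u hu).trans ((le_max_left _ _).trans hn₀))
  · have h1 := hC3 u hu
    rw [Real.norm_eq_abs, abs_of_pos (inv_pos.2 (hpos u hu))] at h1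
    have h2 : ((Zf W z u).im)⁻¹ ≤ (n₀ : ℝ) + 1 :=
      h1.trans (((le_max_right _ _).trans (le_max_right _ _)).trans hn₀ |>.trans (by linarith only []))
    simp only
    rw [one_div]
    exact inv_le_of_inv_le₀ (hpos u hu) h2
  · exact (le_abs_self _).trans ((Complex.abs_im_le_norm _).trans
      ((hC1 u hu).trans ((le_max_left _ _).trans hn₀)))
  · exact (hC2 u hu).trans (((le_max_left _ _).trans (le_max_right _ _)).trans hn₀)

variable {Ω : Type*} [mΩ : MeasurableSpace Ω]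

/-- The set of `ω` for which the state is in `K` at time `t`. -/
def inK (W : ℝ → Ω → ℝ) (z : ℂ) (K : Set (ℂ × ℝ)) (t : ℝ) : Set Ω :=
  {ω | z ∈ loewnerDomain (fun u => W u ω) t ∧
    (Zf (fun u => W u ω) z t, Uf (fun u => W u ω) z t) ∈ K}

/-- The event that the state has been in `K` at all grid times, with small oscillations. -/
def Hset (W : ℝ → Ω → ℝ) (z : ℂ) (K : Set (ℂ × ℝ)) (s δ ϰ : ℝ) (A : Set Ω) : ℕ → Set Ω
  | 0 => A ∩ inK W z K s
  | j + 1 => Hset W z K s δ ϰ A j ∩ {ω | osc W (s + j * δ) δ ω ≤ ϰ} ∩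
      inK W z K (s + (j + 1 : ℕ) * δ)

variable {κ : ℝ} {P : Measure Ω} {W : ℝ → Ω → ℝ} {z : ℂ} {K : Set (ℂ × ℝ)} {s t δ ϰ : ℝ}
  {A : Set Ω}

omit mΩ in
lemma Hset_sub (j : ℕ) : Hset W z K s δ ϰ A j ⊆ inK W z K (s + j * δ) := by
  cases j with
  | zero => intro ω hω; simpa only [CharP.cast_eq_zero, zero_mul, add_zero] using hω.2
  | succ j => exact fun ω hω => hω.2

lemma Hset_meas (hW : IsDrv κ P W) (hK : MeasurableSet K) (hs : 0 ≤ s) (hδ : 0 ≤ δ)
    (hA : MeasurableSet[past W s] A) (j : ℕ) :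
    MeasurableSet[past W (s + j * δ)] (Hset W z K s δ ϰ A j) := by
  induction j with
  | zero =>
    rw [show s + ((0 : ℕ) : ℝ) * δ = s by simp only [CharP.cast_eq_zero, zero_mul, add_zero]]
    exact MeasurableSet.inter hA (Z_past hW.cont hW.meas hs z hK)
  | succ j ih =>
    have h0 : 0 ≤ s + j * δ := by (clear * - hs hδ; positivity)
    have h1 : s + (j + 1 : ℕ) * δ = (s + j * δ) + δ := by push_cast; ring
    have h2 : past W (s + j * δ) ≤ past W (s + (j + 1 : ℕ) * δ) := past_mono (by rw [h1]; linarith only [hδ])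
    refine MeasurableSet.inter (MeasurableSet.inter (h2 _ ih) ?_)
      (Z_past hW.cont hW.meas (by (clear * - hs hδ; positivity)) z hK)
    rw [h1]
    exact tthm_meas_osc hW h0 hδ ϰ

omit mΩ in
/-- Membership in the grid event. -/
lemma mem_Hset {ω : Ω} {N : ℕ} (hδ : 0 ≤ δ) (hN : s + N * δ ≤ t) (hω : ω ∈ A)
    (h1 : ∀ u ∈ Icc s t, ω ∈ inK W z K u)
    (h2 : ∀ j < N, osc W (s + j * δ) δ ω ≤ ϰ) : ω ∈ Hset W z K s δ ϰ A N := by
  have h3 : ∀ j ≤ N, s + j * δ ∈ Icc s t := by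
    intro j hj
    have : (j : ℝ) * δ ≤ N * δ := by gcongr
    have h4 : 0 ≤ (j : ℝ) * δ := by (clear * - hδ; positivity)
    exact ⟨by linarith only [h4], by linarith only [hN, this]⟩
  suffices H : ∀ j ≤ N, ω ∈ Hset W z K s δ ϰ A j from H N le_rfl
  intro j
  induction j with
  | zero =>
    intro _
    refine ⟨hω, ?_⟩
    simpa using h1 _ (h3 0 (Nat.zero_le _))
  | succ j ih =>
    intro hj
    exact ⟨⟨ih (by (clear * - hj; omega)), h2 j (by omega)⟩, h1 _ (h3 _ hj)⟩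

lemma St_nonneg' {G : ℂ → ℝ → ℝ} (hG : ∀ Z U, 0 < Z.im → 0 ≤ G Z U) {w : ℝ → ℝ} {z : ℂ} {t : ℝ}
    (ht : 0 ≤ t) : 0 ≤ St G w z t := by
  by_cases h : z ∈ loewnerDomain w t
  · rw [St_of_mem h]
    exact hG _ _ (Zf_im_pos ht h)
  · rw [St_of_not_mem h]

lemma timeint_nonneg {G : ℂ → ℝ → ℝ} (hG : ∀ Z U, 0 < Z.im → 0 ≤ G Z U) {w : ℝ → ℝ} {z : ℂ}
    {s t : ℝ} (hs : 0 ≤ s) (hst : s ≤ t) : 0 ≤ ∫ u in s..t, St G w z u :=
  intervalIntegral.integral_nonneg hst fun _ hu => St_nonneg' hG (hs.trans hu.1)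

/-- The inequality along a grid. -/
lemma grid_ineq (hW : IsDrv κ P W) (hK : MeasurableSet K) {F a : ℂ → ℝ → ℝ}
    (hF : ContinuousOn (Function.uncurry F) ({Z : ℂ | 0 < Z.im} ×ˢ univ))
    (ha : ContinuousOn (Function.uncurry a) ({Z : ℂ | 0 < Z.im} ×ˢ univ))
    (hF0 : ∀ Z U, 0 < Z.im → 0 ≤ F Z U) (ha0 : ∀ Z U, 0 < Z.im → 0 ≤ a Z U) (hs : 0 ≤ s)
    (hδ : 0 ≤ δ) (hA : MeasurableSet[past W s] A) {e : ℝ} (he : 0 ≤ e)
    (hstep : ∀ t, 0 ≤ t → ∀ B : Set Ω, MeasurableSet[past W t] B → B ⊆ inK W z K t →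
      (∀ ω ∈ B, osc W t δ ω ≤ ϰ → z ∈ loewnerDomain (fun u => W u ω) (t + δ)) ∧
      IntegrableOn (fun ω => St F (fun u => W u ω) z (t + δ) +
        ∫ u in t..(t + δ), St a (fun u => W u ω) z u) (B ∩ {ω | osc W t δ ω ≤ ϰ}) P ∧
      ∫ ω in B ∩ {ω | osc W t δ ω ≤ ϰ}, (St F (fun u => W u ω) z (t + δ) +
        ∫ u in t..(t + δ), St a (fun u => W u ω) z u) ∂P ≤
          ∫ ω in B, St F (fun u => W u ω) z t ∂P + δ * e) (j : ℕ) :
    ∫⁻ ω in Hset W z K s δ ϰ A j, ENNReal.ofReal (St F (fun u => W u ω) z (s + j * δ) +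
        ∫ u in s..(s + j * δ), St a (fun u => W u ω) z u) ∂P ≤
      ∫⁻ ω in A, ENNReal.ofReal (St F (fun u => W u ω) z s) ∂P +
        ENNReal.ofReal (j * (δ * e)) := by
  induction j with
  | zero =>
    simp only [Nat.cast_zero, zero_mul, add_zero, intervalIntegral.integral_same,
      ENNReal.ofReal_zero]
    exact lintegral_mono_set inter_subset_left
  | succ j ih =>
    obtain ⟨τ, hτ⟩ : ∃ τ, τ = s + j * δ := ⟨_, rfl⟩
    have hτs : s ≤ τ := by rw [hτ]; have : 0 ≤ (j : ℝ) * δ := by (clear * - hδ; positivity)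
                           linarith
    have hτ0 : 0 ≤ τ := hs.trans hτs
    have hτ' : s + (j + 1 : ℕ) * δ = τ + δ := by rw [hτ]; push_cast; ring
    have hBm := Hset_meas (z := z) (ϰ := ϰ) hW hK hs hδ hA j
    have hBsub := Hset_sub (W := W) (z := z) (K := K) (s := s) (δ := δ) (ϰ := ϰ) (A := A) j
    rw [← hτ] at ih hBm hBsub
    obtain ⟨h1, h2, h3⟩ := hstep τ hτ0 _ hBm hBsub
    set B := Hset W z K s δ ϰ A j with hB
    have hHsucc : Hset W z K s δ ϰ A (j + 1) ⊆ B ∩ {ω | osc W τ δ ω ≤ ϰ} := by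
      intro ω hω
      have := hω.1
      rw [hτ]
      exact this
    have hBm' : MeasurableSet B := hW.past_le _ hBm
    have hDm : MeasurableSet (B ∩ {ω | osc W τ δ ω ≤ ϰ}) :=
      hBm'.inter (hW.past_le _ (tthm_meas_osc hW hτ0 hδ ϰ))
    rw [hτ']
    have hXm : Measurable (fun ω => St F (fun u => W u ω) z (τ + δ) +
        ∫ u in τ..(τ + δ), St a (fun u => W u ω) z u) :=
      ((St_past' hW hF (by linarith only [hs, hδ, hτs]) z).mono hW.past_le le_rfl).add
        ((timeint_past1 hW ha hτ0 (by linarith only [hδ]) z).mono hW.past_le le_rfl)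
    have hΨm : Measurable (fun ω => ∫ u in s..τ, St a (fun u => W u ω) z u) :=
      (timeint_past1 hW ha hs hτs z).mono hW.past_le le_rfl
    have hFm : Measurable (fun ω => St F (fun u => W u ω) z τ) :=
      (St_past' hW hF hτ0 z).mono hW.past_le le_rfl
    have hX0 : ∀ ω, 0 ≤ St F (fun u => W u ω) z (τ + δ) +
        ∫ u in τ..(τ + δ), St a (fun u => W u ω) z u := fun ω =>
      add_nonneg (St_nonneg' hF0 (by linarith only [hs, hδ, hτs])) (timeint_nonneg ha0 hτ0 (by linarith only [hδ]))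
    calc ∫⁻ ω in Hset W z K s δ ϰ A (j + 1), ENNReal.ofReal (St F (fun u => W u ω) z (τ + δ) +
          ∫ u in s..(τ + δ), St a (fun u => W u ω) z u) ∂P
        ≤ ∫⁻ ω in B ∩ {ω | osc W τ δ ω ≤ ϰ}, ENNReal.ofReal (St F (fun u => W u ω) z (τ + δ) +
          ∫ u in s..(τ + δ), St a (fun u => W u ω) z u) ∂P := lintegral_mono_set hHsucc
      _ = ∫⁻ ω in B ∩ {ω | osc W τ δ ω ≤ ϰ}, (ENNReal.ofReal (St F (fun u => W u ω) z (τ + δ) +
          ∫ u in τ..(τ + δ), St a (fun u => W u ω) z u) +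
          ENNReal.ofReal (∫ u in s..τ, St a (fun u => W u ω) z u)) ∂P := by
        refine setLIntegral_congr_fun hDm fun ω hω => ?_
        have halive := h1 ω hω.1 hω.2
        have hc := St_continuousOn ha (hW.cont ω) (by linarith only [hs, hδ, hτs]) halive
        have i1 : IntervalIntegrable (fun u => St a (fun u => W u ω) z u) volume s τ := by
          apply ContinuousOn.intervalIntegrable
          rw [uIcc_of_le hτs]
          exact hc.mono (Icc_subset_Icc hs (by linarith only [hδ]))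
        have i2 : IntervalIntegrable (fun u => St a (fun u => W u ω) z u) volume τ (τ + δ) := by
          apply ContinuousOn.intervalIntegrable
          rw [uIcc_of_le (by linarith only [hδ])]
          exact hc.mono (Icc_subset_Icc_left hτ0)
        rw [← ENNReal.ofReal_add (hX0 ω) (timeint_nonneg ha0 hs hτs),
          ← intervalIntegral.integral_add_adjacent_intervals i1 i2]
        congr 1
        ring
      _ = ∫⁻ ω in B ∩ {ω | osc W τ δ ω ≤ ϰ}, ENNReal.ofReal (St F (fun u => W u ω) z (τ + δ) +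
          ∫ u in τ..(τ + δ), St a (fun u => W u ω) z u) ∂P +
          ∫⁻ ω in B ∩ {ω | osc W τ δ ω ≤ ϰ},
            ENNReal.ofReal (∫ u in s..τ, St a (fun u => W u ω) z u) ∂P :=
        lintegral_add_left hXm.ennreal_ofReal _
      _ ≤ (∫⁻ ω in B, ENNReal.ofReal (St F (fun u => W u ω) z τ) ∂P +
            ENNReal.ofReal (δ * e)) +
          ∫⁻ ω in B, ENNReal.ofReal (∫ u in s..τ, St a (fun u => W u ω) z u) ∂P := by
        refine add_le_add ?_ (lintegral_mono_set inter_subset_left)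
        rw [← ofReal_integral_eq_lintegral_ofReal h2 (Eventually.of_forall hX0)]
        refine (ENNReal.ofReal_le_ofReal h3).trans (ENNReal.ofReal_add_le.trans ?_)
        gcongr
        rw [integral_eq_lintegral_of_nonneg_ae
          (Eventually.of_forall fun ω => St_nonneg' hF0 hτ0) hFm.aestronglyMeasurable]
        exact ENNReal.ofReal_toReal_le
      _ = ∫⁻ ω in B, ENNReal.ofReal (St F (fun u => W u ω) z τ +
            ∫ u in s..τ, St a (fun u => W u ω) z u) ∂P + ENNReal.ofReal (δ * e) := by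
        rw [add_right_comm, ← lintegral_add_left hFm.ennreal_ofReal]
        congr 1
        refine lintegral_congr fun ω => ?_
        rw [ENNReal.ofReal_add (St_nonneg' hF0 hτ0) (timeint_nonneg ha0 hs hτs)]
      _ ≤ ∫⁻ ω in A, ENNReal.ofReal (St F (fun u => W u ω) z s) ∂P +
            ENNReal.ofReal (j * (δ * e)) + ENNReal.ofReal (δ * e) := by (clear * - ih; gcongr)
      _ = _ := by
        rw [add_assoc, ← ENNReal.ofReal_add (by (clear * - hδ he; positivity)) (by (clear * - hδ he; positivity))]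
        congr 2
        push_cast
        ring

omit mΩ in
/-- Fatou along an exhaustion. -/
lemma fatou_exhaust {Ω : Type*} [MeasurableSpace Ω] {P : Measure Ω} {φ : Ω → ℝ≥0∞}
    (hφ : Measurable φ) {S : Set Ω} (hS : MeasurableSet S) {H : ℕ → ℕ → Set Ω}
    (hH : ∀ n N, MeasurableSet (H n N)) {r : ℕ → ℕ → ℝ≥0∞} {R : ℝ≥0∞}
    (hle : ∀ n, ∀ᶠ N in atTop, ∫⁻ ω in H n N, φ ω ∂P ≤ R + r n N)
    (hr : ∀ n, Tendsto (r n) atTop (𝓝 0))
    (hmem : ∀ ω ∈ S, ∀ᶠ n in atTop, ∀ᶠ N in atTop, ω ∈ H n N) :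
    ∫⁻ ω in S, φ ω ∂P ≤ R := by
  have h1 : ∀ n, ∫⁻ ω, liminf (fun N => (H n N).indicator φ ω) atTop ∂P ≤ R := by
    intro n
    refine (lintegral_liminf_le fun N => hφ.indicator (hH n N)).trans ?_
    have h2 : Tendsto (fun N => R + r n N) atTop (𝓝 (R + 0)) := tendsto_const_nhds.add (hr n)
    rw [add_zero] at h2
    rw [← h2.liminf_eq]
    refine liminf_le_liminf ?_
    filter_upwards [hle n] with N hN
    rw [lintegral_indicator (hH n N)]
    exact hN
  calc ∫⁻ ω in S, φ ω ∂P = ∫⁻ ω, S.indicator φ ω ∂P := (lintegral_indicator hS _).symm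
    _ ≤ ∫⁻ ω, liminf (fun n => liminf (fun N => (H n N).indicator φ ω) atTop) atTop ∂P := by
        refine lintegral_mono fun ω => ?_
        by_cases hω : ω ∈ S
        · rw [indicator_of_mem hω]
          refine le_liminf_of_le (by isBoundedDefault) ?_
          filter_upwards [hmem ω hω] with n hn
          refine le_liminf_of_le (by isBoundedDefault) ?_
          filter_upwards [hn] with N hN
          rw [indicator_of_mem hN]
        · rw [indicator_of_notMem hω]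
          exact zero_le
    _ ≤ liminf (fun n => ∫⁻ ω, liminf (fun N => (H n N).indicator φ ω) atTop ∂P) atTop :=
        lintegral_liminf_le fun n => Measurable.liminf fun N => hφ.indicator (hH n N)
    _ ≤ liminf (fun _ : ℕ => R) atTop := liminf_le_liminf (Eventually.of_forall h1)
    _ = R := by simp

/-- Supermartingale theorem on the whole state space, with a running reward `a`. -/
theorem T_thm {κ : ℝ} (hκ : 0 < κ) {F FX FXX FY FU a : ℂ → ℝ → ℝ} (hr : Reg F FX FXX FY FU)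
    (ha : ContinuousOn (Function.uncurry a) ({Z : ℂ | 0 < Z.im} ×ˢ univ))
    (hF0 : ∀ Z U, 0 < Z.im → 0 ≤ F Z U) (ha0 : ∀ Z U, 0 < Z.im → 0 ≤ a Z U)
    (hgen : ∀ Z U, 0 < Z.im → gen κ FX FXX FY FU Z U + a Z U ≤ 0)
    {Ω : Type*} [MeasurableSpace Ω] {P : Measure Ω} {W : ℝ → Ω → ℝ} (hW : IsDrv κ P W)
    (z : ℂ) {s t : ℝ} (hs : 0 ≤ s) (hst : s ≤ t) {A : Set Ω} (hA : MeasurableSet[past W s] A) :
    ∫⁻ ω in A ∩ {ω | z ∈ loewnerDomain (fun u => W u ω) t},
        ENNReal.ofReal (St F (fun u => W u ω) z t +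
          ∫ u in s..t, St a (fun u => W u ω) z u) ∂P ≤
      ∫⁻ ω in A, ENNReal.ofReal (St F (fun u => W u ω) z s) ∂P := by
  rcases hst.eq_or_lt with hst' | hst'
  · subst hst'
    simp only [intervalIntegral.integral_same, add_zero]
    exact lintegral_mono_set inter_subset_left
  have ht : 0 ≤ t := hs.trans hst
  have := hW.prob
  have hAm : MeasurableSet A := hW.past_le _ hA
  have halm : MeasurableSet {ω | z ∈ loewnerDomain (fun u => W u ω) t} :=
    hW.past_le _ (alive_past hW.cont hW.meas ht z)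
  have hstep := fun n : ℕ => T_step hκ hr ha (KN_compact n) (fun x hx => KN_im hx)
  choose ϰ hϰ δ₀ hδ₀ err herr H using hstep
  -- mesh
  have hmesh : ∀ N : ℕ, 0 < N → s + (N : ℝ) * ((t - s) / N) = t := by
    intro N hN
    have : (N : ℝ) ≠ 0 := by (clear * - hN; positivity)
    field_simp
    ring
  have hmeshpos : ∀ N : ℕ, 0 < N → 0 < (t - s) / N := by
    intro N hN
    have : (0 : ℝ) < N := by exact_mod_cast hN
    have : 0 < t - s := by linarith only [hst']
    (clear * - hst' hN; positivity)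
  have hmesh0 : Tendsto (fun N : ℕ => (t - s) / (N : ℝ)) atTop (𝓝 0) :=
    tendsto_const_div_atTop_nhds_zero_nat _
  have hmesh1 : Tendsto (fun N : ℕ => (t - s) / (N : ℝ)) atTop (𝓝[>] 0) := by
    rw [tendsto_nhdsWithin_iff]
    refine ⟨hmesh0, ?_⟩
    filter_upwards [eventually_gt_atTop 0] with N hN
    exact hmeshpos N hN
  refine fatou_exhaust (φ := fun ω => ENNReal.ofReal (St F (fun u => W u ω) z t +
          ∫ u in s..t, St a (fun u => W u ω) z u)) ?_ (hAm.inter halm)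
    (H := fun n N => Hset W z (KN n) s ((t - s) / N) (ϰ n) A N)
    (r := fun n N => ENNReal.ofReal ((t - s) * |err n ((t - s) / N)|)) ?_ ?_ ?_ ?_
  · exact (((St_past' hW hr.cF ht z).mono hW.past_le le_rfl).add
      ((timeint_past1 hW ha hs hst z).mono hW.past_le le_rfl)).ennreal_ofReal
  · intro n N
    refine hW.past_le _ (Hset_meas hW (KN_compact n).measurableSet hs ?_ hA N)
    exact div_nonneg (by linarith only [hst']) (Nat.cast_nonneg _)
  · intro n
    filter_upwards [eventually_gt_atTop 0, hmesh0.eventually (ge_mem_nhds (hδ₀ n))] with N hN hN2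
    have hδ := hmeshpos N hN
    have key := grid_ineq (z := z) (ϰ := ϰ n) (s := s) (A := A) hW (KN_compact n).measurableSet
      hr.cF ha hF0 ha0 hs hδ.le hA (abs_nonneg (err n ((t - s) / N))) ?_ N
    · rw [hmesh N hN] at key
      refine key.trans (le_of_eq ?_)
      congr 2
      have : (N : ℝ) ≠ 0 := by (clear * - hN; positivity)
      (clear * - this hst'; field_simp)
    · intro τ hτ B hB hBsub
      obtain ⟨g1, g2, g3⟩ := H n hW z τ ((t - s) / N) hτ hδ hN2 B hB (fun ω hω =>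
        ⟨(hBsub hω).1, (hBsub hω).2, hgen _ _ (Zf_im_pos hτ (hBsub hω).1)⟩)
      refine ⟨g1, g2, g3.trans (add_le_add le_rfl ?_)⟩
      have hp : (P B).toReal ≤ 1 := by
        have := prob_le_one (μ := P) (s := B)
        exact ENNReal.toReal_le_of_le_ofReal one_pos.le (by simpa only [ENNReal.ofReal_one] using this)
      have hp0 : 0 ≤ (P B).toReal := ENNReal.toReal_nonneg
      calc (t - s) / N * err n ((t - s) / N) * (P B).toReal
          ≤ (t - s) / N * |err n ((t - s) / N)| * (P B).toReal := by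
            gcongr
            exact le_abs_self _
        _ ≤ (t - s) / N * |err n ((t - s) / N)| * 1 := by (clear * - hp hst' hN; gcongr)
        _ = _ := mul_one _
  · intro n
    have h1 : Tendsto (fun N : ℕ => (t - s) * |err n ((t - s) / N)|) atTop (𝓝 ((t - s) * |0|)) :=
      (((herr n).comp hmesh1).abs).const_mul _
    have h2 := ENNReal.tendsto_ofReal h1
    simpa only [abs_zero, mul_zero, ENNReal.ofReal_zero] using h2
  · rintro ω ⟨hωA, hω⟩
    obtain ⟨n₀, hn₀⟩ := exists_KN (hW.cont ω) hs hst hω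
    filter_upwards [eventually_ge_atTop n₀] with n hn
    obtain ⟨d, hd, hosc⟩ := hW.osc_small t ω (hϰ n)
    filter_upwards [eventually_gt_atTop 0, hmesh0.eventually (ge_mem_nhds hd)] with N hN hN2
    have hδ := hmeshpos N hN
    refine mem_Hset hδ.le (hmesh N hN).le hωA (fun u hu => ⟨dom_mono hu.2 hω, hn₀ n hn u hu⟩) ?_
    intro j hj
    refine hosc _ hδ.le hN2 _ ⟨by (clear * - hs hst' hN; positivity), ?_⟩
    have h3 := hmesh N hN
    have : (j : ℝ) * ((t - s) / N) ≤ N * ((t - s) / N) := by (clear * - hj hst' hN; gcongr)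
    linarith only [h3, this]

end Vale.Agent.P164
end

section

/-!
# Probability to approach a point
-/

namespace Vale.Agent.P164

open Set Metric Filter Topology MeasureTheory ProbabilityTheory
open scoped NNReal ENNReal

variable {Ω : Type*} [MeasurableSpace Ω] {P : Measure Ω} {W : ℝ → Ω → ℝ}

section Supermartingale

/-- The constant used below. -/
noncomputable def cAp (κ : ℝ) : ℝ := (min (κ / 2) (4 - κ) / 8) ^ (be κ + 2) / 2

/-- Maximal inequality along a finite set of times. -/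
lemma maximal {Ω : Type*} {V : ℝ → Ω → ℝ≥0∞} {m : ℝ → MeasurableSpace Ω} {m0 : MeasurableSpace Ω}
    {P : @Measure Ω m0} (hm : Monotone m)
    (hle : ∀ t, m t ≤ m0) {t₀ : ℝ} {v : ℝ≥0∞} {E : ℝ → Set Ω}
    (hE : ∀ t, t₀ ≤ t → MeasurableSet[m t] (E t))
    (hV : ∀ s t, t₀ ≤ s → s ≤ t → ∀ A, MeasurableSet[m s] A →
      ∫⁻ ω in A, V t ω ∂P ≤ ∫⁻ ω in A, V s ω ∂P)
    (hlow : ∀ t, t₀ ≤ t → ∀ ω ∈ E t, v ≤ V t ω) {A : Set Ω} (hA : MeasurableSet[m t₀] A)
    (S : Finset ℝ) :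
    (∀ t ∈ S, t₀ ≤ t) → ∀ T, t₀ ≤ T → (∀ t ∈ S, t ≤ T) →
      v * P (A ∩ {ω | ∃ t ∈ S, ω ∈ E t}) + ∫⁻ ω in A \ {ω | ∃ t ∈ S, ω ∈ E t}, V T ω ∂P ≤
        ∫⁻ ω in A, V t₀ ω ∂P := by
  induction S using Finset.induction_on_max with
  | empty =>
    intro _ T hT _
    simpa only [Finset.notMem_empty, false_and, exists_const, ofPred_false, inter_empty, measure_empty, mul_zero,     sdiff_empty, zero_add] using hV t₀ T le_rfl hT A hA
  | insert a S ha ih =>
    intro h1 T hT h2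
    have ha0 : t₀ ≤ a := h1 a (Finset.mem_insert_self _ _)
    have haT : a ≤ T := h2 a (Finset.mem_insert_self _ _)
    have h3 := ih (fun t ht => h1 t (Finset.mem_insert_of_mem ht)) a ha0 fun t ht => (ha t ht).le
    set H := {ω | ∃ t ∈ S, ω ∈ E t} with hH
    have hHm : MeasurableSet[m a] H := by
      have : H = ⋃ t ∈ S, E t := by
        ext ω
        simp only [hH, mem_ofPred_eq, mem_iUnion, exists_prop]
      rw [this]
      refine @Finset.measurableSet_biUnion _ _ (m a) _ _ fun t ht => ?_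
      exact hm (ha t ht).le _ (hE t (h1 t (Finset.mem_insert_of_mem ht)))
    have hAa : MeasurableSet[m a] A := hm ha0 _ hA
    have hEa := hE a ha0
    have hB : MeasurableSet[m a] (A \ H) := @MeasurableSet.diff _ (m a) _ _ hAa hHm
    have e1 : {ω | ∃ t ∈ insert a S, ω ∈ E t} = H ∪ E a := by
      ext ω
      simp only [Finset.mem_insert, exists_eq_or_imp, mem_ofPred_eq, hH, mem_union, or_comm]
    have h4 : ∫⁻ ω in A \ H, V a ω ∂P =
        ∫⁻ ω in (A \ H) ∩ E a, V a ω ∂P + ∫⁻ ω in (A \ H) \ E a, V a ω ∂P :=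
      (lintegral_inter_add_sdiff _ _ (hle a _ hEa)).symm
    have h5 : v * P ((A \ H) ∩ E a) ≤ ∫⁻ ω in (A \ H) ∩ E a, V a ω ∂P := by
      rw [← setLIntegral_const]
      refine setLIntegral_mono' ((hle a _ hB).inter (hle a _ hEa)) fun ω hω => ?_
      exact hlow a ha0 ω hω.2
    have h6 : ∫⁻ ω in (A \ H) \ E a, V T ω ∂P ≤ ∫⁻ ω in (A \ H) \ E a, V a ω ∂P :=
      hV a T ha0 haT _ (@MeasurableSet.diff _ (m a) _ _ hB hEa)
    have e2 : A ∩ (H ∪ E a) = (A ∩ H) ∪ ((A \ H) ∩ E a) := by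
      ext ω
      simp only [mem_inter_iff, mem_union, Set.mem_sdiff]
      (clear * - ih; tauto)
    have e3 : A \ (H ∪ E a) = (A \ H) \ E a := by
      rw [Set.sdiff_sdiff]
    rw [e1, e2, e3]
    calc v * P ((A ∩ H) ∪ ((A \ H) ∩ E a)) + ∫⁻ ω in (A \ H) \ E a, V T ω ∂P
        ≤ v * (P (A ∩ H) + P ((A \ H) ∩ E a)) + ∫⁻ ω in (A \ H) \ E a, V a ω ∂P := by
          gcongr
          exact measure_union_le _ _
      _ = v * P (A ∩ H) + (v * P ((A \ H) ∩ E a) + ∫⁻ ω in (A \ H) \ E a, V a ω ∂P) := by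
          rw [mul_add, add_assoc]
      _ ≤ v * P (A ∩ H) + (∫⁻ ω in (A \ H) ∩ E a, V a ω ∂P +
            ∫⁻ ω in (A \ H) \ E a, V a ω ∂P) := by
          (clear * - h5; gcongr)
      _ = v * P (A ∩ H) + ∫⁻ ω in A \ H, V a ω ∂P := by rw [h4]
      _ ≤ ∫⁻ ω in A, V t₀ ω ∂P := h3

end Supermartingale

end Vale.Agent.P164
end

section

/-!
# First moment of the content at a point
-/

namespace Vale.Agent.P164

open Set Metric Filter Topology MeasureTheory ProbabilityTheory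
open scoped NNReal ENNReal

variable {Ω : Type*} [MeasurableSpace Ω] {P : Measure Ω} {W : ℝ → Ω → ℝ}

namespace FM

lemma phi_cont : Continuous phi := by
  unfold phi; fun_prop

lemma MM_nonneg (κ : ℝ) {Z : ℂ} (hZ : 0 < Z.im) (U : ℝ) : 0 ≤ MM κ Z U := by
  unfold MM
  have := sn_pos hZ
  positivity

lemma exp_hasDeriv (c U : ℝ) :
    HasDerivAt (fun U : ℝ => Real.exp (c * U)) (Real.exp (c * U) * c) U := by
  simpa only [id_eq, mul_one] using ((hasDerivAt_id U).const_mul c).exp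

/-- `(1 - ee (U - log r)) exp (-x U)`. -/
noncomputable def f1 (κ r U : ℝ) : ℝ := (1 - ee (U - Real.log r)) * Real.exp (-xx κ * U)

noncomputable def f1' (κ r U : ℝ) : ℝ :=
  phi (U - Real.log r) * Real.exp (-xx κ * U) +
    (1 - ee (U - Real.log r)) * (Real.exp (-xx κ * U) * (-xx κ))

lemma ee_cont : Continuous ee :=
  continuous_iff_continuousAt.2 fun U => (ee_hasDeriv U).continuousAt

lemma f1_hasDeriv (κ r U : ℝ) : HasDerivAt (f1 κ r) (f1' κ r U) U := by
  have h1 : HasDerivAt (fun U => ee (U - Real.log r)) (-phi (U - Real.log r)) U := by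
    have := (ee_hasDeriv (U - Real.log r)).comp U ((hasDerivAt_id U).sub_const (Real.log r))
    simpa only [id_eq, Function.comp_def, mul_one] using this
  have h2 := (h1.const_sub 1).fun_mul (exp_hasDeriv (-xx κ) U)
  refine h2.congr_deriv ?_
  unfold f1'
  ring

lemma f1'_cont (κ r : ℝ) : Continuous (f1' κ r) := by
  unfold f1'
  have h1 := phi_cont
  have h2 := ee_cont
  fun_prop

/-- Primitive of `exp (-x v) phi (v - log r)`. -/
noncomputable def SS (κ r U : ℝ) : ℝ :=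
  ∫ v in (Real.log r)..U, Real.exp (-xx κ * v) * phi (v - Real.log r)

lemma SS'_cont (κ r : ℝ) : Continuous fun v => Real.exp (-xx κ * v) * phi (v - Real.log r) := by
  have h1 := phi_cont
  (clear * - h1; fun_prop)

lemma SS_hasDeriv (κ r U : ℝ) :
    HasDerivAt (SS κ r) (Real.exp (-xx κ * U) * phi (U - Real.log r)) U :=
  intervalIntegral.integral_hasDerivAt_right ((SS'_cont κ r).intervalIntegrable _ _)
    ((SS'_cont κ r).stronglyMeasurableAtFilter _ _) (SS'_cont κ r).continuousAt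

lemma SS_nonneg (κ r U : ℝ) : 0 ≤ SS κ r U := by
  unfold SS
  rcases le_total (Real.log r) U with h | h
  · exact intervalIntegral.integral_nonneg h fun v _ =>
      mul_nonneg (Real.exp_pos _).le (phi_nonneg _)
  · have : ∫ v in (Real.log r)..U, Real.exp (-xx κ * v) * phi (v - Real.log r)
        = ∫ v in (Real.log r)..U, (0 : ℝ) := by
      refine intervalIntegral.integral_congr fun v hv => ?_
      rw [uIcc_of_ge h] at hv
      rw [phi_eq_zero (Or.inl (by linarith only [hv.2])), mul_zero]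
    rw [this]
    simp

lemma SS_const (κ r : ℝ) {U : ℝ} (hU : Real.log r + 1 ≤ U) :
    SS κ r U = SS κ r (Real.log r + 1) := by
  have h1 : SS κ r U = SS κ r (Real.log r + 1) +
      ∫ v in (Real.log r + 1)..U, Real.exp (-xx κ * v) * phi (v - Real.log r) :=
    (intervalIntegral.integral_add_adjacent_intervals ((SS'_cont κ r).intervalIntegrable _ _)
      ((SS'_cont κ r).intervalIntegrable _ _)).symm
  have h2 : ∫ v in (Real.log r + 1)..U, Real.exp (-xx κ * v) * phi (v - Real.log r)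
        = ∫ v in (Real.log r + 1)..U, (0 : ℝ) := by
    refine intervalIntegral.integral_congr fun v hv => ?_
    rw [uIcc_of_le hU] at hv
    rw [phi_eq_zero (Or.inr (by linarith [hv.1])), mul_zero]
  rw [h1, h2]
  simp

lemma f1_nonneg (κ r U : ℝ) : 0 ≤ f1 κ r U :=
  mul_nonneg (by (clear * -; linarith [ee_le_one (U - Real.log r)])) (Real.exp_pos _).le

lemma snp_nonneg (κ : ℝ) {Z : ℂ} (hZ : 0 < Z.im) : 0 ≤ sn Z ^ be κ :=
  Real.rpow_nonneg (sn_pos hZ).le _

lemma aR_eq (κ r : ℝ) {Z : ℂ} (hZ : 0 < Z.im) (U : ℝ) :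
    aR κ r Z U = Real.exp (-xx κ * U) * phi (U - Real.log r) * (rate Z * sn Z ^ be κ) := by
  unfold aR rate
  rw [Real.rpow_add (sn_pos hZ), Real.rpow_two]
  ring

lemma c_rate : ContinuousOn (fun p : ℂ × ℝ => rate p.1) HS :=
  (continuousOn_const.mul (c_sn.pow 2)).div (c_norm.pow 2) fun _ hp => pow_ne_zero 2 (n_ne hp)

lemma aR_cont (κ r : ℝ) : ContinuousOn (Function.uncurry (aR κ r)) HS := by
  have h1 : ContinuousOn (fun p : ℂ × ℝ =>
      Real.exp (-xx κ * p.2) * phi (p.2 - Real.log r) * (rate p.1 * sn p.1 ^ be κ)) HS :=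
    (c_u (SS'_cont κ r)).mul (c_rate.mul (c_snp _))
  refine h1.congr fun p hp => ?_
  exact aR_eq κ r hp.1 p.2

lemma MM_measurable (κ : ℝ) : Measurable (Function.uncurry (MM κ)) := by
  unfold MM Function.uncurry sn
  have h1 : Measurable fun p : ℂ × ℝ => p.1.im / ‖p.1‖ :=
    (Complex.measurable_im.comp measurable_fst).div (measurable_norm.comp measurable_fst)
  exact ((measurable_snd.const_mul _).exp).mul (h1.pow_const _)

/-- `Reg` for `MM`, with zero extra term. -/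
theorem reg_MM (κ : ℝ) : Reg (MM κ)
    (fun Z U => Real.exp (-xx κ * U) * (-be κ * (Z.re / ‖Z‖ ^ 2) * sn Z ^ be κ))
    (fun Z U => Real.exp (-xx κ * U) *
      ((be κ * (be κ + 2) * cs Z ^ 2 - be κ) / ‖Z‖ ^ 2 * sn Z ^ be κ))
    (fun Z U => Real.exp (-xx κ * U) *
      (be κ * (Z.re ^ 2 / (Z.im * ‖Z‖ ^ 2)) * sn Z ^ be κ))
    (fun Z U => Real.exp (-xx κ * U) * (-xx κ) * sn Z ^ be κ + 0) := by
  have e : MM κ = fun Z U => Real.exp (-xx κ * U) * sn Z ^ be κ + 0 := by
    funext Z U; simp only [MM, neg_mul, add_zero]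
  rw [e]
  exact reg_pow (f := fun U => Real.exp (-xx κ * U))
    (f' := fun U => Real.exp (-xx κ * U) * (-xx κ)) (g := fun _ => 0) (g' := fun _ => 0)
    (exp_hasDeriv (-xx κ)) (fun U => hasDerivAt_const U 0) (by fun_prop) continuous_const (be κ)

end FM

open FM

namespace FM

/-- the conserved quantity along a path -/
lemma SS_path {κ r : ℝ} {V : ℝ → ℝ} (hV : Continuous V) {z : ℂ} {s t : ℝ} (hs : 0 ≤ s)
    (hst : s ≤ t) (hz : z ∈ loewnerDomain V t) :
    IntervalIntegrable (fun u => Real.exp (-xx κ * Uf V z u) * phi (Uf V z u - Real.log r) *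
        rate (Zf V z u)) volume s t ∧
    ∫ u in s..t, Real.exp (-xx κ * Uf V z u) * phi (Uf V z u - Real.log r) *
        rate (Zf V z u) = SS κ r (Uf V z s) - SS κ r (Uf V z t) := by
  have ht : 0 ≤ t := hs.trans hst
  have hsub : Icc s t ⊆ Icc 0 t := Icc_subset_Icc_left hs
  have hUc : ContinuousOn (Uf V z) (Icc s t) := (Uf_cont hV hz).mono hsub
  have hc : ContinuousOn (fun u => Real.exp (-xx κ * Uf V z u) * phi (Uf V z u - Real.log r) *
        rate (Zf V z u)) (Icc s t) := by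
    refine ContinuousOn.mul ?_ ((rate_cont hV ht hz).mono hsub)
    exact (SS'_cont κ r).comp_continuousOn hUc
  have hi : IntervalIntegrable (fun u => Real.exp (-xx κ * Uf V z u) *
      phi (Uf V z u - Real.log r) * rate (Zf V z u)) volume s t := by
    apply ContinuousOn.intervalIntegrable
    rwa [uIcc_of_le hst]
  refine ⟨hi, ?_⟩
  have hS : Continuous (SS κ r) :=
    continuous_iff_continuousAt.2 fun U => (SS_hasDeriv κ r U).continuousAt
  have h := intervalIntegral.integral_eq_sub_of_hasDerivAt_of_le hst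
    (f := fun u => -SS κ r (Uf V z u)) (f' := fun u => Real.exp (-xx κ * Uf V z u) *
      phi (Uf V z u - Real.log r) * rate (Zf V z u)) (hS.comp_continuousOn hUc).neg
    (fun u hu => by
      have hu' : u ∈ Icc 0 t := ⟨hs.trans hu.1.le, hu.2.le⟩
      have h1 : HasDerivAt (Uf V z) (-rate (Zf V z u)) u :=
        (Uf_hasDeriv hV hz hu').hasDerivAt (Icc_mem_nhds (hs.trans_lt hu.1) hu.2)
      have h2 := ((SS_hasDeriv κ r (Uf V z u)).comp u h1).neg
      refine h2.congr_deriv ?_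
      ring) hi
  rw [h]
  ring

/-- running reward for the lower bound -/
noncomputable def a1 (κ r : ℝ) (Z : ℂ) (U : ℝ) : ℝ :=
  Real.exp (-xx κ * U) * phi (U - Real.log r) * rate Z * (1 - sn Z ^ be κ)

lemma a1_cont (κ r : ℝ) : ContinuousOn (Function.uncurry (a1 κ r)) HS :=
  ((c_u (SS'_cont κ r)).mul c_rate).mul (continuousOn_const.sub (c_snp _))

/-- functional for the lower bound -/
noncomputable def F1 (κ r : ℝ) (Z : ℂ) (U : ℝ) : ℝ :=
  -f1 κ r U * sn Z ^ be κ + (r ^ (-xx κ) + SS κ r U)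

lemma F1_reg (κ r : ℝ) : Reg (F1 κ r)
    (fun Z U => -f1 κ r U * (-be κ * (Z.re / ‖Z‖ ^ 2) * sn Z ^ be κ))
    (fun Z U => -f1 κ r U *
      ((be κ * (be κ + 2) * cs Z ^ 2 - be κ) / ‖Z‖ ^ 2 * sn Z ^ be κ))
    (fun Z U => -f1 κ r U *
      (be κ * (Z.re ^ 2 / (Z.im * ‖Z‖ ^ 2)) * sn Z ^ be κ))
    (fun Z U => -f1' κ r U * sn Z ^ be κ +
      Real.exp (-xx κ * U) * phi (U - Real.log r)) :=
  FM.reg_pow (f := fun U => -f1 κ r U) (f' := fun U => -f1' κ r U)
    (g := fun U => r ^ (-xx κ) + SS κ r U)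
    (g' := fun U => Real.exp (-xx κ * U) * phi (U - Real.log r))
    (fun U => (f1_hasDeriv κ r U).neg) (fun U => (SS_hasDeriv κ r U).const_add _)
    (f1'_cont κ r).neg (SS'_cont κ r) (be κ)

end FM

end Vale.Agent.P164
end

section

/-!
# The Green function is a supermartingale; small angles
-/

namespace Vale.Agent.P164

open Set Metric Filter Topology MeasureTheory ProbabilityTheory
open scoped NNReal ENNReal

/-- The supermartingale theorem without reward. -/
lemma SmallAngle_super {κ : ℝ} (h0 : 0 < κ) {F FX FXX FY FU : ℂ → ℝ → ℝ}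
    (hr : Reg F FX FXX FY FU) (hF0 : ∀ Z U, 0 < Z.im → 0 ≤ F Z U)
    (hgen : ∀ Z U, 0 < Z.im → gen κ FX FXX FY FU Z U ≤ 0) {Ω : Type*} [MeasurableSpace Ω]
    {P : Measure Ω} {W : ℝ → Ω → ℝ} (hW : IsDrv κ P W) (z : ℂ) {s t : ℝ} (hs : 0 ≤ s)
    (hst : s ≤ t) {A : Set Ω} (hA : MeasurableSet[past W s] A) :
    ∫⁻ ω in A, ENNReal.ofReal (St F (fun u => W u ω) z t) ∂P ≤
      ∫⁻ ω in A, ENNReal.ofReal (St F (fun u => W u ω) z s) ∂P := by
  have key := T_thm h0 hr (a := fun _ _ => 0) continuousOn_const hF0 (fun _ _ _ => le_rfl)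
    (fun Z U hZ => by simpa only [add_zero] using hgen Z U hZ) hW z hs hst hA
  refine le_trans (le_of_eq ?_) key
  have hB : MeasurableSet {ω | z ∈ loewnerDomain (fun u => W u ω) t} :=
    hW.past_le _ (alive_past hW.cont hW.meas (hs.trans hst) z)
  rw [← lintegral_inter_add_sdiff _ A hB]
  have hA' : MeasurableSet A := hW.past_le _ hA
  have h1 : ∫⁻ ω in A \ {ω | z ∈ loewnerDomain (fun u => W u ω) t},
      ENNReal.ofReal (St F (fun u => W u ω) z t) ∂P = 0 := by
    refine setLIntegral_eq_zero (hA'.diff hB) fun ω hω => ?_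
    have h2 : z ∉ loewnerDomain (fun u => W u ω) t := hω.2
    simp only [Pi.zero_apply]
    rw [St_of_not_mem h2, ENNReal.ofReal_zero]
  rw [h1, add_zero]
  refine lintegral_congr fun ω => ?_
  have h3 : ∀ u : ℝ, St (fun _ _ => 0) (fun u => W u ω) z u = 0 := fun u => by
    unfold St
    split_ifs <;> rfl
  have h4' : (∫ u in s..t, St (fun _ _ => 0) (fun u => W u ω) z u) = 0 := by
    simp only [h3]
    simp
  rw [h4', add_zero]

end Vale.Agent.P164
end

section

/-!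
# The good event at infinitely many levels forces positive measure
-/

namespace Vale.Agent.P164

open Set Metric Filter Topology MeasureTheory ProbabilityTheory
open scoped NNReal ENNReal

lemma im_gt_of_mem_ball_I {z : ℂ} (hz : z ∈ closedBall Complex.I (1 / 2)) : 1 / 2 ≤ z.im := by
  rw [mem_closedBall, dist_eq_norm] at hz
  have h1 := (Complex.abs_im_le_norm (z - Complex.I)).trans hz
  rw [Complex.sub_im, Complex.I_im] at h1
  have := (abs_le.1 h1).1
  linarith only [this]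

lemma diam_pos_of_open {V : Set ℂ} (hV : IsOpen V) (hb : Bornology.IsBounded V) {x : ℂ}
    (hx : x ∈ V) : 0 < diam V := by
  obtain ⟨ρ, hρ, hρV⟩ := Metric.isOpen_iff.1 hV x hx
  have h1 : x + ((ρ / 2 : ℝ) : ℂ) ∈ V := by
    apply hρV
    rw [mem_ball, dist_eq_norm, add_sub_cancel_left, Complex.norm_real, Real.norm_eq_abs,
      abs_of_pos (by positivity)]
    linarith
  have h2 := Metric.dist_le_diam_of_mem hb h1 hx
  rw [dist_eq_norm, add_sub_cancel_left, Complex.norm_real, Real.norm_eq_abs,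
    abs_of_pos (by positivity)] at h2
  linarith only [hρ, h2]

/-- Subadditivity of the content over a finite cover. -/
lemma mu_le_of_cover {κ r : ℝ} {W : ℝ → ℝ} {T : ℝ} (h0 : 0 < κ) (h8 : κ < 8) (hr : 0 < r)
    (hW : Continuous W) (hT : 0 ≤ T) {B A : Set ℂ} (hB : MeasurableSet B)
    (hBim : ∀ z ∈ B, 0 < z.im) (hBv : volume B ≠ ⊤) (hA : MeasurableSet A) {ι : Type*}
    (J : Finset ι) (V : ι → Set ℂ) (hV : ∀ j ∈ J, MeasurableSet (V j))
    (hz : ∀ z ∈ B, z ∉ A → (∀ j ∈ J, z ∉ V j) → yc κ r W z 0 T = 0) :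
    mu κ r W B 0 T ≤ mu κ r W (B ∩ A) 0 T + ∑ j ∈ J, mu κ r W (V j ∩ B) 0 T := by
  have hint : IntegrableOn (fun z => yc κ r W z 0 T) B :=
    yc_integrableOn h0 h8 hr hW hB hBim hBv le_rfl hT
  have e1 : mu κ r W B 0 T = ∫ z, B.indicator (fun z => yc κ r W z 0 T) z := by
    rw [integral_indicator hB]; rfl
  have e2 : mu κ r W (B ∩ A) 0 T = ∫ z, (B ∩ A).indicator (fun z => yc κ r W z 0 T) z := by
    rw [integral_indicator (hB.inter hA)]; rfl
  have e3 : ∀ j ∈ J, mu κ r W (V j ∩ B) 0 T =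
      ∫ z, (V j ∩ B).indicator (fun z => yc κ r W z 0 T) z := by
    intro j hj
    rw [integral_indicator ((hV j hj).inter hB)]; rfl
  have i1 : Integrable (B.indicator (fun z => yc κ r W z 0 T)) :=
    (integrable_indicator_iff hB).2 hint
  have i2 : Integrable ((B ∩ A).indicator (fun z => yc κ r W z 0 T)) :=
    (integrable_indicator_iff (hB.inter hA)).2 (hint.mono_set inter_subset_left)
  have i3 : ∀ j ∈ J, Integrable ((V j ∩ B).indicator (fun z => yc κ r W z 0 T)) := fun j hj =>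
    (integrable_indicator_iff ((hV j hj).inter hB)).2 (hint.mono_set inter_subset_right)
  rw [e1, e2, Finset.sum_congr rfl e3, ← integral_finsetSum J i3,
    ← integral_add i2 (integrable_finsetSum J i3)]
  refine integral_mono i1 (i2.add (integrable_finsetSum J i3)) fun z => ?_
  have hn : 0 ≤ yc κ r W z 0 T := yc_nonneg le_rfl hT
  have hn1 : ∀ S : Set ℂ, 0 ≤ S.indicator (fun z => yc κ r W z 0 T) z := fun S => by
    by_cases h : z ∈ S
    · rw [indicator_of_mem h]; exact hn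
    · rw [indicator_of_notMem h]
  simp only
  by_cases hzB : z ∈ B
  · rw [indicator_of_mem hzB]
    by_cases hzA : z ∈ A
    · rw [indicator_of_mem (show z ∈ B ∩ A from ⟨hzB, hzA⟩)]
      have := Finset.sum_nonneg (s := J) fun j _ => hn1 (V j ∩ B)
      linarith only [this]
    · by_cases hj : ∃ j ∈ J, z ∈ V j
      · obtain ⟨j, hjJ, hjV⟩ := hj
        have h1 := Finset.single_le_sum
          (f := fun j => (V j ∩ B).indicator (fun z => yc κ r W z 0 T) z)
          (fun i _ => hn1 (V i ∩ B)) hjJ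
        rw [indicator_of_mem (show z ∈ V j ∩ B from ⟨hjV, hzB⟩)] at h1
        have := hn1 (B ∩ A)
        linarith only [h1, this]
      · push Not at hj
        rw [hz z hzB hzA hj]
        have h1 := Finset.sum_nonneg (s := J) fun j _ => hn1 (V j ∩ B)
        have := hn1 (B ∩ A)
        linarith only [h1, this]
  · rw [indicator_of_notMem hzB]
    have h1 := Finset.sum_nonneg (s := J) fun j _ => hn1 (V j ∩ B)
    have := hn1 (B ∩ A)
    linarith only [h1, this]

end Vale.Agent.P164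
end

section

namespace Vale.Agent.P164

open Set Metric Filter Topology MeasureTheory
open scoped NNReal ENNReal

/-- Countably many times, dense in `[0,b]`. -/
noncomputable def tm (b : ℝ≥0) (n : ℕ) : ℝ≥0 := min (TopologicalSpace.denseSeq ℝ≥0 n) b

/-- Restriction of a path to the countable set of times. -/
noncomputable def rst (b : ℝ≥0) (w : ℝ≥0 → ℝ) : ℕ → ℝ := fun n => w (tm b n)

/-- A property of paths which, on continuous paths, is a measurable property of the path on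
`[0,b]`. -/
def PathMeas (b : ℝ≥0) (G : (ℝ≥0 → ℝ) → Prop) : Prop :=
  ∃ S : Set (ℕ → ℝ), MeasurableSet S ∧ ∀ w : ℝ≥0 → ℝ, Continuous w → (rst b w ∈ S ↔ G w)

namespace PathMeas

variable {b : ℝ≥0} {G G' : (ℝ≥0 → ℝ) → Prop}

end PathMeas

/-- The driving function attached to a path. -/
noncomputable def drv (κ : ℝ) (w : ℝ≥0 → ℝ) : ℝ → ℝ := fun t => √κ * w t.toNNReal

/-- The abstract properties of sets for which the zero-one law is proved. -/
structure SetProp (Q : Set ℂ → Prop) : Prop where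
  mono : ∀ {E F : Set ℂ}, E ⊆ F → Q F → Q E
  insert : ∀ {E : Set ℂ} (x : ℂ), Q E → Q (insert x E)
  lip : ∀ {E : Set ℂ} {f : ℂ → ℂ} {K : ℝ≥0}, LipschitzOnWith K f E → Q E → Q (f '' E)
  cover : ∃ I : ℕ → ℕ → Finset (ℕ × ℚ) → Prop, ∀ E : Set ℂ, IsCompact E →
    (Q E ↔ ∃ M, ∀ n, ∃ G, I M n G ∧ E ⊆ cells G)

lemma setProp_zero {h : ℝ → ℝ} (hh : IsGauge h) : SetProp (fun E => gaugeMeasure h E = 0) where
  mono := fun hEF h0 => le_antisymm ((gaugeMeasure_mono h hEF).trans h0.le) zero_le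
  insert := fun x h0 => le_antisymm ((gaugeMeasure_insert_le hh _ x).trans h0.le) zero_le
  lip := fun hf h0 => gaugeMeasure_image_eq_zero hh hf h0
  cover := ⟨fun _ n G => Fine n G ∧ cost h G ≤ 1 / ((n : ℝ≥0∞) + 1), fun E hE => by
    rw [eq_zero_iff_cells hh hE]
    simp only [one_div, ENNReal.le_inv_iff_mul_le, exists_const]⟩

end Vale.Agent.P164
end

section

set_option linter.all false

/-!
# Auxiliary lemmas for `T_dead`
-/

namespace Vale.Agent.P164

open Set Metric Filter Topology MeasureTheory ProbabilityTheory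
open scoped NNReal ENNReal

/-- Grid points. -/
noncomputable def tDeadG (s t : ℝ) (N j : ℕ) : ℝ := s + j * ((t - s) / N)

lemma tDeadG_zero (s t : ℝ) (N : ℕ) : tDeadG s t N 0 = s := by simp only [tDeadG, CharP.cast_eq_zero, zero_mul, add_zero]

lemma tDeadG_self (s t : ℝ) {N : ℕ} (hN : 0 < N) : tDeadG s t N N = t := by
  have : (N : ℝ) ≠ 0 := by positivity
  unfold tDeadG
  field_simp
  ring

lemma tDeadG_mono {s t : ℝ} (hst : s ≤ t) (N : ℕ) {i j : ℕ} (hij : i ≤ j) :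
    tDeadG s t N i ≤ tDeadG s t N j := by
  unfold tDeadG
  have h1 : (i : ℝ) ≤ j := by exact_mod_cast hij
  have h2 : 0 ≤ (t - s) / N := div_nonneg (by linarith only [hst]) (Nat.cast_nonneg _)
  nlinarith only [h1, h2]

lemma tDead_sum (f : ℝ → ℝ≥0∞) {s t : ℝ} (hst : s ≤ t) (N J : ℕ) :
    ∑ j ∈ Finset.range J, ∫⁻ u in Ioc (tDeadG s t N j) (tDeadG s t N (j + 1)), f u =
      ∫⁻ u in Ioc s (tDeadG s t N J), f u := by
  induction J with
  | zero => simp only [Finset.range_zero, Finset.sum_empty, tDeadG_zero, lt_self_iff_false, not_false_eq_true, Ioc_eq_empty, Measure.restrict_empty, lintegral_zero_measure]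
  | succ J ih =>
    rw [Finset.sum_range_succ, ih]
    have h1 : s ≤ tDeadG s t N J :=
      (tDeadG_zero s t N).symm.le.trans (tDeadG_mono hst N (Nat.zero_le J))
    have h2 : tDeadG s t N J ≤ tDeadG s t N (J + 1) := tDeadG_mono hst N (Nat.le_succ J)
    rw [← Ioc_union_Ioc_eq_Ioc h1 h2, lintegral_union measurableSet_Ioc]
    rw [Set.disjoint_left]
    rintro x ⟨_, h3⟩ ⟨h4, _⟩
    linarith only [h3, h4]

open Classical in
/-- Lower bound of the Riemann sums. -/
lemma tDead_lower (f : ℝ → ℝ≥0∞) (al : ℝ → Prop) (hal : ∀ u v, u ≤ v → al v → al u)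
    {s t v w : ℝ} (hst : s < t) (hsv : s ≤ v) (hvw : v < w) (hwt : w ≤ t) (hw : al w) {N : ℕ}
    (hN : 0 < N) (hmesh : (t - s) / N < w - v) :
    ∫⁻ u in Ioc s v, f u ≤ ∑ j ∈ Finset.range N, (if al (tDeadG s t N (j + 1)) then
      ∫⁻ u in Ioc (tDeadG s t N j) (tDeadG s t N (j + 1)), f u else 0) := by
  have hNr : (0 : ℝ) < N := by exact_mod_cast hN
  have hm : 0 < (t - s) / N := div_pos (by linarith only [hst]) hNr
  obtain ⟨J, hJ⟩ : ∃ J : ℕ, J = ⌈(v - s) / ((t - s) / N)⌉₊ := ⟨_, rfl⟩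
  have h1 : v ≤ tDeadG s t N J := by
    have := Nat.le_ceil ((v - s) / ((t - s) / N))
    rw [← hJ, div_le_iff₀ hm] at this
    unfold tDeadG
    linarith only [this]
  have h2 : tDeadG s t N J < w := by
    have h3 : (J : ℝ) < (v - s) / ((t - s) / N) + 1 := by
      rw [hJ]
      exact Nat.ceil_lt_add_one (div_nonneg (by linarith only [hsv]) hm.le)
    have h4 : (J : ℝ) * ((t - s) / N) < (v - s) + (t - s) / N := by
      have := mul_lt_mul_of_pos_right h3 hm
      rw [add_mul, div_mul_cancel₀ _ hm.ne', one_mul] at this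
      exact this
    unfold tDeadG
    linarith only [hmesh, h4]
  have hJN : J ≤ N := by
    by_contra hcon
    push Not at hcon
    have := tDeadG_mono hst.le N hcon.le
    rw [tDeadG_self s t hN] at this
    linarith only [hwt, h2, this]
  calc ∫⁻ u in Ioc s v, f u ≤ ∫⁻ u in Ioc s (tDeadG s t N J), f u :=
        lintegral_mono_set (Ioc_subset_Ioc_right h1)
    _ = ∑ j ∈ Finset.range J, ∫⁻ u in Ioc (tDeadG s t N j) (tDeadG s t N (j + 1)), f u :=
        (tDead_sum f hst.le N J).symm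
    _ = ∑ j ∈ Finset.range J, (if al (tDeadG s t N (j + 1)) then
          ∫⁻ u in Ioc (tDeadG s t N j) (tDeadG s t N (j + 1)), f u else 0) := by
        refine Finset.sum_congr rfl fun j hj => ?_
        rw [if_pos]
        refine hal _ _ ?_ hw
        have hj' : j + 1 ≤ J := Finset.mem_range.1 hj
        exact (tDeadG_mono hst.le N hj').trans h2.le
    _ ≤ _ := Finset.sum_le_sum_of_subset (Finset.range_mono hJN)

open Classical in
/-- Riemann sums with killing converge from below. -/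
lemma tDead_liminf (f : ℝ → ℝ≥0∞) (al : ℝ → Prop) (hal : ∀ u v, u ≤ v → al v → al u)
    (hf : ∀ u, ¬ al u → f u = 0) {s t : ℝ} (hst : s < t) :
    ∫⁻ u in Ioc s t, f u ≤ liminf (fun N : ℕ => ∑ j ∈ Finset.range N,
      (if al (tDeadG s t N (j + 1)) then
        ∫⁻ u in Ioc (tDeadG s t N j) (tDeadG s t N (j + 1)), f u else 0)) atTop := by
  set L := liminf (fun N : ℕ => ∑ j ∈ Finset.range N,
      (if al (tDeadG s t N (j + 1)) then
        ∫⁻ u in Ioc (tDeadG s t N j) (tDeadG s t N (j + 1)), f u else 0)) atTop with hL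
  -- lower bounds
  have hlow : ∀ v w, s ≤ v → v < w → w ≤ t → al w → ∫⁻ u in Ioc s v, f u ≤ L := by
    intro v w h1 h2 h3 h4
    refine le_liminf_of_le (by isBoundedDefault) ?_
    have hmesh0 : Tendsto (fun N : ℕ => (t - s) / (N : ℝ)) atTop (𝓝 0) :=
      tendsto_const_div_atTop_nhds_zero_nat _
    filter_upwards [eventually_gt_atTop 0, hmesh0.eventually (gt_mem_nhds (sub_pos.2 h2))]
      with N hN hN2
    exact tDead_lower f al hal hst h1 h2 h3 h4 hN hN2
  by_cases hs : al s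
  · obtain ⟨T, hT⟩ : ∃ T : Set ℝ, T = {u | u ∈ Icc s t ∧ al u} := ⟨_, rfl⟩
    have hTne : T.Nonempty := ⟨s, by rw [hT]; exact ⟨⟨le_rfl, hst.le⟩, hs⟩⟩
    have hTb : BddAbove T := ⟨t, by rw [hT]; rintro u ⟨hu, _⟩; exact hu.2⟩
    obtain ⟨τ, hτ⟩ : ∃ τ, τ = sSup T := ⟨_, rfl⟩
    have hτt : τ ≤ t := by
      rw [hτ]
      exact csSup_le hTne (by rw [hT]; rintro u ⟨hu, _⟩; exact hu.2)
    have hdead : ∀ u, τ < u → u ≤ t → ¬ al u := by
      intro u h1 h2 h3
      have : u ∈ T := by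
        rw [hT]
        refine ⟨⟨?_, h2⟩, h3⟩
        have : s ≤ τ := by
          rw [hτ]
          exact le_csSup hTb (by rw [hT]; exact ⟨⟨le_rfl, hst.le⟩, hs⟩)
        linarith only [h1, this]
      have := le_csSup hTb this
      rw [← hτ] at this
      linarith only [h1, this]
    have halive : ∀ v, v < τ → ∃ w, v < w ∧ w ≤ t ∧ al w := by
      intro v hv
      rw [hτ] at hv
      obtain ⟨w, hw, hvw⟩ := exists_lt_of_lt_csSup hTne hv
      rw [hT] at hw
      exact ⟨w, hvw, hw.1.2, hw.2⟩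
    -- reduce to the open interval
    have e1 : ∫⁻ u in Ioc s t, f u ≤ ∫⁻ u in Ioo s τ, f u := by
      have h1 : ∫⁻ u in Ioc s t, f u = ∫⁻ u in Ioc s t, (Ioc s τ).indicator f u := by
        refine setLIntegral_congr_fun measurableSet_Ioc fun u hu => ?_
        by_cases h : u ≤ τ
        · rw [indicator_of_mem (show u ∈ Ioc s τ from ⟨hu.1, h⟩)]
        · push Not at h
          rw [indicator_of_notMem (fun h' => absurd h'.2 (not_le.2 h)), hf u (hdead u h hu.2)]
      rw [h1]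
      calc ∫⁻ u in Ioc s t, (Ioc s τ).indicator f u ≤ ∫⁻ u, (Ioc s τ).indicator f u :=
            setLIntegral_le_lintegral _ _
        _ = ∫⁻ u in Ioc s τ, f u := lintegral_indicator measurableSet_Ioc _
        _ = ∫⁻ u in Ioo s τ, f u := setLIntegral_congr Ioo_ae_eq_Ioc.symm
        _ ≤ _ := le_rfl
    refine e1.trans ?_
    have hU : Ioo s τ = ⋃ m : ℕ, Ioc s (τ - 1 / ((m : ℝ) + 1)) := by
      ext u
      simp only [mem_Ioo, mem_iUnion, mem_Ioc]
      constructor
      · rintro ⟨h1, h2⟩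
        obtain ⟨m, hm⟩ := exists_nat_one_div_lt (sub_pos.2 h2)
        exact ⟨m, h1, by linarith only [hm]⟩
      · rintro ⟨m, h1, h2⟩
        refine ⟨h1, ?_⟩
        have : (0 : ℝ) < 1 / ((m : ℝ) + 1) := by (clear * -; positivity)
        linarith only [h2, this]
    have hmono : Monotone (fun m : ℕ => Ioc s (τ - 1 / ((m : ℝ) + 1))) := by
      intro m m' hmm
      apply Ioc_subset_Ioc_right
      have h1 : (m : ℝ) ≤ m' := by exact_mod_cast hmm
      have h2 : 1 / ((m' : ℝ) + 1) ≤ 1 / ((m : ℝ) + 1) := by (clear * - h1; gcongr)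
      linarith only [h2]
    have e2 : ∫⁻ u in Ioo s τ, f u = ⨆ m : ℕ, ∫⁻ u in Ioc s (τ - 1 / ((m : ℝ) + 1)), f u := by
      rw [← withDensity_apply f measurableSet_Ioo, hU, hmono.measure_iUnion]
      refine iSup_congr fun m => ?_
      rw [withDensity_apply f measurableSet_Ioc]
    rw [e2]
    refine iSup_le fun m => ?_
    by_cases hm : s ≤ τ - 1 / ((m : ℝ) + 1)
    · have : (0 : ℝ) < 1 / ((m : ℝ) + 1) := by (clear * -; positivity)
      obtain ⟨w, h1, h2, h3⟩ := halive (τ - 1 / ((m : ℝ) + 1)) (by linarith only [this])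
      exact hlow _ w hm h1 h2 h3
    · push Not at hm
      rw [Ioc_eq_empty_of_le hm.le]
      simp only [Measure.restrict_empty, lintegral_zero_measure, zero_le]
  · have : ∫⁻ u in Ioc s t, f u = 0 := by
      rw [setLIntegral_congr_fun (g := fun _ => 0) measurableSet_Ioc]
      · simp only [lintegral_const, MeasurableSet.univ, Measure.restrict_apply, univ_inter, Real.volume_Ioc, zero_mul]
      · intro u hu
        exact hf u fun h => hs (hal s u hu.1.le h)
    rw [this]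
    exact zero_le

/-- Summation along the grid. -/
lemma tDead_grid {κ : ℝ} (hκ : 0 < κ) {F FX FXX FY FU a : ℂ → ℝ → ℝ} (hr : Reg F FX FXX FY FU)
    (ha : ContinuousOn (Function.uncurry a) ({Z : ℂ | 0 < Z.im} ×ˢ univ))
    (hF0 : ∀ Z U, 0 < Z.im → 0 ≤ F Z U) (ha0 : ∀ Z U, 0 < Z.im → 0 ≤ a Z U)
    (hgen : ∀ Z U, 0 < Z.im → gen κ FX FXX FY FU Z U + a Z U ≤ 0)
    {Ω : Type*} [MeasurableSpace Ω] {P : Measure Ω} {W : ℝ → Ω → ℝ} (hW : IsDrv κ P W)
    (z : ℂ) {s t : ℝ} (hs : 0 ≤ s) (hst : s ≤ t) {A : Set Ω} (hA : MeasurableSet[past W s] A)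
    (N J : ℕ) :
    ∫⁻ ω in A ∩ {ω | z ∈ loewnerDomain (fun u => W u ω) (tDeadG s t N J)},
        ENNReal.ofReal (St F (fun u => W u ω) z (tDeadG s t N J)) ∂P +
      ∑ j ∈ Finset.range J,
        ∫⁻ ω in A ∩ {ω | z ∈ loewnerDomain (fun u => W u ω) (tDeadG s t N (j + 1))},
          ENNReal.ofReal (∫ u in (tDeadG s t N j)..(tDeadG s t N (j + 1)),
            St a (fun u => W u ω) z u) ∂P ≤
      ∫⁻ ω in A, ENNReal.ofReal (St F (fun u => W u ω) z s) ∂P := by
  induction J with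
  | zero =>
    rw [Finset.sum_range_zero, add_zero, tDeadG_zero]
    exact lintegral_mono_set inter_subset_left
  | succ J ih =>
    refine le_trans ?_ ih
    rw [Finset.sum_range_succ, ← add_assoc, add_right_comm]
    gcongr ?_ + _
    have h0 : s ≤ tDeadG s t N J :=
      (tDeadG_zero s t N).symm.le.trans (tDeadG_mono hst N (Nat.zero_le J))
    have h1 : tDeadG s t N J ≤ tDeadG s t N (J + 1) := tDeadG_mono hst N (Nat.le_succ J)
    have hτ : 0 ≤ tDeadG s t N J := hs.trans h0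
    have hτ' : 0 ≤ tDeadG s t N (J + 1) := hτ.trans h1
    obtain ⟨τ, hτe⟩ : ∃ τ, τ = tDeadG s t N J := ⟨_, rfl⟩
    obtain ⟨σ, hσe⟩ : ∃ σ, σ = tDeadG s t N (J + 1) := ⟨_, rfl⟩
    rw [← hτe] at h0 h1 hτ ⊢
    rw [← hσe] at h1 hτ' ⊢
    have hal : MeasurableSet[past W τ] {ω | z ∈ loewnerDomain (fun u => W u ω) τ} :=
      alive_past hW.cont hW.meas hτ z
    have hB : MeasurableSet[past W τ] (A ∩ {ω | z ∈ loewnerDomain (fun u => W u ω) τ}) :=
      MeasurableSet.inter (past_mono h0 _ hA) hal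
    have key := T_thm hκ hr ha hF0 ha0 hgen hW z hτ h1 hB
    refine le_trans (le_of_eq ?_) key
    have hset : A ∩ {ω | z ∈ loewnerDomain (fun u => W u ω) τ} ∩
        {ω | z ∈ loewnerDomain (fun u => W u ω) σ} =
        A ∩ {ω | z ∈ loewnerDomain (fun u => W u ω) σ} := by
      ext ω
      constructor
      · rintro ⟨⟨h2, _⟩, h4⟩
        exact ⟨h2, h4⟩
      · rintro ⟨h2, h4⟩
        exact ⟨⟨h2, dom_mono h1 h4⟩, h4⟩
    rw [hset]
    have hFm : Measurable (fun ω => ENNReal.ofReal (St F (fun u => W u ω) z σ)) :=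
      ((St_past' hW hr.cF hτ' z).mono hW.past_le le_rfl).ennreal_ofReal
    rw [← lintegral_add_left hFm]
    refine lintegral_congr fun ω => ?_
    rw [ENNReal.ofReal_add (St_nonneg' hF0 hτ') (timeint_nonneg ha0 hτ h1)]

end Vale.Agent.P164
end

section

/-!
# Auxiliary computations for `small_one`
-/

namespace Vale.Agent.P164

open Set Metric Filter Topology MeasureTheory ProbabilityTheory
open scoped NNReal ENNReal

lemma SmallCont_reg_add {F FX FXX FY FU G GX GXX GY GU : ℂ → ℝ → ℝ} (h1 : Reg F FX FXX FY FU)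
    (h2 : Reg G GX GXX GY GU) :
    Reg (fun Z U => F Z U + G Z U) (fun Z U => FX Z U + GX Z U) (fun Z U => FXX Z U + GXX Z U)
      (fun Z U => FY Z U + GY Z U) (fun Z U => FU Z U + GU Z U) :=
  ⟨fun Z U h => (h1.dX Z U h).add (h2.dX Z U h), fun Z U h => (h1.dXX Z U h).add (h2.dXX Z U h),
    fun Z U h => (h1.dY Z U h).add (h2.dY Z U h), fun Z U h => (h1.dU Z U h).add (h2.dU Z U h),
    h1.cF.add h2.cF, h1.cX.add h2.cX, h1.cXX.add h2.cXX, h1.cY.add h2.cY, h1.cU.add h2.cU⟩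

lemma SmallCont_gen_add (κ : ℝ) (FX FXX FY FU GX GXX GY GU : ℂ → ℝ → ℝ) (Z : ℂ) (U : ℝ) :
    gen κ (fun Z U => FX Z U + GX Z U) (fun Z U => FXX Z U + GXX Z U)
      (fun Z U => FY Z U + GY Z U) (fun Z U => FU Z U + GU Z U) Z U =
      gen κ FX FXX FY FU Z U + gen κ GX GXX GY GU Z U := by
  unfold gen
  ring

/-- The generator of `f(U) sn^p`. -/
lemma SmallCont_gen {κ : ℝ} (h0 : 0 < κ) (f f' : ℝ → ℝ) (p : ℝ) {Z : ℂ} (hZ : 0 < Z.im) (U : ℝ) :
    gen κ (fun Z U => f U * (-p * (Z.re / ‖Z‖ ^ 2) * sn Z ^ p))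
      (fun Z U => f U * ((p * (p + 2) * cs Z ^ 2 - p) / ‖Z‖ ^ 2 * sn Z ^ p))
      (fun Z U => f U * (p * (Z.re ^ 2 / (Z.im * ‖Z‖ ^ 2)) * sn Z ^ p))
      (fun Z U => f' U * sn Z ^ p + 0) Z U =
      sn Z ^ p / ‖Z‖ ^ 2 * (p * f U * (κ / 2 * (p - be κ) - sn Z ^ 2 * (κ / 2 * (p - be κ + 1)))
        - 4 * sn Z ^ 2 * f' U) := by
  have hn := FM.norm_pos hZ
  have hb := FM.be_mul h0
  have h2 : cs Z ^ 2 = 1 - sn Z ^ 2 := by
    have := sn_sq_add_cs_sq (Z := Z) (by rintro rfl; simp at hZ)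
    linarith only [this]
  have h3 : Z.re ^ 2 = cs Z ^ 2 * ‖Z‖ ^ 2 := by
    unfold cs; field_simp
  unfold gen
  have e1 : 2 * Z.re / ‖Z‖ ^ 2 * (f U * (-p * (Z.re / ‖Z‖ ^ 2) * sn Z ^ p))
      = -(2 * p * cs Z ^ 2) * f U * sn Z ^ p / ‖Z‖ ^ 2 := by
    have : 2 * Z.re / ‖Z‖ ^ 2 * (f U * (-p * (Z.re / ‖Z‖ ^ 2) * sn Z ^ p))
      = -(2 * p * (Z.re ^ 2)) * f U * sn Z ^ p / (‖Z‖ ^ 2 * ‖Z‖ ^ 2) := by
      (clear * - hn; field_simp)
    rw [this, h3]
    (clear * - hn; field_simp)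
  have e2 : 2 * Z.im / ‖Z‖ ^ 2 * (f U * (p * (Z.re ^ 2 / (Z.im * ‖Z‖ ^ 2)) * sn Z ^ p))
      = (2 * p * cs Z ^ 2) * f U * sn Z ^ p / ‖Z‖ ^ 2 := by
    rw [h3]
    (clear * - hZ hn; field_simp)
  rw [e1, e2]
  linear_combination ((κ / 2 * (p * (p + 2)) - 4 * p) * f U * (sn Z ^ p / ‖Z‖ ^ 2)) * h2 +
    (p * f U * (1 - sn Z ^ 2) / 2 * (sn Z ^ p / ‖Z‖ ^ 2)) * hb

/-- The profile `sech (U - log ε)`. -/
noncomputable def SmallCont_g (ε U : ℝ) : ℝ := (Real.cosh (U - Real.log ε))⁻¹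

/-- Its derivative. -/
noncomputable def SmallCont_g' (ε U : ℝ) : ℝ :=
  -Real.sinh (U - Real.log ε) / Real.cosh (U - Real.log ε) ^ 2

lemma SmallCont_g_pos (ε U : ℝ) : 0 < SmallCont_g ε U := inv_pos.2 (Real.cosh_pos _)

lemma SmallCont_g_le (ε U : ℝ) : SmallCont_g ε U ≤ 1 := inv_le_one_of_one_le₀ (Real.one_le_cosh _)

lemma SmallCont_g_deriv (ε U : ℝ) : HasDerivAt (SmallCont_g ε) (SmallCont_g' ε U) U := by
  have h1 : HasDerivAt (fun U => Real.cosh (U - Real.log ε)) (Real.sinh (U - Real.log ε)) U := by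
    have := (Real.hasDerivAt_cosh (U - Real.log ε)).comp_sub_const U (Real.log ε)
    exact this
  exact h1.inv (Real.cosh_pos _).ne'

lemma SmallCont_g'_cont (ε : ℝ) : Continuous (SmallCont_g' ε) := by
  unfold SmallCont_g'
  apply Continuous.div
  · fun_prop
  · fun_prop
  · intro U
    exact pow_ne_zero 2 (Real.cosh_pos _).ne'

lemma SmallCont_g_cont (ε : ℝ) : Continuous (SmallCont_g ε) :=
  continuous_iff_continuousAt.2 fun U => (SmallCont_g_deriv ε U).continuousAt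

lemma SmallCont_g'_le (ε U : ℝ) : |SmallCont_g' ε U| ≤ SmallCont_g ε U := by
  unfold SmallCont_g' SmallCont_g
  have hc := Real.cosh_pos (U - Real.log ε)
  rw [abs_div, abs_neg, abs_of_pos (pow_pos hc 2), div_le_iff₀ (pow_pos hc 2)]
  have h1 : |Real.sinh (U - Real.log ε)| ≤ Real.cosh (U - Real.log ε) := by
    rw [abs_le]
    have h2 := Real.cosh_eq (U - Real.log ε)
    have h3 := Real.sinh_eq (U - Real.log ε)
    have h4 := Real.exp_pos (U - Real.log ε)
    have h5 := Real.exp_pos (-(U - Real.log ε))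
    constructor <;> linarith only [h2, h3, h4, h5]
  have h2 : (Real.cosh (U - Real.log ε))⁻¹ * Real.cosh (U - Real.log ε) ^ 2 =
      Real.cosh (U - Real.log ε) := by field_simp
  rw [h2]
  exact h1

lemma SmallCont_atan (C ε U : ℝ) :
    HasDerivAt (fun U => 2 * C * Real.arctan (Real.exp (U - Real.log ε)))
      (C * SmallCont_g ε U) U := by
  have h1 : HasDerivAt (fun U => Real.exp (U - Real.log ε)) (Real.exp (U - Real.log ε)) U := by
    simpa only [id_eq, mul_one] using ((hasDerivAt_id U).sub_const (Real.log ε)).exp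
  have h2 := (h1.arctan).const_mul (2 * C)
  refine h2.congr_deriv ?_
  unfold SmallCont_g
  rw [Real.cosh_eq, Real.exp_neg]
  have h4 := Real.exp_pos (U - Real.log ε)
  field_simp
  ring

/-- `phi ≤ 3 g`. -/
lemma SmallCont_phi (ε U : ℝ) : phi (U - Real.log ε) ≤ 3 * SmallCont_g ε U := by
  set u := U - Real.log ε with hu
  rcases le_or_gt u 0 with h | h
  · have h1 : phi u = 0 := by
      unfold phi
      rw [max_eq_left (by nlinarith only [h])]
      ring
    rw [h1]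
    have := SmallCont_g_pos ε U
    linarith only [this]
  rcases le_or_gt 1 u with h' | h'
  · have h1 : phi u = 0 := by
      unfold phi
      rw [max_eq_left (by nlinarith only [h'])]
      ring
    rw [h1]
    have := SmallCont_g_pos ε U
    linarith only [this]
  · have h1 := phi_le u
    have h2 : Real.cosh u ≤ 2 := by
      rw [Real.cosh_eq]
      have h3 : Real.exp u ≤ Real.exp 1 := Real.exp_le_exp.2 h'.le
      have h4 : Real.exp (-u) ≤ 1 := Real.exp_le_one_iff.2 (by linarith only [h])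
      have h5 := Real.exp_one_lt_d9
      linarith only [h3, h4, h5]
    have h3 : (1 : ℝ) / 2 ≤ SmallCont_g ε U := by
      unfold SmallCont_g
      rw [← hu, one_div]
      exact inv_anti₀ (Real.cosh_pos _) h2
    linarith

lemma SmallCont_prod {q q' : ℝ → ℝ} (hq : ∀ U, HasDerivAt q (q' U) U) (x k U : ℝ) :
    HasDerivAt (fun U => k * (q U * Real.exp (-x * U)))
      (k * ((q' U - x * q U) * Real.exp (-x * U))) U := by
  have h1 : HasDerivAt (fun U : ℝ => Real.exp (-x * U)) (Real.exp (-x * U) * (-x)) U := by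
    simpa only [neg_mul, mul_neg, id_eq, mul_one] using ((hasDerivAt_id U).const_mul (-x)).exp
  refine (((hq U).mul h1).const_mul k).congr_deriv ?_
  ring

lemma SmallCont_alg {A C T s2 r g g' : ℝ} (hA : 0 ≤ A) (hs : 0 ≤ s2) (hg : 0 ≤ g)
    (hgg : |g'| ≤ g) (h : -12 + (A * T + 4 * A) * s2 - 4 * C * r * s2 ≤ 0) :
    (-24 + 12 + A * T * s2 - 4 * C * r * s2) * g - 4 * A * s2 * g' ≤ 0 := by
  have h2 : -g' ≤ g := (neg_le_abs g').trans hgg
  have h3 := mul_le_mul_of_nonneg_left h2 (by (clear * - hA hs; positivity) : 0 ≤ 4 * A * s2)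
  have h4 := mul_nonpos_of_nonpos_of_nonneg h hg
  linarith

lemma SmallCont_id {k β p d A C g g' ex at' s2 sp r N x : ℝ} (hx : 4 * x = k / 2 * β) :
    sp / N * (p * (d * A * (g * ex)) * (k / 2 * (p - β) - s2 * (k / 2 * (p - β + 1))) -
        4 * s2 * (d * A * ((g' - x * g) * ex))) +
      sp * r / N * (β * (d * (2 * C * at' * ex)) * (k / 2 * (β - β) - s2 * (k / 2 * (β - β + 1))) -
        4 * s2 * (d * ((C * g - x * (2 * C * at')) * ex))) +
      12 * d * (ex * g * (sp / N)) =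
    d * ex * (sp / N) * ((-(A * (k / 2 * (β - p) * p)) + 12 + A * (k / 2 * (β - p) * (p + 1)) * s2
      - 4 * C * r * s2) * g - 4 * A * s2 * g') := by
  linear_combination (d * ex * (sp / N) * s2 * (A * g + r * (2 * C * at'))) * hx

/-- The supermartingale of the small angle estimate. -/
theorem SmallCont_super {κ : ℝ} (h0 : 0 < κ) (h8 : κ < 8) : ∃ M : ℝ, 0 < M ∧
    ∀ ε dl : ℝ, ∃ F FX FXX FY FU : ℂ → ℝ → ℝ, Reg F FX FXX FY FU ∧
      (∀ Z U, 0 < Z.im → 0 ≤ F Z U) ∧
      (∀ Z U, 0 < Z.im → gen κ FX FXX FY FU Z U +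
        12 * dl ^ 2 * (Real.exp (-xx κ * U) * SmallCont_g ε U *
          (sn Z ^ (11 / 12 * be κ) / ‖Z‖ ^ 2)) ≤ 0) ∧
      (∀ Z U, 0 < Z.im → F Z U ≤ M * dl ^ 2 * Real.exp (-xx κ * U)) := by
  have hbm := FM.be_mul h0
  have hβ : 0 < be κ := by
    unfold be
    have : 1 < 8 / κ := (one_lt_div h0).2 h8
    linarith
  set β := be κ with hβd
  set p : ℝ := 11 / 12 * β with hp
  have hp0 : 0 < p := by positivity
  have hβp : 0 < β - p := by rw [hp]; linarith only [hβ]
  set c0 : ℝ := κ / 2 * (β - p) * p with hc0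
  have hc0p : 0 < c0 := by positivity
  set A : ℝ := 24 / c0 with hA
  have hA0 : 0 < A := by (clear * - h0 hβp hβ; positivity)
  set K0 : ℝ := A * (κ / 2 * (β - p) * (p + 1) + 4) with hK0
  have hK0p : 0 < K0 := by positivity
  set s0 : ℝ := √(12 / K0) with hs0
  have hs0p : 0 < s0 := Real.sqrt_pos.2 (by (clear * - h0 hβp hβ; positivity))
  set C : ℝ := K0 / (4 * s0 ^ (β - p)) with hC
  have hsp : 0 < s0 ^ (β - p) := Real.rpow_pos_of_pos hs0p _
  have hC0 : 0 < C := by (clear * - h0 hβp hβ; positivity)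
  -- the scalar inequality
  have hscal : ∀ s : ℝ, 0 < s → -12 + K0 * s ^ 2 - 4 * C * s ^ (β - p) * s ^ 2 ≤ 0 := by
    intro s hs
    have h1 : 0 ≤ s ^ (β - p) := Real.rpow_nonneg hs.le _
    rcases le_or_gt (K0 * s ^ 2) 12 with h | h
    · have : 0 ≤ 4 * C * s ^ (β - p) * s ^ 2 := by (clear * - h0 hβp hβ hs; positivity)
      linarith only [h, this]
    · have h2 : s0 ≤ s := by
        rw [hs0]
        apply Real.sqrt_le_iff.2 ⟨hs.le, ?_⟩
        rw [div_le_iff₀ hK0p]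
        linarith only [h]
      have h3 : s0 ^ (β - p) ≤ s ^ (β - p) := Real.rpow_le_rpow hs0p.le h2 hβp.le
      have h4 : K0 ≤ 4 * C * s ^ (β - p) := by
        have h5 : 4 * C * s0 ^ (β - p) = K0 := by
          rw [hC]; (clear * - hs0p hK0p; field_simp)
        calc K0 = 4 * C * s0 ^ (β - p) := h5.symm
          _ ≤ 4 * C * s ^ (β - p) := mul_le_mul_of_nonneg_left h3 (by (clear * - h0 hβp hβ; positivity))
      have h5 := mul_le_mul_of_nonneg_right h4 (sq_nonneg s)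
      linarith only [h5]
  refine ⟨A + Real.pi * C, by (clear * - h0 hβp hβ; positivity), fun ε dl => ?_⟩
  -- the two terms
  have d1 := SmallCont_prod (q := SmallCont_g ε) (q' := SmallCont_g' ε) (SmallCont_g_deriv ε)
    (xx κ) (dl ^ 2 * A)
  have d2 := SmallCont_prod (q := fun U => 2 * C * Real.arctan (Real.exp (U - Real.log ε)))
    (q' := fun U => C * SmallCont_g ε U) (SmallCont_atan C ε) (xx κ) (dl ^ 2)
  have cg := SmallCont_g_cont ε
  have cg' := SmallCont_g'_cont ε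
  have r1 := FM.reg_pow (g := fun _ => (0 : ℝ)) (g' := fun _ => 0) d1
    (fun U => hasDerivAt_const U 0) (by fun_prop) continuous_const p
  have r2 := FM.reg_pow (g := fun _ => (0 : ℝ)) (g' := fun _ => 0) d2
    (fun U => hasDerivAt_const U 0) (by fun_prop) continuous_const β
  have r := SmallCont_reg_add r1 r2
  refine ⟨_, _, _, _, _, r, ?_, ?_, ?_⟩
  · intro Z U hZ
    have hs := sn_pos hZ
    have hg := SmallCont_g_pos ε U
    have ha : 0 ≤ Real.arctan (Real.exp (U - Real.log ε)) :=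
      Real.arctan_nonneg.2 (Real.exp_pos _).le
    have e := Real.exp_pos (-xx κ * U)
    have s1 := Real.rpow_nonneg hs.le p
    have s2 := Real.rpow_nonneg hs.le β
    simp only [add_zero]
    (clear * - h0 hβp hβ hg hs; positivity)
  · intro Z U hZ
    have hs := sn_pos hZ
    rw [SmallCont_gen_add, SmallCont_gen h0 (fun U => dl ^ 2 * A * (SmallCont_g ε U *
      Real.exp (-xx κ * U))) (fun U => dl ^ 2 * A * ((SmallCont_g' ε U - xx κ * SmallCont_g ε U) *
      Real.exp (-xx κ * U))) p hZ U, SmallCont_gen h0 (fun U => dl ^ 2 * (2 * C * Real.arctan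
      (Real.exp (U - Real.log ε)) * Real.exp (-xx κ * U))) (fun U => dl ^ 2 * ((C * SmallCont_g ε U
      - xx κ * (2 * C * Real.arctan (Real.exp (U - Real.log ε)))) * Real.exp (-xx κ * U))) β hZ U]
    have hn := FM.norm_pos hZ
    have hx : 4 * xx κ = κ / 2 * β := by
      unfold xx
      linarith only [hbm]
    have hsβ : sn Z ^ β = sn Z ^ p * sn Z ^ (β - p) := by
      rw [← Real.rpow_add hs]
      congr 1
      ring
    have hsp0 : 0 < sn Z ^ p := Real.rpow_pos_of_pos hs p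
    have hAc : A * (κ / 2 * (β - p) * p) = 24 := by
      rw [← hc0, hA]
      exact div_mul_cancel₀ _ hc0p.ne'
    rw [← hβd, hsβ, SmallCont_id hx, hAc]
    refine mul_nonpos_of_nonneg_of_nonpos ?_ (SmallCont_alg hA0.le (sq_nonneg _)
      (SmallCont_g_pos ε U).le (SmallCont_g'_le ε U) ?_)
    · have e := Real.exp_pos (-xx κ * U)
      (clear * - hs hn; positivity)
    · have h2 := hscal _ hs
      have h3 : K0 = A * (κ / 2 * (β - p) * (p + 1)) + 4 * A := by rw [hK0]; ring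
      rwa [h3] at h2
  · intro Z U hZ
    have hs := sn_pos hZ
    have hs1 := sn_le_one Z
    have hg := SmallCont_g_pos ε U
    have hg1 := SmallCont_g_le ε U
    have ha : 0 ≤ Real.arctan (Real.exp (U - Real.log ε)) :=
      Real.arctan_nonneg.2 (Real.exp_pos _).le
    have ha1 : Real.arctan (Real.exp (U - Real.log ε)) ≤ Real.pi / 2 :=
      (Real.arctan_lt_pi_div_two _).le
    have e := Real.exp_pos (-xx κ * U)
    have s1 := Real.rpow_nonneg hs.le p
    have s2 := Real.rpow_nonneg hs.le β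
    have s3 : sn Z ^ p ≤ 1 := Real.rpow_le_one hs.le hs1 hp0.le
    have s4 : sn Z ^ β ≤ 1 := Real.rpow_le_one hs.le hs1 hβ.le
    simp only [add_zero]
    have t1 : SmallCont_g ε U * sn Z ^ p ≤ 1 := mul_le_one₀ hg1 s1 s3
    have t2 : 2 * C * Real.arctan (Real.exp (U - Real.log ε)) * sn Z ^ β ≤ Real.pi * C := by
      calc 2 * C * Real.arctan (Real.exp (U - Real.log ε)) * sn Z ^ β
          ≤ 2 * C * (Real.pi / 2) * 1 := by (clear * - ha1 h0 hβp hβ s4 hs; gcongr)
        _ = Real.pi * C := by ring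
    calc dl ^ 2 * A * (SmallCont_g ε U * Real.exp (-xx κ * U)) * sn Z ^ p +
          dl ^ 2 * (2 * C * Real.arctan (Real.exp (U - Real.log ε)) * Real.exp (-xx κ * U)) *
            sn Z ^ β
        = (dl ^ 2 * Real.exp (-xx κ * U)) * (A * (SmallCont_g ε U * sn Z ^ p) +
          2 * C * Real.arctan (Real.exp (U - Real.log ε)) * sn Z ^ β) := by ring
      _ ≤ (dl ^ 2 * Real.exp (-xx κ * U)) * (A * 1 + Real.pi * C) := by
          (clear * - t1 h0 hβp hβ t2; gcongr)
      _ = (A + Real.pi * C) * dl ^ 2 * Real.exp (-xx κ * U) := by ring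

/-- Comparison of the content density at small angles. -/
lemma SmallCont_aR {κ ε dl : ℝ} (h0 : 0 < κ) (h8 : κ < 8) {Z : ℂ} {U : ℝ} (hZ : 0 < Z.im)
    (h : sn Z ≤ dl) : aR κ ε Z U ≤ 12 * dl ^ 2 * (Real.exp (-xx κ * U) * SmallCont_g ε U *
      (sn Z ^ (11 / 12 * be κ) / ‖Z‖ ^ 2)) := by
  have hβ : 0 < be κ := by
    unfold be
    have : 1 < 8 / κ := (one_lt_div h0).2 h8
    linarith
  have hs := sn_pos hZ
  have hs1 := sn_le_one Z
  have hn := FM.norm_pos hZ
  have e := Real.exp_pos (-xx κ * U)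
  have hg := SmallCont_g_pos ε U
  have hp0 := Real.rpow_nonneg hs.le (11 / 12 * be κ)
  have h1 : sn Z ^ (be κ + 2) ≤ sn Z ^ (11 / 12 * be κ) * dl ^ 2 := by
    have h2 : sn Z ^ (be κ + 2) = sn Z ^ (11 / 12 * be κ) * (sn Z ^ (be κ / 12) * sn Z ^ 2) := by
      rw [← Real.rpow_natCast, ← Real.rpow_add hs, ← Real.rpow_add hs]
      congr 1
      push_cast
      ring
    rw [h2]
    have h3 : sn Z ^ (be κ / 12) ≤ 1 := Real.rpow_le_one hs.le hs1 (by positivity)
    have h4 : sn Z ^ 2 ≤ dl ^ 2 := pow_le_pow_left₀ hs.le h 2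
    refine mul_le_mul_of_nonneg_left ?_ hp0
    calc sn Z ^ (be κ / 12) * sn Z ^ 2 ≤ 1 * dl ^ 2 :=
          mul_le_mul h3 h4 (sq_nonneg _) zero_le_one
      _ = dl ^ 2 := one_mul _
  have h5 := SmallCont_phi ε U
  unfold aR
  calc Real.exp (-xx κ * U) * phi (U - Real.log ε) * (4 * sn Z ^ (be κ + 2) / ‖Z‖ ^ 2)
      ≤ Real.exp (-xx κ * U) * (3 * SmallCont_g ε U) *
        (4 * (sn Z ^ (11 / 12 * be κ) * dl ^ 2) / ‖Z‖ ^ 2) := by
        apply mul_le_mul
        · exact mul_le_mul_of_nonneg_left h5 e.le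
        · exact div_le_div_of_nonneg_right (mul_le_mul_of_nonneg_left h1 (by norm_num))
            (by positivity)
        · have := Real.rpow_nonneg hs.le (be κ + 2)
          positivity
        · positivity
    _ = 12 * dl ^ 2 * (Real.exp (-xx κ * U) * SmallCont_g ε U *
          (sn Z ^ (11 / 12 * be κ) / ‖Z‖ ^ 2)) := by ring

end Vale.Agent.P164
end

section

/-!
# X-B10. The content collected at small angles (all `0 < κ < 8`)
-/

namespace Vale.Agent.P164

open Set Metric Filter Topology MeasureTheory ProbabilityTheory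
open scoped NNReal ENNReal

/-- Theorem T for paths which may die: sum `T_thm` over a grid of mesh `(t-s)/2^n` (with
`A ∩ {alive at t_j} ∈ past t_j` at the step `j`), drop `F` at the end, and let `n → ∞`:
`∑_j 1{alive at t_{j+1}} ∫_{t_j}^{t_{j+1}} a ↑ ∫_s^t St a` (monotone convergence; use the
lintegral in `u` of `ENNReal.ofReal (St a)`). -/
theorem T_dead {κ : ℝ} (hκ : 0 < κ) {F FX FXX FY FU a : ℂ → ℝ → ℝ} (hr : Reg F FX FXX FY FU)
    (ha : ContinuousOn (Function.uncurry a) ({Z : ℂ | 0 < Z.im} ×ˢ univ))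
    (hF0 : ∀ Z U, 0 < Z.im → 0 ≤ F Z U) (ha0 : ∀ Z U, 0 < Z.im → 0 ≤ a Z U)
    (hgen : ∀ Z U, 0 < Z.im → gen κ FX FXX FY FU Z U + a Z U ≤ 0)
    {Ω : Type*} [MeasurableSpace Ω] {P : Measure Ω} {W : ℝ → Ω → ℝ} (hW : IsDrv κ P W)
    (z : ℂ) {s t : ℝ} (hs : 0 ≤ s) (hst : s ≤ t) {A : Set Ω} (hA : MeasurableSet[past W s] A) :
    ∫⁻ ω in A, (∫⁻ u in Ioc s t, ENNReal.ofReal (St a (fun u => W u ω) z u)) ∂P ≤
      ∫⁻ ω in A, ENNReal.ofReal (St F (fun u => W u ω) z s) ∂P := by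
  classical
  rcases hst.eq_or_lt with hst' | hst'
  · subst hst'
    simp only [lt_self_iff_false, not_false_eq_true, Ioc_eq_empty, Measure.restrict_empty, lintegral_zero_measure, lintegral_const, MeasurableSet.univ, Measure.restrict_apply, univ_inter, zero_mul, zero_le]
  -- the Riemann sums
  obtain ⟨φ, hφ⟩ : ∃ φ : ℕ → Ω → ℝ≥0∞, ∀ N ω, φ N ω = ∑ j ∈ Finset.range N,
      {ω | z ∈ loewnerDomain (fun u => W u ω) (tDeadG s t N (j + 1))}.indicator
        (fun ω => ENNReal.ofReal (∫ u in (tDeadG s t N j)..(tDeadG s t N (j + 1)),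
          St a (fun u => W u ω) z u)) ω := ⟨_, fun _ _ => rfl⟩
  have hg0 : ∀ N j, s ≤ tDeadG s t N j := fun N j =>
    (tDeadG_zero s t N).symm.le.trans (tDeadG_mono hst N (Nat.zero_le j))
  have hg1 : ∀ N j, tDeadG s t N j ≤ tDeadG s t N (j + 1) := fun N j =>
    tDeadG_mono hst N (Nat.le_succ j)
  have halm : ∀ N j, MeasurableSet
      {ω | z ∈ loewnerDomain (fun u => W u ω) (tDeadG s t N j)} := fun N j =>
    hW.past_le _ (alive_past hW.cont hW.meas (hs.trans (hg0 N j)) z)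
  have him : ∀ N j, Measurable (fun ω =>
      ENNReal.ofReal (∫ u in (tDeadG s t N j)..(tDeadG s t N (j + 1)),
          St a (fun u => W u ω) z u)) := fun N j =>
    ((timeint_past1 hW ha (hs.trans (hg0 N j)) (hg1 N j) z).mono hW.past_le le_rfl).ennreal_ofReal
  have hφm : ∀ N, Measurable (φ N) := by
    intro N
    have : φ N = fun ω => ∑ j ∈ Finset.range N,
      {ω | z ∈ loewnerDomain (fun u => W u ω) (tDeadG s t N (j + 1))}.indicator
        (fun ω => ENNReal.ofReal (∫ u in (tDeadG s t N j)..(tDeadG s t N (j + 1)),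
          St a (fun u => W u ω) z u)) ω := funext (hφ N)
    rw [this]
    exact Finset.measurable_sum _ fun j _ => (him N j).indicator (halm N (j + 1))
  have hφint : ∀ N, ∫⁻ ω in A, φ N ω ∂P ≤
      ∫⁻ ω in A, ENNReal.ofReal (St F (fun u => W u ω) z s) ∂P := by
    intro N
    refine le_trans ?_ (tDead_grid hκ hr ha hF0 ha0 hgen hW z hs hst hA N N)
    refine le_trans ?_ le_add_self
    rw [lintegral_congr fun ω => hφ N ω, lintegral_finsetSum _ fun j _ =>
      (him N j).indicator (halm N (j + 1))]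
    refine Finset.sum_le_sum fun j _ => ?_
    rw [lintegral_indicator (halm N (j + 1)), Measure.restrict_restrict (halm N (j + 1)),
      inter_comm]
  -- pointwise lower bound
  have hpt : ∀ ω, ∫⁻ u in Ioc s t, ENNReal.ofReal (St a (fun u => W u ω) z u) ≤
      liminf (fun N => φ N ω) atTop := by
    intro ω
    have h1 := tDead_liminf (fun u => ENNReal.ofReal (St a (fun u => W u ω) z u))
      (fun u => z ∈ loewnerDomain (fun u => W u ω) u) (fun u v huv hv => dom_mono huv hv)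
      (fun u hu => by rw [St_of_not_mem hu, ENNReal.ofReal_zero]) hst'
    refine h1.trans (le_of_eq ?_)
    congr 1
    funext N
    rw [hφ]
    refine Finset.sum_congr rfl fun j _ => ?_
    by_cases hal : z ∈ loewnerDomain (fun u => W u ω) (tDeadG s t N (j + 1))
    · rw [if_pos hal, indicator_of_mem (show ω ∈
        {ω | z ∈ loewnerDomain (fun u => W u ω) (tDeadG s t N (j + 1))} from hal)]
      have hτ := hs.trans (hg0 N j)
      have hc := (St_continuousOn ha (hW.cont ω) (hτ.trans (hg1 N j)) hal).mono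
        (Icc_subset_Icc_left hτ)
      have hi : IntegrableOn (fun u => St a (fun u => W u ω) z u)
          (Ioc (tDeadG s t N j) (tDeadG s t N (j + 1))) :=
        (hc.integrableOn_Icc).mono_set Ioc_subset_Icc_self
      rw [intervalIntegral.integral_of_le (hg1 N j),
        ofReal_integral_eq_lintegral_ofReal hi]
      refine (ae_restrict_iff' measurableSet_Ioc).2 (Eventually.of_forall fun u hu => ?_)
      exact St_nonneg' ha0 (hτ.trans hu.1.le)
    · rw [if_neg hal, indicator_of_notMem (show ω ∉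
        {ω | z ∈ loewnerDomain (fun u => W u ω) (tDeadG s t N (j + 1))} from hal)]
  calc ∫⁻ ω in A, (∫⁻ u in Ioc s t, ENNReal.ofReal (St a (fun u => W u ω) z u)) ∂P
      ≤ ∫⁻ ω in A, liminf (fun N => φ N ω) atTop ∂P := lintegral_mono hpt
    _ ≤ liminf (fun N => ∫⁻ ω in A, φ N ω ∂P) atTop := lintegral_liminf_le hφm
    _ ≤ liminf (fun _ : ℕ => ∫⁻ ω in A, ENNReal.ofReal (St F (fun u => W u ω) z s) ∂P) atTop :=
        liminf_le_liminf (Eventually.of_forall hφint)
    _ = _ := by simp only [liminf_const]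

/-- (SA-1) A supermartingale. `g(U) = sech(U - log ε) = 2/(e^u+e^{-u})`, `p = (11/12)β`,
`F = g e^{-xU} sn^p + 2C arctan(e^{U - log ε}) e^{-xU} sn^β`. One has
`L(e^{-xU} sn^p) = (κ/2)(β-p) e^{-xU} sn^p (-p + (p+1) sn²)/|Z|²`, `|g'| ≤ g`,
`L(h(U) M) = -4 h' e^{-xU} sn^{β+2}/|Z|²` with `h' = g`, and
`sn^{p+2} ≤ λ sn^p + C_λ sn^{β+2}`. So `LF ≤ -c g e^{-xU} sn^p/|Z|²`, and
`aR 1{sn < dl} ≤ C dl² g e^{-xU} sn^p/|Z|²` (`β - p ≥ 0`, `phi ≤ 3/2`, `g ≥ 1/2` on `[0,1]`). -/
theorem small_one {κ : ℝ} (h0 : 0 < κ) (h8 : κ < 8) : ∃ C : ℝ, 0 < C ∧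
    ∀ {Ω : Type*} [MeasurableSpace Ω] {P : Measure Ω} {W : ℝ → Ω → ℝ} (_ : IsDrv κ P W)
      {z : ℂ} {ρ ε dl t₀ T : ℝ} (_ : 0 < ρ) (_ : 0 < ε) (_ : 0 ≤ dl) (_ : 0 ≤ t₀) (_ : t₀ ≤ T)
      {A : Set Ω} (_ : MeasurableSet[past W t₀] A)
      (_ : ∀ ω ∈ A, z ∈ loewnerDomain (fun u => W u ω) t₀ ∧
        Real.log (ρ / 4) ≤ Uf (fun u => W u ω) z t₀),
      ∫⁻ ω in A, (∫⁻ u in Ioc t₀ T, ENNReal.ofReal
          (St (fun Z U => if sn Z < dl then aR κ ε Z U else 0) (fun u => W u ω) z u)) ∂P ≤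
        ENNReal.ofReal (C * dl ^ 2 * ρ ^ (-xx κ)) * P A := by
  obtain ⟨M, hM, hsup⟩ := SmallCont_super h0 h8
  refine ⟨M * 4 ^ xx κ, by positivity, ?_⟩
  intro Ω mΩ P W hW z ρ ε dl t₀ T hρ hε hdl ht₀ hT A hA hAz
  obtain ⟨F, FX, FXX, FY, FU, hr, hF0, hgen, hFM⟩ := hsup ε dl
  have hA' : MeasurableSet A := hW.past_le _ hA
  have hx := xx_pos h8
  set a : ℂ → ℝ → ℝ := fun Z U => 12 * dl ^ 2 * (Real.exp (-xx κ * U) * SmallCont_g ε U *
    (sn Z ^ (11 / 12 * be κ) / ‖Z‖ ^ 2)) with ha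
  have hac : ContinuousOn (Function.uncurry a) ({Z : ℂ | 0 < Z.im} ×ˢ univ) := by
    have c1 : Continuous fun U : ℝ => Real.exp (-xx κ * U) * SmallCont_g ε U :=
      (by fun_prop : Continuous fun U : ℝ => Real.exp (-xx κ * U)).mul (SmallCont_g_cont ε)
    have c2 := (FM.c_snp (11 / 12 * be κ)).div (FM.c_norm.pow 2)
      (fun p hp => pow_ne_zero 2 (FM.n_ne hp))
    exact (continuousOn_const.mul ((FM.c_u c1).mul c2))
  have ha0 : ∀ Z U, 0 < Z.im → 0 ≤ a Z U := by
    intro Z U hZ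
    have h1 := SmallCont_g_pos ε U
    have h2 := Real.rpow_nonneg (sn_pos hZ).le (11 / 12 * be κ)
    have h3 := Real.exp_pos (-xx κ * U)
    simp only [ha]
    (clear * - h1 h2; positivity)
  have key := T_dead h0 hr hac hF0 ha0 hgen hW z ht₀ hT hA
  have hcmp : ∀ Z U, 0 < Z.im → (if sn Z < dl then aR κ ε Z U else 0) ≤ a Z U := by
    intro Z U hZ
    split_ifs with h
    · exact SmallCont_aR h0 h8 hZ h.le
    · exact ha0 Z U hZ
  calc ∫⁻ ω in A, (∫⁻ u in Ioc t₀ T, ENNReal.ofReal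
          (St (fun Z U => if sn Z < dl then aR κ ε Z U else 0) (fun u => W u ω) z u)) ∂P
      ≤ ∫⁻ ω in A, (∫⁻ u in Ioc t₀ T, ENNReal.ofReal (St a (fun u => W u ω) z u)) ∂P := by
        refine lintegral_mono fun ω => setLIntegral_mono' measurableSet_Ioc fun u hu => ?_
        apply ENNReal.ofReal_le_ofReal
        by_cases hd : z ∈ loewnerDomain (fun u => W u ω) u
        · rw [St_of_mem hd, St_of_mem hd]
          exact hcmp _ _ (Zf_im_pos (ht₀.trans hu.1.le) hd)
        · rw [St_of_not_mem hd, St_of_not_mem hd]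
    _ ≤ ∫⁻ ω in A, ENNReal.ofReal (St F (fun u => W u ω) z t₀) ∂P := key
    _ ≤ ∫⁻ _ in A, ENNReal.ofReal (M * 4 ^ xx κ * dl ^ 2 * ρ ^ (-xx κ)) ∂P := by
        refine setLIntegral_mono' hA' fun ω hω => ?_
        apply ENNReal.ofReal_le_ofReal
        obtain ⟨hd, hU⟩ := hAz ω hω
        rw [St_of_mem hd]
        refine (hFM _ _ (Zf_im_pos ht₀ hd)).trans ?_
        have h1 : Real.exp (-xx κ * Uf (fun u => W u ω) z t₀) ≤ 4 ^ xx κ * ρ ^ (-xx κ) := by
          have h2 : Real.exp (-xx κ * Uf (fun u => W u ω) z t₀) ≤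
              Real.exp (-xx κ * Real.log (ρ / 4)) := by
            apply Real.exp_le_exp.2
            nlinarith only [hx, hU]
          refine h2.trans (le_of_eq ?_)
          rw [Real.log_div hρ.ne' (by norm_num), Real.rpow_def_of_pos (by norm_num : (0:ℝ) < 4),
            Real.rpow_def_of_pos hρ, ← Real.exp_add]
          congr 1
          ring
        calc M * dl ^ 2 * Real.exp (-xx κ * Uf (fun u => W u ω) z t₀)
            ≤ M * dl ^ 2 * (4 ^ xx κ * ρ ^ (-xx κ)) := mul_le_mul_of_nonneg_left h1 (by (clear * - hM; positivity))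
          _ = M * 4 ^ xx κ * dl ^ 2 * ρ ^ (-xx κ) := by ring
    _ = ENNReal.ofReal (M * 4 ^ xx κ * dl ^ 2 * ρ ^ (-xx κ)) * P A := by
        rw [setLIntegral_const]

/-- The content at angles `≥ dl`, resp. `< dl`. -/
noncomputable def muge (κ ε dl : ℝ) (W : ℝ → ℝ) (D : Set ℂ) (s t : ℝ) : ℝ :=
  ∫ z in D, ∫ u in s..t, St (fun Z U => if dl ≤ sn Z then aR κ ε Z U else 0) W z u

/-- The content at angles `< dl`. -/
noncomputable def mult (κ ε dl : ℝ) (W : ℝ → ℝ) (D : Set ℂ) (s t : ℝ) : ℝ :=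
  ∫ z in D, ∫ u in s..t, St (fun Z U => if sn Z < dl then aR κ ε Z U else 0) W z u

section SmallContAux

variable {κ ε dl : ℝ} {W : ℝ → ℝ} {z : ℂ} {s t : ℝ}

/-- The density at angles `≥ dl`. -/
noncomputable def SmallCont_aGe (κ ε dl : ℝ) (Z : ℂ) (U : ℝ) : ℝ :=
  if dl ≤ sn Z then aR κ ε Z U else 0

/-- The density at angles `< dl`. -/
noncomputable def SmallCont_aLt (κ ε dl : ℝ) (Z : ℂ) (U : ℝ) : ℝ :=
  if sn Z < dl then aR κ ε Z U else 0

lemma SmallCont_sn_meas : Measurable fun p : ℂ × ℝ => sn p.1 := by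
  unfold sn
  exact (Complex.measurable_im.comp measurable_fst).div measurable_fst.norm

lemma SmallCont_aGe_meas (κ ε dl : ℝ) : Measurable (Function.uncurry (SmallCont_aGe κ ε dl)) :=
  Measurable.ite (measurableSet_le measurable_const SmallCont_sn_meas) (aR_measurable κ ε)
    measurable_const

lemma SmallCont_aLt_meas (κ ε dl : ℝ) : Measurable (Function.uncurry (SmallCont_aLt κ ε dl)) :=
  Measurable.ite (measurableSet_lt SmallCont_sn_meas measurable_const) (aR_measurable κ ε)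
    measurable_const

lemma SmallCont_aGe_bd {u : ℝ} (hu : 0 ≤ u) :
    0 ≤ St (SmallCont_aGe κ ε dl) W z u ∧
      St (SmallCont_aGe κ ε dl) W z u ≤ St (aR κ ε) W z u := by
  have h0 := aR_nonneg (κ := κ) (r := ε) (W := W) (z := z) hu
  by_cases h : z ∈ loewnerDomain W u
  · rw [St_of_mem h] at h0 ⊢
    rw [St_of_mem h]
    unfold SmallCont_aGe
    split_ifs
    exacts [⟨h0, le_rfl⟩, ⟨le_rfl, h0⟩]
  · rw [St_of_not_mem h, St_of_not_mem h]
    exact ⟨le_rfl, le_rfl⟩

lemma SmallCont_aLt_bd {u : ℝ} (hu : 0 ≤ u) :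
    0 ≤ St (SmallCont_aLt κ ε dl) W z u ∧
      St (SmallCont_aLt κ ε dl) W z u ≤ St (aR κ ε) W z u := by
  have h0 := aR_nonneg (κ := κ) (r := ε) (W := W) (z := z) hu
  by_cases h : z ∈ loewnerDomain W u
  · rw [St_of_mem h] at h0 ⊢
    rw [St_of_mem h]
    unfold SmallCont_aLt
    split_ifs
    exacts [⟨h0, le_rfl⟩, ⟨le_rfl, h0⟩]
  · rw [St_of_not_mem h, St_of_not_mem h]
    exact ⟨le_rfl, le_rfl⟩

lemma SmallCont_split (u : ℝ) : St (aR κ ε) W z u =
    St (SmallCont_aGe κ ε dl) W z u + St (SmallCont_aLt κ ε dl) W z u := by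
  by_cases h : z ∈ loewnerDomain W u
  · rw [St_of_mem h, St_of_mem h, St_of_mem h]
    unfold SmallCont_aGe SmallCont_aLt
    by_cases h1 : dl ≤ sn (Zf W z u)
    · rw [if_pos h1, if_neg (not_lt.2 h1), add_zero]
    · rw [if_neg h1, if_pos (not_le.1 h1), zero_add]
  · rw [St_of_not_mem h, St_of_not_mem h, St_of_not_mem h, add_zero]

/-- Integrability in time of a part of the content density. -/
lemma SmallCont_ii (h0 : 0 < κ) (h8 : κ < 8) (hε : 0 < ε) (hW : Continuous W) (hs : 0 ≤ s)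
    (hst : s ≤ t) {H : ℂ → ℝ → ℝ} (hH : Measurable (Function.uncurry H))
    (hb : ∀ z u, 0 ≤ u → 0 ≤ St H W z u ∧ St H W z u ≤ St (aR κ ε) W z u) (z : ℂ) :
    IntervalIntegrable (fun u => St H W z u) volume s t := by
  rw [intervalIntegrable_iff_integrableOn_Ioc_of_le hst]
  by_cases hz : 0 < z.im
  · have h1 := (intervalIntegrable_iff_integrableOn_Ioc_of_le hst).1
      (yc_integrable h0 h8 hε hW hz hs hst)
    have h2 : AEStronglyMeasurable (fun u => St H W z u) (volume.restrict (Ioc s t)) := by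
      have h3 : Measurable fun u : ℝ => if 0 ≤ u then St H W z u else 0 :=
        (St_measurable hW hH).comp (measurable_id.prodMk measurable_const)
      refine h3.aestronglyMeasurable.congr ?_
      filter_upwards [ae_restrict_mem measurableSet_Ioc] with u hu
      rw [if_pos (hs.trans hu.1.le)]
    refine Integrable.mono' h1 h2 ?_
    filter_upwards [ae_restrict_mem measurableSet_Ioc] with u hu
    have h4 := hb z u (hs.trans hu.1.le)
    rw [Real.norm_of_nonneg h4.1]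
    exact h4.2
  · refine integrableOn_zero.congr_fun (fun u hu => ?_) measurableSet_Ioc
    have hu0 : 0 ≤ u := hs.trans hu.1.le
    exact (St_of_not_mem fun h => hz (im_pos_of_dom hu0 h)).symm

/-- Measurability in the point of the time integral. -/
lemma SmallCont_meas (hW : Continuous W) (hs : 0 ≤ s) (hst : s ≤ t) {H : ℂ → ℝ → ℝ}
    (hH : Measurable (Function.uncurry H)) :
    Measurable (fun z => ∫ u in s..t, St H W z u) := by
  have h1 : (fun z => ∫ u in s..t, St H W z u)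
      = fun z => ∫ u in Ioc s t, if 0 ≤ u then St H W z u else 0 := by
    funext z
    rw [intervalIntegral.integral_of_le hst]
    refine setIntegral_congr_fun measurableSet_Ioc fun u hu => ?_
    exact (if_pos (hs.trans hu.1.le)).symm
  rw [h1]
  have h2 : StronglyMeasurable (Function.uncurry fun (z : ℂ) (u : ℝ) =>
      if 0 ≤ u then St H W z u else 0) :=
    ((St_measurable hW hH).comp measurable_swap).stronglyMeasurable
  exact h2.integral_prod_right.measurable

lemma SmallCont_yc_zero (hs : 0 ≤ s) (hst : s ≤ t) {H : ℂ → ℝ → ℝ} (hz : ¬ 0 < z.im) :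
    ∫ u in s..t, St H W z u = 0 := by
  have h : ∫ u in s..t, St H W z u = ∫ u in s..t, (0 : ℝ) := by
    refine intervalIntegral.integral_congr fun u hu => ?_
    rw [uIcc_of_le hst] at hu
    exact St_of_not_mem fun h => hz (im_pos_of_dom (hs.trans hu.1) h)
  rw [h]
  simp

/-- Integrability in the point. -/
lemma SmallCont_iD (h0 : 0 < κ) (h8 : κ < 8) (hε : 0 < ε) (hW : Continuous W) {D : Set ℂ}
    (hD : MeasurableSet D) (hDv : volume D ≠ ⊤) (hs : 0 ≤ s) (hst : s ≤ t) {H : ℂ → ℝ → ℝ}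
    (hH : Measurable (Function.uncurry H))
    (hb : ∀ z u, 0 ≤ u → 0 ≤ St H W z u ∧ St H W z u ≤ St (aR κ ε) W z u) :
    IntegrableOn (fun z => ∫ u in s..t, St H W z u) D := by
  refine Integrable.mono' (g := fun _ => ε ^ (-xx κ)) (integrableOn_const hDv)
    (SmallCont_meas hW hs hst hH).aestronglyMeasurable ?_
  refine Eventually.of_forall fun z => ?_
  have hnn : 0 ≤ ∫ u in s..t, St H W z u :=
    intervalIntegral.integral_nonneg hst fun u hu => (hb z u (hs.trans hu.1)).1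
  rw [Real.norm_of_nonneg hnn]
  by_cases hz : 0 < z.im
  · refine le_trans ?_ (yc_le h0 h8 hε hW hz hs hst)
    exact intervalIntegral.integral_mono_on hst (SmallCont_ii h0 h8 hε hW hs hst hH hb z)
      (yc_integrable h0 h8 hε hW hz hs hst) fun u hu => (hb z u (hs.trans hu.1)).2
  · rw [SmallCont_yc_zero hs hst hz]
    positivity

end SmallContAux

theorem mu_eq_muge_add {κ ε dl : ℝ} (h0 : 0 < κ) (h8 : κ < 8) (hε : 0 < ε) {W : ℝ → ℝ}
    (hW : Continuous W) {D : Set ℂ} (hD : MeasurableSet D) (hDv : volume D ≠ ⊤) {s t : ℝ}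
    (hs : 0 ≤ s) (hst : s ≤ t) :
    mu κ ε W D s t = muge κ ε dl W D s t + mult κ ε dl W D s t ∧
      0 ≤ muge κ ε dl W D s t ∧ 0 ≤ mult κ ε dl W D s t := by
  have hge : ∀ z u, 0 ≤ u → 0 ≤ St (SmallCont_aGe κ ε dl) W z u ∧
      St (SmallCont_aGe κ ε dl) W z u ≤ St (aR κ ε) W z u := fun z u hu => SmallCont_aGe_bd hu
  have hlt : ∀ z u, 0 ≤ u → 0 ≤ St (SmallCont_aLt κ ε dl) W z u ∧
      St (SmallCont_aLt κ ε dl) W z u ≤ St (aR κ ε) W z u := fun z u hu => SmallCont_aLt_bd hu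
  have mge := SmallCont_aGe_meas κ ε dl
  have mlt := SmallCont_aLt_meas κ ε dl
  refine ⟨?_, ?_, ?_⟩
  · change ∫ z in D, ∫ u in s..t, St (aR κ ε) W z u =
      (∫ z in D, ∫ u in s..t, St (SmallCont_aGe κ ε dl) W z u) +
        ∫ z in D, ∫ u in s..t, St (SmallCont_aLt κ ε dl) W z u
    rw [← integral_add (SmallCont_iD h0 h8 hε hW hD hDv hs hst mge hge)
      (SmallCont_iD h0 h8 hε hW hD hDv hs hst mlt hlt)]
    refine integral_congr_ae (Eventually.of_forall fun z => ?_)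
    simp only
    rw [← intervalIntegral.integral_add (SmallCont_ii h0 h8 hε hW hs hst mge hge z)
      (SmallCont_ii h0 h8 hε hW hs hst mlt hlt z)]
    exact intervalIntegral.integral_congr fun u _ => SmallCont_split u
  · exact integral_nonneg fun z => intervalIntegral.integral_nonneg hst
      fun u hu => (hge z u (hs.trans hu.1)).1
  · exact integral_nonneg fun z => intervalIntegral.integral_nonneg hst
      fun u hu => (hlt z u (hs.trans hu.1)).1

/-- (SA). Tonelli and `small_one`. -/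
theorem small_cont {κ : ℝ} (h0 : 0 < κ) (h8 : κ < 8) : ∃ C : ℝ, 0 < C ∧
    ∀ {Ω : Type*} [MeasurableSpace Ω] {P : Measure Ω} {W : ℝ → Ω → ℝ} (_ : IsDrv κ P W)
      {z₀ : ℂ} {ρ ε dl t₀ T : ℝ} (_ : 0 < ρ) (_ : 0 < ε) (_ : 0 ≤ dl) (_ : 0 ≤ t₀) (_ : t₀ ≤ T)
      {A : Set Ω} (_ : MeasurableSet[past W t₀] A)
      (_ : ∀ ω ∈ A, ∀ z ∈ ball z₀ ρ, z ∈ loewnerDomain (fun u => W u ω) t₀ ∧
        Real.log (ρ / 4) ≤ Uf (fun u => W u ω) z t₀),
      ∫⁻ ω in A, ENNReal.ofReal (mult κ ε dl (fun u => W u ω) (ball z₀ ρ) t₀ T) ∂P ≤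
        ENNReal.ofReal (C * dl ^ 2 * ρ ^ dd κ) * P A := by
  obtain ⟨C, hC, H⟩ := small_one h0 h8
  refine ⟨C * Real.pi, by positivity, ?_⟩
  intro Ω _ P W hW z₀ ρ ε dl t₀ T hρ hε hdl ht₀ hT A hA hbd
  have hP := hW.prob
  have hAm : MeasurableSet A := hW.past_le _ hA
  have hDv : volume (ball z₀ ρ) ≠ ⊤ := measure_ball_lt_top.ne
  have mlt := SmallCont_aLt_meas κ ε dl
  have hlt : ∀ ω z u, 0 ≤ u → 0 ≤ St (SmallCont_aLt κ ε dl) (fun u => W u ω) z u ∧
      St (SmallCont_aLt κ ε dl) (fun u => W u ω) z u ≤ St (aR κ ε) (fun u => W u ω) z u :=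
    fun ω z u hu => SmallCont_aLt_bd hu
  -- the triple integrand
  set F : Ω → ℂ → ENNReal := fun ω z => ∫⁻ u in Ioc t₀ T,
    ENNReal.ofReal (St (SmallCont_aLt κ ε dl) (fun u => W u ω) z u) with hF
  have e1 : ∀ ω, ENNReal.ofReal (mult κ ε dl (fun u => W u ω) (ball z₀ ρ) t₀ T)
      = ∫⁻ z in ball z₀ ρ, F ω z := by
    intro ω
    have e2 : mult κ ε dl (fun u => W u ω) (ball z₀ ρ) t₀ T
        = ∫ z in ball z₀ ρ, ∫ u in t₀..T, St (SmallCont_aLt κ ε dl) (fun u => W u ω) z u := rfl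
    rw [e2, ofReal_integral_eq_lintegral_ofReal
      (SmallCont_iD h0 h8 hε (hW.cont ω) measurableSet_ball hDv ht₀ hT mlt (hlt ω))
      (Eventually.of_forall fun z => intervalIntegral.integral_nonneg hT
        fun u hu => (hlt ω z u (ht₀.trans hu.1)).1)]
    refine lintegral_congr fun z => ?_
    rw [intervalIntegral.integral_of_le hT, ofReal_integral_eq_lintegral_ofReal]
    · exact (intervalIntegrable_iff_integrableOn_Ioc_of_le hT).1
        (SmallCont_ii h0 h8 hε (hW.cont ω) ht₀ hT mlt (hlt ω) z)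
    · filter_upwards [ae_restrict_mem measurableSet_Ioc] with u hu
      exact (hlt ω z u (ht₀.trans hu.1.le)).1
  have hFm : Measurable (Function.uncurry F) := by
    have h1 := adapt_joint (T := T) (fun ω => hW.cont ω) (fun s _ => hW.meas s) mlt
    have h2 : Measurable (fun q : (Ω × ℂ) × ℝ => ENNReal.ofReal
        (if 0 ≤ q.2 ∧ q.2 ≤ T then St (SmallCont_aLt κ ε dl) (fun u => W u q.1.1) q.1.2 q.2
          else 0)) :=
      (h1.comp ((measurable_snd.prodMk (measurable_snd.comp measurable_fst)).prodMk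
        (measurable_fst.comp measurable_fst) : Measurable
          (fun q : (Ω × ℂ) × ℝ => (((q.2, q.1.2) : ℝ × ℂ), q.1.1)))).ennreal_ofReal
    have h3 := h2.lintegral_prod_right' (ν := volume.restrict (Ioc t₀ T))
    have e3 : Function.uncurry F = fun p : Ω × ℂ => ∫⁻ u in Ioc t₀ T, ENNReal.ofReal
        (if 0 ≤ u ∧ u ≤ T then St (SmallCont_aLt κ ε dl) (fun u => W u p.1) p.2 u else 0) := by
      funext p
      refine setLIntegral_congr_fun measurableSet_Ioc fun u hu => ?_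
      rw [if_pos ⟨ht₀.trans hu.1.le, hu.2⟩]
    rw [e3]
    exact h3
  calc ∫⁻ ω in A, ENNReal.ofReal (mult κ ε dl (fun u => W u ω) (ball z₀ ρ) t₀ T) ∂P
      = ∫⁻ ω in A, (∫⁻ z in ball z₀ ρ, F ω z) ∂P := lintegral_congr fun ω => e1 ω
    _ = ∫⁻ z in ball z₀ ρ, (∫⁻ ω in A, F ω z ∂P) :=
        lintegral_lintegral_swap hFm.aemeasurable
    _ ≤ ∫⁻ z in ball z₀ ρ, ENNReal.ofReal (C * dl ^ 2 * ρ ^ (-xx κ)) * P A := by
        refine setLIntegral_mono' measurableSet_ball fun z hz => ?_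
        exact H hW hρ hε hdl ht₀ hT hA (fun ω hω => hbd ω hω z hz)
    _ = ENNReal.ofReal (C * Real.pi * dl ^ 2 * ρ ^ dd κ) * P A := by
        rw [setLIntegral_const, Complex.volume_ball]
        have e4 : ρ ^ dd κ = ρ ^ (-xx κ) * ρ ^ 2 := by
          rw [← Real.rpow_two, ← Real.rpow_add hρ]
          congr 1
          unfold dd xx
          ring
        have e5 : (NNReal.pi : ENNReal) = ENNReal.ofReal Real.pi := by
          rw [ENNReal.ofReal_eq_coe_nnreal Real.pi_pos.le]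
          rfl
        have e6 : ENNReal.ofReal ρ ^ 2 = ENNReal.ofReal (ρ ^ 2) :=
          (ENNReal.ofReal_pow hρ.le 2).symm
        have hx : 0 ≤ C * dl ^ 2 * ρ ^ (-xx κ) := by (clear * - hC hρ; positivity)
        have e7 : C * Real.pi * dl ^ 2 * ρ ^ dd κ
            = (C * dl ^ 2 * ρ ^ (-xx κ)) * (ρ ^ 2 * Real.pi) := by
          rw [e4]; ring
        have e8 : ENNReal.ofReal (ρ ^ 2 * Real.pi)
            = ENNReal.ofReal (ρ ^ 2) * ENNReal.ofReal Real.pi :=
          ENNReal.ofReal_mul (by positivity)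
        rw [e5, e6, e7, ENNReal.ofReal_mul hx, e8]
        ring

end Vale.Agent.P164
end

section

/-!
# The function `(|Z| + 2 Y)^{1/4}` of the state: regularity and generator
-/

namespace Vale.Agent.P164.E8

open Set Metric Filter Topology MeasureTheory ProbabilityTheory
open scoped NNReal ENNReal

/-- The base `|Z| + 2 Y`. -/
noncomputable def DecayAux_R (Z : ℂ) : ℝ := ‖Z‖ + 2 * Z.im

/-- The power. -/
noncomputable def DecayAux_h (Z : ℂ) : ℝ := DecayAux_R Z ^ (1 / 4 : ℝ)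

lemma DecayAux_R_pos {Z : ℂ} (h : 0 < Z.im) : 0 < DecayAux_R Z := by
  have := norm_pos_of_im h
  unfold DecayAux_R
  positivity

lemma DecayAux_h_pos {Z : ℂ} (h : 0 < Z.im) : 0 < DecayAux_h Z :=
  Real.rpow_pos_of_pos (DecayAux_R_pos h) _

lemma DecayAux_h_pow8 {Z : ℂ} (h : 0 < Z.im) : DecayAux_h Z ^ 8 = DecayAux_R Z ^ 2 := by
  unfold DecayAux_h
  rw [← Real.rpow_natCast, ← Real.rpow_mul (DecayAux_R_pos h).le, ← Real.rpow_natCast]
  norm_num

lemma DecayAux_norm_mk (x y : ℝ) : ‖(⟨x, y⟩ : ℂ)‖ = Real.sqrt (x ^ 2 + y ^ 2) := by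
  rw [← normsq_eq ⟨x, y⟩, Real.sqrt_sq (norm_nonneg _)]

lemma DecayAux_norm_dX {Z : ℂ} (h : 0 < Z.im) :
    HasDerivAt (fun x : ℝ => ‖(⟨x, Z.im⟩ : ℂ)‖) (Z.re / ‖Z‖) Z.re := by
  have h0 : 0 < Z.re ^ 2 + Z.im ^ 2 := by positivity
  have h1 : HasDerivAt (fun x : ℝ => x ^ 2 + Z.im ^ 2) (2 * Z.re) Z.re := by
    simpa only [hasDerivAt_add_const_iff, Nat.cast_ofNat, Nat.add_one_sub_one, pow_one] using     (hasDerivAt_pow 2 Z.re).add_const (Z.im ^ 2)
  have h2 := h1.sqrt h0.ne'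
  simp only [DecayAux_norm_mk]
  refine h2.congr_deriv ?_
  rw [← DecayAux_norm_mk Z.re Z.im]
  have h3 := norm_pos_of_im h
  have h4 : (⟨Z.re, Z.im⟩ : ℂ) = Z := rfl
  rw [h4]
  field_simp

lemma DecayAux_norm_dY {Z : ℂ} (h : 0 < Z.im) :
    HasDerivAt (fun y : ℝ => ‖(⟨Z.re, y⟩ : ℂ)‖) (Z.im / ‖Z‖) Z.im := by
  have h0 : 0 < Z.re ^ 2 + Z.im ^ 2 := by positivity
  have h1 : HasDerivAt (fun y : ℝ => Z.re ^ 2 + y ^ 2) (2 * Z.im) Z.im := by
    simpa only [hasDerivAt_const_add_iff, Nat.cast_ofNat, Nat.add_one_sub_one, pow_one] using     (hasDerivAt_pow 2 Z.im).const_add (Z.re ^ 2)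
  have h2 := h1.sqrt h0.ne'
  simp only [DecayAux_norm_mk]
  refine h2.congr_deriv ?_
  rw [← DecayAux_norm_mk Z.re Z.im]
  have h3 := norm_pos_of_im h
  have h4 : (⟨Z.re, Z.im⟩ : ℂ) = Z := rfl
  rw [h4]
  (clear * - h3 h; field_simp)

lemma DecayAux_h_dX {Z : ℂ} (h : 0 < Z.im) :
    HasDerivAt (fun x : ℝ => DecayAux_h ⟨x, Z.im⟩)
      (1 / 4 * (DecayAux_h Z / DecayAux_R Z) * (Z.re / ‖Z‖)) Z.re := by
  have h1 : HasDerivAt (fun x : ℝ => DecayAux_R ⟨x, Z.im⟩) (Z.re / ‖Z‖) Z.re :=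
    (DecayAux_norm_dX h).add_const (2 * Z.im)
  have hR := DecayAux_R_pos h
  have h2 := h1.rpow_const (p := (1 / 4 : ℝ)) (Or.inl hR.ne')
  refine h2.congr_deriv ?_
  have h3 : (⟨Z.re, Z.im⟩ : ℂ) = Z := rfl
  simp only [h3]
  rw [Real.rpow_sub_one hR.ne', DecayAux_h]
  ring

lemma DecayAux_h_dY {Z : ℂ} (h : 0 < Z.im) :
    HasDerivAt (fun y : ℝ => DecayAux_h ⟨Z.re, y⟩)
      (1 / 4 * (DecayAux_h Z / DecayAux_R Z) * (Z.im / ‖Z‖ + 2)) Z.im := by
  have h1 : HasDerivAt (fun y : ℝ => DecayAux_R ⟨Z.re, y⟩) (Z.im / ‖Z‖ + 2) Z.im := by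
    have h0 := (DecayAux_norm_dY h).add ((hasDerivAt_id Z.im).const_mul 2)
    rw [mul_one] at h0
    exact h0
  have hR := DecayAux_R_pos h
  have h2 := h1.rpow_const (p := (1 / 4 : ℝ)) (Or.inl hR.ne')
  refine h2.congr_deriv ?_
  have h3 : (⟨Z.re, Z.im⟩ : ℂ) = Z := rfl
  simp only [h3]
  rw [Real.rpow_sub_one hR.ne', DecayAux_h]
  ring

lemma DecayAux_h_dXX {Z : ℂ} (h : 0 < Z.im) :
    HasDerivAt (fun x : ℝ => 1 / 4 * (DecayAux_h ⟨x, Z.im⟩ / DecayAux_R ⟨x, Z.im⟩) *
        ((⟨x, Z.im⟩ : ℂ).re / ‖(⟨x, Z.im⟩ : ℂ)‖))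
      (1 / 4 * DecayAux_h Z * (-(3 / 4) * Z.re ^ 2 / (DecayAux_R Z ^ 2 * ‖Z‖ ^ 2) +
        Z.im ^ 2 / (DecayAux_R Z * ‖Z‖ ^ 3))) Z.re := by
  have hR := DecayAux_R_pos h
  have hN := norm_pos_of_im h
  have h1 : HasDerivAt (fun x : ℝ => DecayAux_R ⟨x, Z.im⟩) (Z.re / ‖Z‖) Z.re :=
    (DecayAux_norm_dX h).add_const (2 * Z.im)
  have h2 := (((DecayAux_h_dX h).div h1 hR.ne').const_mul (1 / 4)).mul
    ((hasDerivAt_id Z.re).div (DecayAux_norm_dX h) hN.ne')
  refine h2.congr_deriv ?_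
  have h3 : (⟨Z.re, Z.im⟩ : ℂ) = Z := rfl
  have h4 : Z.im ^ 2 = ‖Z‖ ^ 2 - Z.re ^ 2 := by rw [normsq_eq]; ring
  simp only [h3, id, Pi.div_apply]
  rw [h4]
  field_simp
  ring

lemma DecayAux_R_cont : Continuous DecayAux_R := by
  unfold DecayAux_R
  (clear * -; fun_prop)

lemma DecayAux_h_contOn : ContinuousOn DecayAux_h {Z : ℂ | 0 < Z.im} := fun _Z hZ =>
  (DecayAux_R_cont.continuousAt.rpow_const (Or.inl (DecayAux_R_pos hZ).ne')).continuousWithinAt

/-- `hD` as a regular function of the state. -/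
lemma DecayAux_reg_h : Reg (fun Z _ => DecayAux_h Z)
    (fun Z _ => 1 / 4 * (DecayAux_h Z / DecayAux_R Z) * (Z.re / ‖Z‖))
    (fun Z _ => 1 / 4 * DecayAux_h Z * (-(3 / 4) * Z.re ^ 2 / (DecayAux_R Z ^ 2 * ‖Z‖ ^ 2) +
        Z.im ^ 2 / (DecayAux_R Z * ‖Z‖ ^ 3)))
    (fun Z _ => 1 / 4 * (DecayAux_h Z / DecayAux_R Z) * (Z.im / ‖Z‖ + 2))
    (fun _ _ => 0) := by
  have cR : ContinuousOn DecayAux_R {Z : ℂ | 0 < Z.im} := DecayAux_R_cont.continuousOn
  have hR0 : ∀ Z ∈ {Z : ℂ | 0 < Z.im}, DecayAux_R Z ≠ 0 := fun Z hZ => (DecayAux_R_pos hZ).ne'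
  have hN0 : ∀ Z ∈ {Z : ℂ | 0 < Z.im}, ‖Z‖ ≠ 0 := fun Z hZ => (norm_pos_of_im hZ).ne'
  have cN : ContinuousOn (fun Z : ℂ => ‖Z‖) {Z : ℂ | 0 < Z.im} := continuous_norm.continuousOn
  have cre : ContinuousOn (fun Z : ℂ => Z.re) {Z : ℂ | 0 < Z.im} :=
    Complex.continuous_re.continuousOn
  have cim : ContinuousOn (fun Z : ℂ => Z.im) {Z : ℂ | 0 < Z.im} :=
    Complex.continuous_im.continuousOn
  have lift : ∀ {f : ℂ → ℝ}, ContinuousOn f {Z : ℂ | 0 < Z.im} →
      ContinuousOn (Function.uncurry fun (Z : ℂ) (_ : ℝ) => f Z)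
        ({Z : ℂ | 0 < Z.im} ×ˢ univ) := fun hf =>
    hf.comp continuousOn_fst fun x hx => hx.1
  refine ⟨fun Z U hZ => DecayAux_h_dX hZ, fun Z U hZ => DecayAux_h_dXX hZ,
    fun Z U hZ => DecayAux_h_dY hZ, fun Z U hZ => hasDerivAt_const _ _,
    lift DecayAux_h_contOn, lift ?_, lift ?_, lift ?_, continuousOn_const⟩
  · exact (continuousOn_const.mul (DecayAux_h_contOn.div cR hR0)).mul (cre.div cN hN0)
  · exact (continuousOn_const.mul DecayAux_h_contOn).mul
      (((continuousOn_const.mul (cre.pow 2)).div ((cR.pow 2).mul (cN.pow 2))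
        fun Z hZ => mul_ne_zero (pow_ne_zero 2 (hR0 Z hZ)) (pow_ne_zero 2 (hN0 Z hZ))).add
      ((cim.pow 2).div (cR.mul (cN.pow 3))
        fun Z hZ => mul_ne_zero (hR0 Z hZ) (pow_ne_zero 3 (hN0 Z hZ))))
  · exact (continuousOn_const.mul (DecayAux_h_contOn.div cR hR0)).mul
      ((cim.div cN hN0).add continuousOn_const)

/-- Product of regular functions. -/
lemma DecayAux_reg_mul {F FX FXX FY FU G GX GXX GY GU : ℂ → ℝ → ℝ} (h : Reg F FX FXX FY FU)
    (h' : Reg G GX GXX GY GU) :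
    Reg (fun Z U => F Z U * G Z U) (fun Z U => FX Z U * G Z U + F Z U * GX Z U)
      (fun Z U => (FXX Z U * G Z U + FX Z U * GX Z U) + (FX Z U * GX Z U + F Z U * GXX Z U))
      (fun Z U => FY Z U * G Z U + F Z U * GY Z U)
      (fun Z U => FU Z U * G Z U + F Z U * GU Z U) :=
  ⟨fun Z U hZ => (h.dX Z U hZ).mul (h'.dX Z U hZ),
    fun Z U hZ => ((h.dXX Z U hZ).mul (h'.dX Z U hZ)).add ((h.dX Z U hZ).mul (h'.dXX Z U hZ)),
    fun Z U hZ => (h.dY Z U hZ).mul (h'.dY Z U hZ), fun Z U hZ => (h.dU Z U hZ).mul (h'.dU Z U hZ),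
    h.cF.mul h'.cF, (h.cX.mul h'.cF).add (h.cF.mul h'.cX),
    ((h.cXX.mul h'.cF).add (h.cX.mul h'.cX)).add ((h.cX.mul h'.cX).add (h.cF.mul h'.cXX)),
    (h.cY.mul h'.cF).add (h.cF.mul h'.cY), (h.cU.mul h'.cF).add (h.cF.mul h'.cU)⟩

/-- Regularity only depends on the upper half-plane. -/
lemma DecayAux_reg_congr {F F' FX FXX FY FU : ℂ → ℝ → ℝ} (h : Reg F FX FXX FY FU)
    (e : ∀ Z U, 0 < Z.im → F' Z U = F Z U) : Reg F' FX FXX FY FU := by
  refine ⟨fun Z U hZ => ?_, h.dXX, fun Z U hZ => ?_, fun Z U hZ => ?_, ?_, h.cX, h.cXX, h.cY, h.cU⟩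
  · have : (fun x : ℝ => F' ⟨x, Z.im⟩ U) = fun x : ℝ => F ⟨x, Z.im⟩ U :=
      funext fun x => e ⟨x, Z.im⟩ U hZ
    rw [this]
    exact h.dX Z U hZ
  · refine (h.dY Z U hZ).congr_of_eventuallyEq ?_
    filter_upwards [lt_mem_nhds hZ] with y hy
    exact e ⟨Z.re, y⟩ U hy
  · have : (fun u : ℝ => F' Z u) = fun u : ℝ => F Z u := funext fun u => e Z u hZ
    rw [this]
    exact h.dU Z U hZ
  · refine h.cF.congr fun x hx => ?_
    exact e x.1 x.2 hx.1

/-- The generator of the product of the Green function and the power. -/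
lemma DecayAux_gen {κ : ℝ} (h0 : 0 < κ) (c H h X Y N R : ℝ) (hX : X ^ 2 = N ^ 2 - Y ^ 2) (hN : 0 < N) (hY : 0 < Y) (hR : R = N + 2 * Y) :
    κ / 2 * ((c * ((be κ * (be κ + 2) * (X / N ^ 2) ^ 2 - be κ / N ^ 2) * H) * h +
        c * (-(be κ * (X / N ^ 2)) * H) * (1 / 4 * (h / R) * (X / N))) +
        (c * (-(be κ * (X / N ^ 2)) * H) * (1 / 4 * (h / R) * (X / N)) +
        c * H * (1 / 4 * h * (-(3 / 4) * X ^ 2 / (R ^ 2 * N ^ 2) + Y ^ 2 / (R * N ^ 3))))) +
      2 * X / N ^ 2 * (c * (-(be κ * (X / N ^ 2)) * H) * h +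
        c * H * (1 / 4 * (h / R) * (X / N))) -
      2 * Y / N ^ 2 * (c * ((be κ / Y - be κ * (Y / N ^ 2)) * H) * h +
        c * H * (1 / 4 * (h / R) * (Y / N + 2))) -
      4 * (Y / N) ^ 2 / N ^ 2 * (-xx κ * c * H * h) =
    c * H * h / (4 * R ^ 2) * ((1 + 2 * (Y / N)) * ((κ / 2 - 2) * (Y / N) ^ 2 +
      (κ - 6) * (1 - (Y / N) ^ 2) - 4 * (Y / N)) - 3 * κ / 8 * (1 - (Y / N) ^ 2)) := by
  have hR0 : 0 < R := by rw [hR]; (clear * - hN hY; positivity)
  unfold be xx
  field_simp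
  rw [hX]
  subst hR
  ring

end Vale.Agent.P164.E8
end

section

/-!
# One-point estimate for `0 < κ < 8`
-/

namespace Vale.Agent.P164.E8

open Set Metric Filter Topology MeasureTheory ProbabilityTheory
open scoped NNReal ENNReal

/-- The exponent `p = min(1, β/2)`. -/
noncomputable def pa (κ : ℝ) : ℝ := min 1 (be κ / 2)

lemma Approach_be_pos {κ : ℝ} (h0 : 0 < κ) (h8 : κ < 8) : 0 < be κ := by
  unfold be
  have : 1 < 8 / κ := by rw [lt_div_iff₀ h0]; linarith
  linarith only [this]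

lemma Approach_pa_pos {κ : ℝ} (h0 : 0 < κ) (h8 : κ < 8) : 0 < pa κ := by
  have := Approach_be_pos h0 h8
  exact lt_min one_pos (by linarith)

lemma Approach_pa_le (κ : ℝ) : pa κ ≤ 1 := min_le_left _ _

lemma Approach_pa_lt {κ : ℝ} (h0 : 0 < κ) (h8 : κ < 8) : pa κ < be κ := by
  have h1 := Approach_be_pos h0 h8
  have h2 : pa κ ≤ be κ / 2 := min_le_right _ _
  linarith

/-- The constant `m = (κ p / 2) (β - p)`. -/
noncomputable def Approach_m (κ : ℝ) : ℝ := κ * pa κ / 2 * (be κ - pa κ)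

lemma Approach_m_pos {κ : ℝ} (h0 : 0 < κ) (h8 : κ < 8) : 0 < Approach_m κ := by
  have h1 := Approach_pa_pos h0 h8
  have h2 := Approach_pa_lt h0 h8
  unfold Approach_m
  exact mul_pos (by positivity) (by linarith only [h2])

/-- The constant used below. -/
noncomputable def Approach_c (κ : ℝ) : ℝ := (Approach_m κ / 12) ^ (be κ + 2) / 3

lemma Approach_c_pos {κ : ℝ} (h0 : 0 < κ) (h8 : κ < 8) : 0 < Approach_c κ := by
  have := Approach_m_pos h0 h8
  unfold Approach_c
  positivity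

/-- The supermartingale used to control the approach to a point. -/
noncomputable def Approach_vF (κ y c : ℝ) (Z : ℂ) (U : ℝ) : ℝ :=
  Real.exp (-(y * U)) * hY (be κ) (be κ) Z + c * Real.exp (-(y * U)) +
    c * Real.exp (-(y * U)) * hY (pa κ) (pa κ) Z

/-- The elementary inequality behind the supermartingale property. -/
lemma Approach_aux {κ : ℝ} (h0 : 0 < κ) (h8 : κ < 8) {y σ q : ℝ} (hy1 : y ≤ 1)
    (hσ : 0 < σ) (hσ1 : σ ≤ 1) (hq : q = 1 - σ ^ 2) :
    -4 * (σ ^ be κ * σ ^ 2) + Approach_c κ * (4 * y * σ ^ 2 +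
      σ ^ pa κ * ((κ / 2 * pa κ * (pa κ + 2) - 4 * pa κ) * q - κ / 2 * pa κ
        + 4 * y * σ ^ 2)) ≤ 0 := by
  set m := Approach_m κ with hm
  set p := pa κ with hp
  have hm0 : 0 < m := Approach_m_pos h0 h8
  have hp0 : 0 < p := Approach_pa_pos h0 h8
  have hp1 : p ≤ 1 := Approach_pa_le κ
  have hc := Approach_c_pos h0 h8
  have hκβ : κ * be κ = 8 - κ := by
    unfold be
    (clear * - h0; field_simp)
  have hmeq : m = p * (8 - κ) / 2 - κ * p * p / 2 := by
    have h1 : m = κ * p / 2 * (be κ - p) := rfl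
    have h2 : κ * p / 2 * (be κ - p) = p * (κ * be κ) / 2 - κ * p * p / 2 := by ring
    rw [h1, h2, hκβ]
  have hσ2 : 0 < σ ^ 2 := by positivity
  have hA : -4 ≤ κ / 2 * p * (p + 2) - 4 * p := by
    have h1 : 0 ≤ κ / 2 * p * (p + 2) := by (clear * - h0 hp0; positivity)
    linarith only [hp1, h1]
  have h1 : (κ / 2 * p * (p + 2) - 4 * p) * q - κ / 2 * p + 4 * y * σ ^ 2 ≤ -m + 8 * σ ^ 2 := by
    have h2 : (κ / 2 * p * (p + 2) - 4 * p) * q - κ / 2 * p + 4 * y * σ ^ 2 =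
        -m + (4 * y - (κ / 2 * p * (p + 2) - 4 * p)) * σ ^ 2 := by
      rw [hq, hmeq]
      ring
    rw [h2]
    have h3 : 4 * y - (κ / 2 * p * (p + 2) - 4 * p) ≤ 8 := by linarith only [hy1, hA]
    have h4 := mul_le_mul_of_nonneg_right h3 hσ2.le
    linarith only [h4]
  have hsp : 0 < σ ^ p := Real.rpow_pos_of_pos hσ p
  have hsp1 : σ ^ p ≤ 1 := Real.rpow_le_one hσ.le hσ1 hp0.le
  have hps : σ ≤ σ ^ p := by
    have h2 := Real.rpow_le_rpow_of_exponent_ge hσ hσ1 hp1
    rwa [Real.rpow_one] at h2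
  have h2 : 4 * y * σ ^ 2 + σ ^ p * ((κ / 2 * p * (p + 2) - 4 * p) * q - κ / 2 * p
      + 4 * y * σ ^ 2) ≤ σ ^ p * (12 * σ - m) := by
    have h3 := mul_le_mul_of_nonneg_left h1 hsp.le
    have h4 : y * σ ^ 2 ≤ 1 * σ ^ 2 := mul_le_mul_of_nonneg_right hy1 hσ2.le
    have h5 : σ * σ ≤ σ ^ p * σ := mul_le_mul_of_nonneg_right hps hσ.le
    have h6 : σ ^ 2 ≤ σ := by
      rw [sq]
      exact mul_le_of_le_one_left hσ.le hσ1
    have h7 : σ ^ p * σ ^ 2 ≤ σ ^ p * σ := mul_le_mul_of_nonneg_left h6 hsp.le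
    have h8' : σ ^ 2 = σ * σ := sq σ
    linarith only [h3, h4, h5, h7]
  have hpos : 0 ≤ σ ^ be κ * σ ^ 2 := by positivity
  rcases le_or_gt σ (m / 12) with h | h
  · have h5 : σ ^ p * (12 * σ - m) ≤ 0 :=
      mul_nonpos_of_nonneg_of_nonpos hsp.le (by linarith only [h])
    have h6 := mul_nonpos_of_nonneg_of_nonpos hc.le (h2.trans h5)
    linarith only [hpos, h6]
  · have h5 : σ ^ p * (12 * σ - m) ≤ 12 := by
      have h6 : σ ^ p * (12 * σ - m) ≤ σ ^ p * 12 :=
        mul_le_mul_of_nonneg_left (by linarith only [hσ1, hm0]) hsp.le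
      linarith only [hsp1, h6]
    have h6 : (m / 12) ^ (be κ + 2) ≤ σ ^ be κ * σ ^ 2 := by
      have : σ ^ be κ * σ ^ 2 = σ ^ (be κ + 2) := by
        rw [Real.rpow_add hσ]
        norm_num
      rw [this]
      exact Real.rpow_le_rpow (by (clear * - hm0; positivity)) h.le (by have := Approach_be_pos h0 h8; linarith only [this])
    have h7 := mul_le_mul_of_nonneg_left (h2.trans h5) hc.le
    have h9 : Approach_c κ * 12 = 4 * (m / 12) ^ (be κ + 2) := by
      unfold Approach_c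
      rw [← hm]
      ring
    linarith only [h6, h7, h9]

section Supermartingale

variable {Ω : Type*} [MeasurableSpace Ω] {P : Measure Ω} {W : ℝ → Ω → ℝ}

/-- Supermartingale property. -/
lemma Approach_super {κ : ℝ} (h0 : 0 < κ) (h8 : κ < 8) {e : ℝ} (he : 0 < e)
    (hW : IsDrv κ P W) (z : ℂ) {s t : ℝ} (hs : 0 ≤ s) (hst : s ≤ t) {A : Set Ω}
    (hA : MeasurableSet[past W s] A) :
    ∫⁻ ω in A, ENNReal.ofReal
        (St (Approach_vF κ (xx κ - e) (Approach_c κ * e)) (fun u => W u ω) z t) ∂P ≤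
      ∫⁻ ω in A, ENNReal.ofReal
        (St (Approach_vF κ (xx κ - e) (Approach_c κ * e)) (fun u => W u ω) z s) ∂P := by
  set y := xx κ - e with hy
  have hy1 : y ≤ 1 := by rw [hy, xx]; linarith
  have hc := Approach_c_pos h0 h8
  have d1 : ∀ U : ℝ, HasDerivAt (fun U : ℝ => Real.exp (-(y * U)))
      (-(y * Real.exp (-(y * U)))) U := by
    intro U
    have := (((hasDerivAt_id U).const_mul y).neg).exp
    refine this.congr_deriv ?_
    simp only [id_eq, Pi.neg_apply, mul_one, mul_neg, neg_inj]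
    ring
  have d2 : ∀ U : ℝ, HasDerivAt (fun U : ℝ => Approach_c κ * e * Real.exp (-(y * U)))
      (Approach_c κ * e * (-(y * Real.exp (-(y * U))))) U := fun U => (d1 U).const_mul _
  have c1 : Continuous fun U : ℝ => -(y * Real.exp (-(y * U))) := by fun_prop
  have c2 : Continuous fun U : ℝ => Approach_c κ * e * (-(y * Real.exp (-(y * U)))) := by
    fun_prop
  have hr := ((reg_pow d1 c1 (be κ) (be κ)).add (reg_U d2 c2)).add
    (reg_pow d2 c2 (pa κ) (pa κ))
  have key := T_thm h0 hr (a := fun _ _ => 0) continuousOn_const ?_ (fun _ _ _ => le_rfl) ?_ hW z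
    hs hst hA
  · refine le_trans (le_of_eq ?_) key
    have hB : MeasurableSet {ω | z ∈ loewnerDomain (fun u => W u ω) t} :=
      hW.past_le _ (alive_past hW.cont hW.meas (hs.trans hst) z)
    rw [← lintegral_inter_add_sdiff _ A hB]
    have hA' : MeasurableSet A := hW.past_le _ hA
    have h1 : ∫⁻ ω in A \ {ω | z ∈ loewnerDomain (fun u => W u ω) t},
        ENNReal.ofReal
          (St (Approach_vF κ y (Approach_c κ * e)) (fun u => W u ω) z t) ∂P = 0 := by
      refine setLIntegral_eq_zero (hA'.diff hB) fun ω hω => ?_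
      have h2 : z ∉ loewnerDomain (fun u => W u ω) t := hω.2
      simp only [Pi.zero_apply]
      rw [St_of_not_mem h2, ENNReal.ofReal_zero]
    rw [h1, add_zero]
    refine lintegral_congr fun ω => ?_
    have h3 : ∀ u : ℝ, St (fun _ _ => 0) (fun u => W u ω) z u = 0 := fun u => by
      unfold St
      split_ifs <;> rfl
    have h4' : (∫ u in s..t, St (fun _ _ => 0) (fun u => W u ω) z u) = 0 := by
      simp only [h3]
      simp
    rw [h4', add_zero]
    rfl
  · intro Z U hZ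
    have := hY_pos (be κ) (be κ) Z
    have := hY_pos (pa κ) (pa κ) Z
    positivity
  · intro Z U hZ
    rw [gen_add, gen_add, gen_pow _ _ _ _ _ hZ, gen_U, gen_pow _ _ _ _ _ hZ, hY_sn hZ, hY_sn hZ,
      add_zero]
    have hN := norm_pos_of_im hZ
    have hσ := sn_pos hZ
    have hσ1 := sn_le_one Z
    have hq : cs Z ^ 2 = 1 - sn Z ^ 2 := by
      have := sn_sq_add_cs_sq (norm_pos_iff.1 hN)
      linarith only [this]
    have hκβ : κ * be κ = 8 - κ := by
      unfold be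
      (clear * - h0; field_simp)
    have e1 : κ / 2 * be κ * (be κ + 2) - 4 * be κ = 4 - κ / 2 := by
      have : κ / 2 * be κ * (be κ + 2) - 4 * be κ =
        (κ * be κ) * be κ / 2 + κ * be κ - 4 * be κ := by ring
      rw [this, hκβ]
      have : (8 - κ) * be κ / 2 + (8 - κ) - 4 * be κ = (8 - κ) - κ * be κ / 2 := by ring
      rw [this, hκβ]
      ring
    have e2 : κ / 2 * be κ = 4 - κ / 2 := by linarith only [hκβ]
    have aux := Approach_aux h0 h8 hy1 hσ hσ1 hq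
    have e3 : sn Z ^ be κ / ‖Z‖ ^ 2 * (Real.exp (-(y * U)) *
        ((κ / 2 * be κ * (be κ + 2) - 4 * be κ) * cs Z ^ 2 - κ / 2 * be κ - 2 * be κ +
          2 * be κ) - 4 * sn Z ^ 2 * -(y * Real.exp (-(y * U)))) +
      -(4 * sn Z ^ 2 / ‖Z‖ ^ 2 * (Approach_c κ * e * -(y * Real.exp (-(y * U))))) +
      sn Z ^ pa κ / ‖Z‖ ^ 2 * (Approach_c κ * e * Real.exp (-(y * U)) *
        ((κ / 2 * pa κ * (pa κ + 2) - 4 * pa κ) * cs Z ^ 2 - κ / 2 * pa κ - 2 * pa κ +
          2 * pa κ) - 4 * sn Z ^ 2 * (Approach_c κ * e * -(y * Real.exp (-(y * U))))) =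
      e * Real.exp (-(y * U)) / ‖Z‖ ^ 2 *
        (-4 * (sn Z ^ be κ * sn Z ^ 2) + Approach_c κ * (4 * y * sn Z ^ 2 +
      sn Z ^ pa κ * ((κ / 2 * pa κ * (pa κ + 2) - 4 * pa κ) * cs Z ^ 2 - κ / 2 * pa κ
        + 4 * y * sn Z ^ 2))) := by
      rw [e1, e2, hq, hy, xx]
      field_simp
      ring
    rw [e3]
    apply mul_nonpos_of_nonneg_of_nonpos _ aux
    positivity

end Supermartingale

/-- Probability to approach a point, along any finite set of times. Proof: copy `G/Approach.lean`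
with `V = e^{-(x-e) U} [sn^β + c e (1 + sn^p)]`, `p = pa κ`, i.e.
`vF κ y c Z U = exp(-(y U)) hY β β Z + c exp(-(y U)) + c exp(-(y U)) hY p p Z`, `y = x - e`, with the
constant `c = σ₀^{β+2}/2` for a small `σ₀ ∈ (0,1)`. By `gen_pow` (RegPow) the generator of
`e^{-yU} sn^q` is `e^{-yU} sn^q/|Z|² {q((κ/2) q - 4 + κ) cs² - (κ/2) q + 4 y sn²}`
(check with `gen_pow`: `(κ/2·q(q+2) - 4q) cs² - (κ/2) q + 4 y sn²`). For `q = β`, `y = x - e`, since
`κβ = 8 - κ`, `4x = κβ/2`, it equals `-4 e sn² · e^{-yU} sn^β/|Z|²`. For `q = 0`: `4 y sn²`. For `q = p < β`: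
the coefficient at `sn = 0` is `κp²/2 + κp/2 - 4p = (κp/2)(p + 1 - 8/κ) = -(κp/2)(β - p) < 0`, so
`e^{-yU} sn^p/|Z|² {-(κp/2)(β-p) + sn²(…)}` with `|…| ≤` a constant `K(κ)` (`y ≤ 1`). Sum, divided by
`e · e^{-yU}/|Z|²`: `-4 σ^{β+2} + c [4 y σ² + σ^p (-(κp/2)(β-p) + K σ²)] ≤ 0`, `σ = sn`:
for `σ ≤ σ₀` the bracket is `≤ σ^p[4σ^{2-p} - (κp/2)(β-p) + Kσ²] ≤ 0` when `σ₀` is small
(`2 - p ≥ 1`); for `σ ≥ σ₀` it is `≤ 4 + K`, so choose `c = min(σ₀^{β+2}/2, 4σ₀^{β+2}/(4+K))`.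
The rest of the proof (maximal inequality along a finite set) is unchanged; take
`e = x / log(1/ε) ≤ x`, so `y = x - e ≥ 0` and `ε^{-e} = exp x`. For `β ≤ 1` note `sn^β ≤ 1` still, `V ≤ (1+2c) e^{-yU}` and
`V ≥ c e · e^{-yU}`. -/
theorem approach {κ : ℝ} (h0 : 0 < κ) (h8 : κ < 8) :
    ∃ C : ℝ, 0 < C ∧ ∀ {Ω : Type*} [MeasurableSpace Ω] {P : Measure Ω}
      {W : ℝ → Ω → ℝ} (_ : IsDrv κ P W) {z : ℂ} {t₀ ρ₀ ε : ℝ} (_ : 0 ≤ t₀) (_ : 0 < ρ₀)
      (_ : 0 < ε) (_ : ε ≤ Real.exp (-1)) {A : Set Ω} (_ : MeasurableSet[past W t₀] A)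
      (_ : ∀ ω ∈ A, z ∈ loewnerDomain (fun u => W u ω) t₀ ∧
        Real.log ρ₀ ≤ Uf (fun u => W u ω) z t₀) (S : Finset ℝ) (_ : ∀ t ∈ S, t₀ ≤ t),
      P (A ∩ {ω | ∃ t ∈ S, z ∈ loewnerDomain (fun u => W u ω) t ∧
          Uf (fun u => W u ω) z t ≤ Real.log (ε * ρ₀)}) ≤
        ENNReal.ofReal (C * Real.log (1 / ε) * ε ^ xx κ) * P A := by
  have hc := Approach_c_pos h0 h8
  have hx0 : 0 < xx κ := by unfold xx; linarith
  have hx1 : xx κ < 1 := by unfold xx; linarith only [h0]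
  refine ⟨(2 / (Approach_c κ * xx κ) + 2) * Real.exp 1, by positivity, ?_⟩
  intro Ω _ P W hW z t₀ ρ₀ ε ht₀ hρ₀ hε hε1 A hA hAU S hS
  set L := Real.log (1 / ε) with hL
  have hL1 : 1 ≤ L := by
    rw [hL, one_div, Real.log_inv]
    have := Real.log_le_log hε hε1
    rw [Real.log_exp] at this
    linarith only [this]
  have hlogε : Real.log ε = -L := by rw [hL, one_div, Real.log_inv]; ring
  set e := xx κ / (2 * L) with he
  have he0 : 0 < e := by (clear * - hx0 hL1; positivity)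
  have he1 : e ≤ xx κ / 2 := by
    rw [he]
    exact div_le_div_of_nonneg_left hx0.le two_pos (by linarith only [hL1])
  have heL : e * L = xx κ / 2 := by
    rw [he]
    (clear * - hL1 hx0; field_simp)
  set y := xx κ - e with hy
  have hy0 : 0 < y := by linarith only [he0, he1]
  set c := Approach_c κ * e with hcdef
  have hc0 : 0 < c := by (clear * - hc hx0 hL1; positivity)
  set V : ℝ → Ω → ℝ≥0∞ := fun t ω =>
    ENNReal.ofReal (St (Approach_vF κ y c) (fun u => W u ω) z t) with hV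
  set E : ℝ → Set Ω := fun t => {ω | z ∈ loewnerDomain (fun u => W u ω) t ∧
    Uf (fun u => W u ω) z t ≤ Real.log (ε * ρ₀)} with hE
  have hEm : ∀ t, t₀ ≤ t → MeasurableSet[past W t] (E t) := by
    intro t ht
    have h1 := Z_past hW.cont hW.meas (ht₀.trans ht) z (S := {x : ℂ × ℝ | x.2 ≤ Real.log (ε * ρ₀)})
      (measurableSet_le measurable_snd measurable_const)
    exact h1
  have hVs : ∀ s t, t₀ ≤ s → s ≤ t → ∀ A, MeasurableSet[past W s] A →
      ∫⁻ ω in A, V t ω ∂P ≤ ∫⁻ ω in A, V s ω ∂P := by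
    intro s t hs hst B hB
    exact Approach_super h0 h8 he0 hW z (ht₀.trans hs) hst hB
  have hlow : ∀ t, t₀ ≤ t → ∀ ω ∈ E t,
      ENNReal.ofReal (c * (ε * ρ₀) ^ (-y)) ≤ V t ω := by
    intro t ht ω hω
    apply ENNReal.ofReal_le_ofReal
    rw [St_of_mem hω.1, Approach_vF]
    have h1 := hY_pos (be κ) (be κ) (Zf (fun u => W u ω) z t)
    have h2 := hY_pos (pa κ) (pa κ) (Zf (fun u => W u ω) z t)
    have h3 : (ε * ρ₀) ^ (-y) ≤ Real.exp (-(y * Uf (fun u => W u ω) z t)) := by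
      rw [Real.rpow_def_of_pos (by (clear * - hε hρ₀; positivity))]
      apply Real.exp_le_exp.2
      have := mul_le_mul_of_nonneg_left hω.2 hy0.le
      linarith only [this]
    have h4' : c * (ε * ρ₀) ^ (-y) ≤ c * Real.exp (-(y * Uf (fun u => W u ω) z t)) :=
      mul_le_mul_of_nonneg_left h3 hc0.le
    have h5 : 0 ≤ Real.exp (-(y * Uf (fun u => W u ω) z t)) *
      hY (be κ) (be κ) (Zf (fun u => W u ω) z t) := by (clear * - h1; positivity)
    have h6 : 0 ≤ c * Real.exp (-(y * Uf (fun u => W u ω) z t)) *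
      hY (pa κ) (pa κ) (Zf (fun u => W u ω) z t) := by (clear * - hc hx0 hL1 h2; positivity)
    linarith only [h4', h5, h6]
  have hup : ∀ ω ∈ A, V t₀ ω ≤ ENNReal.ofReal ((1 + 2 * c) * ρ₀ ^ (-y)) := by
    intro ω hω
    obtain ⟨h1, h2⟩ := hAU ω hω
    apply ENNReal.ofReal_le_ofReal
    rw [St_of_mem h1, Approach_vF]
    have hZ := Zf_im_pos ht₀ h1
    rw [hY_sn hZ, hY_sn hZ]
    have h3 : Real.exp (-(y * Uf (fun u => W u ω) z t₀)) ≤ ρ₀ ^ (-y) := by
      rw [Real.rpow_def_of_pos hρ₀]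
      apply Real.exp_le_exp.2
      have := mul_le_mul_of_nonneg_left h2 hy0.le
      linarith only [this]
    have h5 := sn_pos hZ
    have h6 := sn_le_one (Zf (fun u => W u ω) z t₀)
    have h7 : sn (Zf (fun u => W u ω) z t₀) ^ be κ ≤ 1 :=
      Real.rpow_le_one h5.le h6 (by have := Approach_be_pos h0 h8; linarith only [this])
    have h8' : sn (Zf (fun u => W u ω) z t₀) ^ pa κ ≤ 1 :=
      Real.rpow_le_one h5.le h6 (Approach_pa_pos h0 h8).le
    have h9 := Real.exp_pos (-(y * Uf (fun u => W u ω) z t₀))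
    calc _ = Real.exp (-(y * Uf (fun u => W u ω) z t₀)) *
        (sn (Zf (fun u => W u ω) z t₀) ^ be κ + c + c * sn (Zf (fun u => W u ω) z t₀) ^ pa κ) := by
          ring
      _ ≤ Real.exp (-(y * Uf (fun u => W u ω) z t₀)) * (1 + 2 * c) := by
        apply mul_le_mul_of_nonneg_left _ h9.le
        linarith only [h7, mul_le_mul_of_nonneg_left h8' hc0.le]
      _ ≤ ρ₀ ^ (-y) * (1 + 2 * c) := mul_le_mul_of_nonneg_right h3 (by (clear * - hc hx0 hL1; positivity))
      _ = _ := by ring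
  obtain ⟨T, hT⟩ : ∃ T, t₀ ≤ T ∧ ∀ t ∈ S, t ≤ T := by
    obtain ⟨b, hb⟩ := S.bddAbove
    exact ⟨max b t₀, le_max_right _ _, fun t ht => (hb ht).trans (le_max_left _ _)⟩
  have key := maximal (V := V) (m := past W) (P := P) (fun _ _ h => past_mono h)
    (fun t => hW.past_le) hEm hVs hlow hA S hS T hT.1 hT.2
  have key2 : ENNReal.ofReal (c * (ε * ρ₀) ^ (-y)) * P (A ∩ {ω | ∃ t ∈ S, ω ∈ E t}) ≤
      ENNReal.ofReal ((1 + 2 * c) * ρ₀ ^ (-y)) * P A := by
    refine (le_self_add.trans key).trans ?_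
    rw [← setLIntegral_const]
    exact setLIntegral_mono' (hW.past_le _ hA) hup
  have hv : 0 < c * (ε * ρ₀) ^ (-y) := by (clear * - hc hx0 hL1 hε hρ₀; positivity)
  have hfin : (1 + 2 * c) * ρ₀ ^ (-y) = (c * (ε * ρ₀) ^ (-y)) *
      ((1 + 2 * c) / c * ε ^ y) := by
    rw [Real.mul_rpow hε.le hρ₀.le, Real.rpow_neg hε.le]
    have : ε ^ y ≠ 0 := (Real.rpow_pos_of_pos hε y).ne'
    (clear * - hc0 this hρ₀; field_simp)
  have hbd : (1 + 2 * c) / c * ε ^ y ≤
      (2 / (Approach_c κ * xx κ) + 2) * Real.exp 1 * L * ε ^ xx κ := by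
    have h1 : (1 + 2 * c) / c ≤ (2 / (Approach_c κ * xx κ) + 2) * L := by
      have : (1 + 2 * c) / c = 2 / (Approach_c κ * xx κ) * L + 2 := by
        rw [hcdef, he]
        (clear * - hL1 hx0 hc; field_simp)
      rw [this]
      linarith only [hL1]
    have h2 : ε ^ y ≤ Real.exp 1 * ε ^ xx κ := by
      rw [Real.rpow_def_of_pos hε, Real.rpow_def_of_pos hε, ← Real.exp_add, hlogε]
      apply Real.exp_le_exp.2
      rw [hy]
      linarith only [hx1, heL]
    calc (1 + 2 * c) / c * ε ^ y ≤ ((2 / (Approach_c κ * xx κ) + 2) * L) * (Real.exp 1 * ε ^ xx κ) := by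
          apply mul_le_mul h1 h2 (by positivity) (by (clear * - hc hx0 hL1; positivity))
      _ = _ := by ring
  rw [hfin, ENNReal.ofReal_mul hv.le, mul_assoc (ENNReal.ofReal _)] at key2
  have key3 : P (A ∩ {ω | ∃ t ∈ S, ω ∈ E t}) ≤
      ENNReal.ofReal ((1 + 2 * c) / c * ε ^ y) * P A := by
    have hv' : ENNReal.ofReal (c * (ε * ρ₀) ^ (-y)) ≠ 0 := by
      rw [Ne, ENNReal.ofReal_eq_zero, not_le]
      exact hv
    exact (ENNReal.mul_le_mul_iff_right hv' ENNReal.ofReal_ne_top).1 key2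
  refine key3.trans ?_
  (clear * - hbd; gcongr)

end Vale.Agent.P164.E8
end

section

/-!
# Restarting and rescaling the driving process
-/

namespace Vale.Agent.P164

open Set Metric Filter Topology MeasureTheory ProbabilityTheory
open scoped NNReal ENNReal

variable {Ω : Type*} [mΩ : MeasurableSpace Ω] {κ : ℝ} {P : Measure Ω} {W : ℝ → Ω → ℝ} {s t r : ℝ}

/-- The driving process restarted at time `s`. -/
def shiftP (s : ℝ) (W : ℝ → Ω → ℝ) : ℝ → Ω → ℝ := fun t ω => shiftW s (fun u => W u ω) t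

/-- The rescaled driving process. -/
noncomputable def scaleP (r : ℝ) (W : ℝ → Ω → ℝ) : ℝ → Ω → ℝ :=
  fun t ω => scaleW r (fun u => W u ω) t

/-- The past of the restarted process. Proof: for `u ∈ [0,t]` both `W (s+u)` and `W s` are
measurable with respect to `past W (s+t)` (`meas_past`). -/
theorem past_shiftP_le (hs : 0 ≤ s) : past (shiftP s W) t ≤ past W (s + t) := by
  refine iSup_le fun u => ?_
  have hu0 := u.2.1
  have hu1 := u.2.2
  have h1 : Measurable[past W (s + t)] (W (s + u)) :=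
    IsDrv.meas_past (by linarith) (by linarith only [hu1])
  have h2 : Measurable[past W (s + t)] (W s) := IsDrv.meas_past hs (by linarith)
  exact (h1.sub h2).comap_le

/-- The past of the rescaled process. -/
theorem past_scaleP_le (hr : 0 < r) : past (scaleP r W) t ≤ past W (r ^ 2 * t) := by
  refine iSup_le fun u => ?_
  have hu0 := u.2.1
  have hu1 := u.2.2
  have hr2 : 0 ≤ r ^ 2 := by positivity
  have h1 : Measurable[past W (r ^ 2 * t)] (W (r ^ 2 * u)) :=
    IsDrv.meas_past (mul_nonneg hr2 hu0) (mul_le_mul_of_nonneg_left hu1 hr2)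
  exact (h1.const_mul r⁻¹).comap_le

theorem DrvShift_fut_shiftP_le : fut (shiftP s W) t ≤ fut W (s + t) := by
  refine iSup_le fun v => ?_
  have hv : t ≤ (v : ℝ) := v.2
  have e : (fun ω => shiftP s W v ω - shiftP s W t ω) =
      fun ω => W (s + t + (v - t)) ω - W (s + t) ω := by
    funext ω
    have e2 : s + t + ((v : ℝ) - t) = s + v := by ring
    simp only [shiftP, shiftW, e2]
    ring
  rw [e]
  exact (IsDrv.meas_incr (by linarith only [hv])).comap_le

theorem DrvShift_fut_scaleP_le (hr : 0 < r) : fut (scaleP r W) t ≤ fut W (r ^ 2 * t) := by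
  refine iSup_le fun v => ?_
  have hv : t ≤ (v : ℝ) := v.2
  have hr2 : 0 ≤ r ^ 2 := by positivity
  have e : (fun ω => scaleP r W v ω - scaleP r W t ω) =
      fun ω => r⁻¹ * (W (r ^ 2 * t + (r ^ 2 * v - r ^ 2 * t)) ω - W (r ^ 2 * t) ω) := by
    funext ω
    have e2 : r ^ 2 * t + (r ^ 2 * (v : ℝ) - r ^ 2 * t) = r ^ 2 * v := by ring
    simp only [scaleP, scaleW, e2]
    ring
  rw [e]
  have h1 : 0 ≤ r ^ 2 * (v : ℝ) - r ^ 2 * t := by
    have := mul_le_mul_of_nonneg_left hv hr2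
    linarith only [this]
  exact ((IsDrv.meas_incr h1).const_mul r⁻¹).comap_le

/-- The restarted process is again a driving process. Proof: `past (shiftP s W) t ≤ past W (s+t)`
and `fut (shiftP s W) t ≤ fut W (s+t)` (the increments are equal), so `indep` is
`indep_of_indep_of_le_left/right`; `incr` from `hW.incr (s+a) (s+b)`. -/
theorem IsDrv.shift (hW : IsDrv κ P W) (hs : 0 ≤ s) : IsDrv κ P (shiftP s W) := by
  refine ⟨hW.prob, fun t => (hW.meas (s + t)).sub (hW.meas s), fun ω => ?_, fun ω => ?_,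
    fun t ht => ?_, fun a b ha hab => ?_⟩
  · have h := hW.cont ω
    exact (h.comp (continuous_const.add continuous_id)).sub continuous_const
  · simp [shiftP, shiftW]
  · exact indep_of_indep_of_le_right (indep_of_indep_of_le_left (hW.indep (s + t) (by linarith))
      (past_shiftP_le hs)) DrvShift_fut_shiftP_le
  · have h := hW.incr (s + a) (s + b) (by linarith only [hs, ha]) (by linarith)
    have e : (fun ω => shiftP s W b ω - shiftP s W a ω) = fun ω => W (s + b) ω - W (s + a) ω := by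
      funext ω
      simp only [shiftP, shiftW]
      ring
    have e2 : s + b - (s + a) = b - a := by ring
    rw [e, h, e2]

/-- Brownian scaling. Proof: `past` and `fut` at time `t` of the rescaled process are contained in
`past W (r²t)`, `fut W (r²t)`; the increment is `r⁻¹ (W (r²t) - W (r²s))`, whose law is the image
of `gaussianReal 0 (κ r² (t-s))` under multiplication by `r⁻¹` (`gaussianReal_map_const_mul`). -/
theorem IsDrv.scale (hW : IsDrv κ P W) (hr : 0 < r) : IsDrv κ P (scaleP r W) := by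
  have hr2 : 0 ≤ r ^ 2 := by positivity
  refine ⟨hW.prob, fun t => (hW.meas (r ^ 2 * t)).const_mul r⁻¹, fun ω => ?_, fun ω => ?_,
    fun t ht => ?_, fun a b ha hab => ?_⟩
  · have h := hW.cont ω
    exact continuous_const.mul (h.comp (continuous_const.mul continuous_id))
  · simp [scaleP, scaleW, hW.zero ω]
  · exact indep_of_indep_of_le_right (indep_of_indep_of_le_left
      (hW.indep (r ^ 2 * t) (mul_nonneg hr2 ht)) (past_scaleP_le hr)) (DrvShift_fut_scaleP_le hr)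
  · have h := hW.incr (r ^ 2 * a) (r ^ 2 * b) (mul_nonneg hr2 ha)
      (mul_le_mul_of_nonneg_left hab hr2)
    have e : (fun ω => scaleP r W b ω - scaleP r W a ω) =
        (fun x => r⁻¹ * x) ∘ fun ω => W (r ^ 2 * b) ω - W (r ^ 2 * a) ω := by
      funext ω
      simp only [scaleP, scaleW, Function.comp]
      ring
    have hm : Measurable (fun ω => W (r ^ 2 * b) ω - W (r ^ 2 * a) ω) :=
      (hW.meas _).sub (hW.meas _)
    rw [e, ← Measure.map_map (measurable_const_mul r⁻¹) hm, h,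
      gaussianReal_map_const_mul, mul_zero]
    congr 1
    apply NNReal.eq
    rw [NNReal.coe_mul]
    have hk : κ * (r ^ 2 * b - r ^ 2 * a) = r ^ 2 * (κ * (b - a)) := by ring
    rw [hk, Real.toNNReal_mul hr2, NNReal.coe_mul, Real.coe_toNNReal _ hr2]
    have hne : r ≠ 0 := hr.ne'
    change r⁻¹ ^ 2 * (r ^ 2 * ((κ * (b - a)).toNNReal : ℝ)) = _
    rw [← mul_assoc, ← mul_pow, inv_mul_cancel₀ hne, one_pow, one_mul]

end Vale.Agent.P164
end
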