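import Vale.Agent.P164.MathlibUsed
import Vale.Agent.P164.Bdl.B1

set_option linter.all false

section

/-!
# The functional used in the increment estimate
-/

namespace Vale.Agent.P164

open Set Metric Filter Topology MeasureTheory

noncomputable section

end

end Vale.Agent.P164
end

section

/-!
# The coefficients are band functions
-/

set_option linter.unusedVariables false

namespace Vale.Agent.P164

open Set Metric Filter Topology MeasureTheory

lemma bands_exp_lip_of_le {M s t : ℝ} (hs : s ≤ M) (ht : t ≤ M) :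
    |Real.exp s - Real.exp t| ≤ Real.exp M * |s - t| := by
  have key : ∀ {a b : ℝ}, a ≤ M → b ≤ a → |Real.exp a - Real.exp b| ≤ Real.exp M * |a - b| := by
    intro a b ha hba
    have h1 : 0 ≤ Real.exp a - Real.exp b := sub_nonneg.2 (Real.exp_le_exp.2 hba)
    rw [abs_of_nonneg h1, abs_of_nonneg (sub_nonneg.2 hba)]
    have h2 : b - a + 1 ≤ Real.exp (b - a) := Real.add_one_le_exp _
    have h3 : Real.exp b = Real.exp a * Real.exp (b - a) := by
      rw [← Real.exp_add]; congr 1; ring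
    have h4 : Real.exp a - Real.exp b ≤ Real.exp a * (a - b) := by
      rw [h3]
      nlinarith only [h2, Real.exp_pos a]
    exact h4.trans (mul_le_mul_of_nonneg_right (Real.exp_le_exp.2 ha) (sub_nonneg.2 hba))
  rcases le_total t s with h | h
  · exact key hs h
  · rw [abs_sub_comm, abs_sub_comm s t]
    exact key ht h

lemma bands_ee_lip (u v : ℝ) : |ee u - ee v| ≤ 3 / 2 * |u - v| := by
  have h := Convex.norm_image_sub_le_of_norm_hasDerivWithin_le (f := ee) (f' := fun u => -phi u)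
    (C := 3 / 2) (s := univ) (fun x _ => (ee_hasDeriv x).hasDerivWithinAt)
    (fun x _ => by
      rw [norm_neg, Real.norm_eq_abs, abs_of_nonneg (phi_nonneg x)]
      exact phi_le x) convex_univ (mem_univ v) (mem_univ u)
  rwa [Real.norm_eq_abs, Real.norm_eq_abs] at h

lemma bands_ee_abs_le (u : ℝ) : |ee u| ≤ 1 := by
  rw [abs_of_nonneg (ee_nonneg u)]; exact ee_le_one u

lemma bands_phi_abs_le (u : ℝ) : |phi u| ≤ 3 / 2 := by
  rw [abs_of_nonneg (phi_nonneg u)]; exact phi_le u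

lemma bands_exists_smul_bdd {f : ℝ → ℝ} (a : ℝ) (h : ∃ C, ∀ U, |f U| ≤ C) :
    ∃ C, ∀ U, |a * f U| ≤ C := by
  obtain ⟨C, hC⟩ := h
  refine ⟨|a| * C, fun U => ?_⟩
  rw [abs_mul]
  exact mul_le_mul_of_nonneg_left (hC U) (abs_nonneg _)

lemma bands_exists_smul_lip {f : ℝ → ℝ} (a : ℝ) (h : ∃ C, ∀ U V, |f U - f V| ≤ C * |U - V|) :
    ∃ C, ∀ U V, |a * f U - a * f V| ≤ C * |U - V| := by
  obtain ⟨C, hC⟩ := h
  refine ⟨|a| * C, fun U V => ?_⟩
  rw [← mul_sub, abs_mul, mul_assoc]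
  exact mul_le_mul_of_nonneg_left (hC U V) (abs_nonneg _)

lemma bands_exists_sub_bdd {f g : ℝ → ℝ} (h : ∃ C, ∀ U, |f U| ≤ C) (h' : ∃ C, ∀ U, |g U| ≤ C) :
    ∃ C, ∀ U, |f U - g U| ≤ C := by
  obtain ⟨C, hC⟩ := h
  obtain ⟨C', hC'⟩ := h'
  exact ⟨C + C', fun U => (abs_sub _ _).trans (add_le_add (hC U) (hC' U))⟩

lemma bands_exists_sub_lip {f g : ℝ → ℝ} (h : ∃ C, ∀ U V, |f U - f V| ≤ C * |U - V|)
    (h' : ∃ C, ∀ U V, |g U - g V| ≤ C * |U - V|) :
    ∃ C, ∀ U V, |f U - g U - (f V - g V)| ≤ C * |U - V| := by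
  obtain ⟨C, hC⟩ := h
  obtain ⟨C', hC'⟩ := h'
  refine ⟨C + C', fun U V => ?_⟩
  have h1 : f U - g U - (f V - g V) = (f U - f V) - (g U - g V) := by ring
  rw [h1, add_mul]
  exact (abs_sub _ _).trans (add_le_add (hC U V) (hC' U V))

lemma bands_exists_max {P Q : ℝ → ℝ} (h : ∃ C, ∀ U, |P U| ≤ C) (h' : ∃ C, ∀ U, |Q U| ≤ C) :
    ∃ C, ∀ U, |P U| ≤ C ∧ |Q U| ≤ C := by
  obtain ⟨C, hC⟩ := h
  obtain ⟨C', hC'⟩ := h'
  exact ⟨max C C', fun U => ⟨(hC U).trans (le_max_left _ _), (hC' U).trans (le_max_right _ _)⟩⟩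

end Vale.Agent.P164
end

section

/-!
# One sweep of the steering driver: deterministic estimates
-/

namespace Vale.Agent.P164

open Set Metric Filter Topology MeasureTheory
open scoped NNReal

/-- Data of a piece of the flow during which the reference driver `w` is linear with slope
`σ R`, `σ = ± 1`, and the true driver `V` stays within `1 / R` of it. -/
structure Sweep (R σ y₀ a b : ℝ) (g : ℝ → ℂ) (V w : ℝ → ℝ) : Prop where
  hR : 0 < R
  hσ : σ ^ 2 = 1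
  hab : a ≤ b
  hy : 200 / R ≤ y₀
  hg : ∀ s ∈ Icc a b, HasDerivWithinAt g (2 / (g s - (V s : ℂ))) (Icc a b) s
  lin : ∀ s ∈ Icc a b, w s = w a + σ * R * (s - a)
  him : ∀ s ∈ Icc a b, y₀ ≤ (g s).im
  hV : ∀ s ∈ Icc a b, |V s - w s| ≤ 1 / R

namespace Sweep

variable {R σ y₀ a b : ℝ} {g : ℝ → ℂ} {V w : ℝ → ℝ}

lemma y_pos (S : Sweep R σ y₀ a b g V w) : 0 < y₀ :=
  lt_of_lt_of_le (by have := S.hR; positivity) S.hy

lemma restrict (S : Sweep R σ y₀ a b g V w) {c : ℝ} (hc : c ∈ Icc a b) :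
    Sweep R σ y₀ a c g V w where
  hR := S.hR
  hσ := S.hσ
  hab := hc.1
  hy := S.hy
  hg := fun s hs => (S.hg s ⟨hs.1, hs.2.trans hc.2⟩).mono (Icc_subset_Icc_right hc.2)
  lin := fun s hs => S.lin s ⟨hs.1, hs.2.trans hc.2⟩
  him := fun s hs => S.him s ⟨hs.1, hs.2.trans hc.2⟩
  hV := fun s hs => S.hV s ⟨hs.1, hs.2.trans hc.2⟩

lemma hw (S : Sweep R σ y₀ a b g V w) : ∀ s ∈ Icc a b,
    HasDerivWithinAt w (σ * R) (Icc a b) s := by
  intro s hs
  have h1 : HasDerivWithinAt (fun u : ℝ => w a + σ * R * (u - a)) (σ * R) (Icc a b) s := by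
    have := (((hasDerivAt_id s).sub_const a).const_mul (σ * R)).const_add (w a)
    simpa only [hasDerivWithinAt_const_add_iff, id_eq, mul_one] using this.hasDerivWithinAt
  exact h1.congr (fun u hu => S.lin u hu) (S.lin s hs)

lemma abs_σ (S : Sweep R σ y₀ a b g V w) : |σ| = 1 := by
  have h := S.hσ
  have h2 : |σ| ^ 2 = 1 := by rw [sq_abs]; exact h
  nlinarith only [h2, abs_nonneg σ]

lemma one_div_R (S : Sweep R σ y₀ a b g V w) : 1 / R ≤ y₀ / 200 := by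
  have h := S.hy
  have : 200 / R = 200 * (1 / R) := by ring
  rw [this] at h
  linarith only [h]

/-- The distance to the true driver is at least the imaginary part. -/
lemma im_le_norm (S : Sweep R σ y₀ a b g V w) {s : ℝ} (hs : s ∈ Icc a b) (v : ℝ) :
    y₀ ≤ ‖g s - (v : ℂ)‖ :=
  (S.him s hs).trans (im_le_norm_sub _ _)

lemma norm_ge (S : Sweep R σ y₀ a b g V w) {s : ℝ} (hs : s ∈ Icc a b) :
    199 / 200 * ‖g s - (w s : ℂ)‖ ≤ ‖g s - (V s : ℂ)‖ := by
  have h1 : ‖g s - (w s : ℂ)‖ ≤ ‖g s - (V s : ℂ)‖ + 1 / R := by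
    calc ‖g s - (w s : ℂ)‖ = ‖(g s - (V s : ℂ)) + ((V s - w s : ℝ) : ℂ)‖ := by
          push_cast; congr 1; ring
      _ ≤ ‖g s - (V s : ℂ)‖ + ‖((V s - w s : ℝ) : ℂ)‖ := norm_add_le _ _
      _ ≤ _ := by
          rw [Complex.norm_real, Real.norm_eq_abs]
          have := S.hV s hs
          linarith
  have h2 := S.one_div_R
  have h3 := S.im_le_norm hs (w s)
  linarith

lemma inv_norm_le (S : Sweep R σ y₀ a b g V w) {s : ℝ} (hs : s ∈ Icc a b) :
    1 / ‖g s - (V s : ℂ)‖ ≤ 101 / 100 * (1 / ‖g s - (w s : ℂ)‖) := by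
  have h1 := S.norm_ge hs
  have h2 := S.im_le_norm hs (w s)
  have h3 := S.y_pos
  have h4 : 0 < ‖g s - (w s : ℂ)‖ := by linarith only [h2, h3]
  have h5 : 0 < ‖g s - (V s : ℂ)‖ := by linarith only [h1, h2, h3]
  have e : 101 / 100 * (1 / ‖g s - (w s : ℂ)‖) = 101 / 100 / ‖g s - (w s : ℂ)‖ := by ring
  rw [e, div_le_div_iff₀ h5 h4]
  nlinarith only [h1, h5]

/-- The real part of the centred reference process moves with speed between `R/2` and `3R/2`. -/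
lemma re_speed (S : Sweep R σ y₀ a b g V w) {s : ℝ} (hs : s ∈ Icc a b) :
    |(2 / (g s - (V s : ℂ))).re| ≤ R / 100 := by
  have h1 := Complex.abs_re_le_norm (2 / (g s - (V s : ℂ)))
  refine h1.trans ?_
  rw [norm_div, RCLike.norm_ofNat]
  have h2 := S.im_le_norm hs (V s)
  have h3 := S.y_pos
  have h4 : 0 < ‖g s - (V s : ℂ)‖ := by linarith only [h2, h3]
  have h5 := S.hR
  rw [div_le_iff₀ h4]
  have h6 : 200 / R ≤ ‖g s - (V s : ℂ)‖ := S.hy.trans h2
  have h7 : R / 100 * (200 / R) = 2 := by field_simp; norm_num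
  nlinarith only [h7, mul_le_mul_of_nonneg_left h6 (by positivity : 0 ≤ R / 100)]

/-- Comparison principle: integrals of `1 / |Z'|^2` over a sweep are at most `2π / (R y₀)`. -/
lemma compare (S : Sweep R σ y₀ a b g V w) {E : Type*} [NormedAddCommGroup E] [NormedSpace ℝ E]
    {f f' : ℝ → E} {K : ℝ} (hK : 0 ≤ K)
    (hf : ∀ s ∈ Icc a b, HasDerivWithinAt f (f' s) (Icc a b) s)
    (hb : ∀ s ∈ Icc a b, ‖f' s‖ ≤ K / ‖g s - (w s : ℂ)‖ ^ 2) :
    ‖f b - f a‖ ≤ 7 * K / (R * y₀) := by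
  have hR := S.hR
  have hy := S.y_pos
  have hab := S.hab
  -- the arctan potential
  set A : ℝ → ℝ := fun s => Real.arctan (-(σ * ((g s).re - w s)) / y₀) with hA
  set A' : ℝ → ℝ := fun s => 1 / (1 + (-(σ * ((g s).re - w s)) / y₀) ^ 2) *
    (-(σ * ((2 / (g s - (V s : ℂ))).re - σ * R)) / y₀) with hA'
  have dA : ∀ s ∈ Icc a b, HasDerivWithinAt A (A' s) (Icc a b) s := by
    intro s hs
    have h1 : HasDerivWithinAt (fun u => (g u).re) ((2 / (g s - (V s : ℂ))).re) (Icc a b) s :=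
      Complex.reCLM.hasFDerivAt.comp_hasDerivWithinAt s (S.hg s hs)
    have h2 := (((h1.sub (S.hw s hs)).const_mul σ).neg.div_const y₀).arctan
    exact h2
  have lowA : ∀ s ∈ Icc a b, K / ‖g s - (w s : ℂ)‖ ^ 2 ≤ K * (2 / (R * y₀)) * A' s := by
    intro s hs
    set X := (g s).re - w s with hX
    have e1 : ‖g s - (w s : ℂ)‖ ^ 2 = X ^ 2 + (g s).im ^ 2 := by
      rw [Complex.sq_norm, Complex.normSq_apply]
      simp only [Complex.sub_re, Complex.ofReal_re, Complex.sub_im, Complex.ofReal_im, sub_zero, hX]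
      ring
    have hi := S.him s hs
    have e2 : y₀ ^ 2 + X ^ 2 ≤ ‖g s - (w s : ℂ)‖ ^ 2 := by
      rw [e1]
      nlinarith only [hy, hi]
    have hσX : (-(σ * X) / y₀) ^ 2 = X ^ 2 / y₀ ^ 2 := by
      rw [div_pow, neg_sq, mul_pow, S.hσ, one_mul]
    have e3 : -(σ * ((2 / (g s - (V s : ℂ))).re - σ * R)) = R - σ * (2 / (g s - (V s : ℂ))).re := by
      have := S.hσ
      linear_combination R * this
    have e4 : R / 2 ≤ R - σ * (2 / (g s - (V s : ℂ))).re := by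
      have h1 := S.re_speed hs
      have h2 : |σ * (2 / (g s - (V s : ℂ))).re| ≤ R / 100 := by
        rw [abs_mul, S.abs_σ, one_mul]; exact h1
      have h3 := le_abs_self (σ * (2 / (g s - (V s : ℂ))).re)
      linarith only [hR, h2, h3]
    have e5 : 1 / (1 + (-(σ * X) / y₀) ^ 2) = y₀ ^ 2 / (y₀ ^ 2 + X ^ 2) := by
      rw [hσX]
      (clear * - hy; field_simp)
    have e6 : A' s = y₀ ^ 2 / (y₀ ^ 2 + X ^ 2) * ((R - σ * (2 / (g s - (V s : ℂ))).re) / y₀) := by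
      simp only [hA']
      rw [← hX, e5, e3]
    have e7 : y₀ ^ 2 / (y₀ ^ 2 + X ^ 2) * ((R / 2) / y₀) ≤ A' s := by
      rw [e6]
      (clear * - e4 hy; gcongr)
    calc K / ‖g s - (w s : ℂ)‖ ^ 2 ≤ K / (y₀ ^ 2 + X ^ 2) := by (clear * - hK hy e2; gcongr)
      _ = K * (2 / (R * y₀)) * (y₀ ^ 2 / (y₀ ^ 2 + X ^ 2) * ((R / 2) / y₀)) := by
          (clear * - hy hR; field_simp)
      _ ≤ _ := by (clear * - e7 hK hR hy; gcongr)
  have main := image_norm_le_of_norm_deriv_right_le_deriv_boundary'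
    (f := fun s => f s - f a) (f' := f') (a := a) (b := b)
    (B := fun s => K * (2 / (R * y₀)) * (A s - A a)) (B' := fun s => K * (2 / (R * y₀)) * A' s)
    (fun s hs => ((hf s hs).continuousWithinAt.sub continuousWithinAt_const))
    (fun s hs => by
      have h1 := (hf s ⟨hs.1, hs.2.le⟩).sub_const (f a)
      exact h1.mono_of_mem_nhdsWithin (Icc_mem_nhdsGE_of_mem hs))
    (by simp)
    (fun s hs => ContinuousWithinAt.mul continuousWithinAt_const
      ((dA s hs).continuousWithinAt.sub continuousWithinAt_const))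
    (fun s hs => by
      have h1 := ((dA s ⟨hs.1, hs.2.le⟩).sub_const (A a)).const_mul (K * (2 / (R * y₀)))
      exact h1.mono_of_mem_nhdsWithin (Icc_mem_nhdsGE_of_mem hs))
    (fun s hs => (hb s ⟨hs.1, hs.2.le⟩).trans (lowA s ⟨hs.1, hs.2.le⟩))
    (right_mem_Icc.2 hab)
  refine main.trans ?_
  have h1 : A b < Real.pi / 2 := Real.arctan_lt_pi_div_two _
  have h2 : -(Real.pi / 2) < A a := Real.neg_pi_div_two_lt_arctan _
  have h3 : A b - A a ≤ 7 / 2 := by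
    have := Real.pi_lt_d2
    linarith only [h1, h2, this]
  calc K * (2 / (R * y₀)) * (A b - A a) ≤ K * (2 / (R * y₀)) * (7 / 2) := by (clear * - h3 hK hR hy; gcongr)
    _ = 7 * K / (R * y₀) := by field_simp

/-- The height drops by at most `29 / R` during a sweep. -/
lemma im_drop (S : Sweep R σ y₀ a b g V w) (hi : ∀ s ∈ Icc a b, (g s).im ≤ 2 * y₀) :
    |(g b).im - (g a).im| ≤ 29 / R := by
  have hR := S.hR
  have hy := S.y_pos
  have hd : ∀ s ∈ Icc a b, HasDerivWithinAt (fun u => (g u).im) ((2 / (g s - (V s : ℂ))).im)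
      (Icc a b) s := fun s hs =>
    Complex.imCLM.hasFDerivAt.comp_hasDerivWithinAt s (S.hg s hs)
  have hb : ∀ s ∈ Icc a b, ‖(2 / (g s - (V s : ℂ))).im‖ ≤ (41 / 10 * y₀) /
      ‖g s - (w s : ℂ)‖ ^ 2 := by
    intro s hs
    have h1 := S.inv_norm_le hs
    have h2 : 0 < ‖g s - (w s : ℂ)‖ := hy.trans_le (S.im_le_norm hs _)
    have h3 : 0 < ‖g s - (V s : ℂ)‖ := hy.trans_le (S.im_le_norm hs _)
    have h4 : (2 / (g s - (V s : ℂ))).im = -(2 * (g s).im * (1 / ‖g s - (V s : ℂ)‖) ^ 2) := by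
      rw [Complex.div_im, one_div, inv_pow, Complex.sq_norm]
      simp only [Complex.im_ofNat, Complex.sub_re, Complex.ofReal_re, zero_mul, zero_div, Complex.re_ofNat, Complex.sub_im, Complex.ofReal_im, sub_zero, zero_sub, neg_inj]
      ring
    have h5 : 0 < (g s).im := hy.trans_le (S.him s hs)
    rw [h4, norm_neg, Real.norm_eq_abs, abs_of_nonneg (by (clear * - h5 h3; positivity))]
    calc 2 * (g s).im * (1 / ‖g s - (V s : ℂ)‖) ^ 2
        ≤ 2 * (2 * y₀) * (101 / 100 * (1 / ‖g s - (w s : ℂ)‖)) ^ 2 := by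
          gcongr
          exact hi s hs
      _ = (4 * (101 / 100) ^ 2 * y₀) / ‖g s - (w s : ℂ)‖ ^ 2 := by
          field_simp
          ring
      _ ≤ _ := by
          gcongr
          norm_num
  have h := S.compare (by positivity) hd hb
  rw [Real.norm_eq_abs] at h
  refine h.trans ?_
  rw [div_le_div_iff₀ (by (clear * - hR hy; positivity)) (by positivity)]
  nlinarith only [mul_pos hR hy]

lemma w'_hasDeriv (S : Sweep R σ y₀ a b g V w) {s : ℝ} (hs : s ∈ Icc a b) :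
    HasDerivWithinAt (fun u => g u - (w u : ℂ)) (2 / (g s - (V s : ℂ)) - ((σ * R : ℝ) : ℂ))
      (Icc a b) s :=
  (S.hg s hs).sub (S.hw s hs).ofReal_comp

lemma ne_w (S : Sweep R σ y₀ a b g V w) {s : ℝ} (hs : s ∈ Icc a b) :
    g s - (w s : ℂ) ≠ 0 := by
  have : 0 < ‖g s - (w s : ℂ)‖ := S.y_pos.trans_le (S.im_le_norm hs _)
  exact norm_pos_iff.1 this

lemma ne_V (S : Sweep R σ y₀ a b g V w) {s : ℝ} (hs : s ∈ Icc a b) :
    g s - (V s : ℂ) ≠ 0 := by
  have : 0 < ‖g s - (V s : ℂ)‖ := S.y_pos.trans_le (S.im_le_norm hs _)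
  exact norm_pos_iff.1 this

lemma σ_ne (S : Sweep R σ y₀ a b g V w) : σ ≠ 0 := by
  intro h
  have := S.hσ
  rw [h] at this
  (clear * - this; norm_num at this)

/-- The logarithmic potential. -/
lemma log_pot (S : Sweep R σ y₀ a b g V w) :
    ‖(g b + ((2 * σ / R : ℝ) : ℂ) * Complex.log (g b - (w b : ℂ))) -
      (g a + ((2 * σ / R : ℝ) : ℂ) * Complex.log (g a - (w a : ℂ)))‖ ≤ 43 / (R ^ 2 * y₀) := by
  have hR := S.hR
  have hy := S.y_pos
  have hRc : (R : ℂ) ≠ 0 := by exact_mod_cast hR.ne'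
  have hσ2 : (σ : ℂ) ^ 2 = 1 := by
    have := S.hσ
    exact_mod_cast this
  have hd : ∀ s ∈ Icc a b, HasDerivWithinAt
      (fun u => g u + ((2 * σ / R : ℝ) : ℂ) * Complex.log (g u - (w u : ℂ)))
      (2 / (g s - (V s : ℂ)) + ((2 * σ / R : ℝ) : ℂ) *
        ((2 / (g s - (V s : ℂ)) - ((σ * R : ℝ) : ℂ)) / (g s - (w s : ℂ)))) (Icc a b) s := by
    intro s hs
    have hsl : g s - (w s : ℂ) ∈ Complex.slitPlane := by
      right
      have : 0 < (g s).im := hy.trans_le (S.him s hs)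
      simpa only [Complex.sub_im, Complex.ofReal_im, sub_zero, ne_eq] using this.ne'
    exact (S.hg s hs).add (((S.w'_hasDeriv hs).clog_real hsl).const_mul _)
  have hb : ∀ s ∈ Icc a b, ‖2 / (g s - (V s : ℂ)) + ((2 * σ / R : ℝ) : ℂ) *
        ((2 / (g s - (V s : ℂ)) - ((σ * R : ℝ) : ℂ)) / (g s - (w s : ℂ)))‖ ≤
      (61 / 10 / R) / ‖g s - (w s : ℂ)‖ ^ 2 := by
    intro s hs
    have h1 := S.inv_norm_le hs
    have n1 := S.ne_w hs
    have n2 := S.ne_V hs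
    have p1 : 0 < ‖g s - (w s : ℂ)‖ := norm_pos_iff.2 n1
    have p2 : 0 < ‖g s - (V s : ℂ)‖ := norm_pos_iff.2 n2
    set Z := g s - (V s : ℂ) with hZ
    set Z' := g s - (w s : ℂ) with hZ'
    have e1 : Z' - Z = ((V s - w s : ℝ) : ℂ) := by
      rw [hZ, hZ']; push_cast; ring
    have e2 : 2 / Z + ((2 * σ / R : ℝ) : ℂ) * ((2 / Z - ((σ * R : ℝ) : ℂ)) / Z') =
        2 * (Z' - Z) / (Z * Z') + ((4 * σ / R : ℝ) : ℂ) / (Z * Z') := by
      push_cast
      field_simp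
      linear_combination (-2 * Z * R) * hσ2
    rw [e2]
    have q1 : ‖2 * (Z' - Z) / (Z * Z')‖ ≤ 2 * (1 / R) * (101 / 100 * (1 / ‖Z'‖)) * (1 / ‖Z'‖) := by
      rw [norm_div, norm_mul, norm_mul, e1, Complex.norm_real, RCLike.norm_ofNat,
        Real.norm_eq_abs]
      have := S.hV s hs
      calc 2 * |V s - w s| / (‖Z‖ * ‖Z'‖) = 2 * |V s - w s| * (1 / ‖Z‖) * (1 / ‖Z'‖) := by
            (clear * - n1 n2; field_simp)
        _ ≤ _ := by gcongr
    have q2 : ‖((4 * σ / R : ℝ) : ℂ) / (Z * Z')‖ ≤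
        4 / R * (101 / 100 * (1 / ‖Z'‖)) * (1 / ‖Z'‖) := by
      rw [norm_div, norm_mul, Complex.norm_real, Real.norm_eq_abs, abs_div, abs_mul, S.abs_σ,
        abs_of_pos hR]
      calc |4| * 1 / R / (‖Z‖ * ‖Z'‖) = 4 / R * (1 / ‖Z‖) * (1 / ‖Z'‖) := by
            rw [abs_of_pos (by norm_num : (0 : ℝ) < 4)]
            field_simp
        _ ≤ _ := by (clear * - h1 hR n1; gcongr)
    refine (norm_add_le _ _).trans ((add_le_add q1 q2).trans ?_)
    have : 2 * (1 / R) * (101 / 100 * (1 / ‖Z'‖)) * (1 / ‖Z'‖) +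
        4 / R * (101 / 100 * (1 / ‖Z'‖)) * (1 / ‖Z'‖) = (606 / 100 / R) / ‖Z'‖ ^ 2 := by
      field_simp
      ring
    rw [this]
    have e : (606 / 100 : ℝ) ≤ 61 / 10 := by norm_num
    exact div_le_div_of_nonneg_right (div_le_div_of_nonneg_right e hR.le) (by positivity)
  have h := S.compare (by positivity) hd hb
  refine h.trans ?_
  rw [show 7 * (61 / 10 / R) / (R * y₀) = (427 / 10) / (R ^ 2 * y₀) by field_simp; ring]
  gcongr
  norm_num

/-- The potential for the logarithm of the derivative. -/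
lemma der_pot (S : Sweep R σ y₀ a b g V w) {L : ℝ → ℝ}
    (hL : ∀ s ∈ Icc a b, HasDerivWithinAt L (-(2 / (g s - (V s : ℂ)) ^ 2).re) (Icc a b) s) :
    |(L b + 2 * σ / R * (1 / (g b - (w b : ℂ))).re) -
      (L a + 2 * σ / R * (1 / (g a - (w a : ℂ))).re)| ≤ 58 / (R ^ 2 * y₀ ^ 2) := by
  have hR := S.hR
  have hy := S.y_pos
  have hRc : (R : ℂ) ≠ 0 := by exact_mod_cast hR.ne'
  have hσ2 : (σ : ℂ) ^ 2 = 1 := by
    have := S.hσ
    exact_mod_cast this
  have hd : ∀ s ∈ Icc a b, HasDerivWithinAt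
      (fun u => L u + 2 * σ / R * (1 / (g u - (w u : ℂ))).re)
      ((-(2 / (g s - (V s : ℂ)) ^ 2) + ((2 * σ / R : ℝ) : ℂ) *
        (-(2 / (g s - (V s : ℂ)) - ((σ * R : ℝ) : ℂ)) / (g s - (w s : ℂ)) ^ 2)).re)
        (Icc a b) s := by
    intro s hs
    have h1 : HasDerivWithinAt (fun u => (g u - (w u : ℂ))⁻¹)
        (-(2 / (g s - (V s : ℂ)) - ((σ * R : ℝ) : ℂ)) / (g s - (w s : ℂ)) ^ 2) (Icc a b) s :=
      (S.w'_hasDeriv hs).inv (S.ne_w hs)
    have h2 : HasDerivWithinAt (fun u => ((g u - (w u : ℂ))⁻¹).re)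
        ((-(2 / (g s - (V s : ℂ)) - ((σ * R : ℝ) : ℂ)) / (g s - (w s : ℂ)) ^ 2).re)
        (Icc a b) s := Complex.reCLM.hasFDerivAt.comp_hasDerivWithinAt s h1
    have h3 := (hL s hs).fun_add (h2.const_mul (2 * σ / R))
    have e : (-(2 / (g s - (V s : ℂ)) ^ 2) + ((2 * σ / R : ℝ) : ℂ) *
        (-(2 / (g s - (V s : ℂ)) - ((σ * R : ℝ) : ℂ)) / (g s - (w s : ℂ)) ^ 2)).re =
        -(2 / (g s - (V s : ℂ)) ^ 2).re + 2 * σ / R *
        (-(2 / (g s - (V s : ℂ)) - ((σ * R : ℝ) : ℂ)) / (g s - (w s : ℂ)) ^ 2).re := by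
      rw [Complex.add_re, Complex.re_ofReal_mul, Complex.neg_re]
    rw [e]
    simpa only [one_div] using h3
  have hb : ∀ s ∈ Icc a b, ‖((-(2 / (g s - (V s : ℂ)) ^ 2) + ((2 * σ / R : ℝ) : ℂ) *
        (-(2 / (g s - (V s : ℂ)) - ((σ * R : ℝ) : ℂ)) / (g s - (w s : ℂ)) ^ 2)).re)‖ ≤
      (82 / 10 / (R * y₀)) / ‖g s - (w s : ℂ)‖ ^ 2 := by
    intro s hs
    have h1 := S.inv_norm_le hs
    have n1 := S.ne_w hs
    have n2 := S.ne_V hs
    have p1 : 0 < ‖g s - (w s : ℂ)‖ := norm_pos_iff.2 n1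
    have p2 : 0 < ‖g s - (V s : ℂ)‖ := norm_pos_iff.2 n2
    have hyZ := S.im_le_norm hs (w s)
    set Z := g s - (V s : ℂ) with hZ
    set Z' := g s - (w s : ℂ) with hZ'
    have e1 : Z' - Z = ((V s - w s : ℝ) : ℂ) := by
      rw [hZ, hZ']; push_cast; ring
    have e2 : -(2 / Z ^ 2) + ((2 * σ / R : ℝ) : ℂ) *
        (-(2 / Z - ((σ * R : ℝ) : ℂ)) / Z' ^ 2) =
        -(2 * (Z' - Z) / (Z * Z' ^ 2) + 2 * (Z' - Z) / (Z ^ 2 * Z')) -
          ((4 * σ / R : ℝ) : ℂ) / (Z * Z' ^ 2) := by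
      push_cast
      field_simp
      linear_combination (2 * Z ^ 2 * R) * hσ2
    rw [e2]
    have hv := S.hV s hs
    have q1 : ‖2 * (Z' - Z) / (Z * Z' ^ 2)‖ ≤
        2 * (1 / R) * (101 / 100 * (1 / ‖Z'‖)) * (1 / ‖Z'‖) ^ 2 := by
      rw [norm_div, norm_mul, norm_mul, norm_pow, e1, Complex.norm_real, RCLike.norm_ofNat,
        Real.norm_eq_abs]
      calc 2 * |V s - w s| / (‖Z‖ * ‖Z'‖ ^ 2) = 2 * |V s - w s| * (1 / ‖Z‖) * (1 / ‖Z'‖) ^ 2 := by
            field_simp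
        _ ≤ _ := by (clear * - hv h1 n2 hR n1; gcongr)
    have q1' : ‖2 * (Z' - Z) / (Z ^ 2 * Z')‖ ≤
        2 * (1 / R) * (101 / 100 * (1 / ‖Z'‖)) ^ 2 * (1 / ‖Z'‖) := by
      rw [norm_div, norm_mul, norm_mul, norm_pow, e1, Complex.norm_real, RCLike.norm_ofNat,
        Real.norm_eq_abs]
      calc 2 * |V s - w s| / (‖Z‖ ^ 2 * ‖Z'‖) = 2 * |V s - w s| * (1 / ‖Z‖) ^ 2 * (1 / ‖Z'‖) := by
            (clear * - n1 n2; field_simp)
        _ ≤ _ := by (clear * - hv n2 h1 hR n1; gcongr)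
    have q2 : ‖((4 * σ / R : ℝ) : ℂ) / (Z * Z' ^ 2)‖ ≤
        4 / R * (101 / 100 * (1 / ‖Z'‖)) * (1 / ‖Z'‖) ^ 2 := by
      rw [norm_div, norm_mul, norm_pow, Complex.norm_real, Real.norm_eq_abs, abs_div, abs_mul,
        S.abs_σ, abs_of_pos hR]
      calc |4| * 1 / R / (‖Z‖ * ‖Z'‖ ^ 2) = 4 / R * (1 / ‖Z‖) * (1 / ‖Z'‖) ^ 2 := by
            rw [abs_of_pos (by norm_num : (0 : ℝ) < 4)]
            field_simp
        _ ≤ _ := by gcongr
    rw [Real.norm_eq_abs]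
    refine (Complex.abs_re_le_norm _).trans ?_
    refine (norm_sub_le _ _).trans ?_
    rw [norm_neg]
    refine (add_le_add ((norm_add_le _ _).trans (add_le_add q1 q1')) q2).trans ?_
    have e3 : 2 * (1 / R) * (101 / 100 * (1 / ‖Z'‖)) * (1 / ‖Z'‖) ^ 2 +
        2 * (1 / R) * (101 / 100 * (1 / ‖Z'‖)) ^ 2 * (1 / ‖Z'‖) +
        4 / R * (101 / 100 * (1 / ‖Z'‖)) * (1 / ‖Z'‖) ^ 2 =
        (2 * (101 / 100) + 2 * (101 / 100) ^ 2 + 4 * (101 / 100)) / (R * ‖Z'‖) / ‖Z'‖ ^ 2 := by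
      field_simp
    rw [e3]
    gcongr
    norm_num
  have h := S.compare (by (clear * - hR hy; positivity)) hd hb
  rw [Real.norm_eq_abs] at h
  refine h.trans ?_
  rw [show 7 * (82 / 10 / (R * y₀)) / (R * y₀) = (574 / 10) / (R ^ 2 * y₀ ^ 2) by
    field_simp; ring]
  gcongr
  (clear * -; norm_num)

/-- The real part moves slowly. -/
lemma re_slow (S : Sweep R σ y₀ a b g V w) :
    |(g b).re - (g a).re| ≤ R / 100 * (b - a) := by
  have hd : ∀ s ∈ Icc a b, HasDerivWithinAt (fun u => (g u).re) ((2 / (g s - (V s : ℂ))).re)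
      (Icc a b) s := fun s hs =>
    Complex.reCLM.hasFDerivAt.comp_hasDerivWithinAt s (S.hg s hs)
  have h := (convex_Icc a b).norm_image_sub_le_of_norm_hasDerivWithin_le
    (f := fun u => (g u).re) hd (fun s hs => S.re_speed hs) (left_mem_Icc.2 S.hab)
    (right_mem_Icc.2 S.hab)
  rw [Real.norm_eq_abs, Real.norm_eq_abs, abs_of_nonneg (sub_nonneg.2 S.hab)] at h
  exact h

lemma arg_bound_right {Z : ℂ} (h0 : 0 < Z.im) (h : Z.im ≤ Z.re) :
    0 ≤ Z.arg ∧ Z.arg ≤ Real.pi / 3 := by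
  have hre : 0 < Z.re := h0.trans_le h
  have hZ : Z ≠ 0 := fun h' => by simp [h'] at h0
  refine ⟨Complex.arg_nonneg_iff.2 h0.le, ?_⟩
  by_contra hc
  push Not at hc
  have h1 := Real.strictAntiOn_cos ⟨by positivity, by linarith only [Real.pi_pos]⟩
    ⟨Complex.arg_nonneg_iff.2 h0.le, Complex.arg_le_pi Z⟩ hc
  rw [Complex.cos_arg hZ, Real.cos_pi_div_three, div_lt_iff₀ (norm_pos_iff.2 hZ)] at h1
  have h2 := Complex.norm_le_abs_re_add_abs_im Z
  rw [abs_of_pos hre, abs_of_pos h0] at h2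
  linarith only [h, h1, h2]

lemma arg_bound_left {Z : ℂ} (h0 : 0 < Z.im) (h : Z.im ≤ -Z.re) :
    2 * Real.pi / 3 ≤ Z.arg ∧ Z.arg ≤ Real.pi := by
  have hre : Z.re < 0 := by linarith only [h0, h]
  have hZ : Z ≠ 0 := fun h' => by simp [h'] at h0
  refine ⟨?_, Complex.arg_le_pi Z⟩
  by_contra hc
  push Not at hc
  have h1 := Real.strictAntiOn_cos ⟨Complex.arg_nonneg_iff.2 h0.le, Complex.arg_le_pi Z⟩
    ⟨by positivity, by linarith only [Real.pi_pos]⟩ hc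
  have h3 : Real.cos (2 * Real.pi / 3) = -(1 / 2) := by
    rw [show 2 * Real.pi / 3 = Real.pi - Real.pi / 3 by ring, Real.cos_pi_sub,
      Real.cos_pi_div_three]
  rw [Complex.cos_arg hZ, h3, lt_div_iff₀ (norm_pos_iff.2 hZ)] at h1
  have h2 := Complex.norm_le_abs_re_add_abs_im Z
  rw [abs_of_neg hre, abs_of_pos h0] at h2
  linarith only [h, h1, h2]

/-- Geometry at the turning points. -/
lemma ends (S : Sweep R σ y₀ a b g V w) {l : ℝ} (hl : 20 ≤ l) (ha : w a = -(σ * l))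
    (hb : w b = σ * l) (hx : |(g a).re| ≤ l / 2) :
    l / 2 ≤ σ * (g a - (w a : ℂ)).re ∧ l / 4 ≤ -(σ * (g b - (w b : ℂ)).re) ∧
      |(g a - (w a : ℂ)).re| ≤ 3 / 2 * l ∧ |(g b - (w b : ℂ)).re| ≤ 31 / 20 * l := by
  have hR := S.hR
  have hσ := S.abs_σ
  have hlen : R * (b - a) = 2 * l := by
    have h1 := S.lin b (right_mem_Icc.2 S.hab)
    rw [ha, hb] at h1
    have h2 : σ * (R * (b - a)) = σ * (2 * l) := by linarith only [h1]
    exact mul_left_cancel₀ S.σ_ne h2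
  have h2 := S.re_slow
  have h3 : R / 100 * (b - a) = l / 50 := by
    have : R / 100 * (b - a) = R * (b - a) / 100 := by ring
    rw [this, hlen]; ring
  rw [h3] at h2
  have r1 : (g a - (w a : ℂ)).re = (g a).re + σ * l := by
    rw [ha]; simp only [Complex.ofReal_neg, Complex.ofReal_mul, sub_neg_eq_add, Complex.add_re, Complex.mul_re, Complex.ofReal_re, Complex.ofReal_im, mul_zero, sub_zero]
  have r2 : (g b - (w b : ℂ)).re = (g b).re - σ * l := by
    rw [hb]; simp only [Complex.ofReal_mul, Complex.sub_re, Complex.mul_re, Complex.ofReal_re, Complex.ofReal_im, mul_zero, sub_zero]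
  have hσ2 := S.hσ
  have b1 : |σ * (g a).re| ≤ l / 2 := by rw [abs_mul, hσ, one_mul]; exact hx
  have b2 : |σ * (g b).re| ≤ l / 2 + l / 50 := by
    rw [abs_mul, hσ, one_mul]
    have : |(g b).re| ≤ |(g b).re - (g a).re| + |(g a).re| := by
      have := abs_add_le ((g b).re - (g a).re) (g a).re
      rwa [sub_add_cancel] at this
    linarith only [hx, h2, this]
  have b3 : |(g b).re| ≤ l / 2 + l / 50 := by
    rw [abs_mul, hσ, one_mul] at b2; exact b2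
  have b4 : |σ * l| = l := by rw [abs_mul, hσ, one_mul, abs_of_pos (by linarith only [hl])]
  rw [r1, r2]
  refine ⟨?_, ?_, ?_, ?_⟩
  · have : σ * ((g a).re + σ * l) = σ * (g a).re + l := by linear_combination l * hσ2
    rw [this]
    linarith only [b1, neg_abs_le (σ * (g a).re)]
  · have : -(σ * ((g b).re - σ * l)) = -(σ * (g b).re) + l := by linear_combination l * hσ2
    rw [this]
    linarith only [hl, b2, le_abs_self (σ * (g b).re)]
  · refine (abs_add_le _ _).trans ?_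
    rw [b4]; linarith only [hx]
  · refine (abs_sub _ _).trans ?_
    rw [b4]; linarith only [hl, b3]

/-- A full sweep. -/
lemma full (S : Sweep R σ y₀ a b g V w) {l : ℝ} (hl : 20 ≤ l) (ha : w a = -(σ * l))
    (hb : w b = σ * l) (hx : |(g a).re| ≤ l / 2) (hya : (g a).im ≤ 2) (hyb : (g b).im ≤ 2) :
    |(g b).re - (g a).re| ≤ 5 / R ∧ 3 / 2 / R ≤ (g a).im - (g b).im ∧
      (g a).im - (g b).im ≤ 7 / R := by
  have hR := S.hR
  have hy := S.y_pos
  have hσ := S.abs_σ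
  obtain ⟨h1, h2, h3, h4⟩ := S.ends hl ha hb hx
  have hma := left_mem_Icc.2 S.hab
  have hmb := right_mem_Icc.2 S.hab
  have ia : (g a - (w a : ℂ)).im = (g a).im := by simp
  have ib : (g b - (w b : ℂ)).im = (g b).im := by simp
  have pa : 0 < (g a).im := hy.trans_le (S.him a hma)
  have pb : 0 < (g b).im := hy.trans_le (S.him b hmb)
  have na : 0 < ‖g a - (w a : ℂ)‖ := hy.trans_le (S.im_le_norm hma _)
  have nb : 0 < ‖g b - (w b : ℂ)‖ := hy.trans_le (S.im_le_norm hmb _)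
  -- bounds on the norms
  have ua : ‖g a - (w a : ℂ)‖ ≤ 2 * l := by
    refine (Complex.norm_le_abs_re_add_abs_im _).trans ?_
    rw [ia, abs_of_pos pa]; linarith only [hl, hya, h3]
  have ub : ‖g b - (w b : ℂ)‖ ≤ 2 * l := by
    refine (Complex.norm_le_abs_re_add_abs_im _).trans ?_
    rw [ib, abs_of_pos pb]; linarith only [hl, hyb, h4]
  have la : l / 2 ≤ ‖g a - (w a : ℂ)‖ := by
    refine h1.trans ((le_abs_self _).trans ?_)
    rw [abs_mul, hσ, one_mul]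
    exact Complex.abs_re_le_norm _
  have lb : l / 4 ≤ ‖g b - (w b : ℂ)‖ := by
    refine h2.trans ((neg_le_abs _).trans ?_)
    rw [abs_mul, hσ, one_mul]
    exact Complex.abs_re_le_norm _
  -- the potential
  have hp := S.log_pot
  have hp' : ‖(g b + ((2 * σ / R : ℝ) : ℂ) * Complex.log (g b - (w b : ℂ))) -
      (g a + ((2 * σ / R : ℝ) : ℂ) * Complex.log (g a - (w a : ℂ)))‖ ≤ 22 / 100 / R := by
    refine hp.trans ?_
    have h5 := S.hy
    have h6 : 200 ≤ R * y₀ := by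
      rw [div_le_iff₀ hR] at h5
      linarith only [h5]
    rw [div_le_div_iff₀ (by positivity) hR]
    nlinarith only [hR, h6]
  have er := (Complex.abs_re_le_norm _).trans hp'
  have ei := (Complex.abs_im_le_norm _).trans hp'
  rw [Complex.sub_re, Complex.add_re, Complex.add_re, Complex.re_ofReal_mul,
    Complex.re_ofReal_mul, Complex.log_re, Complex.log_re] at er
  rw [Complex.sub_im, Complex.add_im, Complex.add_im, Complex.im_ofReal_mul,
    Complex.im_ofReal_mul, Complex.log_im, Complex.log_im] at ei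
  have hRinv : 0 < 1 / R := by (clear * - hR; positivity)
  refine ⟨?_, ?_⟩
  · -- real part
    have hl1 : |Real.log ‖g b - (w b : ℂ)‖ - Real.log ‖g a - (w a : ℂ)‖| ≤ 21 / 10 := by
      have e8 : Real.log 8 ≤ 21 / 10 := by
        have : (8 : ℝ) = 2 ^ 3 := by norm_num
        rw [this, Real.log_pow]
        have := Real.log_two_lt_d9
        norm_num
        linarith only [this]
      have u1 : Real.log ‖g b - (w b : ℂ)‖ ≤ Real.log (2 * l) := Real.log_le_log nb ub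
      have u2 : Real.log ‖g a - (w a : ℂ)‖ ≤ Real.log (2 * l) := Real.log_le_log na ua
      have u3 : Real.log (l / 4) ≤ Real.log ‖g b - (w b : ℂ)‖ :=
        Real.log_le_log (by linarith only [hl]) lb
      have u4 : Real.log (l / 4) ≤ Real.log ‖g a - (w a : ℂ)‖ :=
        Real.log_le_log (by linarith only [hl]) (by linarith only [hl, la])
      have u5 : Real.log (2 * l) - Real.log (l / 4) = Real.log 8 := by
        rw [← Real.log_div (by linarith only [hl]) (by linarith only [hl])]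
        congr 1
        field_simp
        norm_num
      rw [abs_le]
      constructor <;> linarith only [e8, u1, u4, u5, u2, u3]
    have e : (g b).re - (g a).re = ((g b).re + 2 * σ / R * Real.log ‖g b - (w b : ℂ)‖ -
        ((g a).re + 2 * σ / R * Real.log ‖g a - (w a : ℂ)‖)) -
        2 * σ / R * (Real.log ‖g b - (w b : ℂ)‖ - Real.log ‖g a - (w a : ℂ)‖) := by ring
    rw [e]
    refine (abs_sub _ _).trans ?_
    have e2 : |2 * σ / R * (Real.log ‖g b - (w b : ℂ)‖ - Real.log ‖g a - (w a : ℂ)‖)| ≤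
        2 * (21 / 10) / R := by
      rw [abs_mul, abs_div, abs_mul, hσ, abs_of_pos hR, abs_of_pos (by norm_num : (0:ℝ) < 2)]
      calc 2 * 1 / R * |Real.log ‖g b - (w b : ℂ)‖ - Real.log ‖g a - (w a : ℂ)‖|
          ≤ 2 * 1 / R * (21 / 10) := by (clear * - hl1 hR; gcongr)
        _ = _ := by ring
    have e3 : 5 / R = 5 * (1 / R) := by ring
    have e4 : 2 * (21 / 10) / R = 42 / 10 * (1 / R) := by ring
    have e5 : 22 / 100 / R = 22 / 100 * (1 / R) := by ring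
    rw [e3]; rw [e4] at e2; rw [e5] at er
    linarith only [er, hRinv, e2]
  · -- imaginary part
    set α := Complex.arg (g a - (w a : ℂ)) with hα
    set β := Complex.arg (g b - (w b : ℂ)) with hβ
    have key : Real.pi / 3 ≤ σ * (β - α) ∧ σ * (β - α) ≤ Real.pi := by
      have hpi := Real.pi_pos
      obtain hs | hs : σ = 1 ∨ σ = -1 := by
        have h : (σ - 1) * (σ + 1) = 0 := by linear_combination S.hσ
        rcases mul_eq_zero.1 h with h | h
        · left; linarith only [h]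
        · right; linarith only [h]
      all_goals
        rw [hs] at h1 h2
      · have c1 := arg_bound_right (Z := g a - (w a : ℂ)) (by rw [ia]; exact pa)
          (by rw [ia]; linarith only [hl, hya, h1])
        have c2 := arg_bound_left (Z := g b - (w b : ℂ)) (by rw [ib]; exact pb)
          (by rw [ib]; linarith only [hl, hyb, h2])
        rw [hs]
        constructor <;> linarith only [c1, c2]
      · have c1 := arg_bound_left (Z := g a - (w a : ℂ)) (by rw [ia]; exact pa)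
          (by rw [ia]; linarith only [hl, hya, h1])
        have c2 := arg_bound_right (Z := g b - (w b : ℂ)) (by rw [ib]; exact pb)
          (by rw [ib]; linarith only [hl, hyb, h2])
        rw [hs]
        constructor <;> linarith only [c1, c2]
    have hpi1 := Real.pi_gt_d2
    have hpi2 := Real.pi_lt_d2
    have e : (g a).im - (g b).im = 2 / R * (σ * (β - α)) - ((g b).im + 2 * σ / R * β -
        ((g a).im + 2 * σ / R * α)) := by ring
    have e5 : 22 / 100 / R = 22 / 100 * (1 / R) := by ring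
    rw [e5] at ei
    obtain ⟨ei1, ei2⟩ := abs_le.1 ei
    have k1 : 2 / R * (Real.pi / 3) ≤ 2 / R * (σ * (β - α)) :=
      mul_le_mul_of_nonneg_left key.1 (by positivity)
    have k2 : 2 / R * (σ * (β - α)) ≤ 2 / R * Real.pi :=
      mul_le_mul_of_nonneg_left key.2 (by positivity)
    have k3 : 2 / R * (Real.pi / 3) = (2 * Real.pi / 3) * (1 / R) := by ring
    have k4 : 2 / R * Real.pi = (2 * Real.pi) * (1 / R) := by ring
    have k5 : (2 * 3.14 / 3) * (1 / R) ≤ (2 * Real.pi / 3) * (1 / R) := by (clear * - hpi1 hR; gcongr)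
    have k6 : (2 * Real.pi) * (1 / R) ≤ (2 * 3.15) * (1 / R) := by (clear * - hpi2 hR; gcongr)
    rw [e]
    constructor
    · have : 3 / 2 / R = 3 / 2 * (1 / R) := by ring
      rw [this]
      linarith only [hRinv, ei2, k1, k3, k5]
    · have : 7 / R = 7 * (1 / R) := by ring
      rw [this]
      linarith only [hRinv, ei1, k2, k3, k6]

/-- The logarithm of the derivative over a full sweep. -/
lemma full_der (S : Sweep R σ y₀ a b g V w) {l : ℝ} (hl : 20 ≤ l) (ha : w a = -(σ * l))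
    (hb : w b = σ * l) (hx : |(g a).re| ≤ l / 2) {L : ℝ → ℝ}
    (hL : ∀ s ∈ Icc a b, HasDerivWithinAt L (-(2 / (g s - (V s : ℂ)) ^ 2).re) (Icc a b) s) :
    |L b - L a| ≤ 58 / (R ^ 2 * y₀ ^ 2) + 12 / (R * l) := by
  have hR := S.hR
  have hy := S.y_pos
  have hσ := S.abs_σ
  obtain ⟨h1, h2, -, -⟩ := S.ends hl ha hb hx
  have hma := left_mem_Icc.2 S.hab
  have hmb := right_mem_Icc.2 S.hab
  have na : 0 < ‖g a - (w a : ℂ)‖ := hy.trans_le (S.im_le_norm hma _)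
  have nb : 0 < ‖g b - (w b : ℂ)‖ := hy.trans_le (S.im_le_norm hmb _)
  have la : l / 2 ≤ ‖g a - (w a : ℂ)‖ := by
    refine h1.trans ((le_abs_self _).trans ?_)
    rw [abs_mul, hσ, one_mul]
    exact Complex.abs_re_le_norm _
  have lb : l / 4 ≤ ‖g b - (w b : ℂ)‖ := by
    refine h2.trans ((neg_le_abs _).trans ?_)
    rw [abs_mul, hσ, one_mul]
    exact Complex.abs_re_le_norm _
  have hp := S.der_pot hL
  have qa : |2 * σ / R * (1 / (g a - (w a : ℂ))).re| ≤ 4 / (R * l) := by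
    rw [abs_mul, abs_div, abs_mul, hσ, abs_of_pos hR, abs_of_pos (by norm_num : (0:ℝ) < 2)]
    have : |(1 / (g a - (w a : ℂ))).re| ≤ 2 / l := by
      refine (Complex.abs_re_le_norm _).trans ?_
      rw [norm_div, norm_one, div_le_div_iff₀ na (by linarith only [hl])]
      linarith only [la]
    calc 2 * 1 / R * |(1 / (g a - (w a : ℂ))).re| ≤ 2 * 1 / R * (2 / l) := by (clear * - this hR; gcongr)
      _ = _ := by field_simp; norm_num
  have qb : |2 * σ / R * (1 / (g b - (w b : ℂ))).re| ≤ 8 / (R * l) := by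
    rw [abs_mul, abs_div, abs_mul, hσ, abs_of_pos hR, abs_of_pos (by norm_num : (0:ℝ) < 2)]
    have : |(1 / (g b - (w b : ℂ))).re| ≤ 4 / l := by
      refine (Complex.abs_re_le_norm _).trans ?_
      rw [norm_div, norm_one, div_le_div_iff₀ nb (by linarith only [hl])]
      linarith only [lb]
    calc 2 * 1 / R * |(1 / (g b - (w b : ℂ))).re| ≤ 2 * 1 / R * (4 / l) := by (clear * - this hR; gcongr)
      _ = _ := by field_simp; norm_num
  have e : L b - L a = ((L b + 2 * σ / R * (1 / (g b - (w b : ℂ))).re) -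
      (L a + 2 * σ / R * (1 / (g a - (w a : ℂ))).re)) -
      2 * σ / R * (1 / (g b - (w b : ℂ))).re + 2 * σ / R * (1 / (g a - (w a : ℂ))).re := by ring
  have e2 : 12 / (R * l) = 4 / (R * l) + 8 / (R * l) := by ring
  rw [e, e2]
  refine (abs_add_le _ _).trans ?_
  have := abs_sub ((L b + 2 * σ / R * (1 / (g b - (w b : ℂ))).re) -
      (L a + 2 * σ / R * (1 / (g a - (w a : ℂ))).re)) (2 * σ / R * (1 / (g b - (w b : ℂ))).re)
  linarith only [hp, qa, qb, this]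

/-- The logarithm of the derivative inside a sweep. -/
lemma inside_der (S : Sweep R σ y₀ a b g V w) {L : ℝ → ℝ}
    (hL : ∀ s ∈ Icc a b, HasDerivWithinAt L (-(2 / (g s - (V s : ℂ)) ^ 2).re) (Icc a b) s) :
    |L b - L a| ≤ 1 := by
  have hR := S.hR
  have hy := S.y_pos
  have hσ := S.abs_σ
  have hma := left_mem_Icc.2 S.hab
  have hmb := right_mem_Icc.2 S.hab
  have hp := S.der_pot hL
  have h6 : 200 ≤ R * y₀ := by
    have h5 := S.hy
    rw [div_le_iff₀ hR] at h5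
    linarith only [h5]
  have q : ∀ s ∈ Icc a b, |2 * σ / R * (1 / (g s - (w s : ℂ))).re| ≤ 1 / 100 := by
    intro s hs
    have ns : 0 < ‖g s - (w s : ℂ)‖ := hy.trans_le (S.im_le_norm hs _)
    rw [abs_mul, abs_div, abs_mul, hσ, abs_of_pos hR, abs_of_pos (by norm_num : (0:ℝ) < 2)]
    have : |(1 / (g s - (w s : ℂ))).re| ≤ 1 / y₀ := by
      refine (Complex.abs_re_le_norm _).trans ?_
      rw [norm_div, norm_one, div_le_div_iff₀ ns hy]
      have := S.im_le_norm hs (w s)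
      linarith only [this]
    calc 2 * 1 / R * |(1 / (g s - (w s : ℂ))).re| ≤ 2 * 1 / R * (1 / y₀) := by gcongr
      _ = 2 / (R * y₀) := by field_simp
      _ ≤ _ := by rw [div_le_div_iff₀ (by (clear * - hR hy; positivity)) (by norm_num)]; linarith only [h6]
  have q3 : 58 / (R ^ 2 * y₀ ^ 2) ≤ 1 / 100 := by
    rw [div_le_div_iff₀ (by positivity) (by norm_num)]
    nlinarith only [h6]
  have e : L b - L a = ((L b + 2 * σ / R * (1 / (g b - (w b : ℂ))).re) -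
      (L a + 2 * σ / R * (1 / (g a - (w a : ℂ))).re)) -
      2 * σ / R * (1 / (g b - (w b : ℂ))).re + 2 * σ / R * (1 / (g a - (w a : ℂ))).re := by ring
  rw [e]
  refine (abs_add_le _ _).trans ?_
  have h7 := abs_sub ((L b + 2 * σ / R * (1 / (g b - (w b : ℂ))).re) -
      (L a + 2 * σ / R * (1 / (g a - (w a : ℂ))).re)) (2 * σ / R * (1 / (g b - (w b : ℂ))).re)
  have h8 := q a hma
  have h9 := q b hmb
  linarith only [hp, q3, h7, h8, h9]

end Sweep

end Vale.Agent.P164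
end

section

/-!
# One sweep of the steering driver for the Loewner flow
-/

namespace Vale.Agent.P164

open Set Metric Filter Topology MeasureTheory
open scoped NNReal

variable {W : ℝ → ℝ} {z : ℂ} {s t : ℝ}

/-- Quantitative extension of the life time. -/
theorem dom_extend_quant (hW : Continuous W) (ht : 0 ≤ t) (h : z ∈ loewnerDomain W t) :
    z ∈ loewnerDomain W (t + ((gf W z t).im / 2) ^ 2 / 2) := by
  have hg := gf_sol ht h
  set c0 : ℝ := (gf W z t).im with hc0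
  have hc0pos : 0 < c0 := (hg.2 t ⟨ht, le_rfl⟩).1
  have hc : 0 < c0 / 2 := by (clear * - hc0pos; positivity)
  set w : ℂ := gf W z t - (W t : ℂ) with hw
  have hwim : w.im = c0 := by simp [hw, hc0]
  set δ : ℝ := (c0 / 2) ^ 2 / 2 with hδ
  have hδpos : 0 < δ := by positivity
  have hV : Continuous (fun u => W (t + u) - W t) := by (clear * - hW; fun_prop)
  obtain ⟨α, hα0, hα⟩ := exists_global
    (v := fun s x => 2 / (lift (c0 / 2) x - ((W (t + s) - W t : ℝ) : ℂ)))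
    (K := (2 / (c0 / 2) ^ 2).toNNReal) (L := (2 / (c0 / 2)).toNNReal) hδpos.le
    (fun s _ => lift_field_lip hc (W (t + s) - W t))
    (fun x => by
      refine ContinuousOn.div continuousOn_const ?_ ?_
      · exact continuousOn_const.sub (Complex.continuous_ofReal.comp hV).continuousOn
      · intro s _
        exact sub_ne_zero_of_im (hc.trans_le (lift_im _ x)) _)
    (fun s _ x => by
      rw [Real.coe_toNNReal _ (by (clear * - hc0pos; positivity))]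
      exact norm_field_le hc (lift_im _ x) (W (t + s) - W t)) w
  have him : ∀ s ∈ Icc 0 δ, c0 / 2 ≤ (α s).im := by
    intro s hs
    have h1 : ‖α s - α 0‖ ≤ (2 / (c0 / 2)) * ‖s - 0‖ := by
      refine (convex_Icc 0 δ).norm_image_sub_le_of_norm_hasDerivWithin_le
        (f' := fun s => 2 / (lift (c0 / 2) (α s) - ((W (t + s) - W t : ℝ) : ℂ)))
        (fun u hu => hα u hu) (fun u _ => norm_field_le hc (lift_im _ _) _)
        ⟨le_rfl, hδpos.le⟩ hs
    rw [hα0, sub_zero, Real.norm_eq_abs, abs_of_nonneg hs.1] at h1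
    have h2 := (Complex.abs_im_le_norm (α s - w)).trans h1
    rw [Complex.sub_im, hwim] at h2
    have h3 := neg_abs_le ((α s).im - c0)
    have h4 : 2 / (c0 / 2) * s ≤ c0 / 2 := by
      calc 2 / (c0 / 2) * s ≤ 2 / (c0 / 2) * δ :=
            mul_le_mul_of_nonneg_left hs.2 (by positivity)
        _ = c0 / 2 := by rw [hδ]; (clear * - hc0pos; field_simp)
    linarith
  have hsol : IsLoewnerSol (fun u => W (t + u) - W t) (gf W z t - (W t : ℂ)) δ α := by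
    refine ⟨hα0, fun s hs => ⟨hc.trans_le (him s hs), ?_⟩⟩
    have := hα s hs
    rwa [lift_eq (him s hs)] at this
  exact ⟨_, hg.concat ht hδpos.le hsol⟩

/-- A point stays alive as long as the height is bounded below. -/
theorem dom_of_im_ge (hW : Continuous W) {a b c : ℝ} (ha : 0 ≤ a) (hab : a ≤ b) (hc : 0 < c)
    (h : z ∈ loewnerDomain W a)
    (hi : ∀ s ∈ Icc a b, z ∈ loewnerDomain W s → c ≤ (gf W z s).im) :
    z ∈ loewnerDomain W b := by
  set δ : ℝ := (c / 2) ^ 2 / 2 with hδ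
  have hδpos : 0 < δ := by positivity
  have key : ∀ n : ℕ, z ∈ loewnerDomain W (min b (a + n * δ)) := by
    intro n
    induction n with
    | zero =>
      have : min b (a + ((0 : ℕ) : ℝ) * δ) = a := by simp only [CharP.cast_eq_zero, zero_mul, add_zero, hab, inf_of_le_right]
      rwa [this]
    | succ n ih =>
      have h0 : 0 ≤ min b (a + n * δ) :=
        le_min (ha.trans hab) (by (clear * - ha hc; positivity))
      have h1 := hi (min b (a + n * δ)) ⟨le_min hab (by nlinarith only [hδ]),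
        min_le_left _ _⟩ ih
      have h2 := dom_extend_quant hW h0 ih
      refine dom_mono ?_ h2
      have h3 : δ ≤ ((gf W z (min b (a + n * δ))).im / 2) ^ 2 / 2 := by
        rw [hδ]
        gcongr
      have h4 : min b (a + ((n + 1 : ℕ) : ℝ) * δ) ≤ min b (a + n * δ) + δ := by
        push_cast
        rcases le_total b (a + n * δ) with h5 | h5
        · rw [min_eq_left h5]
          exact (min_le_left _ _).trans (by linarith only [hδpos])
        · rw [min_eq_right h5]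
          exact (min_le_right _ _).trans (by linarith only [])
      linarith only [h3, h4]
  obtain ⟨n, hn⟩ := exists_nat_ge ((b - a) / δ)
  have h1 : b ≤ a + n * δ := by
    rw [div_le_iff₀ hδpos] at hn
    linarith only [hn]
  have := key n
  rwa [min_eq_left h1] at this

/-- `log |g'|`. -/
noncomputable def zigL (W : ℝ → ℝ) (z : ℂ) (t : ℝ) : ℝ := Real.log (Zf W z t).im - Uf W z t

theorem zigL_hasDeriv (hW : Continuous W) (h : z ∈ loewnerDomain W t) (hs : s ∈ Icc 0 t) :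
    HasDerivWithinAt (zigL W z) (-(2 / (gf W z s - (W s : ℂ)) ^ 2).re) (Icc 0 t) s := by
  have h1 := (logY_hasDeriv h hs).fun_sub (Uf_hasDeriv hW h hs)
  have h2 : -(2 / ‖Zf W z s‖ ^ 2) - -rate (Zf W z s) = -(2 / (gf W z s - (W s : ℂ)) ^ 2).re := by
    rw [← Zf_eq, re_two_div_sq (Zf_ne_zero hs.1 (dom_mono hs.2 h)), rate_eq]
    ring
  rw [h2] at h1
  exact h1

variable {V w : ℝ → ℝ} {R σ a b : ℝ}

/-- The flow during a sweep. -/
theorem flow_sweep (hV : Continuous V) (hR : 0 < R) (hσ : σ ^ 2 = 1) (ha : 0 ≤ a)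
    (hab : a ≤ b) (hlin : ∀ s ∈ Icc a b, w s = w a + σ * R * (s - a))
    (hVw : ∀ s ∈ Icc a b, |V s - w s| ≤ 1 / R) (hz : z ∈ loewnerDomain V a)
    (hy : 400 / R ≤ (gf V z a).im) :
    z ∈ loewnerDomain V b ∧ Sweep R σ ((gf V z a).im / 2) a b (gf V z) V w ∧
      ∀ s ∈ Icc a b, (gf V z s).im ≤ (gf V z a).im ∧ (gf V z a).im - 29 / R ≤ (gf V z s).im := by
  set y := (gf V z a).im with hyd
  have hy0 : 0 < y := lt_of_lt_of_le (by positivity) hy
  -- a sweep on `[a, s]` as soon as the point is alive with height at least `y / 2` at time `s`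
  have mk : ∀ s ∈ Icc a b, z ∈ loewnerDomain V s → y / 2 ≤ (gf V z s).im →
      Sweep R σ (y / 2) a s (gf V z) V w := by
    intro s hs hzs hys
    have h0s : 0 ≤ s := ha.trans hs.1
    refine ⟨hR, hσ, hs.1, ?_, ?_, fun u hu => hlin u ⟨hu.1, hu.2.trans hs.2⟩, ?_,
      fun u hu => hVw u ⟨hu.1, hu.2.trans hs.2⟩⟩
    · have : 200 / R = 400 / R / 2 := by ring
      rw [this]; linarith only [hy]
    · intro u hu
      have h1 := gf_hasDeriv hzs (s := u) ⟨ha.trans hu.1, hu.2⟩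
      rw [Zf_eq] at h1
      exact h1.mono (Icc_subset_Icc_left ha)
    · intro u hu
      refine hys.trans ?_
      have h1 := im_le_of_le (ha.trans hu.1) hu.2 hzs
      rwa [Zf_im_eq, Zf_im_eq] at h1
  have anti : ∀ s ∈ Icc a b, z ∈ loewnerDomain V s → (gf V z s).im ≤ y := by
    intro s hs hzs
    have h1 := im_le_of_le ha hs.1 hzs
    rwa [Zf_im_eq, Zf_im_eq] at h1
  have low : ∀ s ∈ Icc a b, z ∈ loewnerDomain V s → y / 2 ≤ (gf V z s).im := by
    intro s hs hzs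
    by_contra hc
    push Not at hc
    have h0s : 0 ≤ s := ha.trans hs.1
    have hcont : ContinuousOn (fun u => (gf V z u).im) (Icc a s) :=
      (Complex.continuous_im.comp_continuousOn (gf_cont h0s hzs)).mono (Icc_subset_Icc_left ha)
    have hmem : y / 2 ∈ Icc (gf V z s).im (gf V z a).im := ⟨hc.le, by linarith only [hy0]⟩
    obtain ⟨u, hu, hu2⟩ := intermediate_value_Icc' hs.1 hcont hmem
    have hub : u ∈ Icc a b := ⟨hu.1, hu.2.trans hs.2⟩
    have hzu := dom_mono hu.2 hzs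
    have hu2' : (gf V z u).im = y / 2 := hu2
    have S := mk u hub hzu hu2'.ge
    have h1 := S.im_drop (fun v hv => by
      have := anti v ⟨hv.1, hv.2.trans hub.2⟩ (dom_mono hv.2 hzu)
      linarith only [this])
    rw [hu2', ← hyd] at h1
    have h2 := (abs_le.1 h1).1
    have h3 : 29 / R = 29 / 400 * (400 / R) := by ring
    rw [h3] at h2
    linarith only [hy, hy0, h2]
  have hzb : z ∈ loewnerDomain V b := dom_of_im_ge hV ha hab (by (clear * - hy0; positivity)) hz low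
  refine ⟨hzb, mk b ⟨hab, le_rfl⟩ hzb (low b ⟨hab, le_rfl⟩ hzb), fun s hs => ?_⟩
  have hzs := dom_mono hs.2 hzb
  refine ⟨anti s hs hzs, ?_⟩
  have S := mk s hs hzs (low s hs hzs)
  have h1 := S.im_drop (fun v hv => by
      have := anti v ⟨hv.1, hv.2.trans hs.2⟩ (dom_mono hv.2 hzs)
      linarith only [this])
  have h2 := (abs_le.1 h1).1
  linarith only [h2]

end Vale.Agent.P164
end

section

/-!
# X-A2. Auxiliary lemmas: the coefficients of the field are band functions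
-/

namespace Vale.Agent.P164

open Set Metric Filter Topology MeasureTheory ProbabilityTheory
open scoped NNReal ENNReal

/-- A bounded Lipschitz function vanishing on `U ≤ p`, times a function which is bounded and
Lipschitz on `p ≤ U`. -/
lemma FieldXAux_mul_bdd_lip {g E : ℝ → ℝ} {C L B K p : ℝ} (hC : ∀ U, |g U| ≤ C)
    (hL : ∀ U V, |g U - g V| ≤ L * |U - V|) (hp : ∀ U, U ≤ p → g U = 0)
    (hB : ∀ U, p ≤ U → |E U| ≤ B) (hK : ∀ U V, p ≤ U → p ≤ V → |E U - E V| ≤ K * |U - V|) :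
    (∃ C', ∀ U, |g U * E U| ≤ C') ∧ ∃ C', ∀ U V, |g U * E U - g V * E V| ≤ C' * |U - V| := by
  have hC0 : 0 ≤ C := (abs_nonneg _).trans (hC 0)
  have hgE : ∀ U, g U * E U = g U * E (max p U) := by
    intro U
    rcases le_total U p with h | h
    · rw [hp U h, zero_mul, zero_mul]
    · rw [max_eq_right h]
  have hB' : ∀ U, |E (max p U)| ≤ B := fun U => hB _ (le_max_left _ _)
  have hK' : ∀ U V, |E (max p U) - E (max p V)| ≤ |K| * |U - V| := by
    intro U V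
    refine (hK _ _ (le_max_left _ _) (le_max_left _ _)).trans ?_
    have h1 := abs_max_sub_max_le_max p U p V
    rw [sub_self, abs_zero, max_eq_right (abs_nonneg (U - V))] at h1
    exact mul_le_mul (le_abs_self K) h1 (abs_nonneg _) (abs_nonneg _)
  refine ⟨⟨C * B, fun U => ?_⟩, ⟨C * |K| + L * B, fun U V => ?_⟩⟩
  · rw [hgE, abs_mul]
    exact mul_le_mul (hC U) (hB' U) (abs_nonneg _) hC0
  · rw [hgE U, hgE V]
    have h1 : g U * E (max p U) - g V * E (max p V)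
        = g U * (E (max p U) - E (max p V)) + (g U - g V) * E (max p V) := by ring
    rw [h1]
    refine (abs_add_le _ _).trans ?_
    rw [abs_mul, abs_mul, add_mul]
    refine add_le_add ?_ ?_
    · rw [mul_assoc]
      exact mul_le_mul (hC U) (hK' U V) (abs_nonneg _) hC0
    · calc |g U - g V| * |E (max p V)| ≤ (L * |U - V|) * B :=
            mul_le_mul (hL U V) (hB' V) (abs_nonneg _) ((abs_nonneg _).trans (hL U V))
        _ = L * B * |U - V| := by ring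

/-- `1 - ee (U - a)` is bounded and Lipschitz and vanishes for `U ≤ a`. -/
lemma FieldXAux_one_sub_ee (a : ℝ) : (∀ U, |1 - ee (U - a)| ≤ 1) ∧
    (∀ U V, |(1 - ee (U - a)) - (1 - ee (V - a))| ≤ 3 / 2 * |U - V|) ∧
    (∀ U, U ≤ a → 1 - ee (U - a) = 0) := by
  refine ⟨fun U => ?_, fun U V => ?_, fun U hU => ?_⟩
  · have h0 := ee_nonneg (U - a)
    have h1 := ee_le_one (U - a)
    rw [abs_le]
    constructor <;> linarith only [h0, h1]
  · have h1 : (1 - ee (U - a)) - (1 - ee (V - a)) = -(ee (U - a) - ee (V - a)) := by ring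
    rw [h1, abs_neg]
    have h2 := bands_ee_lip (U - a) (V - a)
    rwa [show U - a - (V - a) = U - V by ring] at h2
  · rw [ee_of_nonpos (by linarith only [hU]), sub_self]

/-- `phi (U - a)` is bounded and Lipschitz and vanishes for `U ≤ a`. -/
lemma FieldXAux_phi (a : ℝ) : (∀ U, |phi (U - a)| ≤ 3 / 2) ∧
    (∀ U V, |phi (U - a) - phi (V - a)| ≤ 6 * |U - V|) ∧
    (∀ U, U ≤ a → phi (U - a) = 0) := by
  refine ⟨fun U => bands_phi_abs_le _, fun U V => ?_, fun U hU => ?_⟩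
  · have h2 := phi_lip (U - a) (V - a)
    rwa [show U - a - (V - a) = U - V by ring] at h2
  · exact phi_eq_zero (Or.inl (by linarith only [hU]))

/-- Product of two bounded Lipschitz functions. -/
lemma FieldXAux_mul {f g : ℝ → ℝ} {C L C' L' : ℝ} (hC : ∀ U, |f U| ≤ C)
    (hL : ∀ U V, |f U - f V| ≤ L * |U - V|) (hC' : ∀ U, |g U| ≤ C')
    (hL' : ∀ U V, |g U - g V| ≤ L' * |U - V|) :
    (∀ U, |f U * g U| ≤ C * C') ∧
      ∀ U V, |f U * g U - f V * g V| ≤ (C * L' + L * C') * |U - V| := by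
  have hC0 : 0 ≤ C := (abs_nonneg _).trans (hC 0)
  refine ⟨fun U => ?_, fun U V => ?_⟩
  · rw [abs_mul]
    exact mul_le_mul (hC U) (hC' U) (abs_nonneg _) hC0
  · have h1 : f U * g U - f V * g V = f U * (g U - g V) + (f U - f V) * g V := by ring
    rw [h1]
    refine (abs_add_le _ _).trans ?_
    rw [abs_mul, abs_mul, add_mul]
    refine add_le_add ?_ ?_
    · rw [mul_assoc]
      exact mul_le_mul (hC U) (hL' U V) (abs_nonneg _) hC0
    · calc |f U - f V| * |g V| ≤ (L * |U - V|) * C' :=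
            mul_le_mul (hL U V) (hC' V) (abs_nonneg _) ((abs_nonneg _).trans (hL U V))
        _ = L * C' * |U - V| := by ring

/-- The exponential `exp (-x h(U))` of a function with `h ≥ h₀` and `|h U - h V| ≤ |U - V|` on
`p ≤ U`. -/
lemma FieldXAux_exp {h : ℝ → ℝ} {x p h₀ : ℝ} (hx : 0 ≤ x) (h1 : ∀ U, p ≤ U → h₀ ≤ h U)
    (h2 : ∀ U V, |h U - h V| ≤ |U - V|) :
    (∀ U, p ≤ U → |Real.exp (-x * h U)| ≤ Real.exp (-x * h₀)) ∧
      ∀ U V, p ≤ U → p ≤ V → |Real.exp (-x * h U) - Real.exp (-x * h V)| ≤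
        Real.exp (-x * h₀) * x * |U - V| := by
  have h3 : ∀ U, p ≤ U → -x * h U ≤ -x * h₀ := fun U hU => by
    have := mul_le_mul_of_nonneg_left (h1 U hU) hx
    linarith
  refine ⟨fun U hU => ?_, fun U V hU hV => ?_⟩
  · rw [abs_of_pos (Real.exp_pos _)]
    exact Real.exp_le_exp.2 (h3 U hU)
  · refine (bands_exp_lip_of_le (h3 U hU) (h3 V hV)).trans ?_
    rw [mul_assoc]
    refine mul_le_mul_of_nonneg_left ?_ (Real.exp_pos _).le
    have h4 : -x * h U - -x * h V = -x * (h U - h V) := by ring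
    rw [h4, abs_mul, abs_neg, abs_of_nonneg hx]
    exact mul_le_mul_of_nonneg_left (h2 U V) hx

lemma FieldXAux_ee_continuous : Continuous ee :=
  continuous_iff_continuousAt.2 fun U => (ee_hasDeriv U).continuousAt

lemma FieldXAux_mX_hasDeriv (u : ℝ) : HasDerivAt mX (ee u) u :=
  intervalIntegral.integral_hasDerivAt_right
    (FieldXAux_ee_continuous.intervalIntegrable _ _)
    FieldXAux_ee_continuous.stronglyMeasurable.stronglyMeasurableAtFilter
    FieldXAux_ee_continuous.continuousAt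

lemma FieldXAux_mX_mono : Monotone mX :=
  monotone_of_hasDerivAt_nonneg (f' := ee) FieldXAux_mX_hasDeriv ee_nonneg

lemma FieldXAux_mX_lip (u v : ℝ) : |mX u - mX v| ≤ |u - v| := by
  have h := Convex.norm_image_sub_le_of_norm_hasDerivWithin_le (f := mX) (f' := ee)
    (C := 1) (s := univ) (fun x _ => (FieldXAux_mX_hasDeriv x).hasDerivWithinAt)
    (fun x _ => by
      rw [Real.norm_eq_abs]
      exact bands_ee_abs_le x) convex_univ (mem_univ v) (mem_univ u)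
  rwa [Real.norm_eq_abs, Real.norm_eq_abs, one_mul] at h

lemma FieldXAux_hf1_deriv (κ L ε U : ℝ) : HasDerivAt (hf1 κ L ε) (hf1' κ L ε U) U := by
  have d1 : HasDerivAt (fun U => U - Real.log ε) 1 U := (hasDerivAt_id U).sub_const _
  have d2 := (ee_hasDeriv (U - Real.log ε)).comp U d1
  have d3 : HasDerivAt (fun U => -xx κ * (U - Real.log L)) (-xx κ) U := by
    have := ((hasDerivAt_id U).sub_const (Real.log L)).const_mul (-xx κ)
    simpa only [neg_mul, id_eq, mul_one] using this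
  have d4 := (d2.const_sub 1).mul d3.exp
  refine d4.congr_deriv ?_
  simp only [Function.comp, hf1']
  ring

lemma FieldXAux_hf2_deriv (κ L ε U : ℝ) : HasDerivAt (hf2 κ L ε) (hf2' κ L ε U) U := by
  have d1 : HasDerivAt (fun U => U - Real.log ε + 1) 1 U :=
    ((hasDerivAt_id U).sub_const _).add_const _
  have d2 := (ee_hasDeriv (U - Real.log ε + 1)).comp U d1
  have d0 : HasDerivAt (fun U => U - Real.log L) 1 U := (hasDerivAt_id U).sub_const _
  have d3 := ((FieldXAux_mX_hasDeriv (U - Real.log L)).comp U d0).const_mul (-xp κ)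
  have d4 := (d2.const_sub 1).mul d3.exp
  refine d4.congr_deriv ?_
  simp only [Function.comp, hf2']
  ring

lemma FieldXAux_xp_nonneg {κ : ℝ} (h8 : κ < 8) : 0 ≤ xp κ := by
  have := xx_pos h8
  unfold xp
  linarith

lemma FieldXAux_band1 {κ : ℝ} (h8 : κ < 8) (L ε : ℝ) :
    (∃ C, ∀ U, |hf1 κ L ε U| ≤ C) ∧ (∃ C, ∀ U, |hf1' κ L ε U| ≤ C) ∧
      ∃ C, ∀ U V, |hf1' κ L ε U - hf1' κ L ε V| ≤ C * |U - V| := by
  obtain ⟨e1, e2⟩ := FieldXAux_exp (h := fun U => U - Real.log L) (x := xx κ)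
    (p := Real.log ε) (h₀ := Real.log ε - Real.log L) (xx_pos h8).le
    (fun U hU => by simpa only [tsub_le_iff_right, sub_add_cancel] using hU) (fun U V => by
      rw [show U - Real.log L - (V - Real.log L) = U - V by ring])
  obtain ⟨a1, a2, a3⟩ := FieldXAux_one_sub_ee (Real.log ε)
  obtain ⟨b1, b2, b3⟩ := FieldXAux_phi (Real.log ε)
  obtain ⟨m1, m2⟩ := FieldXAux_mul_bdd_lip a1 a2 a3 e1 e2
  obtain ⟨n1, n2⟩ := FieldXAux_mul_bdd_lip b1 b2 b3 e1 e2
  exact ⟨m1, bands_exists_sub_bdd n1 (bands_exists_smul_bdd (xx κ) m1),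
    bands_exists_sub_lip n2 (bands_exists_smul_lip (xx κ) m2)⟩

lemma FieldXAux_band2 {κ : ℝ} (h8 : κ < 8) (L ε : ℝ) :
    (∃ C, ∀ U, |hf2 κ L ε U| ≤ C) ∧ (∃ C, ∀ U, |hf2' κ L ε U| ≤ C) ∧
      ∃ C, ∀ U V, |hf2' κ L ε U - hf2' κ L ε V| ≤ C * |U - V| := by
  obtain ⟨e1, e2⟩ := FieldXAux_exp (h := fun U => mX (U - Real.log L)) (x := xp κ)
    (p := Real.log ε - 1) (h₀ := mX (Real.log ε - 1 - Real.log L)) (FieldXAux_xp_nonneg h8)
    (fun U hU => FieldXAux_mX_mono (by linarith only [hU])) (fun U V => by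
      have := FieldXAux_mX_lip (U - Real.log L) (V - Real.log L)
      rwa [show U - Real.log L - (V - Real.log L) = U - V by ring] at this)
  have sh : ∀ U, U - Real.log ε + 1 = U - (Real.log ε - 1) := fun U => by ring
  obtain ⟨a1, a2, a3⟩ := FieldXAux_one_sub_ee (Real.log ε - 1)
  obtain ⟨b1, b2, b3⟩ := FieldXAux_phi (Real.log ε - 1)
  obtain ⟨c1, c2⟩ := FieldXAux_mul (f := fun U => ee (U - Real.log L))
    (fun U => bands_ee_abs_le _) (fun U V => by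
      have h2 := bands_ee_lip (U - Real.log L) (V - Real.log L)
      rwa [show U - Real.log L - (V - Real.log L) = U - V by ring] at h2) a1 a2
  obtain ⟨m1, m2⟩ := FieldXAux_mul_bdd_lip a1 a2 a3 e1 e2
  obtain ⟨n1, n2⟩ := FieldXAux_mul_bdd_lip b1 b2 b3 e1 e2
  obtain ⟨k1, k2⟩ := FieldXAux_mul_bdd_lip c1 c2 (fun U hU => by
    rw [a3 U hU, mul_zero]) e1 e2
  have q1 : ∀ U, hf2 κ L ε U = (1 - ee (U - (Real.log ε - 1))) *
      Real.exp (-xp κ * mX (U - Real.log L)) := fun U => by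
    rw [hf2, sh]
  have q2 : ∀ U, hf2' κ L ε U = phi (U - (Real.log ε - 1)) *
      Real.exp (-xp κ * mX (U - Real.log L)) - xp κ *
      (ee (U - Real.log L) * (1 - ee (U - (Real.log ε - 1))) *
        Real.exp (-xp κ * mX (U - Real.log L))) := fun U => by
    rw [hf2', sh]
    ring
  simp only [q1, q2]
  exact ⟨m1, bands_exists_sub_bdd n1 (bands_exists_smul_bdd (xp κ) k1),
    bands_exists_sub_lip n2 (bands_exists_smul_lip (xp κ) k2)⟩

lemma FieldXAux_hf2_continuous (κ L ε : ℝ) : Continuous (hf2 κ L ε) :=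
  continuous_iff_continuousAt.2 fun U => (FieldXAux_hf2_deriv κ L ε U).continuousAt

lemma FieldXAux_hf1_nonneg (κ L ε U : ℝ) : 0 ≤ hf1 κ L ε U :=
  mul_nonneg (sub_nonneg.2 (ee_le_one _)) (Real.exp_pos _).le

lemma FieldXAux_hf2_nonneg (κ L ε U : ℝ) : 0 ≤ hf2 κ L ε U :=
  mul_nonneg (sub_nonneg.2 (ee_le_one _)) (Real.exp_pos _).le

end Vale.Agent.P164
end

section

/-!
# X-B1a. Relative jets

`RJ C M δ m η f f' a b c` says `f' = f (1 - η a + η²/2 b + δ c + O(C err))` with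
`|a| ≤ C M`, `|b|, |c| ≤ C M²`, `err = m³M³ + δ m M³ + δ²M⁴`.
-/

namespace Vale.Agent.P164

open Set Metric Filter Topology MeasureTheory ProbabilityTheory
open scoped NNReal ENNReal

/-- Relative jet. -/
structure RJ (C M δ m η f f' a b c : ℝ) : Prop where
  ha : |a| ≤ C * M
  hb : |b| ≤ C * M ^ 2
  hc : |c| ≤ C * M ^ 2
  he : |f' - f * (1 - η * a + η ^ 2 / 2 * b + δ * c)| ≤
    C * |f| * (m ^ 3 * M ^ 3 + δ * m * M ^ 3 + δ ^ 2 * M ^ 4)

/-- Elementary consequences of the size conditions. -/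
theorem Jet_small {M δ m : ℝ} (hM : 0 ≤ M) (hδ : 0 ≤ δ) (hm : 0 ≤ m) (h1 : m * M ≤ 1)
    (h2 : δ * M ^ 2 ≤ 1) :
    0 ≤ m ^ 3 * M ^ 3 ∧ 0 ≤ δ * m * M ^ 3 ∧ 0 ≤ δ ^ 2 * M ^ 4 ∧
      m ^ 3 * M ^ 3 + δ * m * M ^ 3 + δ ^ 2 * M ^ 4 ≤ 3 ∧
      m ^ 4 * M ^ 4 ≤ m ^ 3 * M ^ 3 ∧ m ^ 2 * δ * M ^ 4 ≤ δ * m * M ^ 3 := by
  have hmM : 0 ≤ m * M := mul_nonneg hm hM
  have hd : 0 ≤ δ * M ^ 2 := by positivity
  have h3 : 0 ≤ m ^ 3 * M ^ 3 := by positivity
  have h4 : 0 ≤ δ * m * M ^ 3 := by positivity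
  have h5 : 0 ≤ δ ^ 2 * M ^ 4 := by (clear * -; positivity)
  refine ⟨h3, h4, h5, ?_, ?_, ?_⟩
  · have e3 : m ^ 3 * M ^ 3 ≤ 1 := by
      have : (m * M) ^ 3 ≤ 1 := pow_le_one₀ hmM h1
      calc _ = (m * M) ^ 3 := by ring
        _ ≤ 1 := this
    have e4 : δ * m * M ^ 3 ≤ 1 := by
      have : (δ * M ^ 2) * (m * M) ≤ 1 * 1 := mul_le_mul h2 h1 hmM zero_le_one
      calc _ = (δ * M ^ 2) * (m * M) := by ring
        _ ≤ 1 * 1 := this
        _ = 1 := by ring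
    have e5 : δ ^ 2 * M ^ 4 ≤ 1 := by
      have : (δ * M ^ 2) ^ 2 ≤ 1 := pow_le_one₀ hd h2
      calc _ = (δ * M ^ 2) ^ 2 := by ring
        _ ≤ 1 := this
    linarith only [e3, e4, e5]
  · calc m ^ 4 * M ^ 4 = (m ^ 3 * M ^ 3) * (m * M) := by ring
      _ ≤ (m ^ 3 * M ^ 3) * 1 := mul_le_mul_of_nonneg_left h1 h3
      _ = _ := by ring
  · calc m ^ 2 * δ * M ^ 4 = (δ * m * M ^ 3) * (m * M) := by ring
      _ ≤ (δ * m * M ^ 3) * 1 := mul_le_mul_of_nonneg_left h1 h4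
      _ = _ := by ring

/-- Size of the jet factor. -/
theorem Jet_factor {C M δ m η f f' a b c : ℝ} (hC : 0 ≤ C) (hM : 0 ≤ M) (hδ : 0 ≤ δ)
    (hη : |η| ≤ m) (h1 : m * M ≤ 1) (h2 : δ * M ^ 2 ≤ 1) (h : RJ C M δ m η f f' a b c) :
    |η * a| ≤ C * (m * M) ∧ |η ^ 2 / 2 * b| ≤ C * (m ^ 2 * M ^ 2) / 2 ∧ |δ * c| ≤ C * (δ * M ^ 2) ∧
      |1 - η * a + η ^ 2 / 2 * b + δ * c| ≤ 1 + 3 * C ∧ |f'| ≤ |f| * (1 + 6 * C) := by
  have hm : 0 ≤ m := (abs_nonneg η).trans hη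
  obtain ⟨s3, s4, s5, s6, -, -⟩ := Jet_small hM hδ hm h1 h2
  have k1 : |η * a| ≤ C * (m * M) := by
    rw [abs_mul]
    calc |η| * |a| ≤ m * (C * M) := mul_le_mul hη h.ha (abs_nonneg _) hm
      _ = _ := by ring
  have hη2 : η ^ 2 ≤ m ^ 2 := by
    rw [← sq_abs]
    exact pow_le_pow_left₀ (abs_nonneg _) hη 2
  have k2 : |η ^ 2 / 2 * b| ≤ C * (m ^ 2 * M ^ 2) / 2 := by
    rw [abs_mul, abs_of_nonneg (by (clear * -; positivity) : 0 ≤ η ^ 2 / 2)]
    calc η ^ 2 / 2 * |b| ≤ m ^ 2 / 2 * (C * M ^ 2) :=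
          mul_le_mul (by linarith only [hη2]) h.hb (abs_nonneg _) (by (clear * -; positivity))
      _ = _ := by ring
  have k3 : |δ * c| ≤ C * (δ * M ^ 2) := by
    rw [abs_mul, abs_of_nonneg hδ]
    calc δ * |c| ≤ δ * (C * M ^ 2) := mul_le_mul_of_nonneg_left h.hc hδ
      _ = _ := by ring
  have hmM : 0 ≤ m * M := mul_nonneg hm hM
  have j1 : C * (m * M) ≤ C := by
    calc _ ≤ C * 1 := mul_le_mul_of_nonneg_left h1 hC
      _ = C := mul_one _
  have j2 : C * (m ^ 2 * M ^ 2) ≤ C := by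
    have : (m * M) ^ 2 ≤ 1 := pow_le_one₀ hmM h1
    calc C * (m ^ 2 * M ^ 2) = C * (m * M) ^ 2 := by ring
      _ ≤ C * 1 := mul_le_mul_of_nonneg_left this hC
      _ = C := mul_one _
  have j3 : C * (δ * M ^ 2) ≤ C := by
    calc _ ≤ C * 1 := mul_le_mul_of_nonneg_left h2 hC
      _ = C := mul_one _
  have k4 : |1 - η * a + η ^ 2 / 2 * b + δ * c| ≤ 1 + 3 * C := by
    obtain ⟨l1, u1⟩ := abs_le.1 k1
    obtain ⟨l2, u2⟩ := abs_le.1 k2
    obtain ⟨l3, u3⟩ := abs_le.1 k3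
    rw [abs_le]
    constructor <;> linarith only [hC, j1, j2, j3, l1, u2, u3, u1, l2, l3]
  refine ⟨k1, k2, k3, k4, ?_⟩
  have e1 : |f'| ≤ |f' - f * (1 - η * a + η ^ 2 / 2 * b + δ * c)|
      + |f * (1 - η * a + η ^ 2 / 2 * b + δ * c)| := by
    have := abs_add_le (f' - f * (1 - η * a + η ^ 2 / 2 * b + δ * c))
      (f * (1 - η * a + η ^ 2 / 2 * b + δ * c))
    simpa only [abs_mul, ge_iff_le, sub_add_cancel] using this
  have e2 : C * |f| * (m ^ 3 * M ^ 3 + δ * m * M ^ 3 + δ ^ 2 * M ^ 4) ≤ C * |f| * 3 :=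
    mul_le_mul_of_nonneg_left s6 (mul_nonneg hC (abs_nonneg _))
  have e3 : |f * (1 - η * a + η ^ 2 / 2 * b + δ * c)| ≤ |f| * (1 + 3 * C) := by
    rw [abs_mul]
    exact mul_le_mul_of_nonneg_left k4 (abs_nonneg _)
  have e4 := h.he
  linarith only [e1, e2, e3, e4]

theorem RJ.mul {C₁ C₂ : ℝ} (h1 : 0 ≤ C₁) (h2 : 0 ≤ C₂) : ∃ C : ℝ, 0 ≤ C ∧
    ∀ {M δ m η f f' a b c g g' a' b' c' : ℝ} (_ : 0 ≤ M) (_ : 0 ≤ δ) (_ : |η| ≤ m)
      (_ : m * M ≤ 1) (_ : δ * M ^ 2 ≤ 1) (_ : RJ C₁ M δ m η f f' a b c)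
      (_ : RJ C₂ M δ m η g g' a' b' c'),
      RJ C M δ m η (f * g) (f' * g') (a + a') (b + b' + 2 * a * a') (c + c') := by
  have h12 : 0 ≤ C₁ * C₂ := mul_nonneg h1 h2
  refine ⟨C₁ + C₂ + 12 * (C₁ * C₂), by positivity, ?_⟩
  intro M δ m η f f' a b c g g' a' b' c' hM hδ hη hmM1 hδM hf hg
  have hm : 0 ≤ m := (abs_nonneg η).trans hη
  obtain ⟨s3, s4, s5, s6, s7, s8⟩ := Jet_small hM hδ hm hmM1 hδM
  obtain ⟨k1, k2, k3, k4, k5⟩ := Jet_factor h1 hM hδ hη hmM1 hδM hf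
  obtain ⟨k1', k2', k3', k4', k5'⟩ := Jet_factor h2 hM hδ hη hmM1 hδM hg
  have hM2 : 0 ≤ M ^ 2 := sq_nonneg M
  have aux1 : 0 ≤ C₁ * C₂ * M := mul_nonneg h12 hM
  have aux2 : 0 ≤ C₁ * C₂ * M ^ 2 := mul_nonneg h12 hM2
  refine ⟨?_, ?_, ?_, ?_⟩
  · have := abs_add_le a a'
    have e1 := hf.ha
    have e2 := hg.ha
    linarith only [aux1, this, e1, e2]
  · have e0 := abs_add_three b b' (2 * a * a')
    have e1 := hf.hb
    have e2 := hg.hb
    have e3 : |2 * a * a'| ≤ 2 * (C₁ * C₂) * M ^ 2 := by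
      rw [abs_mul, abs_mul, abs_of_pos (by norm_num : (0 : ℝ) < 2)]
      calc 2 * |a| * |a'| ≤ 2 * (C₁ * M) * (C₂ * M) := by
            have := hf.ha
            have := hg.ha
            (clear h2 h12 hδ hη hmM1 hδM hm s3 s4 s5 s6 s7 s8 k1 k2 k3 k4 k5 k1' k2' k3' k4' k5' hM2 aux1 aux2 e0 e1 e2; gcongr)
        _ = _ := by ring
    linarith only [aux2, e0, e1, e2, e3]
  · have := abs_add_le c c'
    have e1 := hf.hc
    have e2 := hg.hc
    linarith only [aux2, this, e1, e2]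
  · set x := η * a with hx
    set y := η ^ 2 / 2 * b with hy
    set z := δ * c with hz
    set x' := η * a' with hx'
    set y' := η ^ 2 / 2 * b' with hy'
    set z' := δ * c' with hz'
    set err := m ^ 3 * M ^ 3 + δ * m * M ^ 3 + δ ^ 2 * M ^ 4 with herr
    have herr0 : 0 ≤ err := by (clear * - hm hM hδ; positivity)
    have key : f' * g' - f * g * (1 - η * (a + a') + η ^ 2 / 2 * (b + b' + 2 * a * a')
          + δ * (c + c'))
        = (f' - f * (1 - x + y + z)) * g' + f * (1 - x + y + z) * (g' - g * (1 - x' + y' + z'))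
          + f * g * (y * y' + y * z' + z * y' + z * z' - x * y' - x * z' - y * x' - z * x') := by
      rw [hx, hy, hz, hx', hy', hz']
      ring
    have hprod : ∀ {u v p q : ℝ}, |u| ≤ p → |v| ≤ q → |u * v| ≤ p * q := by
      intro u v p q hu hv
      rw [abs_mul]
      exact mul_le_mul hu hv (abs_nonneg _) ((abs_nonneg _).trans hu)
    have b1 := hprod k2 k2'
    have b2 := hprod k2 k3'
    have b3 := hprod k3 k2'
    have b4 := hprod k3 k3'
    have b5 := hprod k1 k2'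
    have b6 := hprod k1 k3'
    have b7 := hprod k2 k1'
    have b8 := hprod k3 k1'
    have hcross : |y * y' + y * z' + z * y' + z * z' - x * y' - x * z' - y * x' - z * x'|
        ≤ 3 * (C₁ * C₂) * err := by
      obtain ⟨l1, u1⟩ := abs_le.1 b1
      obtain ⟨l2, u2⟩ := abs_le.1 b2
      obtain ⟨l3, u3⟩ := abs_le.1 b3
      obtain ⟨l4, u4⟩ := abs_le.1 b4
      obtain ⟨l5, u5⟩ := abs_le.1 b5
      obtain ⟨l6, u6⟩ := abs_le.1 b6
      obtain ⟨l7, u7⟩ := abs_le.1 b7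
      obtain ⟨l8, u8⟩ := abs_le.1 b8
      have m1 : C₁ * C₂ * (m ^ 4 * M ^ 4) ≤ C₁ * C₂ * (m ^ 3 * M ^ 3) :=
        mul_le_mul_of_nonneg_left s7 h12
      have m2 : C₁ * C₂ * (m ^ 2 * δ * M ^ 4) ≤ C₁ * C₂ * (δ * m * M ^ 3) :=
        mul_le_mul_of_nonneg_left s8 h12
      have m3 : 0 ≤ C₁ * C₂ * (m ^ 3 * M ^ 3) := mul_nonneg h12 s3
      have m4 : 0 ≤ C₁ * C₂ * (δ * m * M ^ 3) := mul_nonneg h12 s4
      have m5 : 0 ≤ C₁ * C₂ * (δ ^ 2 * M ^ 4) := mul_nonneg h12 s5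
      have t1 : C₁ * (m ^ 2 * M ^ 2) / 2 * (C₂ * (m ^ 2 * M ^ 2) / 2)
          = C₁ * C₂ * (m ^ 4 * M ^ 4) / 4 := by ring
      have t2 : C₁ * (m ^ 2 * M ^ 2) / 2 * (C₂ * (δ * M ^ 2))
          = C₁ * C₂ * (m ^ 2 * δ * M ^ 4) / 2 := by ring
      have t3 : C₁ * (δ * M ^ 2) * (C₂ * (m ^ 2 * M ^ 2) / 2)
          = C₁ * C₂ * (m ^ 2 * δ * M ^ 4) / 2 := by ring
      have t4 : C₁ * (δ * M ^ 2) * (C₂ * (δ * M ^ 2)) = C₁ * C₂ * (δ ^ 2 * M ^ 4) := by ring
      have t5 : C₁ * (m * M) * (C₂ * (m ^ 2 * M ^ 2) / 2) = C₁ * C₂ * (m ^ 3 * M ^ 3) / 2 := by ring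
      have t6 : C₁ * (m * M) * (C₂ * (δ * M ^ 2)) = C₁ * C₂ * (δ * m * M ^ 3) := by ring
      have t7 : C₁ * (m ^ 2 * M ^ 2) / 2 * (C₂ * (m * M)) = C₁ * C₂ * (m ^ 3 * M ^ 3) / 2 := by ring
      have t8 : C₁ * (δ * M ^ 2) * (C₂ * (m * M)) = C₁ * C₂ * (δ * m * M ^ 3) := by ring
      rw [t1] at l1 u1
      rw [t2] at l2 u2
      rw [t3] at l3 u3
      rw [t4] at l4 u4
      rw [t5] at l5 u5
      rw [t6] at l6 u6
      rw [t7] at l7 u7
      rw [t8] at l8 u8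
      have herr3 : 3 * (C₁ * C₂) * err = 3 * (C₁ * C₂ * (m ^ 3 * M ^ 3))
          + 3 * (C₁ * C₂ * (δ * m * M ^ 3)) + 3 * (C₁ * C₂ * (δ ^ 2 * M ^ 4)) := by
        rw [herr]
        ring
      rw [herr3, abs_le]
      constructor <;> linarith only [l1, l2, l3, l4, u4, l5, u5, u6, u7, u8, m1, m2, u1, u2, u3, l6, l7, l8]
    have p1 : |(f' - f * (1 - x + y + z)) * g'| ≤ C₁ * |f| * err * (|g| * (1 + 6 * C₂)) :=
      hprod hf.he k5'
    have p2 : |f * (1 - x + y + z) * (g' - g * (1 - x' + y' + z'))|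
        ≤ |f| * (1 + 3 * C₁) * (C₂ * |g| * err) := by
      apply hprod _ hg.he
      rw [abs_mul]
      exact mul_le_mul_of_nonneg_left k4 (abs_nonneg _)
    have p3 : |f * g * (y * y' + y * z' + z * y' + z * z' - x * y' - x * z' - y * x' - z * x')|
        ≤ |f| * |g| * (3 * (C₁ * C₂) * err) := by
      apply hprod _ hcross
      rw [abs_mul]
    rw [key]
    have p0 := abs_add_three ((f' - f * (1 - x + y + z)) * g')
      (f * (1 - x + y + z) * (g' - g * (1 - x' + y' + z')))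
      (f * g * (y * y' + y * z' + z * y' + z * z' - x * y' - x * z' - y * x' - z * x'))
    have hfin : C₁ * |f| * err * (|g| * (1 + 6 * C₂)) + |f| * (1 + 3 * C₁) * (C₂ * |g| * err)
        + |f| * |g| * (3 * (C₁ * C₂) * err)
        = (C₁ + C₂ + 12 * (C₁ * C₂)) * |f * g| * err := by
      rw [abs_mul]
      ring
    linarith only [p1, p2, p3, p0, hfin]

theorem RJ.inv {C₁ : ℝ} (h1 : 0 ≤ C₁) : ∃ C : ℝ, 0 ≤ C ∧
    ∀ {M δ m η f f' a b c : ℝ} (_ : 0 ≤ M) (_ : 0 ≤ δ) (_ : |η| ≤ m)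
      (_ : m * M ≤ 1) (_ : δ * M ^ 2 ≤ 1) (_ : RJ C₁ M δ m η f f' a b c) (_ : 0 < f)
      (_ : f / 16 ≤ f'), RJ C M δ m η f⁻¹ f'⁻¹ (-a) (2 * a ^ 2 - b) (-c) := by
  refine ⟨16 * (6 * C₁ ^ 2 + 3 * C₁ ^ 3 + C₁ * (1 + 3 * C₁ + C₁ ^ 2)) + C₁ + 2 * C₁ ^ 2,
    by positivity, ?_⟩
  intro M δ m η f f' a b c hM hδ hη hmM1 hδM hf hf0 hf1
  have hm : 0 ≤ m := (abs_nonneg η).trans hη
  obtain ⟨s3, s4, s5, s6, s7, s8⟩ := Jet_small hM hδ hm hmM1 hδM
  obtain ⟨k1, k2, k3, k4, k5⟩ := Jet_factor h1 hM hδ hη hmM1 hδM hf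
  have hM2 : 0 ≤ M ^ 2 := sq_nonneg M
  have hbig : 0 ≤ 16 * (6 * C₁ ^ 2 + 3 * C₁ ^ 3 + C₁ * (1 + 3 * C₁ + C₁ ^ 2)) := by (clear * - h1; positivity)
  have hf'0 : 0 < f' := lt_of_lt_of_le (by positivity) hf1
  have hC2 : 0 ≤ C₁ ^ 2 := sq_nonneg _
  have hC3 : 0 ≤ C₁ ^ 3 := by (clear * - h1; positivity)
  refine ⟨?_, ?_, ?_, ?_⟩
  · rw [abs_neg]
    have e1 := hf.ha
    have e2 : C₁ * M ≤ (16 * (6 * C₁ ^ 2 + 3 * C₁ ^ 3 + C₁ * (1 + 3 * C₁ + C₁ ^ 2)) + C₁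
        + 2 * C₁ ^ 2) * M := by
      apply mul_le_mul_of_nonneg_right _ hM
      linarith only [hbig, hC2]
    linarith only [e1, e2]
  · have e1 := hf.hb
    have e2 : |2 * a ^ 2 - b| ≤ 2 * |a| ^ 2 + |b| := by
      have := abs_sub (2 * a ^ 2) b
      rw [abs_mul, abs_of_pos (by norm_num : (0 : ℝ) < 2), abs_pow] at this
      exact this
    have e3 : |a| ^ 2 ≤ (C₁ * M) ^ 2 := pow_le_pow_left₀ (abs_nonneg _) hf.ha 2
    have e4 : (C₁ + 2 * C₁ ^ 2) * M ^ 2 ≤ (16 * (6 * C₁ ^ 2 + 3 * C₁ ^ 3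
        + C₁ * (1 + 3 * C₁ + C₁ ^ 2)) + C₁ + 2 * C₁ ^ 2) * M ^ 2 := by
      apply mul_le_mul_of_nonneg_right _ hM2
      linarith only [hbig]
    have e5 : (C₁ * M) ^ 2 = C₁ ^ 2 * M ^ 2 := by ring
    rw [e5] at e3
    linarith only [e1, e2, e3, e4]
  · rw [abs_neg]
    have e1 := hf.hc
    have e2 : C₁ * M ^ 2 ≤ (16 * (6 * C₁ ^ 2 + 3 * C₁ ^ 3 + C₁ * (1 + 3 * C₁ + C₁ ^ 2)) + C₁
        + 2 * C₁ ^ 2) * M ^ 2 := by
      apply mul_le_mul_of_nonneg_right _ hM2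
      linarith only [hbig, hC2]
    linarith only [e1, e2]
  · set x := η * a with hx
    set w := η ^ 2 / 2 * b + δ * c with hw
    set err := m ^ 3 * M ^ 3 + δ * m * M ^ 3 + δ ^ 2 * M ^ 4 with herr
    have herr0 : 0 ≤ err := by (clear * - hm hM hδ; positivity)
    have hwb : |w| ≤ C₁ * (m ^ 2 * M ^ 2 + δ * M ^ 2) := by
      have := abs_add_le (η ^ 2 / 2 * b) (δ * c)
      have h3 : 0 ≤ C₁ * (m ^ 2 * M ^ 2) := by (clear * - h1; positivity)
      linarith only [k2, k3, this, h3]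
    have hx3 : |x ^ 3| ≤ C₁ ^ 3 * (m ^ 3 * M ^ 3) := by
      rw [abs_pow]
      calc |x| ^ 3 ≤ (C₁ * (m * M)) ^ 3 := pow_le_pow_left₀ (abs_nonneg _) k1 3
        _ = _ := by ring
    have hx2 : |x| ^ 2 ≤ C₁ ^ 2 * (m * M) ^ 2 := by
      calc |x| ^ 2 ≤ (C₁ * (m * M)) ^ 2 := pow_le_pow_left₀ (abs_nonneg _) k1 2
        _ = _ := by ring
    have hwx : |w * (2 * x)| ≤ 2 * C₁ ^ 2 * (m ^ 3 * M ^ 3 + δ * m * M ^ 3) := by
      rw [abs_mul, abs_mul, abs_of_pos (by norm_num : (0 : ℝ) < 2)]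
      calc |w| * (2 * |x|) ≤ C₁ * (m ^ 2 * M ^ 2 + δ * M ^ 2) * (2 * (C₁ * (m * M))) := by (clear * - hwb k1 h1 hδ; gcongr)
        _ = _ := by ring
    have hwxx : |w * x ^ 2| ≤ C₁ ^ 3 * (m ^ 3 * M ^ 3 + δ * m * M ^ 3) := by
      rw [abs_mul, abs_pow]
      calc |w| * |x| ^ 2 ≤ C₁ * (m ^ 2 * M ^ 2 + δ * M ^ 2) * (C₁ ^ 2 * (m * M) ^ 2) := by (clear * - hwb hx2 h1 hδ; gcongr)
        _ = C₁ ^ 3 * (m ^ 4 * M ^ 4 + m ^ 2 * δ * M ^ 4) := by ring
        _ ≤ _ := by (clear * - s7 s8 h1; gcongr)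
    have hww : |w ^ 2| ≤ C₁ ^ 2 * (2 * (m ^ 3 * M ^ 3) + 2 * (δ ^ 2 * M ^ 4)) := by
      rw [abs_pow]
      calc |w| ^ 2 ≤ (C₁ * (m ^ 2 * M ^ 2 + δ * M ^ 2)) ^ 2 :=
            pow_le_pow_left₀ (abs_nonneg _) hwb 2
        _ = C₁ ^ 2 * (m ^ 2 * M ^ 2 + δ * M ^ 2) ^ 2 := by ring
        _ ≤ C₁ ^ 2 * (2 * (m ^ 4 * M ^ 4) + 2 * (δ ^ 2 * M ^ 4)) := by
            apply mul_le_mul_of_nonneg_left _ hC2
            nlinarith only [sq_nonneg (m ^ 2 * M ^ 2 - δ * M ^ 2)]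
        _ ≤ _ := by (clear * - s7; gcongr)
    have hid : f - f' * (1 + x + x ^ 2 - w)
        = f * (x ^ 3 - w * (2 * x) - w * x ^ 2 + w ^ 2)
          - (f' - f * (1 - x + w)) * (1 + x + x ^ 2 - w) := by ring
    have hK : |1 + x + x ^ 2 - w| ≤ 1 + 3 * C₁ + C₁ ^ 2 := by
      have j1 : C₁ * (m * M) ≤ C₁ := by
        calc _ ≤ C₁ * 1 := mul_le_mul_of_nonneg_left hmM1 h1
          _ = C₁ := mul_one _
      have hmM0 : 0 ≤ m * M := mul_nonneg hm hM
      have hmM2 : (m * M) ^ 2 ≤ 1 := pow_le_one₀ hmM0 hmM1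
      have j2 : |w| ≤ 2 * C₁ := by
        have : m ^ 2 * M ^ 2 + δ * M ^ 2 ≤ 2 := by
          have : m ^ 2 * M ^ 2 = (m * M) ^ 2 := by ring
          linarith only [hδM, hmM2]
        calc |w| ≤ C₁ * (m ^ 2 * M ^ 2 + δ * M ^ 2) := hwb
          _ ≤ C₁ * 2 := mul_le_mul_of_nonneg_left this h1
          _ = _ := by ring
      have j3 : x ^ 2 ≤ C₁ ^ 2 := by
        rw [← sq_abs]
        calc |x| ^ 2 ≤ C₁ ^ 2 * (m * M) ^ 2 := hx2
          _ ≤ C₁ ^ 2 * 1 := mul_le_mul_of_nonneg_left hmM2 hC2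
          _ = _ := mul_one _
      obtain ⟨l1, u1⟩ := abs_le.1 k1
      obtain ⟨l2, u2⟩ := abs_le.1 j2
      have hxx := sq_nonneg x
      rw [abs_le]
      constructor
      · linarith only [hC2, j1, l1, u2, hxx]
      · linarith only [j1, j3, u1, l2]
    have hA : |x ^ 3 - w * (2 * x) - w * x ^ 2 + w ^ 2| ≤ (6 * C₁ ^ 2 + 3 * C₁ ^ 3) * err := by
      obtain ⟨l1, u1⟩ := abs_le.1 hx3
      obtain ⟨l2, u2⟩ := abs_le.1 hwx
      obtain ⟨l3, u3⟩ := abs_le.1 hwxx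
      obtain ⟨l4, u4⟩ := abs_le.1 hww
      have n1 : 0 ≤ C₁ ^ 2 * (m ^ 3 * M ^ 3) := mul_nonneg hC2 s3
      have n2 : 0 ≤ C₁ ^ 2 * (δ * m * M ^ 3) := mul_nonneg hC2 s4
      have n3 : 0 ≤ C₁ ^ 2 * (δ ^ 2 * M ^ 4) := mul_nonneg hC2 s5
      have n4 : 0 ≤ C₁ ^ 3 * (m ^ 3 * M ^ 3) := mul_nonneg hC3 s3
      have n5 : 0 ≤ C₁ ^ 3 * (δ * m * M ^ 3) := mul_nonneg hC3 s4
      have n6 : 0 ≤ C₁ ^ 3 * (δ ^ 2 * M ^ 4) := mul_nonneg hC3 s5
      have e : (6 * C₁ ^ 2 + 3 * C₁ ^ 3) * err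
          = 6 * (C₁ ^ 2 * (m ^ 3 * M ^ 3)) + 6 * (C₁ ^ 2 * (δ * m * M ^ 3))
            + 6 * (C₁ ^ 2 * (δ ^ 2 * M ^ 4)) + 3 * (C₁ ^ 3 * (m ^ 3 * M ^ 3))
            + 3 * (C₁ ^ 3 * (δ * m * M ^ 3)) + 3 * (C₁ ^ 3 * (δ ^ 2 * M ^ 4)) := by
        rw [herr]
        ring
      rw [e, abs_le]
      constructor <;> linarith only [l1, u2, l3, u3, l4, u4, n2, n3, n5, n6, u1, l2]
    have hrho : |f' - f * (1 - x + w)| ≤ C₁ * f * err := by
      have := hf.he
      rw [abs_of_pos hf0] at this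
      have e : f' - f * (1 - x + w) = f' - f * (1 - x + η ^ 2 / 2 * b + δ * c) := by
        rw [hw]
        ring
      rw [e]
      exact this
    have hnum : |f - f' * (1 + x + x ^ 2 - w)|
        ≤ f * err * (6 * C₁ ^ 2 + 3 * C₁ ^ 3 + C₁ * (1 + 3 * C₁ + C₁ ^ 2)) := by
      rw [hid]
      have q1 : |f * (x ^ 3 - w * (2 * x) - w * x ^ 2 + w ^ 2)|
          ≤ f * ((6 * C₁ ^ 2 + 3 * C₁ ^ 3) * err) := by
        rw [abs_mul, abs_of_pos hf0]
        exact mul_le_mul_of_nonneg_left hA hf0.le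
      have q2 : |(f' - f * (1 - x + w)) * (1 + x + x ^ 2 - w)|
          ≤ C₁ * f * err * (1 + 3 * C₁ + C₁ ^ 2) := by
        rw [abs_mul]
        exact mul_le_mul hrho hK (abs_nonneg _) (by (clear * - h1 hf0 hm hM hδ; positivity))
      have q3 := abs_sub (f * (x ^ 3 - w * (2 * x) - w * x ^ 2 + w ^ 2))
        ((f' - f * (1 - x + w)) * (1 + x + x ^ 2 - w))
      calc _ ≤ _ := q3
        _ ≤ f * ((6 * C₁ ^ 2 + 3 * C₁ ^ 3) * err) + C₁ * f * err * (1 + 3 * C₁ + C₁ ^ 2) :=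
          add_le_add q1 q2
        _ = _ := by ring
    have hgoal : f'⁻¹ - f⁻¹ * (1 - η * -a + η ^ 2 / 2 * (2 * a ^ 2 - b) + δ * -c)
        = (f - f' * (1 + x + x ^ 2 - w)) * (f⁻¹ * f'⁻¹) := by
      rw [hx, hw]
      field_simp
      ring
    rw [hgoal, abs_mul, abs_of_pos (by positivity : 0 < f⁻¹ * f'⁻¹), abs_of_pos (inv_pos.2 hf0)]
    have hinv : f'⁻¹ ≤ 16 * f⁻¹ := by
      rw [inv_eq_one_div, inv_eq_one_div, ← mul_div_assoc, div_le_div_iff₀ hf'0 hf0]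
      linarith only [hf1]
    calc |f - f' * (1 + x + x ^ 2 - w)| * (f⁻¹ * f'⁻¹)
        ≤ (f * err * (6 * C₁ ^ 2 + 3 * C₁ ^ 3 + C₁ * (1 + 3 * C₁ + C₁ ^ 2)))
            * (f⁻¹ * (16 * f⁻¹)) := by (clear * - hnum hinv hf0 hf'0 hm hM hδ h1; gcongr)
      _ = 16 * (6 * C₁ ^ 2 + 3 * C₁ ^ 3 + C₁ * (1 + 3 * C₁ + C₁ ^ 2)) * f⁻¹ * err := by
          (clear * - h1 hf0; field_simp)
      _ ≤ (16 * (6 * C₁ ^ 2 + 3 * C₁ ^ 3 + C₁ * (1 + 3 * C₁ + C₁ ^ 2)) + C₁ + 2 * C₁ ^ 2)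
            * f⁻¹ * err := by
          apply mul_le_mul_of_nonneg_right _ herr0
          apply mul_le_mul_of_nonneg_right _ (inv_pos.2 hf0).le
          linarith only [h1, hC2]

/-- Powers. -/
theorem RJ.pow {C₁ : ℝ} (h1 : 0 ≤ C₁) (n : ℕ) : ∃ C : ℝ, 0 ≤ C ∧
    ∀ {M δ m η f f' a b c : ℝ} (_ : 0 ≤ M) (_ : 0 ≤ δ) (_ : |η| ≤ m)
      (_ : m * M ≤ 1) (_ : δ * M ^ 2 ≤ 1) (_ : RJ C₁ M δ m η f f' a b c),
      RJ C M δ m η (f ^ n) (f' ^ n) (n * a) (n * b + n * (n - 1) * a ^ 2) (n * c) := by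
  induction n with
  | zero =>
    refine ⟨0, le_rfl, ?_⟩
    intro M δ m η f f' a b c _ _ _ _ _ _
    refine ⟨?_, ?_, ?_, ?_⟩ <;> simp
  | succ n ih =>
    obtain ⟨C, hC, H⟩ := ih
    obtain ⟨C', hC', H'⟩ := RJ.mul hC h1
    refine ⟨C', hC', ?_⟩
    intro M δ m η f f' a b c hM hδ hη hm hd hf
    have h := H' hM hδ hη hm hd (H hM hδ hη hm hd hf) hf
    have e1 : ((n + 1 : ℕ) : ℝ) * a = n * a + a := by push_cast; ring
    have e2 : ((n + 1 : ℕ) : ℝ) * b + ((n + 1 : ℕ) : ℝ) * (((n + 1 : ℕ) : ℝ) - 1) * a ^ 2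
        = n * b + n * (n - 1) * a ^ 2 + b + 2 * (n * a) * a := by push_cast; ring
    have e3 : ((n + 1 : ℕ) : ℝ) * c = n * c + c := by push_cast; ring
    rw [e1, e2, e3, pow_succ, pow_succ]
    exact h

end Vale.Agent.P164
end

section

/-!
# Auxiliary facts for `om_step`
-/

namespace Vale.Agent.P164

open Set Metric Filter Topology MeasureTheory ProbabilityTheory

lemma omStep_IQ_nonneg (L : ℝ) (E : Set ℂ) (W : ℝ → ℝ) (t : ℝ) (Z : ℂ) :
    0 ≤ IQ L E W t Z := by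
  unfold IQ BI
  apply div_nonneg _ (sq_nonneg L)
  apply integral_nonneg
  intro z
  simp only [St, Pi.zero_apply]
  split_ifs
  · unfold KK
    (clear * -; positivity)
  · exact le_refl 0

lemma omStep_id {I I' w X1 X2 X3 δ e : ℝ} (hI : 0 ≤ I) (hI' : 0 ≤ I')
    (he : e = I' - (I - w * X1 + w ^ 2 / 2 * X2 + δ * X3)) :
    1 / (1 + I') - (1 / (1 + I) + w * ((1 / (1 + I)) ^ 2 * X1) +
        w ^ 2 / 2 * (2 * (1 / (1 + I)) ^ 3 * X1 ^ 2 - (1 / (1 + I)) ^ 2 * X2) -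
        δ * ((1 / (1 + I)) ^ 2 * X3)) =
      -((1 / (1 + I)) ^ 2 * e) + (1 / (1 + I)) ^ 3 * ((I' - I) ^ 2 - w ^ 2 * X1 ^ 2) -
        (1 / (1 + I)) ^ 3 * (1 / (1 + I')) * (I' - I) ^ 3 := by
  have h1 : (1 + I) ≠ 0 := by positivity
  have h2 : (1 + I') ≠ 0 := by (clear * - hI'; positivity)
  generalize ho : 1 / (1 + I) = o
  generalize ho' : 1 / (1 + I') = o'
  have hoo : o * (1 + I) = 1 := by rw [← ho]; (clear * - h1; field_simp)
  have hoo' : o' * (1 + I') = 1 := by rw [← ho']; field_simp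
  have e1 : o' = o - o * o' * (I' - I) := by linear_combination o * hoo' - o' * hoo
  have e2 : o * o' * (I' - I) = o ^ 2 * (I' - I) - o ^ 2 * o' * (I' - I) ^ 2 := by
    linear_combination (o * (I' - I)) * e1
  have e3 : o ^ 2 * o' * (I' - I) ^ 2 = o ^ 3 * (I' - I) ^ 2 - o ^ 3 * o' * (I' - I) ^ 3 := by
    linear_combination (o ^ 2 * (I' - I) ^ 2) * e1
  have hid : o' = o - o ^ 2 * (I' - I) + o ^ 3 * (I' - I) ^ 2 - o ^ 3 * o' * (I' - I) ^ 3 := by
    linear_combination e1 - e2 + e3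
  have hDD : I' - I = -(w * X1) + (w ^ 2 / 2 * X2 + δ * X3 + e) := by rw [he]; ring
  linear_combination hid - o ^ 2 * hDD

lemma omStep_bd {C₀ q : ℝ} (hC : 0 < C₀) (hq : 0 < q) : ∃ C : ℝ, 0 < C ∧
    ∀ {D w X1 Y X3 e δ m η : ℝ} (_ : 0 < δ) (_ : δ ≤ 1) (_ : 0 ≤ m)
      (_ : m ≤ q) (_ : |w| ≤ m) (_ : |X1| ≤ C₀) (_ : |Y| ≤ m ^ 2 / 2 * C₀) (_ : |X3| ≤ C₀)
      (_ : η = δ ^ 2 + δ * m + m ^ 3) (_ : |e| ≤ C₀ * η)
      (_ : D = -(w * X1) + (Y + δ * X3 + e)),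
      |e| + |D ^ 2 - w ^ 2 * X1 ^ 2| + |D ^ 3| ≤ C * η := by
  set A : ℝ := 2 * C₀ * (1 + q + q ^ 2) with hA
  have hA0 : 0 < A := by positivity
  set K : ℝ := A * (1 + q) + 2 * C₀ with hK
  have hK0 : 0 < K := by positivity
  refine ⟨C₀ + A * K * (1 + q) + 4 * K ^ 3, by positivity, ?_⟩
  intro D w X1 Y X3 e δ m η hδ hδ1 hm hmq hw h1 t1 h3 hη he hD
  obtain ⟨r, hr⟩ : ∃ r : ℝ, r = Y + δ * X3 + e := ⟨_, rfl⟩
  have hDe : D = r - w * X1 := by rw [hr, hD]; ring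
  have hη0 : 0 ≤ η := by rw [hη]; (clear * - hδ hm; positivity)
  have hmm : m ^ 2 ≤ q * m := by
    rw [pow_two]; exact mul_le_mul_of_nonneg_right hmq hm
  have hm3 : m ^ 3 ≤ q * m ^ 2 := by
    have : m ^ 3 = m * m ^ 2 := by ring
    rw [this]; exact mul_le_mul_of_nonneg_right hmq (sq_nonneg m)
  have hδδ : δ ^ 2 ≤ δ := by
    rw [pow_two]; exact mul_le_of_le_one_left hδ.le hδ1
  have hδm : δ * m ≤ δ * q := mul_le_mul_of_nonneg_left hmq hδ.le
  have t2 : |δ * X3| ≤ δ * C₀ := by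
    rw [abs_mul, abs_of_pos hδ]
    exact mul_le_mul_of_nonneg_left h3 hδ.le
  have hm2 : 0 ≤ m ^ 2 := sq_nonneg m
  have hrb : |r| ≤ A * (m ^ 2 + δ) := by
    have t3 : |r| ≤ |Y| + |δ * X3| + |e| := by
      rw [hr]
      exact (abs_add_le _ _).trans (add_le_add (abs_add_le _ _) le_rfl)
    have t4 : η ≤ (1 + q) * (m ^ 2 + δ) := by
      rw [hη]; linarith only [hm3, hδδ, hδm, hm2]
    have t5 : |e| ≤ C₀ * ((1 + q) * (m ^ 2 + δ)) :=
      he.trans (mul_le_mul_of_nonneg_left t4 hC.le)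
    have hq2 : 0 ≤ C₀ * q ^ 2 * (m ^ 2 + δ) := by (clear * - hC hq hδ; positivity)
    have hq3 : 0 ≤ C₀ * q * (m ^ 2 + δ) := by (clear * - hC hq hδ; positivity)
    have hq4 : 0 ≤ C₀ * m ^ 2 := by (clear * - hC; positivity)
    rw [hA]
    linarith only [t1, t2, t3, t5, hq2, hq3, hq4]
  have hX : |w * X1| ≤ C₀ * m := by
    rw [abs_mul, mul_comm]
    exact mul_le_mul h1 hw (abs_nonneg _) hC.le
  have hs : m ^ 2 + δ ≤ (1 + q) * (m + δ) := by
    have : 0 ≤ q * δ := by (clear * - hq hδ; positivity)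
    linarith only [hm, hmm, this]
  have hrb2 : |r| ≤ A * ((1 + q) * (m + δ)) :=
    hrb.trans (mul_le_mul_of_nonneg_left hs hA0.le)
  have hCδ : 0 ≤ C₀ * δ := by positivity
  have hCm : 0 ≤ C₀ * m := by (clear * - hC hm; positivity)
  have hDb : |D| ≤ K * (m + δ) := by
    have : |D| ≤ |r| + |w * X1| := by rw [hDe]; exact abs_sub _ _
    rw [hK]; linarith
  have hDb2 : |D - w * X1| ≤ K * (m + δ) := by
    have : |D - w * X1| ≤ |r| + |w * X1| + |w * X1| := by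
      rw [hDe]
      exact (abs_sub _ _).trans (add_le_add (abs_sub _ _) le_rfl)
    rw [hK]; linarith only [hX, hrb2, hCδ, this]
  clear_value A K
  have hfac : |D ^ 2 - w ^ 2 * X1 ^ 2| ≤ A * K * (1 + q) * η := by
    have : D ^ 2 - w ^ 2 * X1 ^ 2 = r * (D - w * X1) := by rw [hDe]; ring
    rw [this, abs_mul]
    have h5 : |r| * |D - w * X1| ≤ A * (m ^ 2 + δ) * (K * (m + δ)) :=
      mul_le_mul hrb hDb2 (abs_nonneg _) (by (clear * - hA0 hδ; positivity))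
    have h6 : (m ^ 2 + δ) * (m + δ) ≤ (1 + q) * η := by
      have h7 : m ^ 2 * δ ≤ q * m * δ := mul_le_mul_of_nonneg_right hmm hδ.le
      have h8 : 0 ≤ q * δ ^ 2 := by positivity
      have h9 : 0 ≤ q * m ^ 3 := by (clear * - hq hm; positivity)
      rw [hη]; linarith only [h7, h8, h9]
    calc |r| * |D - w * X1| ≤ A * (m ^ 2 + δ) * (K * (m + δ)) := h5
      _ = A * K * ((m ^ 2 + δ) * (m + δ)) := by ring
      _ ≤ A * K * ((1 + q) * η) := mul_le_mul_of_nonneg_left h6 (by (clear * - hA0 hK0; positivity))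
      _ = A * K * (1 + q) * η := by ring
  have hD3 : |D ^ 3| ≤ 4 * K ^ 3 * η := by
    rw [abs_pow]
    have h5 : |D| ^ 3 ≤ (K * (m + δ)) ^ 3 := pow_le_pow_left₀ (abs_nonneg _) hDb 3
    have h6 : (m + δ) ^ 3 ≤ 4 * η := by
      have h7 : (m + δ) ^ 3 ≤ 4 * (m ^ 3 + δ ^ 3) := by
        have : 4 * (m ^ 3 + δ ^ 3) - (m + δ) ^ 3 = 3 * ((m + δ) * (m - δ) ^ 2) := by ring
        have h0 : 0 ≤ 3 * ((m + δ) * (m - δ) ^ 2) := by (clear * - hm hδ; positivity)
        linarith only [h0]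
      have h8 : δ ^ 3 ≤ δ ^ 2 := pow_le_pow_of_le_one hδ.le hδ1 (by (clear * -; norm_num))
      have h9 : 0 ≤ δ * m := by (clear * - hδ hm; positivity)
      rw [hη]; linarith only [h7, h8, h9]
    calc |D| ^ 3 ≤ (K * (m + δ)) ^ 3 := h5
      _ = K ^ 3 * (m + δ) ^ 3 := by ring
      _ ≤ K ^ 3 * (4 * η) := mul_le_mul_of_nonneg_left h6 (by positivity)
      _ = 4 * K ^ 3 * η := by ring
  linarith only [he, hfac, hD3]

/-- Abstract second order expansion of `1 / (1 + I)`. -/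
lemma omStep_abs {C₀ q : ℝ} (hC : 0 < C₀) (hq : 0 < q) : ∃ C : ℝ, 0 < C ∧
    ∀ {I I' w X1 X2 X3 δ m : ℝ} (_ : 0 ≤ I) (_ : 0 ≤ I') (_ : 0 < δ) (_ : δ ≤ 1) (_ : 0 ≤ m)
      (_ : m ≤ q) (_ : |w| ≤ m) (_ : |X1| ≤ C₀) (_ : |X2| ≤ C₀) (_ : |X3| ≤ C₀)
      (_ : |I' - (I - w * X1 + w ^ 2 / 2 * X2 + δ * X3)| ≤ C₀ * (δ ^ 2 + δ * m + m ^ 3)),
    |1 / (1 + I') - (1 / (1 + I) + w * ((1 / (1 + I)) ^ 2 * X1) +
        w ^ 2 / 2 * (2 * (1 / (1 + I)) ^ 3 * X1 ^ 2 - (1 / (1 + I)) ^ 2 * X2) -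
        δ * ((1 / (1 + I)) ^ 2 * X3))| ≤ C * (δ ^ 2 + δ * m + m ^ 3) := by
  obtain ⟨C, hC0, hbd⟩ := omStep_bd hC hq
  refine ⟨C, hC0, ?_⟩
  intro I I' w X1 X2 X3 δ m hI hI' hδ hδ1 hm hmq hw h1 h2 h3 he
  have hw2 : w ^ 2 ≤ m ^ 2 := by
    rw [← sq_abs w]; exact pow_le_pow_left₀ (abs_nonneg w) hw 2
  have t1 : |w ^ 2 / 2 * X2| ≤ m ^ 2 / 2 * C₀ := by
    rw [abs_mul, abs_of_nonneg (by (clear * -; positivity) : (0 : ℝ) ≤ w ^ 2 / 2)]
    exact mul_le_mul (by linarith only [hw2]) h2 (abs_nonneg _) (by (clear * -; positivity))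
  have hb := hbd (D := I' - I) (Y := w ^ 2 / 2 * X2)
    (e := I' - (I - w * X1 + w ^ 2 / 2 * X2 + δ * X3)) hδ hδ1 hm hmq hw h1 t1 h3 rfl he (by ring)
  rw [omStep_id hI hI' rfl]
  generalize I' - (I - w * X1 + w ^ 2 / 2 * X2 + δ * X3) = e at hb ⊢
  have hop : 0 < 1 / (1 + I) := by positivity
  have hop' : 0 < 1 / (1 + I') := by positivity
  have ho1 : 1 / (1 + I) ≤ 1 := by
    rw [div_le_one (by positivity)]; linarith only [hI]
  have ho1' : 1 / (1 + I') ≤ 1 := by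
    rw [div_le_one (by (clear * - hI'; positivity))]; linarith only [hI']
  generalize 1 / (1 + I) = o at *
  generalize 1 / (1 + I') = o' at *
  have b1 : |o ^ 2 * e| ≤ |e| := by
    rw [abs_mul, abs_of_pos (by positivity : 0 < o ^ 2)]
    exact mul_le_of_le_one_left (abs_nonneg _) (pow_le_one₀ hop.le ho1)
  have b2 : |o ^ 3 * ((I' - I) ^ 2 - w ^ 2 * X1 ^ 2)| ≤ |(I' - I) ^ 2 - w ^ 2 * X1 ^ 2| := by
    rw [abs_mul, abs_of_pos (by positivity : 0 < o ^ 3)]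
    exact mul_le_of_le_one_left (abs_nonneg _) (pow_le_one₀ hop.le ho1)
  have b3 : |o ^ 3 * o' * (I' - I) ^ 3| ≤ |(I' - I) ^ 3| := by
    rw [abs_mul, abs_of_pos (by (clear * - hop hop'; positivity) : 0 < o ^ 3 * o')]
    exact mul_le_of_le_one_left (abs_nonneg _) (mul_le_one₀ (pow_le_one₀ hop.le ho1) hop'.le ho1')
  calc |-(o ^ 2 * e) + o ^ 3 * ((I' - I) ^ 2 - w ^ 2 * X1 ^ 2) - o ^ 3 * o' * (I' - I) ^ 3|
      ≤ |o ^ 2 * e| + |o ^ 3 * ((I' - I) ^ 2 - w ^ 2 * X1 ^ 2)| +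
          |o ^ 3 * o' * (I' - I) ^ 3| := by
        refine (abs_sub _ _).trans (add_le_add ((abs_add_le _ _).trans ?_) le_rfl)
        rw [abs_neg]
    _ ≤ |e| + |(I' - I) ^ 2 - w ^ 2 * X1 ^ 2| + |(I' - I) ^ 3| :=
        add_le_add (add_le_add b1 b2) b3
    _ ≤ _ := hb

end Vale.Agent.P164
end
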