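import Vale.Agent.P164.MathlibUsed
import Vale.Agent.P164.Bdl.B2
import Vale.Agent.P164.Bdl.B1
import Vale.Agent.P164.Bdl.B5
import Vale.Agent.P164.Bdl.B6
import Vale.Agent.P164.Bdl.B4

set_option linter.all false

section

/-!
# A clean version of the driving function exists
-/

namespace Vale.Agent.P164

open Set Metric Filter Topology MeasureTheory ProbabilityTheory
open scoped NNReal ENNReal

variable {Ω : Type*} [mΩ : MeasurableSpace Ω]

/-- A Brownian motion has a modification with all paths continuous, started at `0`, all of whose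
values are measurable. -/
theorem exists_clean {P : Measure Ω} {B : ℝ≥0 → Ω → ℝ} (hB : IsBrownianReal B P) :
    ∃ B' : ℝ≥0 → Ω → ℝ, (∀ t, Measurable (B' t)) ∧ (∀ ω, Continuous (fun t => B' t ω)) ∧
      (∀ ω, B' 0 ω = 0) ∧ ∀ᵐ ω ∂P, ∀ t, B' t ω = B t ω := by
  classical
  have hm : ∀ t, AEMeasurable (B t) P := fun t => hB.toIsPreBrownianReal.aemeasurable t
  set q : ℕ → ℝ≥0 := TopologicalSpace.denseSeq ℝ≥0 with hq
  have hqd : DenseRange q := TopologicalSpace.denseRange_denseSeq ℝ≥0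
  set b : ℕ → Ω → ℝ := fun n => (hm (q n)).mk (B (q n)) with hb
  have hbm : ∀ n, Measurable (b n) := fun n => (hm (q n)).measurable_mk
  have hgood : ∀ᵐ ω ∂P, (∀ n, B (q n) ω = b n ω) ∧ B 0 ω = 0 ∧ Continuous (fun t => B t ω) := by
    have h1 : ∀ᵐ ω ∂P, ∀ n, B (q n) ω = b n ω := ae_all_iff.2 fun n => (hm (q n)).ae_eq_mk
    filter_upwards [h1, hB.toIsPreBrownianReal.eval_zero_ae_eq_zero, hB.cont] with ω h1 h2 h3
    exact ⟨h1, h2, h3⟩
  set N0 : Set Ω := {ω | ¬ ((∀ n, B (q n) ω = b n ω) ∧ B 0 ω = 0 ∧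
    Continuous (fun t => B t ω))} with hN0
  have hPN0 : P N0 = 0 := hgood
  set N : Set Ω := toMeasurable P N0 with hN
  have hNm : MeasurableSet N := measurableSet_toMeasurable P N0
  have hPN : P N = 0 := by rw [hN, measure_toMeasurable, hPN0]
  have hout : ∀ ω, ω ∉ N → (∀ n, B (q n) ω = b n ω) ∧ B 0 ω = 0 ∧ Continuous (fun t => B t ω) := by
    intro ω hω
    by_contra hcon
    exact hω (subset_toMeasurable P N0 hcon)
  refine ⟨fun t ω => if ω ∈ N then 0 else B t ω, ?_, ?_, ?_, ?_⟩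
  · intro t
    obtain ⟨s, hs, hst⟩ : ∃ s : ℕ → ℝ≥0, (∀ k, s k ∈ Set.range q) ∧ Tendsto s atTop (𝓝 t) :=
      mem_closure_iff_seq_limit.1 (hqd t)
    choose n hn using hs
    refine measurable_of_tendsto_metrizable (f := fun k ω => if ω ∈ N then 0 else b (n k) ω)
      (fun k => Measurable.ite hNm measurable_const (hbm (n k))) ?_
    rw [tendsto_pi_nhds]
    intro ω
    by_cases hω : ω ∈ N
    · simp [hω]
    · simp only [hω, if_false]
      obtain ⟨h1, -, h3⟩ := hout ω hω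
      have : Tendsto (fun k => B (s k) ω) atTop (𝓝 (B t ω)) := (h3.tendsto t).comp hst
      refine this.congr fun k => ?_
      rw [← h1 (n k), hn k]
  · intro ω
    by_cases hω : ω ∈ N
    · simpa [hω] using continuous_const
    · simpa [hω] using (hout ω hω).2.2
  · intro ω
    by_cases hω : ω ∈ N
    · simp [hω]
    · simpa [hω] using (hout ω hω).2.1
  · have : ∀ᵐ ω ∂P, ω ∉ N := by
      rw [ae_iff]
      simpa only [Decidable.not_not, ofPred_mem_eq] using hPN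
    filter_upwards [this] with ω hω t
    simp [hω]

/-- A clean version of the driving function. -/
theorem exists_drv {κ : ℝ} (hκ : 0 ≤ κ) {P : Measure Ω} {B : ℝ≥0 → Ω → ℝ}
    (hB : IsBrownianReal B P) :
    ∃ W : ℝ → Ω → ℝ, IsDrv κ P W ∧ ∀ᵐ ω ∂P, ∀ t, 0 ≤ t → W t ω = √κ * B t.toNNReal ω := by
  obtain ⟨B', hm, hc, h0, hae⟩ := exists_clean hB
  have hpre : IsPreBrownianReal B' P := hB.toIsPreBrownianReal.congr fun t => by
    filter_upwards [hae] with ω hω using (hω t).symm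
  have hprob : IsProbabilityMeasure P := hpre.isGaussianProcess.isProbabilityMeasure
  refine ⟨fun t ω => √κ * B' t.toNNReal ω, ⟨hprob, ?_, ?_, ?_, ?_, ?_⟩, ?_⟩
  · intro t
    exact (hm _).const_mul _
  · intro ω
    exact continuous_const.mul ((hc ω).comp continuous_real_toNNReal)
  · intro ω
    simp [h0]
  · intro t ht
    have hI := hpre.indepFun_shift t.toNNReal
    rw [IndepFun_iff_Indep] at hI
    have hI' := hI.symm
    refine indep_of_indep_of_le_left (indep_of_indep_of_le_right hI' ?_) ?_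
    · refine iSup_le fun s => ?_
      rw [← measurable_iff_comap_le]
      have hs : t ≤ s.1 := s.2
      have hs0 : 0 ≤ s.1 := ht.trans hs
      have key : (fun ω => √κ * B' s.1.toNNReal ω - √κ * B' t.toNNReal ω) =
          (fun x : ℝ≥0 → ℝ => √κ * x (s.1 - t).toNNReal) ∘
            (fun ω u => B' (t.toNNReal + u) ω - B' t.toNNReal ω) := by
        funext ω
        have : t.toNNReal + (s.1 - t).toNNReal = s.1.toNNReal := by
          rw [← Real.toNNReal_add ht (by linarith only [hs])]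
          congr 1
          ring
        simp only [Function.comp, this]
        ring
      rw [key]
      exact ((measurable_pi_apply _).const_mul _).comp (comap_measurable _)
    · refine iSup_le fun s => ?_
      rw [← measurable_iff_comap_le]
      have hs : s.1 ≤ t := s.2.2
      have key : (fun ω => √κ * B' s.1.toNNReal ω) =
          (fun x : Iic t.toNNReal → ℝ => √κ * x ⟨s.1.toNNReal, Real.toNNReal_le_toNNReal hs⟩) ∘
            (fun ω (u : Iic t.toNNReal) => B' u ω) := by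
        funext ω
        simp [Function.comp]
      simp only []
      rw [key]
      exact ((measurable_pi_apply _).const_mul _).comp (comap_measurable _)
  · intro s t hs hst
    have hl := hpre.hasLaw_sub t.toNNReal s.toNNReal
    have hl2 := gaussianReal_const_mul hl √κ
    have h3 := hl2.map_eq
    have e1 : (fun ω => √κ * B' t.toNNReal ω - √κ * B' s.toNNReal ω) =
        (fun ω => √κ * (B' t.toNNReal - B' s.toNNReal) ω) := by
      funext ω
      simp only [Pi.sub_apply]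
      ring
    rw [e1, h3]
    congr 1
    · simp
    · ext
      have ht : 0 ≤ t := hs.trans hst
      have hd : ((nndist t.toNNReal.1 s.toNNReal.1 : ℝ≥0) : ℝ) = t - s := by
        rw [coe_nndist, Real.dist_eq]
        have e3 : t.toNNReal.1 = t := Real.coe_toNNReal t ht
        have e4 : s.toNNReal.1 = s := Real.coe_toNNReal s hs
        rw [e3, e4, abs_of_nonneg (by linarith only [hst])]
      rw [Real.coe_toNNReal _ (mul_nonneg hκ (by linarith only [hst]))]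
      push_cast
      rw [← hd]
      simp only [Real.sq_sqrt hκ, NNReal.val_eq_coe, Real.coe_toNNReal', coe_nndist]
  · filter_upwards [hae] with ω hω t _
    rw [hω]

end Vale.Agent.P164
end

section

/-!
# X-A2, domination: auxiliary lemmas on `m` and on the exponents
-/

namespace Vale.Agent.P164

open Set Metric Filter Topology MeasureTheory ProbabilityTheory
open scoped NNReal ENNReal

variable {κ c L ε : ℝ}

lemma FieldXDom_ee_int (a b : ℝ) : IntervalIntegrable ee volume a b :=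
  ee_antitone.intervalIntegrable

lemma FieldXDom_mX_of_nonpos {u : ℝ} (hu : u ≤ 0) : mX u = u := by
  unfold mX
  have h : ∫ v in (0 : ℝ)..u, ee v = ∫ v in (0 : ℝ)..u, (1 : ℝ) := by
    refine intervalIntegral.integral_congr fun v hv => ?_
    rw [uIcc_of_ge hu] at hv
    exact ee_of_nonpos hv.2
  rw [h]
  simp

lemma FieldXDom_mX_nonneg {u : ℝ} (hu : 0 ≤ u) : 0 ≤ mX u := by
  unfold mX
  exact intervalIntegral.integral_nonneg hu fun v _ => ee_nonneg v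

lemma FieldXDom_mX_one : mX 1 = 1 / 2 := by
  unfold mX
  have h : ∫ v in (0 : ℝ)..1, ee v = ∫ v in (0 : ℝ)..1, (1 - 3 * v ^ 2 + 2 * v ^ 3) := by
    refine intervalIntegral.integral_congr fun v hv => ?_
    rw [uIcc_of_le zero_le_one] at hv
    rcases eq_or_lt_of_le hv.1 with h0 | h0
    · rw [← h0, ee_of_nonpos le_rfl]; (clear * -; norm_num)
    · rcases eq_or_lt_of_le hv.2 with h1 | h1
      · rw [h1, ee_of_one_le le_rfl]; norm_num
      · simp only [ee, if_neg (not_le.2 h0), if_neg (not_le.2 h1)]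
  rw [h]
  have h1 : ∀ v : ℝ, HasDerivAt (fun v : ℝ => v - v ^ 3 + v ^ 4 / 2)
      (1 - 3 * v ^ 2 + 2 * v ^ 3) v := by
    intro v
    have h2 := ((hasDerivAt_id v).sub (hasDerivAt_pow 3 v)).add ((hasDerivAt_pow 4 v).div_const 2)
    refine (h2.congr_deriv ?_).congr_of_eventuallyEq (Eventually.of_forall fun w => ?_)
    · norm_num; ring
    · simp
  rw [intervalIntegral.integral_eq_sub_of_hasDerivAt (fun v _ => h1 v)
    (Continuous.intervalIntegrable (by fun_prop) _ _)]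
  (clear * -; norm_num)

lemma FieldXDom_mX_le (u : ℝ) : mX u ≤ 1 / 2 := by
  rcases le_total u 0 with h0 | h0
  · rw [FieldXDom_mX_of_nonpos h0]; linarith
  rcases le_total u 1 with h1 | h1
  · rw [← FieldXDom_mX_one]
    unfold mX
    rw [← intervalIntegral.integral_add_adjacent_intervals (FieldXDom_ee_int 0 u)
      (FieldXDom_ee_int u 1)]
    have := intervalIntegral.integral_nonneg h1 (fun v _ => ee_nonneg v) (μ := volume)
    linarith only [this]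
  · have h2 : mX u = mX 1 + ∫ v in (1 : ℝ)..u, ee v := by
      unfold mX
      rw [intervalIntegral.integral_add_adjacent_intervals (FieldXDom_ee_int 0 1)
        (FieldXDom_ee_int 1 u)]
    have h3 : ∫ v in (1 : ℝ)..u, ee v = ∫ v in (1 : ℝ)..u, (0 : ℝ) := by
      refine intervalIntegral.integral_congr fun v hv => ?_
      rw [uIcc_of_le h1] at hv
      exact ee_of_one_le hv.1
    rw [h2, h3, FieldXDom_mX_one]
    simp

lemma FieldXDom_xx_lt_one (h0 : 0 < κ) : xx κ < 1 := by unfold xx; linarith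

/-- `sn^(n β) ≤ sn^(n p)` in the form used below. -/
lemma FieldXDom_sn_le (h0 : 0 < κ) (h8 : κ < 8) {Z : ℂ} (hZ : 0 < Z.im) :
    sn Z ^ be κ ≤ sn Z ^ pX κ := by
  refine Real.rpow_le_rpow_of_exponent_ge (sn_pos hZ) (sn_le_one Z) ?_
  unfold pX
  linarith only [be_nonneg h0 h8]

/-- the two exponential factors: for `a ≤ b₁ + n b₂` -/
lemma FieldXDom_exp_le {a u : ℝ} (ha : 0 ≤ a) (b : ℝ) (hab : a ≤ b) :
    Real.exp (-a * u) ≤ Real.exp (b * max 0 (-u)) := by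
  apply Real.exp_le_exp.2
  rcases le_total u 0 with h | h
  · rw [max_eq_right (by linarith)]
    nlinarith only [hab, h]
  · rw [max_eq_left (by linarith)]
    nlinarith only [ha, h]

lemma FieldXDom_hf1_nonneg (κ L ε U : ℝ) : 0 ≤ hf1 κ L ε U :=
  mul_nonneg (by linarith [ee_le_one (U - Real.log ε)]) (Real.exp_pos _).le

lemma FieldXDom_hf2_nonneg (κ L ε U : ℝ) : 0 ≤ hf2 κ L ε U :=
  mul_nonneg (by linarith [ee_le_one (U - Real.log ε + 1)]) (Real.exp_pos _).le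

lemma FieldXDom_hf1_le (h8 : κ < 8) (L ε U : ℝ) :
    hf1 κ L ε U ≤ Real.exp (xs κ * max 0 (Real.log L - U)) := by
  have hx := xx_pos h8
  unfold hf1
  have h1 : Real.exp (-xx κ * (U - Real.log L)) ≤ Real.exp (xs κ * max 0 (-(U - Real.log L))) :=
    FieldXDom_exp_le hx.le _ (by unfold xs; linarith)
  rw [neg_sub] at h1
  refine le_trans (mul_le_of_le_one_left (Real.exp_pos _).le ?_) h1
  linarith only [ee_nonneg (U - Real.log ε)]

lemma FieldXDom_hf2_le (h8 : κ < 8) (L ε U : ℝ) :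
    hf2 κ L ε U ≤ Real.exp (xs κ * max 0 (Real.log L - U)) := by
  have hx := xx_pos h8
  unfold hf2
  refine le_trans (mul_le_of_le_one_left (Real.exp_pos _).le ?_) ?_
  · linarith [ee_nonneg (U - Real.log ε + 1)]
  apply Real.exp_le_exp.2
  rcases le_total (U - Real.log L) 0 with h | h
  · rw [FieldXDom_mX_of_nonpos h, max_eq_right (by linarith only [h])]
    unfold xp xs
    nlinarith only [hx, h]
  · rw [max_eq_left (by linarith only [h]), mul_zero]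
    have := FieldXDom_mX_nonneg h
    have hxp : 0 ≤ xp κ := by unfold xp; linarith only [hx]
    nlinarith only [this, hxp]

lemma FieldXDom_hf1_zero {κ L ε U : ℝ} (h : U ≤ Real.log ε) : hf1 κ L ε U = 0 := by
  unfold hf1
  rw [ee_of_nonpos (by linarith)]
  simp

lemma FieldXDom_hf2_eq {κ L ε U : ℝ} (h : Real.log ε < U) :
    hf2 κ L ε U = Real.exp (-xp κ * mX (U - Real.log L)) := by
  unfold hf2
  rw [ee_of_one_le (by linarith)]
  simp

/-- `f₁² ≤ 2 F f₂` for the profiles -/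
lemma FieldXDom_hf1_sq_le (h0 : 0 < κ) (h8 : κ < 8) (L ε U : ℝ) :
    hf1 κ L ε U ^ 2 ≤ 2 * Real.exp (xs κ * max 0 (Real.log L - U)) * hf2 κ L ε U := by
  rcases le_or_gt U (Real.log ε) with hU | hU
  · rw [FieldXDom_hf1_zero hU]
    have h1 := FieldXDom_hf2_nonneg κ L ε U
    have h2 := Real.exp_pos (xs κ * max 0 (Real.log L - U))
    rw [zero_pow two_ne_zero]
    exact mul_nonneg (by positivity) h1
  rw [FieldXDom_hf2_eq hU]
  have hx := xx_pos h8
  have hx1 := FieldXDom_xx_lt_one h0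
  have h1 : hf1 κ L ε U ^ 2 ≤ Real.exp (-xx κ * (U - Real.log L)) ^ 2 := by
    refine pow_le_pow_left₀ (FieldXDom_hf1_nonneg κ L ε U) ?_ 2
    unfold hf1
    exact mul_le_of_le_one_left (Real.exp_pos _).le (by linarith [ee_nonneg (U - Real.log ε)])
  refine h1.trans ?_
  rw [← Real.exp_nat_mul, mul_assoc, ← Real.exp_add]
  rcases le_total (U - Real.log L) 0 with h | h
  · rw [FieldXDom_mX_of_nonpos h, max_eq_right (by linarith only [h])]
    have h2 : Real.exp ((2 : ℕ) * (-xx κ * (U - Real.log L))) ≤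
        Real.exp (xs κ * (Real.log L - U) + -xp κ * (U - Real.log L)) := by
      apply Real.exp_le_exp.2
      unfold xs xp
      push_cast
      nlinarith only [hx, h]
    have h3 := Real.exp_pos (xs κ * (Real.log L - U) + -xp κ * (U - Real.log L))
    linarith only [h2, h3]
  · rw [max_eq_left (by linarith only [h]), mul_zero, zero_add]
    have h2 : Real.exp ((2 : ℕ) * (-xx κ * (U - Real.log L))) ≤ 1 := by
      rw [← Real.exp_zero]
      apply Real.exp_le_exp.2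
      push_cast
      nlinarith only [hx, h]
    have h4 : Real.exp (-(5 / 12 : ℝ)) ≤ Real.exp (-xp κ * mX (U - Real.log L)) := by
      apply Real.exp_le_exp.2
      have h5 := FieldXDom_mX_le (U - Real.log L)
      have h6 := FieldXDom_mX_nonneg h
      unfold xp
      nlinarith only [hx1, hx, h5]
    have h7 : (7 / 12 : ℝ) ≤ Real.exp (-(5 / 12 : ℝ)) := by
      have := Real.add_one_le_exp (-(5 / 12 : ℝ))
      linarith only [this]
    linarith

/-- `f₁³ ≤ 3 F f₂²` for the profiles -/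
lemma FieldXDom_hf1_cube_le (h0 : 0 < κ) (h8 : κ < 8) (L ε U : ℝ) :
    hf1 κ L ε U ^ 3 ≤ 3 * Real.exp (xs κ * max 0 (Real.log L - U)) * hf2 κ L ε U ^ 2 := by
  rcases le_or_gt U (Real.log ε) with hU | hU
  · rw [FieldXDom_hf1_zero hU]
    have h1 := FieldXDom_hf2_nonneg κ L ε U
    have h2 := Real.exp_pos (xs κ * max 0 (Real.log L - U))
    rw [zero_pow three_ne_zero]
    (clear * -; positivity)
  rw [FieldXDom_hf2_eq hU]
  have hx := xx_pos h8
  have hx1 := FieldXDom_xx_lt_one h0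
  have h1 : hf1 κ L ε U ^ 3 ≤ Real.exp (-xx κ * (U - Real.log L)) ^ 3 := by
    refine pow_le_pow_left₀ (FieldXDom_hf1_nonneg κ L ε U) ?_ 3
    unfold hf1
    exact mul_le_of_le_one_left (Real.exp_pos _).le (by linarith [ee_nonneg (U - Real.log ε)])
  refine h1.trans ?_
  rw [← Real.exp_nat_mul, ← Real.exp_nat_mul, mul_assoc, ← Real.exp_add]
  rcases le_total (U - Real.log L) 0 with h | h
  · rw [FieldXDom_mX_of_nonpos h, max_eq_right (by linarith only [h])]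
    have h2 : Real.exp ((3 : ℕ) * (-xx κ * (U - Real.log L))) ≤
        Real.exp (xs κ * (Real.log L - U) + (2 : ℕ) * (-xp κ * (U - Real.log L))) := by
      apply Real.exp_le_exp.2
      unfold xs xp
      push_cast
      nlinarith only [hx, h]
    have h3 := Real.exp_pos (xs κ * (Real.log L - U) + (2 : ℕ) * (-xp κ * (U - Real.log L)))
    linarith only [h2, h3]
  · rw [max_eq_left (by linarith only [h]), mul_zero, zero_add]
    have h2 : Real.exp ((3 : ℕ) * (-xx κ * (U - Real.log L))) ≤ 1 := by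
      rw [← Real.exp_zero]
      apply Real.exp_le_exp.2
      push_cast
      nlinarith only [hx, h]
    have h4 : Real.exp (-(5 / 12 : ℝ)) ^ 2 ≤
        Real.exp ((2 : ℕ) * (-xp κ * mX (U - Real.log L))) := by
      rw [← Real.exp_nat_mul]
      apply Real.exp_le_exp.2
      have h5 := FieldXDom_mX_le (U - Real.log L)
      have h6 := FieldXDom_mX_nonneg h
      unfold xp
      push_cast
      nlinarith only [hx1, hx, h5]
    have h7 : (7 / 12 : ℝ) ≤ Real.exp (-(5 / 12 : ℝ)) := by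
      have := Real.add_one_le_exp (-(5 / 12 : ℝ))
      linarith
    have h8' : (49 / 144 : ℝ) ≤ Real.exp (-(5 / 12 : ℝ)) ^ 2 := by nlinarith only [h7]
    have h9 : (1 : ℝ) ≤ 3 * Real.exp ((2 : ℕ) * (-xp κ * mX (U - Real.log L))) := by
      exact le_trans (by norm_num : (1 : ℝ) ≤ 3 * (49 / 144))
        (mul_le_mul_of_nonneg_left (h8'.trans h4) (by norm_num))
    exact h2.trans h9

end Vale.Agent.P164
end

section

/-!
# X-A2. The field `f = f₁ + f₂` and the reward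
-/

namespace Vale.Agent.P164

open Set Metric Filter Topology MeasureTheory ProbabilityTheory
open scoped NNReal ENNReal

variable {κ c L ε : ℝ}

theorem bandX (h0 : 0 < κ) (h8 : κ < 8) (i : Fin 2) :
    Band (Real.log ε - 1) (cX κ c L ε i) (cX' κ c L ε i) := by
  have _ := h0
  fin_cases i
  · obtain ⟨b1, b2, b3⟩ := FieldXAux_band1 h8 L ε
    constructor
    · intro U
      exact (FieldXAux_hf1_deriv κ L ε U).const_mul c
    · exact bands_exists_max (bands_exists_smul_bdd c b1) (bands_exists_smul_bdd c b2)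
    · exact bands_exists_smul_lip c b3
    · intro U hU
      change c * hf1 κ L ε U = 0
      rw [hf1, ee_of_nonpos (by linarith only [hU]), sub_self, zero_mul, mul_zero]
  · obtain ⟨b1, b2, b3⟩ := FieldXAux_band2 h8 L ε
    constructor
    · intro U
      exact (FieldXAux_hf2_deriv κ L ε U).const_mul c
    · exact bands_exists_max (bands_exists_smul_bdd c b1) (bands_exists_smul_bdd c b2)
    · exact bands_exists_smul_lip c b3
    · intro U hU
      change c * hf2 κ L ε U = 0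
      rw [hf2, ee_of_nonpos (by linarith only [hU]), sub_self, zero_mul, mul_zero]

theorem bandRewX (h0 : 0 < κ) (h8 : κ < 8) (j : Fin 1) :
    BandRew (Real.log ε - 1) (dX κ c L ε j) := by
  have _ := h0
  obtain ⟨e1, e2⟩ := FieldXAux_exp (h := fun U => U - Real.log L) (x := xx κ)
    (p := Real.log ε) (h₀ := Real.log ε - Real.log L) (xx_pos h8).le
    (fun U hU => by simpa only [tsub_le_iff_right, sub_add_cancel] using hU) (fun U V => by
      rw [show U - Real.log L - (V - Real.log L) = U - V by ring])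
  obtain ⟨b1, b2, b3⟩ := FieldXAux_phi (Real.log ε)
  obtain ⟨n1, n2⟩ := FieldXAux_mul_bdd_lip b1 b2 b3 e1 e2
  have he : dX κ c L ε j = fun U => (c * 4) *
      (phi (U - Real.log ε) * Real.exp (-xx κ * (U - Real.log L))) := by
    funext U
    fin_cases j
    change c * (4 * (Real.exp (-xx κ * (U - Real.log L)) * phi (U - Real.log ε))) = _
    ring
  rw [he]
  constructor
  · exact bands_exists_smul_bdd (c * 4) n1
  · exact bands_exists_smul_lip (c * 4) n2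
  · intro U hU
    rw [b3 U (by linarith only [hU]), zero_mul, mul_zero]

lemma pv_nonneg (h0 : 0 < κ) (h8 : κ < 8) (i : Fin 2) : 0 ≤ pv κ i := by
  have h := be_nonneg h0 h8
  fin_cases i
  · exact h
  · change 0 ≤ pX κ
    unfold pX
    positivity

lemma qv_nonneg (h0 : 0 < κ) (h8 : κ < 8) (j : Fin 1) : 0 ≤ qv κ j := by
  have h := be_nonneg h0 h8
  fin_cases j
  change 0 ≤ be κ + 2
  (clear * - h; positivity)

lemma fX_eq (Z : ℂ) (U : ℝ) : fX κ c L ε Z U = f1X κ c L ε Z U + f2X κ c L ε Z U := by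
  unfold fX EF
  rw [Fin.sum_univ_two]
  rfl

lemma f1X_nonneg (hc : 0 ≤ c) {Z : ℂ} (hZ : 0 < Z.im) (U : ℝ) : 0 ≤ f1X κ c L ε Z U := by
  exact mul_nonneg (mul_nonneg hc (FieldXAux_hf1_nonneg _ _ _ _))
    (Real.rpow_nonneg (sn_nonneg_of_im hZ.le) _)

lemma f2X_nonneg (hc : 0 ≤ c) {Z : ℂ} (hZ : 0 < Z.im) (U : ℝ) : 0 ≤ f2X κ c L ε Z U := by
  exact mul_nonneg (mul_nonneg hc (FieldXAux_hf2_nonneg _ _ _ _))
    (Real.rpow_nonneg (sn_nonneg_of_im hZ.le) _)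

lemma FF_pos {Z : ℂ} (hZ : 0 < Z.im) (U : ℝ) : 0 < FF κ L Z U := by
  have h1 : Z ≠ 0 := by
    rintro rfl
    simp at hZ
  have h2 : 0 < sn Z := div_pos hZ (norm_pos_iff.2 h1)
  exact mul_pos (Real.exp_pos _) (Real.rpow_pos_of_pos h2 _)

lemma fieldX_be_pos (h0 : 0 < κ) (h8 : κ < 8) : 0 < be κ := by
  unfold be
  have : 1 < 8 / κ := by rw [lt_div_iff₀ h0]; linarith
  linarith

lemma fieldX_hf1_nonneg (U : ℝ) : 0 ≤ hf1 κ L ε U := by
  unfold hf1
  have := ee_le_one (U - Real.log ε)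
  exact mul_nonneg (by linarith) (Real.exp_pos _).le

lemma fieldX_hf2_nonneg (U : ℝ) : 0 ≤ hf2 κ L ε U := by
  unfold hf2
  have := ee_le_one (U - Real.log ε + 1)
  exact mul_nonneg (by linarith) (Real.exp_pos _).le

lemma fieldX_hf2'_ge (h8 : κ < 8) (U : ℝ) : -(xp κ * hf2 κ L ε U) ≤ hf2' κ L ε U := by
  have hx : 0 < xx κ := by unfold xx; linarith only [h8]
  have hxp : 0 ≤ xp κ := by unfold xp; positivity
  have h1 : 0 ≤ phi (U - Real.log ε + 1) * Real.exp (-xp κ * mX (U - Real.log L)) :=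
    mul_nonneg (phi_nonneg _) (Real.exp_pos _).le
  have h2 := fieldX_hf2_nonneg (κ := κ) (L := L) (ε := ε) U
  have h3 : xp κ * ee (U - Real.log L) * hf2 κ L ε U ≤ xp κ * hf2 κ L ε U := by
    have h4 : xp κ * ee (U - Real.log L) ≤ xp κ * 1 :=
      mul_le_mul_of_nonneg_left (ee_le_one _) hxp
    rw [mul_one] at h4
    exact mul_le_mul_of_nonneg_right h4 h2
  have h5 : hf2' κ L ε U = phi (U - Real.log ε + 1) * Real.exp (-xp κ * mX (U - Real.log L)) -
      xp κ * ee (U - Real.log L) * hf2 κ L ε U := rfl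
  rw [h5]
  linarith only [h1, h3]

/-- The `f₁`-part of the generator cancels the reward. -/
lemma fieldX_part1 (h0 : 0 < κ) {Z : ℂ} (hZ : 0 < Z.im) (U : ℝ) :
    (c * hf1 κ L ε U * (be κ * (-κ / 2 + (κ / 2 * be κ - 4 + κ) * cs Z ^ 2)) -
      4 * sn Z ^ 2 * (c * hf1' κ L ε U)) * sn Z ^ be κ / ‖Z‖ ^ 2 =
    -(c * (4 * (Real.exp (-xx κ * (U - Real.log L)) * phi (U - Real.log ε))) *
      sn Z ^ (be κ + 2) / ‖Z‖ ^ 2) := by
  have hZ0 : Z ≠ 0 := by
    rintro rfl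
    simp at hZ
  have hs := sn_pos hZ
  have hcs : cs Z ^ 2 = 1 - sn Z ^ 2 := by
    have := sn_sq_add_cs_sq hZ0
    linarith only [this]
  have hpow : sn Z ^ (be κ + 2) = sn Z ^ be κ * sn Z ^ 2 := by
    rw [Real.rpow_add hs, Real.rpow_two]
  have hbe : κ / 2 * be κ - 4 + κ = κ / 2 := by
    unfold be
    field_simp
    ring
  have hbx : be κ * (κ / 2) = 4 * xx κ := by
    unfold be xx
    field_simp
    ring
  have h1 : hf1' κ L ε U = phi (U - Real.log ε) * Real.exp (-xx κ * (U - Real.log L)) -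
      xx κ * hf1 κ L ε U := rfl
  rw [hpow, hbe, hcs, h1]
  have h2 : be κ * (-κ / 2 + κ / 2 * (1 - sn Z ^ 2)) = -(4 * xx κ) * sn Z ^ 2 := by
    rw [← hbx]; ring
  rw [h2]
  ring

/-- (F-a): exactly `L f₁ = - c â` (as in `gen_pow`: `κβ = 8x`), and
`L f₂ ≤ -cp f₂/|Z|²`, `cp = min ((κ/2)p(β-p)) (κβ/24)`: with `f₂ = c₀(U) sn^p`,
`c₀' ≥ -x' m' c₀`, `0 ≤ m' ≤ 1`, one has
`L f₂ ≤ c₀ sn^p/|Z|² [-pκ/2 + p(κp/2-4+κ)cs² + 4x' sn²]`, linear in `cs²`: at `cs² = 0` it is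
`-11x/3 + 10x/3 = -x/3`, at `cs² = 1` it is `(κ/2)p(p-β)`. -/
theorem fXL_le (h0 : 0 < κ) (h8 : κ < 8) :
    ∃ cp : ℝ, 0 < cp ∧ ∀ {c L ε : ℝ} (_ : 0 ≤ c) {Z : ℂ} (_ : 0 < Z.im) (U : ℝ),
      fXL κ c L ε Z U + aX κ c L ε Z U ≤ -cp * (f2X κ c L ε Z U / ‖Z‖ ^ 2) := by
  have hx : 0 < xx κ := by unfold xx; linarith
  have hb := fieldX_be_pos h0 h8
  have hp : 0 < pX κ := by unfold pX; (clear * - hb; positivity)
  refine ⟨min (xx κ / 3) (κ / 24 * (pX κ * be κ)), by positivity, ?_⟩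
  intro c L ε hc Z hZ U
  set cp := min (xx κ / 3) (κ / 24 * (pX κ * be κ)) with hcp
  have hZ0 : Z ≠ 0 := by
    rintro rfl
    simp at hZ
  have hn : 0 < ‖Z‖ := norm_pos_iff.2 hZ0
  have hs := sn_pos hZ
  have hcs : cs Z ^ 2 = 1 - sn Z ^ 2 := by
    have := sn_sq_add_cs_sq hZ0
    linarith only [this]
  have hs1 : sn Z ^ 2 ≤ 1 := sn_sq_le_one Z
  have e1 : fXL κ c L ε Z U + aX κ c L ε Z U =
      (c * hf2 κ L ε U * (pX κ * (-κ / 2 + (κ / 2 * pX κ - 4 + κ) * cs Z ^ 2)) -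
        4 * sn Z ^ 2 * (c * hf2' κ L ε U)) * sn Z ^ pX κ / ‖Z‖ ^ 2 := by
    have h1 : fXL κ c L ε Z U =
        (c * hf1 κ L ε U * (be κ * (-κ / 2 + (κ / 2 * be κ - 4 + κ) * cs Z ^ 2)) -
          4 * sn Z ^ 2 * (c * hf1' κ L ε U)) * sn Z ^ be κ / ‖Z‖ ^ 2 +
        (c * hf2 κ L ε U * (pX κ * (-κ / 2 + (κ / 2 * pX κ - 4 + κ) * cs Z ^ 2)) -
          4 * sn Z ^ 2 * (c * hf2' κ L ε U)) * sn Z ^ pX κ / ‖Z‖ ^ 2 := by
      simp only [fXL, EL, cX, Matrix.cons_val', Matrix.cons_val_fin_one, pv, cX', Fin.sum_univ_two, Fin.isValue, Matrix.cons_val_zero, Matrix.cons_val_one]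
    have h2 : aX κ c L ε Z U =
        c * (4 * (Real.exp (-xx κ * (U - Real.log L)) * phi (U - Real.log ε))) *
          sn Z ^ (be κ + 2) / ‖Z‖ ^ 2 := by
      simp only [aX, EA, Finset.univ_unique, Fin.default_eq_zero, Fin.isValue, dX, neg_mul, Matrix.cons_val', Matrix.cons_val_fin_one, qv, Finset.sum_const, Finset.card_singleton, one_smul]
    rw [h1, fieldX_part1 h0 hZ U, h2]
    ring
  rw [e1]
  have e2 : -cp * (f2X κ c L ε Z U / ‖Z‖ ^ 2) =
      (-cp * (c * hf2 κ L ε U)) * sn Z ^ pX κ / ‖Z‖ ^ 2 := by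
    unfold f2X
    ring
  rw [e2]
  have hsp : 0 ≤ sn Z ^ pX κ := Real.rpow_nonneg hs.le _
  apply div_le_div_of_nonneg_right _ (by positivity)
  apply mul_le_mul_of_nonneg_right _ hsp
  have hh := fieldX_hf2_nonneg (κ := κ) (L := L) (ε := ε) U
  have hh' := fieldX_hf2'_ge (L := L) (ε := ε) h8 U
  have hch : 0 ≤ c * hf2 κ L ε U := mul_nonneg hc hh
  have h3 : -(4 * sn Z ^ 2 * (c * hf2' κ L ε U)) ≤
      c * hf2 κ L ε U * (4 * xp κ * sn Z ^ 2) := by
    have h4 : 0 ≤ 4 * sn Z ^ 2 * c := by (clear * - hs hc; positivity)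
    have h5 := mul_le_mul_of_nonneg_left hh' h4
    linarith only [h5]
  have h6 : pX κ * (-κ / 2 + (κ / 2 * pX κ - 4 + κ) * cs Z ^ 2) + 4 * xp κ * sn Z ^ 2 ≤ -cp := by
    have a1 : cp ≤ xx κ / 3 := min_le_left _ _
    have a2 : cp ≤ κ / 24 * (pX κ * be κ) := min_le_right _ _
    have b1 : κ * be κ = 8 * xx κ := by
      unfold be xx
      field_simp
    have b2 : pX κ * (-κ / 2 + (κ / 2 * pX κ - 4 + κ) * cs Z ^ 2) + 4 * xp κ * sn Z ^ 2 =
        sn Z ^ 2 * (-(xx κ / 3)) + (1 - sn Z ^ 2) * (-(κ / 24 * (pX κ * be κ))) := by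
      rw [hcs]
      have b3 : κ / 2 * pX κ - 4 + κ = κ / 2 - κ / 24 * be κ := by
        unfold pX
        have b4 : κ * be κ = 8 - κ := by
          unfold be
          (clear * - h0; field_simp)
        linarith only [b4]
      rw [b3]
      have b5 : pX κ * (κ / 2) = 11 / 3 * xx κ := by
        unfold pX
        linarith only [b1]
      have b6 : xp κ = 5 / 6 * xx κ := rfl
      rw [b6]
      have b7 : pX κ * (-κ / 2 + (κ / 2 - κ / 24 * be κ) * (1 - sn Z ^ 2)) =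
          -(pX κ * (κ / 2)) * sn Z ^ 2 - (1 - sn Z ^ 2) * (κ / 24 * (pX κ * be κ)) := by ring
      rw [b7, b5]
      ring
    rw [b2]
    have c1 := mul_le_mul_of_nonneg_left a1 (sq_nonneg (sn Z))
    have c2 := mul_le_mul_of_nonneg_left a2 (by linarith only [hs1] : 0 ≤ 1 - sn Z ^ 2)
    linarith only [c1, c2]
  calc c * hf2 κ L ε U * (pX κ * (-κ / 2 + (κ / 2 * pX κ - 4 + κ) * cs Z ^ 2)) -
        4 * sn Z ^ 2 * (c * hf2' κ L ε U)
      ≤ c * hf2 κ L ε U * (pX κ * (-κ / 2 + (κ / 2 * pX κ - 4 + κ) * cs Z ^ 2)) +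
        c * hf2 κ L ε U * (4 * xp κ * sn Z ^ 2) := by linarith only [h3]
    _ = c * hf2 κ L ε U * (pX κ * (-κ / 2 + (κ / 2 * pX κ - 4 + κ) * cs Z ^ 2) +
          4 * xp κ * sn Z ^ 2) := by ring
    _ ≤ c * hf2 κ L ε U * (-cp) := mul_le_mul_of_nonneg_left h6 hch
    _ = -cp * (c * hf2 κ L ε U) := by ring

theorem fDX_abs (h0 : 0 < κ) (h8 : κ < 8) (hc : 0 ≤ c) {Z : ℂ} (hZ : 0 < Z.im) (U : ℝ) :
    |fDX κ c L ε Z U| ≤ be κ * (fX κ c L ε Z U / ‖Z‖) := by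
  have hb := fieldX_be_pos h0 h8
  have hp : 0 < pX κ := by unfold pX; (clear * - hb; positivity)
  have hpb : pX κ ≤ be κ := by unfold pX; linarith
  have hZ0 : Z ≠ 0 := by
    rintro rfl
    simp at hZ
  have hn : 0 < ‖Z‖ := norm_pos_iff.2 hZ0
  have hs := sn_pos hZ
  have hre : |Z.re / ‖Z‖ ^ 2| ≤ 1 / ‖Z‖ := by
    rw [abs_div, abs_of_pos (by positivity : 0 < ‖Z‖ ^ 2), div_le_div_iff₀ (by positivity) hn]
    have := Complex.abs_re_le_norm Z
    nlinarith only [hn, this]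
  have t1 : 0 ≤ c * hf1 κ L ε U * sn Z ^ be κ :=
    mul_nonneg (mul_nonneg hc (fieldX_hf1_nonneg U)) (Real.rpow_nonneg hs.le _)
  have t2 : 0 ≤ c * hf2 κ L ε U * sn Z ^ pX κ :=
    mul_nonneg (mul_nonneg hc (fieldX_hf2_nonneg U)) (Real.rpow_nonneg hs.le _)
  have e1 : fDX κ c L ε Z U =
      -((c * hf1 κ L ε U * sn Z ^ be κ * be κ + c * hf2 κ L ε U * sn Z ^ pX κ * pX κ) *
        (Z.re / ‖Z‖ ^ 2)) := by
    simp only [fDX, EX, Fin.sum_univ_two, cX, pv, Matrix.cons_val_zero, Matrix.cons_val_one]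
    ring
  have e2 : fX κ c L ε Z U = c * hf1 κ L ε U * sn Z ^ be κ + c * hf2 κ L ε U * sn Z ^ pX κ := by
    simp only [fX, EF, Fin.sum_univ_two, cX, pv, Matrix.cons_val_zero, Matrix.cons_val_one]
  rw [e1, e2, abs_neg, abs_mul]
  set A := c * hf1 κ L ε U * sn Z ^ be κ
  set B := c * hf2 κ L ε U * sn Z ^ pX κ
  have hAB : 0 ≤ A * be κ + B * pX κ := by (clear * - t1 hb t2 hp; positivity)
  rw [abs_of_nonneg hAB]
  calc (A * be κ + B * pX κ) * |Z.re / ‖Z‖ ^ 2|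
      ≤ (A * be κ + B * be κ) * (1 / ‖Z‖) := by
        apply mul_le_mul _ hre (abs_nonneg _) (by (clear * - t1 hb t2; positivity))
        have := mul_le_mul_of_nonneg_left hpb t2
        linarith only [this]
    _ = be κ * ((A + B) / ‖Z‖) := by ring

/-- (F-b). -/
theorem f1X_le (h0 : 0 < κ) (h8 : κ < 8) (hc : 0 ≤ c) {Z : ℂ} (hZ : 0 < Z.im) (U : ℝ) :
    f1X κ c L ε Z U ≤ c * FF κ L Z U := by
  have h1 := FieldXDom_hf1_le h8 L ε U
  have h2 := FieldXDom_sn_le h0 h8 hZ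
  have h3 : 0 ≤ sn Z ^ be κ := Real.rpow_nonneg (sn_pos hZ).le _
  unfold f1X FF
  rw [mul_assoc]
  exact mul_le_mul_of_nonneg_left
    (mul_le_mul h1 h2 h3 (Real.exp_pos _).le) hc

theorem f2X_le (h0 : 0 < κ) (h8 : κ < 8) (hc : 0 ≤ c) {Z : ℂ} (hZ : 0 < Z.im) (U : ℝ) :
    f2X κ c L ε Z U ≤ c * FF κ L Z U := by
  have h1 := FieldXDom_hf2_le h8 L ε U
  have h3 : 0 ≤ sn Z ^ pX κ := Real.rpow_nonneg (sn_pos hZ).le _
  unfold f2X FF
  rw [mul_assoc]
  exact mul_le_mul_of_nonneg_left (mul_le_mul_of_nonneg_right h1 h3) hc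

/-- `f₁² ≤ 2c F f₂`. If `f₁ ≠ 0` the cut-off of `f₂` equals `1`. For `u = U - log L ≤ 0`,
`k = -u`: `2x ≤ x* + x'`, `2β ≥ 2p`; for `u > 0`: `f₁ ≤ c sn^β`, `f₂ ≥ c e^{-x'/2} sn^p`. -/
theorem f1X_sq_le (h0 : 0 < κ) (h8 : κ < 8) (hc : 0 ≤ c) {Z : ℂ} (hZ : 0 < Z.im) (U : ℝ) :
    f1X κ c L ε Z U ^ 2 ≤ 2 * c * FF κ L Z U * f2X κ c L ε Z U := by
  have h1 := FieldXDom_hf1_sq_le h0 h8 L ε U
  have h2 := FieldXDom_sn_le h0 h8 hZ
  have h3 : 0 ≤ sn Z ^ be κ := Real.rpow_nonneg (sn_pos hZ).le _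
  have h4 : (sn Z ^ be κ) ^ 2 ≤ (sn Z ^ pX κ) ^ 2 := pow_le_pow_left₀ h3 h2 2
  have h5 : 0 ≤ hf1 κ L ε U ^ 2 := sq_nonneg _
  have h6 := mul_le_mul h1 h4 (sq_nonneg _) (h5.trans h1)
  have h7 := mul_le_mul_of_nonneg_left h6 (sq_nonneg c)
  unfold f1X f2X FF
  linarith

/-- `f₁³ ≤ 3c F f₂²` (`3x ≤ x* + 2x'`, `3β ≥ 3p`). -/
theorem f1X_cube_le (h0 : 0 < κ) (h8 : κ < 8) (hc : 0 ≤ c) {Z : ℂ} (hZ : 0 < Z.im) (U : ℝ) :
    f1X κ c L ε Z U ^ 3 ≤ 3 * c * FF κ L Z U * f2X κ c L ε Z U ^ 2 := by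
  have h1 := FieldXDom_hf1_cube_le h0 h8 L ε U
  have h2 := FieldXDom_sn_le h0 h8 hZ
  have h3 : 0 ≤ sn Z ^ be κ := Real.rpow_nonneg (sn_pos hZ).le _
  have h4 : (sn Z ^ be κ) ^ 3 ≤ (sn Z ^ pX κ) ^ 3 := pow_le_pow_left₀ h3 h2 3
  have h5 : 0 ≤ hf1 κ L ε U ^ 3 := pow_nonneg (FieldXDom_hf1_nonneg κ L ε U) 3
  have h6 := mul_le_mul h1 h4 (pow_nonneg h3 3) (h5.trans h1)
  have h7 := mul_le_mul_of_nonneg_left h6 (pow_nonneg hc 3)
  unfold f1X f2X FF
  linarith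

/-- `f ≤ 2c` on `U ≥ log L + 1`-free region: crude bound at time `t₀`:
if `U ≥ log L + 1`... in any case `f ≤ 2 c F` and `F ≤ 1` for `U ≥ log L`. -/
lemma FF_le_one (h0 : 0 < κ) (h8 : κ < 8) {Z : ℂ} (hZ : 0 < Z.im) {U : ℝ}
    (hU : Real.log L ≤ U) : FF κ L Z U ≤ 1 := by
  unfold FF
  rw [max_eq_left (by linarith only [hU]), mul_zero, Real.exp_zero, one_mul]
  exact (sn_rpow_le_one hZ.le (mul_nonneg (by norm_num) (be_nonneg h0 h8))).2

lemma measurable_FF : Measurable (Function.uncurry (FF κ L)) := by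
  change Measurable fun x : ℂ × ℝ =>
    Real.exp (xs κ * max 0 (Real.log L - x.2)) * sn x.1 ^ pX κ
  refine Measurable.mul (Real.measurable_exp.comp ?_)
    ((measurable_sn.comp measurable_fst).pow_const _)
  exact (measurable_const.max (measurable_snd.const_sub _)).const_mul _

lemma measurable_f2X : Measurable (Function.uncurry (f2X κ c L ε)) := by
  change Measurable fun x : ℂ × ℝ => c * hf2 κ L ε x.2 * sn x.1 ^ pX κ
  exact (((FieldXAux_hf2_continuous κ L ε).measurable.comp measurable_snd).const_mul c).mul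
    ((measurable_sn.comp measurable_fst).pow_const _)

end Vale.Agent.P164
end

section

/-!
# X-A0. Integrability and measurability of the weighted functional
-/

namespace Vale.Agent.P164

open Set Metric Filter Topology MeasureTheory ProbabilityTheory
open scoped NNReal ENNReal

variable {κ c L ε ϰ R t : ℝ} {z₀ : ℂ} {W : ℝ → ℝ} {E 𝒬 : Set ℂ} {Z : ℂ}

lemma SA.mem_im (S : SA W t z₀ R L) {z : ℂ} (hz : z ∈ EE z₀ R L) : 0 < z.im := by
  have h1 : ‖z - z₀‖ < 3 * (R * L) := by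
    have h := hz
    rw [EE, mem_ball, dist_eq_norm] at h
    exact h
  have h2 := (Complex.abs_im_le_norm (z - z₀)).trans_lt h1
  rw [Complex.sub_im, abs_lt] at h2
  have h3 := S.hz
  linarith only [h2, h3]

lemma SA.DD_sub (S : SA W t z₀ R L) : DD z₀ R L ⊆ EE z₀ R L := by
  have h1 : 0 < R * L := mul_pos (one_pos.trans_le S.hR) S.hL
  exact ball_subset_ball (by linarith)

/-- `U` is decreasing in time and `U(0) = log Im z`. -/
lemma SA.exp_Uf_le (S : SA W t z₀ R L) {z : ℂ} (hz : z ∈ EE z₀ R L)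
    (hal : z ∈ loewnerDomain W t) : Real.exp (Uf W z t) ≤ 2 * z₀.im := by
  have h1 : ‖z - z₀‖ < 3 * (R * L) := by
    have h := hz
    rw [EE, mem_ball, dist_eq_norm] at h
    exact h
  have h2 := (Complex.abs_im_le_norm (z - z₀)).trans_lt h1
  rw [Complex.sub_im, abs_lt] at h2
  have h3 := S.hz
  have h4 : Uf W z t ≤ Uf W z 0 := Uf_le S.hW le_rfl S.ht hal
  rw [Uf_zero] at h4
  have h5 : Real.exp (Uf W z t) ≤ z.im := by
    calc Real.exp (Uf W z t) ≤ Real.exp (Real.log z.im) := Real.exp_le_exp.2 h4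
      _ = z.im := Real.exp_log (S.mem_im hz)
  linarith [h2.2]

/-- A state function which is bounded on the alive points of `E` is integrable. -/
lemma St_int {G : ℂ → ℝ → ℝ} (hW : Continuous W) (ht : 0 ≤ t)
    (hG : Measurable (Function.uncurry G)) {E : Set ℂ} (hE : MeasurableSet E)
    (hEv : volume E ≠ ⊤) {C : ℝ}
    (hC : ∀ z ∈ E, z ∈ loewnerDomain W t → |G (Zf W z t) (Uf W z t)| ≤ C) :
    IntegrableOn (fun z => St G W z t) E := by
  refine Measure.integrableOn_of_bounded (M := max C 0) hEv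
    (St_measurable_z hW hG ht).aestronglyMeasurable ?_
  refine (ae_restrict_iff' hE).2 (ae_of_all _ fun z hz => ?_)
  rw [Real.norm_eq_abs]
  by_cases h : z ∈ loewnerDomain W t
  · rw [St_of_mem h]
    exact (hC z hz h).trans (le_max_left _ _)
  · rw [St_of_not_mem h, abs_zero]
    exact le_max_right _ _

/-- Monotonicity of `BI`. -/
lemma BI_mono {G H : ℂ → ℝ → ℝ} (hG : IntegrableOn (fun z => St G W z t) E)
    (hH : IntegrableOn (fun z => St H W z t) E) (hE : MeasurableSet E)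
    (h : ∀ z ∈ E, z ∈ loewnerDomain W t → G (Zf W z t) (Uf W z t) ≤ H (Zf W z t) (Uf W z t)) :
    BI L E W t G ≤ BI L E W t H := by
  unfold BI
  refine div_le_div_of_nonneg_right (setIntegral_mono_on hG hH hE fun z hz => ?_) (sq_nonneg L)
  by_cases hd : z ∈ loewnerDomain W t
  · rw [St_of_mem hd, St_of_mem hd]
    exact h z hz hd
  · rw [St_of_not_mem hd, St_of_not_mem hd]

lemma BI_nonneg {G : ℂ → ℝ → ℝ} (hE : MeasurableSet E)
    (h : ∀ z ∈ E, z ∈ loewnerDomain W t → 0 ≤ G (Zf W z t) (Uf W z t)) :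
    0 ≤ BI L E W t G := by
  unfold BI
  refine div_nonneg (setIntegral_nonneg hE fun z hz => ?_) (sq_nonneg L)
  by_cases hd : z ∈ loewnerDomain W t
  · rw [St_of_mem hd]
    exact h z hz hd
  · rw [St_of_not_mem hd]

lemma Base_rate_le {A : ℂ} (hA : 0 < A.im) : rate A ≤ 4 * ‖A‖⁻¹ ^ 2 := by
  have h1 : sn A ^ 2 ≤ 1 := pow_le_one₀ (sn_pos hA).le (sn_le_one A)
  have h2 : A ≠ 0 := fun h0 => by simp [h0] at hA
  have h3 : 0 < ‖A‖ := norm_pos_iff.2 h2
  unfold rate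
  rw [inv_pow, ← div_eq_mul_inv]
  exact div_le_div_of_nonneg_right (by linarith) (by positivity)

lemma Base_KK_inv {A Z : ℂ} (hA : 0 < A.im) (hZ : 0 < Z.im) :
    KK A Z * ‖A‖⁻¹ ^ 2 ≤ ‖Z‖⁻¹ ^ 2 := by
  have hA0 : 0 < ‖A‖ := norm_pos_iff.2 fun h0 => by simp [h0] at hA
  have hZ0 : 0 < ‖Z‖ := norm_pos_iff.2 fun h0 => by simp [h0] at hZ
  rcases le_total ‖Z‖ ‖A‖ with h | h
  · have h1 : ‖A‖⁻¹ ^ 2 ≤ ‖Z‖⁻¹ ^ 2 := pow_le_pow_left₀ (by (clear * - hA0; positivity)) (inv_anti₀ hZ0 h) 2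
    calc KK A Z * ‖A‖⁻¹ ^ 2 ≤ 1 * ‖A‖⁻¹ ^ 2 :=
          mul_le_mul_of_nonneg_right (KK_le_one hA hZ) (by positivity)
      _ ≤ ‖Z‖⁻¹ ^ 2 := by rw [one_mul]; exact h1
  · have h1 : KK A Z ≤ (‖A‖ / ‖Z‖) ^ 2 := (KK_le hA hZ).trans
      (pow_le_pow_of_le_one (by positivity) ((div_le_one hZ0).2 h) (by norm_num))
    calc KK A Z * ‖A‖⁻¹ ^ 2 ≤ (‖A‖ / ‖Z‖) ^ 2 * ‖A‖⁻¹ ^ 2 :=
          mul_le_mul_of_nonneg_right h1 (by positivity)
      _ = ‖Z‖⁻¹ ^ 2 := by field_simp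

lemma Base_KT_inv {A Z : ℂ} (hA : 0 < A.im) (hZ : 0 < Z.im) :
    KT A Z * ‖A‖⁻¹ ^ 2 ≤ 2 * ‖Z‖⁻¹ ^ 2 := by
  have hA0 : 0 < ‖A‖ := norm_pos_iff.2 fun h0 => by simp [h0] at hA
  have hZ0 : 0 < ‖Z‖ := norm_pos_iff.2 fun h0 => by simp [h0] at hZ
  have hm0 : 0 ≤ min 1 (‖A‖ / ‖Z‖) := le_min zero_le_one (by (clear * - hA0 hZ0; positivity))
  have h1 : KT A Z ≤ 2 * min 1 (‖A‖ / ‖Z‖) ^ 2 := (KT_le hA hZ).trans
    (mul_le_mul_of_nonneg_left (pow_le_pow_of_le_one hm0 (min_le_left _ _) (by norm_num))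
      (by norm_num))
  have h2 : min 1 (‖A‖ / ‖Z‖) ^ 2 ≤ (‖A‖ / ‖Z‖) ^ 2 :=
    pow_le_pow_left₀ hm0 (min_le_right _ _) 2
  calc KT A Z * ‖A‖⁻¹ ^ 2 ≤ (2 * (‖A‖ / ‖Z‖) ^ 2) * ‖A‖⁻¹ ^ 2 :=
        mul_le_mul_of_nonneg_right (h1.trans (by linarith)) (by positivity)
    _ = 2 * ‖Z‖⁻¹ ^ 2 := by field_simp

lemma Base_KT_le_two {A Z : ℂ} (hA : 0 < A.im) (hZ : 0 < Z.im) : KT A Z ≤ 2 := by
  have hm0 : 0 ≤ min 1 (‖A‖ / ‖Z‖) := le_min zero_le_one (by (clear * -; positivity))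
  have := KT_le hA hZ
  have h2 : min 1 (‖A‖ / ‖Z‖) ^ 11 ≤ 1 := pow_le_one₀ hm0 (min_le_left _ _)
  linarith only [this, h2]

/-- Pointwise bounds of the integrands without the exponential factor. -/
lemma Base_pt {A Z : ℂ} (hA : 0 < A.im) (hZ : 0 < Z.im) :
    KT A Z * (rate A / 4) ≤ 2 * ‖Z‖⁻¹ ^ 2 ∧
    |KK A Z * kX A Z| ≤ 200 * (1 + ‖Z‖⁻¹ ^ 2) ∧
    |KK A Z * (kX A Z ^ 2 + kXX A Z)| ≤ 50000 * ‖Z‖⁻¹ ^ 2 ∧
    |KK A Z * (k3 A Z - rate A)| ≤ 2000 * ‖Z‖⁻¹ ^ 2 := by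
  obtain ⟨c1, c2, c3⟩ := k_crude hA hZ
  have hK0 := (KK_pos hA hZ).le
  have hK1 := KK_le_one hA hZ
  have hKi := Base_KK_inv hA hZ
  have hr := Base_rate_le hA
  have hr0 := rate_nonneg A
  have hT0 := KT_nonneg hA hZ
  have hTi := Base_KT_inv hA hZ
  set w := ‖A‖⁻¹ with hw
  set v := ‖Z‖⁻¹ with hv
  have hw0 : 0 ≤ w := inv_nonneg.2 (norm_nonneg _)
  have hv0 : 0 ≤ v := inv_nonneg.2 (norm_nonneg _)
  have hKv : KK A Z * v ^ 2 ≤ v ^ 2 := by
    calc KK A Z * v ^ 2 ≤ 1 * v ^ 2 := mul_le_mul_of_nonneg_right hK1 (sq_nonneg _)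
      _ = v ^ 2 := one_mul _
  have hq : (w + v) ^ 2 ≤ 2 * w ^ 2 + 2 * v ^ 2 := by nlinarith only [sq_nonneg (w - v)]
  have hKq : KK A Z * (w + v) ^ 2 ≤ 4 * v ^ 2 := by
    calc KK A Z * (w + v) ^ 2 ≤ KK A Z * (2 * w ^ 2 + 2 * v ^ 2) :=
          mul_le_mul_of_nonneg_left hq hK0
      _ = 2 * (KK A Z * w ^ 2) + 2 * (KK A Z * v ^ 2) := by ring
      _ ≤ 4 * v ^ 2 := by linarith only [hKi, hKv]
  refine ⟨?_, ?_, ?_, ?_⟩
  · calc KT A Z * (rate A / 4) ≤ KT A Z * w ^ 2 :=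
          mul_le_mul_of_nonneg_left (by linarith only [hr]) hT0
      _ ≤ _ := hTi
  · rw [abs_mul, abs_of_nonneg hK0]
    have h1 : 2 * (w + v) ≤ 1 + (w + v) ^ 2 := by nlinarith only [sq_nonneg (w + v - 1)]
    calc KK A Z * |kX A Z| ≤ KK A Z * (50 * (1 + (w + v) ^ 2)) :=
          mul_le_mul_of_nonneg_left (by linarith only [c1, h1]) hK0
      _ = 50 * KK A Z + 50 * (KK A Z * (w + v) ^ 2) := by ring
      _ ≤ 200 * (1 + v ^ 2) := by linarith only [hK1, hKq]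
  · rw [abs_mul, abs_of_nonneg hK0]
    have h1 : kX A Z ^ 2 ≤ (100 * (w + v)) ^ 2 := by
      rw [← sq_abs]
      exact pow_le_pow_left₀ (abs_nonneg _) c1 2
    have h2 : |kX A Z ^ 2 + kXX A Z| ≤ 10200 * (w + v) ^ 2 := by
      have h3 := abs_add_le (kX A Z ^ 2) (kXX A Z)
      rw [abs_of_nonneg (sq_nonneg (kX A Z))] at h3
      linarith only [c2, h1, h3]
    calc KK A Z * |kX A Z ^ 2 + kXX A Z| ≤ KK A Z * (10200 * (w + v) ^ 2) :=
          mul_le_mul_of_nonneg_left h2 hK0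
      _ = 10200 * (KK A Z * (w + v) ^ 2) := by ring
      _ ≤ 50000 * v ^ 2 := by nlinarith only [hKq]
  · rw [abs_mul, abs_of_nonneg hK0]
    have h2 : |k3 A Z - rate A| ≤ 204 * (w + v) ^ 2 := by
      have h3 := abs_sub (k3 A Z) (rate A)
      rw [abs_of_nonneg hr0] at h3
      have h4 : w ^ 2 ≤ (w + v) ^ 2 := pow_le_pow_left₀ hw0 (by linarith only [hv0]) 2
      linarith only [hr, c3, h3, h4]
    calc KK A Z * |k3 A Z - rate A| ≤ KK A Z * (204 * (w + v) ^ 2) :=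
          mul_le_mul_of_nonneg_left h2 hK0
      _ = 204 * (KK A Z * (w + v) ^ 2) := by ring
      _ ≤ 2000 * v ^ 2 := by nlinarith only [hKq]

/-- Integrands of `IQ`, `IX1`, `IX2`, `IX3`, `VQ` are bounded on `E = EE z₀ R L` by a constant
depending on `‖Z‖ ≥ ϰ` only (use `KK_le`, `KK_le_one`, `KT_le`, `k_crude`, `rate A ≤ 4/‖A‖²`). -/
theorem IQ_bounds (h0L : 0 < L) (hR : 1 ≤ R) (hϰ : 0 < ϰ) (z₀ : ℂ) : ∃ C : ℝ, 0 < C ∧
    ∀ {W : ℝ → ℝ} {t : ℝ} (_ : SA W t z₀ R L) {Z : ℂ} (_ : 0 < Z.im) (_ : ϰ ≤ ‖Z‖)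
      {b : ℂ} (_ : b ∈ EE z₀ R L) (_ : b ∈ loewnerDomain W t),
      Real.exp (Uf W b t - Real.log L) * KT (Zf W b t) Z ≤ C ∧
      Real.exp (Uf W b t - Real.log L) * (KT (Zf W b t) Z * (rate (Zf W b t) / 4)) ≤ C ∧
      |Real.exp (Uf W b t - Real.log L) * (KK (Zf W b t) Z * kX (Zf W b t) Z)| ≤ C ∧
      |Real.exp (Uf W b t - Real.log L) *
        (KK (Zf W b t) Z * (kX (Zf W b t) Z ^ 2 + kXX (Zf W b t) Z))| ≤ C ∧
      |Real.exp (Uf W b t - Real.log L) *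
        (KK (Zf W b t) Z * (k3 (Zf W b t) Z - rate (Zf W b t)))| ≤ C := by
  set e₀ : ℝ := 2 * |z₀.im| / L + 1 with he₀
  have he0 : 0 < e₀ := by (clear * - h0L; positivity)
  set M : ℝ := 50000 * (1 + ϰ⁻¹ ^ 2) with hM
  have hM0 : 0 < M := by positivity
  refine ⟨e₀ * M, by positivity, fun {W t} S {Z} hZ hϰZ {b} hb hal => ?_⟩
  have hA : 0 < (Zf W b t).im := Zf_im_pos S.ht hal
  have hE : Real.exp (Uf W b t - Real.log L) ≤ e₀ := by
    rw [Real.exp_sub, Real.exp_log h0L]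
    have h1 := S.exp_Uf_le hb hal
    have h2 : Real.exp (Uf W b t) / L ≤ 2 * |z₀.im| / L :=
      div_le_div_of_nonneg_right (h1.trans (by linarith only [le_abs_self z₀.im])) h0L.le
    linarith only [h2]
  have hE0 : 0 ≤ Real.exp (Uf W b t - Real.log L) := (Real.exp_pos _).le
  have hv : ‖Z‖⁻¹ ^ 2 ≤ ϰ⁻¹ ^ 2 :=
    pow_le_pow_left₀ (by (clear * -; positivity)) (inv_anti₀ hϰ hϰZ) 2
  have hv0 : 0 ≤ ‖Z‖⁻¹ ^ 2 := by (clear * -; positivity)
  obtain ⟨p1, p2, p3, p4⟩ := Base_pt hA hZ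
  have hT2 := Base_KT_le_two hA hZ
  have hT0 := KT_nonneg hA hZ
  have hr0 := rate_nonneg (Zf W b t)
  have key : ∀ {x : ℝ}, |x| ≤ M → |Real.exp (Uf W b t - Real.log L) * x| ≤ e₀ * M := by
    intro x hx
    rw [abs_mul, abs_of_nonneg hE0]
    exact mul_le_mul hE hx (abs_nonneg _) he0.le
  refine ⟨(le_abs_self _).trans (key ?_), (le_abs_self _).trans (key ?_), key ?_, key ?_, key ?_⟩
  · rw [abs_of_nonneg hT0, hM]
    linarith only [hv, hv0, hT2]
  · rw [abs_of_nonneg (by (clear * - hT0 hr0; positivity)), hM]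
    linarith only [hv, hv0, p1]
  · rw [hM]
    linarith only [hv, hv0, p2]
  · rw [hM]
    linarith only [hv, p3]
  · rw [hM]
    linarith only [hv, hv0, p4]

lemma Base_norm_pos {Z : ℂ} (hZ : 0 < Z.im) : 0 < ‖Z‖ :=
  norm_pos_iff.2 fun h0 => by simp [h0] at hZ

lemma Base_meas {F : ℂ → ℝ → ℝ} (L : ℝ) (hF : Measurable (Function.uncurry F)) :
    Measurable (Function.uncurry fun (A : ℂ) (U : ℝ) => Real.exp (U - Real.log L) * F A U) := by
  have h1 : Measurable (fun p : ℂ × ℝ => Real.exp (p.2 - Real.log L)) :=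
    Real.measurable_exp.comp (measurable_snd.sub_const _)
  exact h1.mul hF

lemma Base_meas2 {F : ℂ → ℂ → ℝ} (hF : Measurable (fun p : ℂ × ℂ => F p.1 p.2)) (Z : ℂ) :
    Measurable (fun p : ℂ × ℝ => F p.1 Z) :=
  hF.comp (measurable_fst.prodMk measurable_const)

lemma Base_meas_rate : Measurable rate := by
  unfold rate sn
  fun_prop

lemma IQ_int (S : SA W t z₀ R L) (hZ : 0 < Z.im) : IntegrableOn (fun z =>
    St (fun A U => Real.exp (U - Real.log L) * KK A Z) W z t) (EE z₀ R L) := by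
  obtain ⟨C, hC, H⟩ := IQ_bounds S.hL S.hR (Base_norm_pos hZ) z₀
  refine St_int S.hW S.ht (Base_meas (F := fun A _ => KK A Z) L (Base_meas2 measurable_KK Z))
    measurableSet_ball
    measure_ball_lt_top.ne (C := C) fun z hz hal => ?_
  have hA : 0 < (Zf W z t).im := Zf_im_pos S.ht hal
  rw [abs_of_nonneg (mul_nonneg (Real.exp_pos _).le (KK_pos hA hZ).le)]
  exact (mul_le_mul_of_nonneg_left (KK_le_KT hA hZ) (Real.exp_pos _).le).trans
    (H S hZ le_rfl hz hal).1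

lemma IX1_int (S : SA W t z₀ R L) (hZ : 0 < Z.im) : IntegrableOn (fun z =>
    St (fun A U => Real.exp (U - Real.log L) * (KK A Z * kX A Z)) W z t) (EE z₀ R L) := by
  obtain ⟨C, hC, H⟩ := IQ_bounds S.hL S.hR (Base_norm_pos hZ) z₀
  exact St_int S.hW S.ht (Base_meas (F := fun A _ => KK A Z * kX A Z) L
    ((Base_meas2 measurable_KK Z).mul (Base_meas2 measurable_kX Z))) measurableSet_ball measure_ball_lt_top.ne (C := C)
    fun z hz hal => (H S hZ le_rfl hz hal).2.2.1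

lemma IX2_int (S : SA W t z₀ R L) (hZ : 0 < Z.im) : IntegrableOn (fun z =>
    St (fun A U => Real.exp (U - Real.log L) * (KK A Z * (kX A Z ^ 2 + kXX A Z))) W z t)
      (EE z₀ R L) := by
  obtain ⟨C, hC, H⟩ := IQ_bounds S.hL S.hR (Base_norm_pos hZ) z₀
  have hm : Measurable (fun p : ℂ × ℝ => KK p.1 Z * (kX p.1 Z ^ 2 + kXX p.1 Z)) :=
    (Base_meas2 measurable_KK Z).mul
      (((Base_meas2 measurable_kX Z).pow_const 2).add (Base_meas2 measurable_kXX Z))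
  exact St_int S.hW S.ht (Base_meas (F := fun A _ => KK A Z * (kX A Z ^ 2 + kXX A Z)) L hm)
    measurableSet_ball measure_ball_lt_top.ne (C := C)
    fun z hz hal => (H S hZ le_rfl hz hal).2.2.2.1

lemma IX3_int (S : SA W t z₀ R L) (hZ : 0 < Z.im) : IntegrableOn (fun z =>
    St (fun A U => Real.exp (U - Real.log L) * (KK A Z * (k3 A Z - rate A))) W z t)
      (EE z₀ R L) := by
  obtain ⟨C, hC, H⟩ := IQ_bounds S.hL S.hR (Base_norm_pos hZ) z₀
  exact St_int S.hW S.ht (Base_meas (F := fun A _ => KK A Z * (k3 A Z - rate A)) L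
    ((Base_meas2 measurable_KK Z).mul ((Base_meas2 measurable_k3 Z).sub (Base_meas_rate.comp measurable_fst))))
    measurableSet_ball measure_ball_lt_top.ne (C := C)
    fun z hz hal => (H S hZ le_rfl hz hal).2.2.2.2

lemma VQ_int (S : SA W t z₀ R L) (hZ : 0 < Z.im) : IntegrableOn (fun z =>
    St (fun A U => Real.exp (U - Real.log L) * (KT A Z * (rate A / 4))) W z t)
      (EE z₀ R L) := by
  obtain ⟨C, hC, H⟩ := IQ_bounds S.hL S.hR (Base_norm_pos hZ) z₀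
  refine St_int S.hW S.ht (Base_meas (F := fun A _ => KT A Z * (rate A / 4)) L
    ((Base_meas2 measurable_KT Z).mul ((Base_meas_rate.comp measurable_fst).div_const 4)))
    measurableSet_ball measure_ball_lt_top.ne (C := C) fun z hz hal => ?_
  have hA : 0 < (Zf W z t).im := Zf_im_pos S.ht hal
  rw [abs_of_nonneg (mul_nonneg (Real.exp_pos _).le
    (mul_nonneg (KT_nonneg hA hZ) (div_nonneg (rate_nonneg _) (by norm_num))))]
  exact (H S hZ le_rfl hz hal).2.1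

lemma IQ_nonneg (S : SA W t z₀ R L) (hZ : 0 < Z.im) : 0 ≤ IQ L (EE z₀ R L) W t Z :=
  BI_nonneg measurableSet_ball fun _ _ hal =>
    mul_nonneg (Real.exp_pos _).le (KK_pos (Zf_im_pos S.ht hal) hZ).le

lemma VQ_nonneg (S : SA W t z₀ R L) (hZ : 0 < Z.im) : 0 ≤ VQ L (EE z₀ R L) W t Z :=
  BI_nonneg measurableSet_ball fun _ _ hal =>
    mul_nonneg (Real.exp_pos _).le (mul_nonneg (KT_nonneg (Zf_im_pos S.ht hal) hZ)
      (div_nonneg (rate_nonneg _) (by norm_num)))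

lemma om_pos (S : SA W t z₀ R L) (hZ : 0 < Z.im) : 0 < om L (EE z₀ R L) W t Z := by
  have := IQ_nonneg S hZ
  unfold om
  positivity

lemma om_le_one (S : SA W t z₀ R L) (hZ : 0 < Z.im) : om L (EE z₀ R L) W t Z ≤ 1 := by
  have := IQ_nonneg S hZ
  unfold om
  rw [div_le_one (by positivity)]
  linarith

lemma om_mul_IQ (S : SA W t z₀ R L) (hZ : 0 < Z.im) :
    om L (EE z₀ R L) W t Z * IQ L (EE z₀ R L) W t Z ≤ 1 := by
  have := IQ_nonneg S hZ
  unfold om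
  rw [div_mul_eq_mul_div, one_mul, div_le_one (by positivity)]
  linarith only []

/-- Measurability in the parameter `Z` (for a fixed path): all the functionals `IQ`, `IX1`, ...
are of this form (`StronglyMeasurable.integral_prod_left` and friends; `St` is jointly measurable,
cf. `adapt_path_meas`). -/
theorem BI_param_meas (hW : Continuous W) (ht : 0 ≤ t) (E : Set ℂ) {F : ℂ → ℝ → ℂ → ℝ}
    (hF : Measurable (fun q : ℂ × ℝ × ℂ => F q.1 q.2.1 q.2.2)) :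
    Measurable (fun Z : ℂ => BI L E W t (fun A U => F A U Z)) := by
  classical
  have mS : MeasurableSet {z : ℂ | z ∈ loewnerDomain W t} := by
    have h := measurableSet_aliveSet hW
    have h2 := (measurable_const.prodMk measurable_id : Measurable (fun z : ℂ => (t, z))) h
    convert h2 using 1
    ext z
    simp only [ofPred_mem_eq, preimage_ofPred_eq, ht, true_and]
  have mre : Measurable (fun z : ℂ => St (fun A _ => A.re) W z t) :=
    St_measurable_z hW (Complex.measurable_re.comp measurable_fst) ht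
  have mim : Measurable (fun z : ℂ => St (fun A _ => A.im) W z t) :=
    St_measurable_z hW (Complex.measurable_im.comp measurable_fst) ht
  have mU : Measurable (fun z : ℂ => St (fun _ U => U) W z t) :=
    St_measurable_z hW measurable_snd ht
  have mA : Measurable (fun z : ℂ =>
      ((St (fun A _ => A.re) W z t : ℝ) : ℂ) + ((St (fun A _ => A.im) W z t : ℝ) : ℂ) * Complex.I) :=
    (Complex.measurable_ofReal.comp mre).add
      ((Complex.measurable_ofReal.comp mim).mul_const _)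
  have key : Measurable (fun p : ℂ × ℂ => St (fun A U => F A U p.1) W p.2 t) := by
    have h1 : Measurable (fun p : ℂ × ℂ =>
        ((((St (fun A _ => A.re) W p.2 t : ℝ) : ℂ) + ((St (fun A _ => A.im) W p.2 t : ℝ) : ℂ) *
          Complex.I), (St (fun _ U => U) W p.2 t, p.1))) :=
      (mA.comp measurable_snd).prodMk ((mU.comp measurable_snd).prodMk measurable_fst)
    have h2 := (hF.comp h1).indicator (measurable_snd mS : MeasurableSet
      ((fun p : ℂ × ℂ => p.2) ⁻¹' {z : ℂ | z ∈ loewnerDomain W t}))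
    convert h2 using 1
    funext p
    by_cases hp : p.2 ∈ loewnerDomain W t
    · rw [indicator_of_mem (by exact hp)]
      simp only [Function.comp_def, St_of_mem hp, Complex.re_add_im]
    · rw [indicator_of_notMem (by exact hp), St_of_not_mem hp]
  have h3 : StronglyMeasurable (fun Z : ℂ => ∫ z in E, St (fun A U => F A U Z) W z t) :=
    key.stronglyMeasurable.integral_prod_right (ν := volume.restrict E)
  exact h3.measurable.div_const _

lemma measurable_IQ (hW : Continuous W) (ht : 0 ≤ t) (E : Set ℂ) :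
    Measurable (IQ L E W t) := by
  refine BI_param_meas hW ht E (F := fun A U Z => Real.exp (U - Real.log L) * KK A Z) ?_
  simp only [KK, K1, K2]
  (clear * -; fun_prop)

lemma measurable_om (hW : Continuous W) (ht : 0 ≤ t) (E : Set ℂ) :
    Measurable (om L E W t) := by
  exact measurable_const.div (measurable_const.add (measurable_IQ hW ht E))

lemma measurable_IX1 (hW : Continuous W) (ht : 0 ≤ t) (E : Set ℂ) :
    Measurable (IX1 L E W t) := by
  refine BI_param_meas hW ht E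
    (F := fun A U Z => Real.exp (U - Real.log L) * (KK A Z * kX A Z)) ?_
  simp only [KK, K1, K2, kX]
  (clear * -; fun_prop)

lemma measurable_IX2 (hW : Continuous W) (ht : 0 ≤ t) (E : Set ℂ) :
    Measurable (IX2 L E W t) := by
  refine BI_param_meas hW ht E
    (F := fun A U Z => Real.exp (U - Real.log L) * (KK A Z * (kX A Z ^ 2 + kXX A Z))) ?_
  simp only [KK, K1, K2, kX, kXX]
  (clear * -; fun_prop)

lemma measurable_IX3 (hW : Continuous W) (ht : 0 ≤ t) (E : Set ℂ) :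
    Measurable (IX3 L E W t) := by
  refine BI_param_meas hW ht E
    (F := fun A U Z => Real.exp (U - Real.log L) * (KK A Z * (k3 A Z - rate A))) ?_
  simp only [KK, K1, K2, k3, rate, sn]
  (clear * -; fun_prop)

lemma measurable_VQ (hW : Continuous W) (ht : 0 ≤ t) (E : Set ℂ) :
    Measurable (VQ L E W t) := by
  refine BI_param_meas hW ht E
    (F := fun A U Z => Real.exp (U - Real.log L) * (KT A Z * (rate A / 4))) ?_
  simp only [KT, K1, K2, rate, sn]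
  (clear * -; fun_prop)

/-- Crude bound for an area integral of a state function. -/
lemma Base_BI_abs_le {G : ℂ → ℝ → ℝ} {E : Set ℂ} (hEv : volume E < ⊤) {C : ℝ} (hC0 : 0 ≤ C)
    (hC : ∀ z ∈ E, z ∈ loewnerDomain W t → |G (Zf W z t) (Uf W z t)| ≤ C) :
    |BI L E W t G| ≤ C * volume.real E / L ^ 2 := by
  have h1 : ‖∫ z in E, St G W z t‖ ≤ C * volume.real E := by
    refine norm_setIntegral_le_of_norm_le_const hEv fun z hz => ?_
    rw [Real.norm_eq_abs]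
    by_cases hal : z ∈ loewnerDomain W t
    · rw [St_of_mem hal]
      exact hC z hz hal
    · rw [St_of_not_mem hal, abs_zero]
      exact hC0
  rw [Real.norm_eq_abs] at h1
  unfold BI
  rw [abs_div, abs_of_nonneg (sq_nonneg L)]
  exact div_le_div_of_nonneg_right h1 (sq_nonneg L)

/-- Bounds for the derivatives of `I_Q`. -/
lemma Base_IX_abs_le (h0L : 0 < L) (hR : 1 ≤ R) (hϰ : 0 < ϰ) (z₀ : ℂ) : ∃ D : ℝ, 0 ≤ D ∧
    ∀ {W : ℝ → ℝ} {t : ℝ} (_ : SA W t z₀ R L) {Z : ℂ} (_ : 0 < Z.im) (_ : ϰ ≤ ‖Z‖),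
      |IX1 L (EE z₀ R L) W t Z| ≤ D ∧ |IX2 L (EE z₀ R L) W t Z| ≤ D ∧
      |IX3 L (EE z₀ R L) W t Z| ≤ D := by
  obtain ⟨C, hC, H⟩ := IQ_bounds h0L hR hϰ z₀
  have hEv : volume (EE z₀ R L) < ⊤ := measure_ball_lt_top
  refine ⟨C * volume.real (EE z₀ R L) / L ^ 2, by (clear * - hC h0L; positivity), ?_⟩
  intro W t S Z hZ hZn
  exact ⟨Base_BI_abs_le hEv hC.le fun b hb hal => (H S hZ hZn hb hal).2.2.1,
    Base_BI_abs_le hEv hC.le fun b hb hal => (H S hZ hZn hb hal).2.2.2.1,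
    Base_BI_abs_le hEv hC.le fun b hb hal => (H S hZ hZn hb hal).2.2.2.2⟩

/-- Algebraic part of the bounds. -/
lemma Base_alg_bounds {κ f fD fDD fL a w i1 i2 i3 B D : ℝ} (h0 : 0 < κ) (h8 : κ < 8)
    (w0 : 0 ≤ w) (w1 : w ≤ 1) (hf : |f| ≤ B) (hfD : |fD| ≤ B)
    (hfDD : |fDD| ≤ B) (hfL : |fL| ≤ B) (ha : |a| ≤ B) (h1 : |i1| ≤ D) (h2 : |i2| ≤ D)
    (h3 : |i3| ≤ D) :
    |w * (fL + a) + f * (κ * w ^ 3 * i1 ^ 2 - w ^ 2 * (κ / 2 * i2 + i3)) -
      κ * fD * (w ^ 2 * i1)| ≤ B * (2 + 8 * D ^ 2 + 13 * D) ∧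
    |fD * w - f * (w ^ 2 * i1)| ≤ B * (1 + D) ∧
    |fDD * w - 2 * fD * (w ^ 2 * i1) + f * (2 * w ^ 3 * i1 ^ 2 - w ^ 2 * i2)| ≤
      B * (1 + 3 * D + 2 * D ^ 2) := by
  have aw : |w| = w := abs_of_nonneg w0
  have w2 : w ^ 2 ≤ 1 := pow_le_one₀ w0 w1
  have w3 : w ^ 3 ≤ 1 := pow_le_one₀ w0 w1
  have w20 : 0 ≤ w ^ 2 := by (clear * -; positivity)
  have w30 : 0 ≤ w ^ 3 := by (clear * - w0; positivity)
  have q1 : |i1 ^ 2| ≤ D ^ 2 := by
    rw [abs_pow]
    exact pow_le_pow_left₀ (abs_nonneg _) h1 2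
  -- pieces
  have p1 : |w ^ 2 * i1| ≤ D := by
    rw [abs_mul, abs_of_nonneg w20]
    exact (mul_le_mul w2 h1 (abs_nonneg _) zero_le_one).trans (one_mul D).le
  have p2 : |w ^ 2 * i2| ≤ D := by
    rw [abs_mul, abs_of_nonneg w20]
    exact (mul_le_mul w2 h2 (abs_nonneg _) zero_le_one).trans (one_mul D).le
  have p3 : |w ^ 2 * i3| ≤ D := by
    rw [abs_mul, abs_of_nonneg w20]
    exact (mul_le_mul w2 h3 (abs_nonneg _) zero_le_one).trans (one_mul D).le
  have p4 : |w ^ 3 * i1 ^ 2| ≤ D ^ 2 := by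
    rw [abs_mul, abs_of_nonneg w30]
    exact (mul_le_mul w3 q1 (abs_nonneg _) zero_le_one).trans (one_mul _).le
  have m1 : ∀ x y X Y : ℝ, |x| ≤ X → |y| ≤ Y → |x * y| ≤ X * Y := fun x y X Y hx hy => by
    rw [abs_mul]
    exact mul_le_mul hx hy (abs_nonneg _) ((abs_nonneg _).trans hx)
  have w1' : |w| ≤ 1 := by rw [aw]; exact w1
  refine ⟨?_, ?_, ?_⟩
  · have e1 : |w * (fL + a)| ≤ 2 * B := by
      have h := m1 w (fL + a) 1 (B + B) w1' ((abs_add_le _ _).trans (add_le_add hfL ha))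
      linarith only [h]
    have e2 : |κ * w ^ 3 * i1 ^ 2 - w ^ 2 * (κ / 2 * i2 + i3)| ≤ 8 * D ^ 2 + 5 * D := by
      have e3 : κ * w ^ 3 * i1 ^ 2 - w ^ 2 * (κ / 2 * i2 + i3) =
          κ * (w ^ 3 * i1 ^ 2) - (κ / 2 * (w ^ 2 * i2) + w ^ 2 * i3) := by ring
      rw [e3]
      have k8 : |κ| ≤ 8 := by rw [abs_of_pos h0]; exact h8.le
      have k4 : |κ / 2| ≤ 4 := by rw [abs_of_pos (half_pos h0)]; linarith only [h8]
      have a1 := m1 κ _ 8 _ k8 p4
      have a2 := m1 (κ / 2) _ 4 _ k4 p2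
      have a3 := abs_sub (κ * (w ^ 3 * i1 ^ 2)) (κ / 2 * (w ^ 2 * i2) + w ^ 2 * i3)
      have a4 := abs_add_le (κ / 2 * (w ^ 2 * i2)) (w ^ 2 * i3)
      linarith
    have e4 := m1 f _ B _ hf e2
    have e5 : |κ * fD * (w ^ 2 * i1)| ≤ 8 * B * D := by
      have k8 : |κ| ≤ 8 := by rw [abs_of_pos h0]; exact h8.le
      exact m1 _ _ _ _ (m1 κ fD 8 B k8 hfD) p1
    have e6 := abs_sub (w * (fL + a) + f * (κ * w ^ 3 * i1 ^ 2 - w ^ 2 * (κ / 2 * i2 + i3)))
      (κ * fD * (w ^ 2 * i1))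
    have e7 := abs_add_le (w * (fL + a)) (f * (κ * w ^ 3 * i1 ^ 2 - w ^ 2 * (κ / 2 * i2 + i3)))
    calc _ ≤ _ := e6
      _ ≤ 2 * B + B * (8 * D ^ 2 + 5 * D) + 8 * B * D := by linarith only [e1, e4, e5, e7]
      _ = B * (2 + 8 * D ^ 2 + 13 * D) := by ring
  · have e1 := m1 fD w B 1 hfD w1'
    have e2 := m1 f _ B D hf p1
    have e3 := abs_sub (fD * w) (f * (w ^ 2 * i1))
    calc _ ≤ _ := e3
      _ ≤ B * 1 + B * D := by linarith only [e1, e2]
      _ = B * (1 + D) := by ring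
  · have e1 := m1 fDD w B 1 hfDD w1'
    have e2 : |2 * fD * (w ^ 2 * i1)| ≤ 2 * B * D := by
      refine m1 _ _ _ _ (m1 2 fD 2 B ?_ hfD) p1
      rw [abs_of_pos (by norm_num)]
    have e3 : |2 * w ^ 3 * i1 ^ 2 - w ^ 2 * i2| ≤ 2 * D ^ 2 + D := by
      have e4 : 2 * w ^ 3 * i1 ^ 2 - w ^ 2 * i2 = 2 * (w ^ 3 * i1 ^ 2) - w ^ 2 * i2 := by ring
      rw [e4]
      have e5 := m1 2 _ 2 _ (by rw [abs_of_pos (by norm_num)]) p4
      have e6 := abs_sub (2 * (w ^ 3 * i1 ^ 2)) (w ^ 2 * i2)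
      linarith only [p2, e5, e6]
    have e7 := m1 f _ B _ hf e3
    have e8 := abs_add_le (fDD * w - 2 * fD * (w ^ 2 * i1)) (f * (2 * w ^ 3 * i1 ^ 2 - w ^ 2 * i2))
    have e9 := abs_sub (fDD * w) (2 * fD * (w ^ 2 * i1))
    calc _ ≤ _ := e8
      _ ≤ B * 1 + 2 * B * D + B * (2 * D ^ 2 + D) := by linarith only [e1, e2, e7, e9]
      _ = B * (1 + 3 * D + 2 * D ^ 2) := by ring

/-- `genX`, `derX`, `der2X`, `f ω`, `ω aX`, `f₂ ω/‖Z‖²` are bounded on the points with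
`‖Z‖ ≥ ϰ` (field: `field_bounds`, `reward_bounds` with `bandX`, `bandRewX`), uniformly in `W, t`. -/
theorem gen_bounds (h0 : 0 < κ) (h8 : κ < 8) (hc : 0 ≤ c) (h0L : 0 < L) (hR : 1 ≤ R)
    (hϰ : 0 < ϰ) (z₀ : ℂ) (ε : ℝ) : ∃ C : ℝ, 0 < C ∧
    ∀ {W : ℝ → ℝ} {t : ℝ} (_ : SA W t z₀ R L) {Z : ℂ} (_ : 0 < Z.im) (_ : ϰ ≤ ‖Z‖) (U : ℝ),
      |fX κ c L ε Z U * om L (EE z₀ R L) W t Z| ≤ C ∧
      |aX κ c L ε Z U * om L (EE z₀ R L) W t Z| ≤ C ∧
      |f2X κ c L ε Z U * om L (EE z₀ R L) W t Z / ‖Z‖ ^ 2| ≤ C ∧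
      |genX κ c L ε (EE z₀ R L) W t Z U| ≤ C ∧
      |derX κ c L ε (EE z₀ R L) W t Z U| ≤ C ∧
      |der2X κ c L ε (EE z₀ R L) W t Z U| ≤ C := by
  obtain ⟨Cf, hCf, Hf⟩ := field_bounds κ (pv_nonneg h0 h8)
    (fun i => bandX (c := c) (L := L) (ε := ε) h0 h8 i) hϰ
  obtain ⟨Ca, hCa, Ha⟩ := reward_bounds (qv_nonneg h0 h8)
    (fun j => bandRewX (c := c) (L := L) (ε := ε) h0 h8 j) hϰ
  obtain ⟨D, hD, HD⟩ := Base_IX_abs_le h0L hR hϰ z₀
  obtain ⟨B, hBdef⟩ : ∃ B, B = Cf + Ca := ⟨_, rfl⟩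
  have hB : 0 < B := by rw [hBdef]; linarith only [hCf, hCa]
  have hCfB : Cf ≤ B := by rw [hBdef]; linarith only [hCa]
  have hCaB : Ca ≤ B := by rw [hBdef]; linarith only [hCf]
  refine ⟨B + B / ϰ ^ 2 + B * (2 + 8 * D ^ 2 + 13 * D), by (clear * - hB hϰ hD; positivity), ?_⟩
  intro W t S Z hZ hZn U
  have hw0 := (om_pos S hZ).le
  have hw1 := om_le_one S hZ
  obtain ⟨i1, i2, i3⟩ := HD S hZ hZn
  obtain ⟨b1, b2⟩ := Hf Z U hZ
  obtain ⟨b3, b4, b5⟩ := b2 fun _ => hZn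
  have b6 := Ha Z U hZ fun _ => hZn
  have hfB : |fX κ c L ε Z U| ≤ B := b1.trans hCfB
  have haB : |aX κ c L ε Z U| ≤ B := b6.trans hCaB
  have hmul : ∀ x : ℝ, |x| ≤ B → |x * om L (EE z₀ R L) W t Z| ≤ B := fun x hx => by
    rw [abs_mul, abs_of_nonneg hw0]
    exact (mul_le_mul hx hw1 hw0 hB.le).trans (mul_one B).le
  obtain ⟨g1, g2, g3⟩ := Base_alg_bounds h0 h8 hw0 hw1 hfB (b3.trans hCfB)
    (b4.trans hCfB) (b5.trans hCfB) haB i1 i2 i3
  have hZ0 : 0 < ‖Z‖ := hϰ.trans_le hZn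
  have n1 : 0 ≤ B / ϰ ^ 2 := by positivity
  have n2 : 0 ≤ B * (2 + 8 * D ^ 2 + 13 * D) := by (clear * - hB hD; positivity)
  refine ⟨?_, ?_, ?_, ?_, ?_, ?_⟩
  · have := hmul _ hfB
    linarith only [n1, n2, this]
  · have := hmul _ haB
    linarith only [n1, n2, this]
  · have hf2 : |f2X κ c L ε Z U| ≤ B := by
      have a1 := f1X_nonneg (κ := κ) (L := L) (ε := ε) hc hZ U
      have a2 := f2X_nonneg (κ := κ) (L := L) (ε := ε) hc hZ U
      rw [fX_eq, abs_of_nonneg (add_nonneg a1 a2)] at hfB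
      rw [abs_of_nonneg a2]
      linarith only [hfB, a1]
    have a3 := hmul _ hf2
    rw [abs_div, abs_of_pos (pow_pos hZ0 2)]
    have a4 : |f2X κ c L ε Z U * om L (EE z₀ R L) W t Z| / ‖Z‖ ^ 2 ≤ B / ϰ ^ 2 :=
      div_le_div₀ hB.le a3 (pow_pos hϰ 2) (pow_le_pow_left₀ hϰ.le hZn 2)
    linarith only [hCf, hCa, hBdef, n2, a4]
  · have h : |genX κ c L ε (EE z₀ R L) W t Z U| ≤ B * (2 + 8 * D ^ 2 + 13 * D) := g1
    linarith only [hCf, hCa, hBdef, n1, h]
  · have h : |derX κ c L ε (EE z₀ R L) W t Z U| ≤ B * (1 + D) := g2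
    have h' : B * (1 + D) ≤ B * (2 + 8 * D ^ 2 + 13 * D) :=
      mul_le_mul_of_nonneg_left (by nlinarith only [hD]) hB.le
    linarith only [hCf, hCa, hBdef, n1, h, h']
  · have h : |der2X κ c L ε (EE z₀ R L) W t Z U| ≤ B * (1 + 3 * D + 2 * D ^ 2) := g3
    have h' : B * (1 + 3 * D + 2 * D ^ 2) ≤ B * (2 + 8 * D ^ 2 + 13 * D) :=
      mul_le_mul_of_nonneg_left (by nlinarith only [hD]) hB.le
    linarith

theorem gen_meas (h0 : 0 < κ) (h8 : κ < 8) (hW : Continuous W) (ht : 0 ≤ t) (E : Set ℂ) :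
    Measurable (Function.uncurry (fun Z U => fX κ c L ε Z U * om L E W t Z)) ∧
    Measurable (Function.uncurry (fun Z U => aX κ c L ε Z U * om L E W t Z)) ∧
    Measurable (Function.uncurry (fun Z U => f2X κ c L ε Z U * om L E W t Z / ‖Z‖ ^ 2)) ∧
    Measurable (Function.uncurry (genX κ c L ε E W t)) ∧
    Measurable (Function.uncurry (derX κ c L ε E W t)) ∧
    Measurable (Function.uncurry (der2X κ c L ε E W t)) := by
  have hb := fun i => bandX (c := c) (L := L) (ε := ε) h0 h8 i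
  have hr := fun j => bandRewX (c := c) (L := L) (ε := ε) h0 h8 j
  have mF : Measurable (fun q : ℂ × ℝ => fX κ c L ε q.1 q.2) :=
    measurable_EF fun i => (hb i).continuous.measurable
  have mX : Measurable (fun q : ℂ × ℝ => fDX κ c L ε q.1 q.2) :=
    measurable_EX fun i => (hb i).continuous.measurable
  have mXX : Measurable (fun q : ℂ × ℝ => fDXX κ c L ε q.1 q.2) :=
    measurable_EXX fun i => (hb i).continuous.measurable
  have mL : Measurable (fun q : ℂ × ℝ => fXL κ c L ε q.1 q.2) :=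
    measurable_EL (fun i => (hb i).continuous.measurable)
      fun i => (hb i).continuous_deriv.measurable
  have mA : Measurable (fun q : ℂ × ℝ => aX κ c L ε q.1 q.2) :=
    measurable_EA fun i => (hr i).continuous.measurable
  have mf2 : Measurable (fun q : ℂ × ℝ => f2X κ c L ε q.1 q.2) := measurable_f2X
  have mo : Measurable (fun q : ℂ × ℝ => om L E W t q.1) :=
    (measurable_om hW ht E).comp measurable_fst
  have m1 : Measurable (fun q : ℂ × ℝ => IX1 L E W t q.1) :=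
    (measurable_IX1 hW ht E).comp measurable_fst
  have m2 : Measurable (fun q : ℂ × ℝ => IX2 L E W t q.1) :=
    (measurable_IX2 hW ht E).comp measurable_fst
  have m3 : Measurable (fun q : ℂ × ℝ => IX3 L E W t q.1) :=
    (measurable_IX3 hW ht E).comp measurable_fst
  have mn : Measurable (fun q : ℂ × ℝ => ‖q.1‖ ^ 2) := (measurable_fst.norm).pow_const 2
  refine ⟨mF.mul mo, mA.mul mo, (mf2.mul mo).div mn, ?_, ?_, ?_⟩
  · exact ((mo.mul (mL.add mA)).add (mF.mul ((((mo.pow_const 3).const_mul κ).mul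
      (m1.pow_const 2)).sub ((mo.pow_const 2).mul ((m2.const_mul (κ / 2)).add m3))))).sub
      ((mX.const_mul κ).mul ((mo.pow_const 2).mul m1))
  · exact (mX.mul mo).sub (mF.mul ((mo.pow_const 2).mul m1))
  · exact ((mXX.mul mo).sub ((mX.const_mul 2).mul ((mo.pow_const 2).mul m1))).add
      (mF.mul ((((mo.pow_const 3).const_mul 2).mul (m1.pow_const 2)).sub
        ((mo.pow_const 2).mul m2)))

/-- The integrand of `N2` is bounded: `rate A/4 ≤ ‖A‖⁻²`. -/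
lemma N2_int (S : SA W t z₀ R L) (hϰ : 0 < ϰ) : IntegrableOn (fun z =>
    St (fun A U => Gp (U - Real.log L) * (rate A / 4) * min 1 (‖A‖ / ϰ) ^ 4) W z t)
      (EE z₀ R L) := by
  have hm : Measurable (Function.uncurry fun (A : ℂ) (U : ℝ) =>
      Gp (U - Real.log L) * (rate A / 4) * min 1 (‖A‖ / ϰ) ^ 4) := by
    have h1 : Measurable (fun p : ℂ × ℝ => Gp (p.2 - Real.log L)) :=
      measurable_Gp.comp (measurable_snd.sub_const _)
    have h2 : Measurable (fun p : ℂ × ℝ => rate p.1 / 4) :=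
      (Base_meas_rate.comp measurable_fst).div_const 4
    have h3 : Measurable (fun p : ℂ × ℝ => min 1 (‖p.1‖ / ϰ) ^ 4) :=
      (measurable_const.min ((measurable_norm.comp measurable_fst).div_const ϰ)).pow_const 4
    exact (h1.mul h2).mul h3
  refine St_int S.hW S.ht hm measurableSet_ball measure_ball_lt_top.ne (C := ϰ⁻¹ ^ 2)
    fun z hz hal => ?_
  have hA : 0 < (Zf W z t).im := Zf_im_pos S.ht hal
  have hA0 : 0 < ‖Zf W z t‖ := Base_norm_pos hA
  have hr := Base_rate_le hA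
  have hr0 := rate_nonneg (Zf W z t)
  have hG0 := (Gp_pos (Uf W z t - Real.log L)).le
  have hG1 := Gp_le_one (Uf W z t - Real.log L)
  have hm0 : 0 ≤ min 1 (‖Zf W z t‖ / ϰ) := le_min zero_le_one (by (clear * - hA0 hϰ; positivity))
  have hm1 : min 1 (‖Zf W z t‖ / ϰ) ^ 4 ≤ (‖Zf W z t‖ / ϰ) ^ 2 :=
    (pow_le_pow_of_le_one hm0 (min_le_left _ _) (by norm_num)).trans
      (pow_le_pow_left₀ hm0 (min_le_right _ _) 2)
  rw [abs_of_nonneg (by (clear * - hG0 hr0 hA0 hϰ; positivity))]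
  calc Gp (Uf W z t - Real.log L) * (rate (Zf W z t) / 4) * min 1 (‖Zf W z t‖ / ϰ) ^ 4
      ≤ 1 * (‖Zf W z t‖⁻¹ ^ 2) * (‖Zf W z t‖ / ϰ) ^ 2 := by
        refine mul_le_mul (mul_le_mul hG1 (by linarith) (by (clear * - hr0; positivity)) zero_le_one) hm1
          (by positivity) (by positivity)
    _ = ϰ⁻¹ ^ 2 := by field_simp

lemma N2_nonneg (S : SA W t z₀ R L) (hϰ : 0 < ϰ) : 0 ≤ N2 L ϰ (EE z₀ R L) W t := by
  refine BI_nonneg measurableSet_ball fun z _ _ => ?_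
  have hG0 := (Gp_pos (Uf W z t - Real.log L)).le
  have hr0 := rate_nonneg (Zf W z t)
  have hm0 : 0 ≤ min 1 (‖Zf W z t‖ / ϰ) := le_min zero_le_one (by (clear * - hϰ; positivity))
  (clear * - hG0 hr0; positivity)

end Vale.Agent.P164
end

section

/-!
# X-A4. Rooms
-/

namespace Vale.Agent.P164

open Set Metric Filter Topology MeasureTheory ProbabilityTheory
open scoped NNReal ENNReal

/-- (HC) `pull_close` + `harnack_step`. -/
theorem hc_close {W : ℝ → ℝ} {z z' : ℂ} {t : ℝ} (hW : Continuous W) (ht : 0 ≤ t)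
    (h : z ∈ loewnerDomain W t) (hd : dist z' z ≤ Real.exp (Uf W z t) / 16000) :
    z' ∈ loewnerDomain W t ∧ dist (Zf W z' t) (Zf W z t) ≤ (Zf W z t).im / 400 ∧
      Real.exp (Uf W z t) / 40 ≤ Real.exp (Uf W z' t) ∧
      Real.exp (Uf W z' t) ≤ 40 * Real.exp (Uf W z t) := by
  have he := Real.exp_pos (Uf W z t)
  have hY := Zf_im_pos ht h
  obtain ⟨h1, h2⟩ := pull_close hW ht h (hd.trans (by linarith only [he]))
  have h3 : dist (Zf W z' t) (Zf W z t) ≤ (Zf W z t).im / 400 := by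
    refine h2.trans ?_
    calc 40 * (Zf W z t).im * (dist z' z) * Real.exp (-Uf W z t)
        ≤ 40 * (Zf W z t).im * (Real.exp (Uf W z t) / 16000) * Real.exp (-Uf W z t) := by
          (clear * - hd hY; gcongr)
      _ = (Zf W z t).im / 400 := by
          rw [Real.exp_neg]
          field_simp
          ring
  exact ⟨h1, h3, (harnack_step hW ht h h1 h3).2⟩

/-- A disc inside `D3` close to a given point. -/
theorem room_disc {z₀ b : ℂ} {ρ S : ℝ} (hρ : 0 < ρ) (hρS : ρ ≤ S) (hb : dist b z₀ < S) :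
    ∃ b' : ℂ, ball b' ρ ⊆ ball z₀ S ∧ ∀ z ∈ ball b' ρ, dist z b ≤ 2 * ρ := by
  rcases le_total (dist b z₀) ρ with h | h
  · refine ⟨z₀, ball_subset_ball hρS, fun z hz => ?_⟩
    rw [mem_ball] at hz
    have := dist_triangle z z₀ b
    rw [dist_comm z₀ b] at this
    linarith
  · have hd : 0 < dist b z₀ := hρ.trans_le h
    have hn : 0 < ‖z₀ - b‖ := by rwa [← dist_eq_norm, dist_comm]
    have hn' : ‖z₀ - b‖ = dist b z₀ := by rw [← dist_eq_norm, dist_comm]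
    set τ : ℝ := ρ / ‖z₀ - b‖ with hτ
    have hτ1 : τ ≤ 1 := by
      rw [hτ, div_le_one hn, hn']
      exact h
    have hτ0 : 0 ≤ τ := by positivity
    have hτn : τ * ‖z₀ - b‖ = ρ := div_mul_cancel₀ _ hn.ne'
    refine ⟨b + (τ : ℂ) * (z₀ - b), ?_, fun z hz => ?_⟩
    · apply ball_subset_ball'
      have h1 : dist (b + (τ : ℂ) * (z₀ - b)) z₀ = dist b z₀ - ρ := by
        have e : b + (τ : ℂ) * (z₀ - b) - z₀ = -(((1 - τ : ℝ) : ℂ) * (z₀ - b)) := by
          push_cast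
          ring
        rw [dist_eq_norm, e, norm_neg, norm_mul, Complex.norm_real, Real.norm_eq_abs,
          abs_of_nonneg (by linarith only [hτ1]), sub_mul, one_mul, hτn, hn']
      rw [h1]
      linarith only [hb]
    · rw [mem_ball] at hz
      have h1 : dist (b + (τ : ℂ) * (z₀ - b)) b = ρ := by
        rw [dist_eq_norm, add_sub_cancel_left, norm_mul, Complex.norm_real, Real.norm_eq_abs,
          abs_of_nonneg hτ0, hτn]
      have := dist_triangle z (b + (τ : ℂ) * (z₀ - b)) b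
      linarith only [hz, h1, this]

/-- (R1) In case (i): `I_Q ≥ c Λ_b³ K(b,Q)`. `ball b (Υ/16000) ∩ D3` contains a disc of radius
`Υ/64000` (centre: `b` moved by `Υ/64000` towards `z₀`; `Υ ≤ 96000 R L`), on it
`K(b',Q) ≥ 0.9 K(b,Q)` (`KK_close`) and `Υ_{b'} ≥ Υ_b/40`. -/
theorem room_lb : ∃ c : ℝ, 0 < c ∧ ∀ {W : ℝ → ℝ} {t : ℝ} {z₀ : ℂ} {R L : ℝ}
    (_ : SA W t z₀ R L) (_ : CaseI W t z₀ R L) {b : ℂ} (_ : b ∈ EE z₀ R L)
    (_ : b ∈ loewnerDomain W t) {Z : ℂ} (_ : 0 < Z.im),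
    c * (Real.exp (Uf W b t) / L) ^ 3 * KK (Zf W b t) Z ≤ IQ L (EE z₀ R L) W t Z := by
  refine ⟨9 / 400 * (Real.pi / 64000 ^ 2), by positivity, ?_⟩
  intro W t z₀ R L S hI b hb hal Z hZ
  have he := Real.exp_pos (Uf W b t)
  have hL := S.hL
  have hRL : 0 < R * L := mul_pos (by linarith only [S.hR]) hL
  set ρ : ℝ := Real.exp (Uf W b t) / 64000 with hρdef
  have hρ : 0 < ρ := by positivity
  have hρS : ρ ≤ 3 * (R * L) := by
    have := hI b hb hal
    rw [hρdef]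
    linarith only [hRL, this]
  have hbd : dist b z₀ < 3 * (R * L) := hb
  obtain ⟨b', hsub, hclose⟩ := room_disc hρ hρS hbd
  have hKb : 0 < KK (Zf W b t) Z := KK_pos (Zf_im_pos S.ht hal) hZ
  have hEm : MeasurableSet (EE z₀ R L) := measurableSet_ball
  have hint := IQ_int S hZ
  -- pointwise lower bound on the small disc
  have hpt : ∀ z ∈ ball b' ρ, 9 / 400 * (Real.exp (Uf W b t) / L) * KK (Zf W b t) Z ≤
      St (fun A U => Real.exp (U - Real.log L) * KK A Z) W z t := by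
    intro z hz
    have h1 := hclose z hz
    obtain ⟨h2, h3, h4, -⟩ := hc_close S.hW S.ht hal
      (z' := z) (h1.trans (by rw [hρdef]; linarith only [he]))
    rw [St_of_mem h2]
    have h5 : 9 / 10 * KK (Zf W b t) Z ≤ KK (Zf W z t) Z := by
      apply KK_close (Zf_im_pos S.ht hal) hZ
      rwa [← dist_eq_norm]
    have h6 : Real.exp (Uf W z t - Real.log L) = Real.exp (Uf W z t) / L := by
      rw [Real.exp_sub, Real.exp_log hL]
    rw [h6]
    calc 9 / 400 * (Real.exp (Uf W b t) / L) * KK (Zf W b t) Z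
        = (Real.exp (Uf W b t) / 40 / L) * (9 / 10 * KK (Zf W b t) Z) := by ring
      _ ≤ (Real.exp (Uf W z t) / L) * KK (Zf W z t) Z := by
          apply mul_le_mul _ h5 (by (clear * - hKb; positivity)) (by positivity)
          (clear * - h4 hL; gcongr)
  have hnn : ∀ z ∈ EE z₀ R L,
      0 ≤ St (fun A U => Real.exp (U - Real.log L) * KK A Z) W z t := by
    intro z _
    by_cases hz : z ∈ loewnerDomain W t
    · rw [St_of_mem hz]
      exact mul_nonneg (Real.exp_pos _).le (KK_pos (Zf_im_pos S.ht hz) hZ).le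
    · rw [St_of_not_mem hz]
  have hvol : volume.real (ball b' ρ) = Real.pi * ρ ^ 2 := by
    rw [Measure.real, Complex.volume_ball, ENNReal.toReal_mul, ENNReal.toReal_pow,
      ENNReal.toReal_ofReal hρ.le]
    simp [mul_comm]
  have h7 : 9 / 400 * (Real.exp (Uf W b t) / L) * KK (Zf W b t) Z * (Real.pi * ρ ^ 2) ≤
      ∫ z in EE z₀ R L, St (fun A U => Real.exp (U - Real.log L) * KK A Z) W z t := by
    calc 9 / 400 * (Real.exp (Uf W b t) / L) * KK (Zf W b t) Z * (Real.pi * ρ ^ 2)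
        = ∫ _ in ball b' ρ, 9 / 400 * (Real.exp (Uf W b t) / L) * KK (Zf W b t) Z := by
          rw [setIntegral_const, hvol, smul_eq_mul, mul_comm]
      _ ≤ ∫ z in ball b' ρ, St (fun A U => Real.exp (U - Real.log L) * KK A Z) W z t := by
          apply setIntegral_mono_on _ (hint.mono_set hsub) measurableSet_ball hpt
          exact integrableOn_const (by simp only [Complex.volume_ball, ne_eq, ENNReal.mul_eq_top, OfNat.ofNat_ne_zero, not_false_eq_true, pow_eq_zero_iff, ENNReal.ofReal_eq_zero, not_le, ENNReal.coe_ne_top, and_false, ENNReal.pow_eq_top_iff, ENNReal.ofReal_ne_top, and_true, ENNReal.coe_eq_zero, false_and, or_self])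
      _ ≤ ∫ z in EE z₀ R L, St (fun A U => Real.exp (U - Real.log L) * KK A Z) W z t := by
          apply setIntegral_mono_set hint
          · rw [EventuallyLE, ae_restrict_iff' hEm]
            exact Eventually.of_forall hnn
          · exact hsub.eventuallyLE
  unfold IQ BI
  rw [le_div_iff₀ (by (clear * - hL; positivity))]
  refine le_trans (le_of_eq ?_) h7
  rw [hρdef]
  (clear * - hKb hL; field_simp)

/-- Case (ii): `D3 ⊆ ball b₀ (Υ_{b₀}/16000)` (`Υ_{b₀} > 96000 R L`); by `hc_close` and `KK_near`;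
`M = Υ_{b₀}/L`. The area of `D3` is `9 π R² L²`. -/
theorem caseII {W : ℝ → ℝ} {t : ℝ} {z₀ : ℂ} {R L : ℝ} (S : SA W t z₀ R L)
    (h : ¬ CaseI W t z₀ R L) : ∃ M : ℝ, 96000 * R ≤ M ∧
      (∀ b ∈ EE z₀ R L, b ∈ loewnerDomain W t ∧ M / 40 ≤ Real.exp (Uf W b t) / L ∧
        Real.exp (Uf W b t) / L ≤ 40 * M) ∧
      (∀ b ∈ EE z₀ R L, ∀ z ∈ EE z₀ R L, 1 / 5000 ≤ KK (Zf W b t) (Zf W z t) ∧
        ‖Zf W b t‖ ≤ 2 * ‖Zf W z t‖) ∧
      ∀ z ∈ EE z₀ R L, 1 / 10000 * R ^ 2 * M ≤ IQ L (EE z₀ R L) W t (Zf W z t) := by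
  have hL := S.hL
  have hR := S.hR
  unfold CaseI at h
  push Not at h
  obtain ⟨b₀, hb₀, hal, hbig⟩ := h
  have hall : ∀ b ∈ EE z₀ R L, b ∈ loewnerDomain W t ∧
      dist (Zf W b t) (Zf W b₀ t) ≤ (Zf W b₀ t).im / 400 ∧
      Real.exp (Uf W b₀ t) / 40 ≤ Real.exp (Uf W b t) ∧
      Real.exp (Uf W b t) ≤ 40 * Real.exp (Uf W b₀ t) := by
    intro b hb
    refine hc_close S.hW S.ht hal ?_
    have h1 : dist b z₀ < 3 * (R * L) := hb
    have h2 : dist b₀ z₀ < 3 * (R * L) := hb₀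
    have h3 := dist_triangle_right b b₀ z₀
    linarith
  have hY0 := Zf_im_pos S.ht hal
  have him : ∀ b ∈ EE z₀ R L, (Zf W b₀ t).im * (399 / 400) ≤ (Zf W b t).im ∧
      (Zf W b t).im ≤ (Zf W b₀ t).im * (401 / 400) := by
    intro b hb
    have h1 := (hall b hb).2.1
    rw [dist_eq_norm] at h1
    have h2 := (Complex.abs_im_le_norm (Zf W b t - Zf W b₀ t)).trans h1
    rw [Complex.sub_im, abs_le] at h2
    constructor <;> linarith only [h2]
  have hpair : ∀ b ∈ EE z₀ R L, ∀ z ∈ EE z₀ R L, ‖Zf W b t - Zf W z t‖ ≤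
      (Zf W b₀ t).im / 200 := by
    intro b hb z hz
    have h1 := (hall b hb).2.1
    have h2 := (hall z hz).2.1
    rw [← dist_eq_norm]
    have h3 := dist_triangle_right (Zf W b t) (Zf W z t) (Zf W b₀ t)
    linarith
  have hKK : ∀ b ∈ EE z₀ R L, ∀ z ∈ EE z₀ R L, 1 / 5000 ≤ KK (Zf W b t) (Zf W z t) := by
    intro b hb z hz
    refine KK_near (Zf_im_pos S.ht (hall b hb).1) ?_
    have h1 := hpair b hb z hz
    have h2 := (him b hb).1
    linarith
  refine ⟨Real.exp (Uf W b₀ t) / L, ?_, ?_, ?_, ?_⟩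
  · rw [le_div_iff₀ hL]
    linarith
  · intro b hb
    obtain ⟨h1, _, h2, h3⟩ := hall b hb
    refine ⟨h1, ?_, ?_⟩
    · rw [div_div, mul_comm L 40, ← div_div]
      exact div_le_div_of_nonneg_right h2 hL.le
    · rw [← mul_div_assoc]
      exact div_le_div_of_nonneg_right h3 hL.le
  · intro b hb z hz
    refine ⟨hKK b hb z hz, ?_⟩
    have h1 := hpair b hb z hz
    have h2 := (him z hz).1
    have h3 : (Zf W z t).im ≤ ‖Zf W z t‖ :=
      (le_abs_self _).trans (Complex.abs_im_le_norm _)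
    have h4 : ‖Zf W b t‖ ≤ ‖Zf W b t - Zf W z t‖ + ‖Zf W z t‖ := by
      have := norm_add_le (Zf W b t - Zf W z t) (Zf W z t)
      rwa [sub_add_cancel] at this
    linarith
  · intro z hz
    have hzim := Zf_im_pos S.ht (hall z hz).1
    have hint := IQ_int S hzim
    have hE : MeasurableSet (EE z₀ R L) := measurableSet_ball
    have hRL : 0 < R * L := by positivity
    have hvol : (volume (EE z₀ R L)).toReal = 9 * Real.pi * (R * L) ^ 2 := by
      unfold EE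
      rw [Complex.volume_ball]
      rw [ENNReal.toReal_mul, ENNReal.toReal_pow, ENNReal.toReal_ofReal (by positivity),
        ENNReal.coe_toReal, NNReal.coe_real_pi]
      ring
    have hvt : volume (EE z₀ R L) ≠ ⊤ := by
      unfold EE
      exact measure_ball_lt_top.ne
    unfold IQ BI
    rw [le_div_iff₀ (by positivity)]
    have hlow : ∫ _b in EE z₀ R L, (Real.exp (Uf W b₀ t) / L / 200000 : ℝ) ≤
        ∫ b in EE z₀ R L, St (fun A U => Real.exp (U - Real.log L) * KK A (Zf W z t)) W b t := by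
      refine setIntegral_mono_on (integrableOn_const hvt) hint hE fun b hb => ?_
      obtain ⟨h1, _, h2, _⟩ := hall b hb
      rw [St_of_mem h1, Real.exp_sub, Real.exp_log hL]
      have h5 := hKK b hb z hz
      have h6 : Real.exp (Uf W b₀ t) / L / 40 ≤ Real.exp (Uf W b t) / L := by
        rw [div_div, mul_comm L 40, ← div_div]
        exact div_le_div_of_nonneg_right h2 hL.le
      have h7 : 0 ≤ Real.exp (Uf W b t) / L := by positivity
      calc Real.exp (Uf W b₀ t) / L / 200000 = Real.exp (Uf W b₀ t) / L / 40 * (1 / 5000) := by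
            ring
        _ ≤ Real.exp (Uf W b t) / L * KK (Zf W b t) (Zf W z t) :=
          mul_le_mul h6 h5 (by norm_num) h7
    refine le_trans ?_ hlow
    rw [setIntegral_const, smul_eq_mul, Measure.real, hvol]
    have hM : 0 ≤ Real.exp (Uf W b₀ t) / L := by positivity
    have hpi := Real.pi_gt_three
    have h8 : 0 ≤ R ^ 2 * (Real.exp (Uf W b₀ t) / L) * L ^ 2 := by positivity
    have h9 : 9 * Real.pi * (R * L) ^ 2 * (Real.exp (Uf W b₀ t) / L / 200000) =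
        9 * Real.pi / 200000 * (R ^ 2 * (Real.exp (Uf W b₀ t) / L) * L ^ 2) := by ring
    have h10 : 1 / 10000 * R ^ 2 * (Real.exp (Uf W b₀ t) / L) * L ^ 2 =
        1 / 10000 * (R ^ 2 * (Real.exp (Uf W b₀ t) / L) * L ^ 2) := by ring
    rw [h9, h10]
    exact mul_le_mul_of_nonneg_right (by linarith only [hpi]) h8

end Vale.Agent.P164
end

section

/-!
# X-A5. Auxiliary lemmas for the pointwise bound (S-pt)
-/

namespace Vale.Agent.P164

open Set Metric Filter Topology MeasureTheory ProbabilityTheory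
open scoped NNReal ENNReal

/-- `s^{c'} (1 + log (2/s))³` is bounded on `(0,1]`. -/
lemma sPtAux_log {c' : ℝ} (hc' : 0 < c') : ∃ C : ℝ, 0 < C ∧ ∀ s : ℝ, 0 < s → s ≤ 1 →
    s ^ c' * (1 + Real.log (2 / s)) ^ 3 ≤ C := by
  refine ⟨2 ^ c' * (1 + 3 / c') ^ 3, by positivity, ?_⟩
  intro s h0 h1
  have hx : 1 ≤ 2 / s := by rw [le_div_iff₀ h0]; linarith only [h1]
  have hx0 : 0 < 2 / s := by positivity
  have he : 0 < c' / 3 := by positivity
  have hl := Real.log_le_rpow_div hx0.le he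
  have hl0 : 0 ≤ Real.log (2 / s) := Real.log_nonneg hx
  have h1x : 1 ≤ (2 / s) ^ (c' / 3) := Real.one_le_rpow hx he.le
  have h2 : 1 + Real.log (2 / s) ≤ (2 / s) ^ (c' / 3) * (1 + 3 / c') := by
    have e : (2 / s) ^ (c' / 3) / (c' / 3) = (2 / s) ^ (c' / 3) * (3 / c') := by
      field_simp
    rw [e] at hl
    linarith only [hl, h1x]
  have h3 : (1 + Real.log (2 / s)) ^ 3 ≤ ((2 / s) ^ (c' / 3) * (1 + 3 / c')) ^ 3 := by
    gcongr
  have h4 : ((2 / s) ^ (c' / 3)) ^ 3 = (2 / s) ^ c' := by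
    rw [← Real.rpow_natCast, ← Real.rpow_mul hx0.le]
    congr 1
    push_cast
    ring
  have h5 : s ^ c' * (2 / s) ^ c' = 2 ^ c' := by
    rw [← Real.mul_rpow h0.le hx0.le]
    congr 1
    field_simp
  calc s ^ c' * (1 + Real.log (2 / s)) ^ 3
      ≤ s ^ c' * ((2 / s) ^ (c' / 3) * (1 + 3 / c')) ^ 3 := by (clear * - h3 h0; gcongr)
    _ = (s ^ c' * (2 / s) ^ c') * (1 + 3 / c') ^ 3 := by
        rw [mul_pow, h4]; ring
    _ = 2 ^ c' * (1 + 3 / c') ^ 3 := by rw [h5]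

/-- Polar coordinates of a point of the upper half-plane, folded to the first quadrant. -/
lemma sPtAux_polar {Z : ℂ} (hZ : 0 < Z.im) : ∃ σ θ : ℝ, (σ = 1 ∨ σ = -1) ∧ 0 < θ ∧
    θ ≤ Real.pi / 2 ∧ Real.sin θ = sn Z ∧
    Z = ⟨σ * (‖Z‖ * Real.cos θ), ‖Z‖ * Real.sin θ⟩ := by
  have hne : Z ≠ 0 := by
    intro h; rw [h] at hZ; simp at hZ
  have hn : 0 < ‖Z‖ := norm_pos_iff.2 hne
  have hs := sn_pos hZ
  have hs1 := sn_le_one Z
  have hsin : Real.sin (Real.arcsin (sn Z)) = sn Z := Real.sin_arcsin (by linarith only [hs]) hs1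
  have hcos : Real.cos (Real.arcsin (sn Z)) = |cs Z| := by
    rw [Real.cos_arcsin, ← sn_sq_add_cs_sq hne, add_sub_cancel_left, Real.sqrt_sq_eq_abs]
  have him : ‖Z‖ * sn Z = Z.im := by unfold sn; (clear * - hne hZ; field_simp)
  have hre : ‖Z‖ * cs Z = Z.re := by unfold cs; field_simp
  rcases le_total 0 Z.re with h | h
  · refine ⟨1, Real.arcsin (sn Z), Or.inl rfl, Real.arcsin_pos.2 hs, Real.arcsin_le_pi_div_two _,
      hsin, ?_⟩
    have hc : 0 ≤ cs Z := by unfold cs; (clear * - h hne; positivity)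
    rw [hcos, abs_of_nonneg hc, hsin, him, hre, one_mul]
  · refine ⟨-1, Real.arcsin (sn Z), Or.inr rfl, Real.arcsin_pos.2 hs,
      Real.arcsin_le_pi_div_two _, hsin, ?_⟩
    have hc : cs Z ≤ 0 := by unfold cs; exact div_nonpos_of_nonpos_of_nonneg h hn.le
    rw [hcos, abs_of_nonpos hc, hsin, him]
    apply Complex.ext
    · simp only
      rw [← hre]; ring
    · simp only

/-- First exit of a continuous path from an open set. -/
lemma sPtAux_exit {Γ : ℝ → ℂ} {a b : ℝ} (hΓ : ContinuousOn Γ (Icc a b))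
    {E : Set ℂ} (hE : IsOpen E) :
    (∀ θ ∈ Icc a b, Γ θ ∈ E) ∨ ∃ θ₁ ∈ Icc a b, Γ θ₁ ∉ E ∧ ∀ θ ∈ Ico a θ₁, Γ θ ∈ E := by
  by_cases hall : ∀ θ ∈ Icc a b, Γ θ ∈ E
  · exact Or.inl hall
  right
  push Not at hall
  obtain ⟨θ', hθ', hθE⟩ := hall
  have hclosed : IsClosed (Icc a b ∩ Γ ⁻¹' Eᶜ) :=
    hΓ.preimage_isClosed_of_isClosed isClosed_Icc hE.isClosed_compl
  have hne : (Icc a b ∩ Γ ⁻¹' Eᶜ).Nonempty := ⟨θ', hθ', hθE⟩
  have hbd : BddBelow (Icc a b ∩ Γ ⁻¹' Eᶜ) := ⟨a, fun x hx => hx.1.1⟩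
  have hmem := hclosed.csInf_mem hne hbd
  refine ⟨sInf (Icc a b ∩ Γ ⁻¹' Eᶜ), hmem.1, hmem.2, ?_⟩
  intro θ hθ
  by_contra hcon
  have : sInf (Icc a b ∩ Γ ⁻¹' Eᶜ) ≤ θ :=
    csInf_le hbd ⟨⟨hθ.1, hθ.2.le.trans hmem.1.2⟩, hcon⟩
  linarith only [this, hθ.2]

/-- The arc. -/
lemma sPtAux_arc {W : ℝ → ℝ} {t : ℝ} (hW : Continuous W) (ht : 0 ≤ t) {r σ : ℝ} (hr : 0 < r) :
    ∃ Γ : ℝ → ℂ, ContinuousOn Γ (Ioo 0 Real.pi) ∧ ∀ θ ∈ Ioo 0 Real.pi,
      Γ θ ∈ loewnerDomain W t ∧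
        Zf W (Γ θ) t = ⟨σ * (r * Real.cos θ), r * Real.sin θ⟩ := by
  have him : ∀ θ ∈ Ioo 0 Real.pi,
      0 < (⟨σ * (r * Real.cos θ), r * Real.sin θ⟩ : ℂ).im := by
    intro θ hθ
    have := Real.sin_pos_of_mem_Ioo hθ
    simp only
    positivity
  refine ⟨fun θ => invflow W t ⟨σ * (r * Real.cos θ), r * Real.sin θ⟩, ?_, ?_⟩
  · intro θ hθ
    have h1 := (hasDerivAt_invflow ht hW.continuousOn (him θ hθ)).continuousAt
    have h2 : Continuous (fun θ : ℝ =>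
        (⟨σ * (r * Real.cos θ), r * Real.sin θ⟩ : ℂ)) := by
      have e : (fun θ : ℝ => (⟨σ * (r * Real.cos θ), r * Real.sin θ⟩ : ℂ)) =
          fun θ : ℝ => ((σ * (r * Real.cos θ) : ℝ) : ℂ) +
            ((r * Real.sin θ : ℝ) : ℂ) * Complex.I := by
        funext θ
        rw [Complex.mk_eq_add_mul_I]
      rw [e]
      (clear * -; fun_prop)
    exact (ContinuousAt.comp (f := fun θ : ℝ =>
      (⟨σ * (r * Real.cos θ), r * Real.sin θ⟩ : ℂ)) (x := θ) h1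
        h2.continuousAt).continuousWithinAt
  · intro θ hθ
    exact ⟨invflow_mem ht hW.continuousOn (him θ hθ),
      flow_invflow ht hW.continuousOn (him θ hθ)⟩

/-- The norm of a point in polar coordinates. -/
lemma sPtAux_norm {r σ θ : ℝ} (hr : 0 ≤ r) (hσ : σ = 1 ∨ σ = -1) :
    ‖(⟨σ * (r * Real.cos θ), r * Real.sin θ⟩ : ℂ)‖ = r := by
  have h2 : ‖(⟨σ * (r * Real.cos θ), r * Real.sin θ⟩ : ℂ)‖ ^ 2 = r ^ 2 := by
    rw [Complex.sq_norm, Complex.normSq_apply]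
    have hs := Real.sin_sq_add_cos_sq θ
    have hσ2 : σ ^ 2 = 1 := by rcases hσ with h | h <;> rw [h] <;> norm_num
    simp only
    linear_combination (r ^ 2 * Real.cos θ ^ 2) * hσ2 + r ^ 2 * hs
  exact (pow_left_inj₀ (norm_nonneg _) hr two_ne_zero).1 h2

/-- The final step of (S-pt). -/
lemma sPtAux_fin {c' C₀ C₂ s I q X : ℝ} (hC₂ : 0 ≤ C₂) (hs : 0 < s) (hq : 0 < q)
    (hq3 : q ^ 3 = 1 + I) (hX : 0 < X)
    (hlog : s ^ c' * (1 + Real.log (2 / s)) ^ 3 ≤ C₀)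
    (hXle : X ≤ (C₂ * (q * (1 + Real.log (2 / s)))) ^ 3) :
    s ^ c' * (1 / (1 + I)) ≤ C₂ ^ 3 * C₀ * X⁻¹ := by
  have hsc : 0 < s ^ c' := Real.rpow_pos_of_pos hs _
  rw [← hq3, ← div_eq_mul_inv, le_div_iff₀ hX, mul_one_div, div_mul_eq_mul_div,
    div_le_iff₀ (by positivity)]
  calc s ^ c' * X ≤ s ^ c' * (C₂ * (q * (1 + Real.log (2 / s)))) ^ 3 := by (clear * - hXle hs; gcongr)
    _ = C₂ ^ 3 * (s ^ c' * (1 + Real.log (2 / s)) ^ 3) * q ^ 3 := by ring
    _ ≤ C₂ ^ 3 * C₀ * q ^ 3 := by gcongr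

/-- Arithmetic of the first alternative. -/
lemma sPtAux_stay {a q ℓ L C₁ C₂ d : ℝ} (hL : 0 < L) (ha : 0 < a) (hC₁ : 1 ≤ C₁)
    (hC₂ : C₂ = 1 + (2 + C₁) * a) (hq : 1 ≤ q) (hℓ : 1 ≤ ℓ) (hd0 : 0 ≤ d)
    (hd : d ≤ 2 * (L * (a * q)) * (ℓ - 1) + C₁ * (L * (a * q))) :
    (1 + d / L) ^ 3 ≤ (C₂ * (q * ℓ)) ^ 3 := by
  have hB : 0 < L * (a * q) := by (clear * - hL ha hq; positivity)
  have h2 : 2 * (L * (a * q)) * (ℓ - 1) ≤ 2 * (L * (a * q)) * ℓ := by gcongr; (clear * -; linarith)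
  have h3 : C₁ * (L * (a * q)) ≤ C₁ * (L * (a * q)) * ℓ := by
    have : 0 < C₁ * (L * (a * q)) := by (clear * - hC₁ hL ha hq; positivity)
    exact le_mul_of_one_le_right this.le hℓ
  have h1 : d / L ≤ (2 + C₁) * a * (q * ℓ) := by
    rw [div_le_iff₀ hL]
    calc d ≤ 2 * (L * (a * q)) * ℓ + C₁ * (L * (a * q)) * ℓ := by linarith only [hd, hB, h3]
      _ = (2 + C₁) * a * (q * ℓ) * L := by ring
  have h4 : 1 ≤ q * ℓ := by
    calc (1 : ℝ) = 1 * 1 := by ring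
      _ ≤ q * ℓ := by (clear * - hq hℓ; gcongr)
  have h5 : 1 + d / L ≤ C₂ * (q * ℓ) := by
    rw [hC₂, add_mul]
    linarith only [h1, h4]
  gcongr

/-- Arithmetic of the second alternative. -/
lemma sPtAux_leave {a q ℓ L R C₂ D : ℝ} (hL : 0 < L) (hR : 1 ≤ R) (ha : 0 < a)
    (hC₂ : a ≤ C₂) (hq : 1 ≤ q) (hℓ : 1 ≤ ℓ) (hD : 2 * (R * L) ≤ D)
    (hd : D ≤ 2 * (L * (a * q)) * (ℓ - 1)) :
    R ^ 2 ≤ (C₂ * (q * ℓ)) ^ 3 := by
  have hB : 0 < L * (a * q) := by positivity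
  have h5 : L * (a * q) * (ℓ - 1) ≤ L * (a * q) * ℓ := by
    gcongr; linarith only []
  have h6 : R ≤ a * q * ℓ := by
    have : L * R ≤ L * (a * q * ℓ) := by linarith only [hD, hd, hB]
    exact le_of_mul_le_mul_left this hL
  have h7 : R ≤ C₂ * (q * ℓ) := by
    have : a * (q * ℓ) ≤ C₂ * (q * ℓ) := by gcongr
    linarith only [h6, this]
  calc R ^ 2 ≤ R ^ 3 := pow_le_pow_right₀ hR (by norm_num)
    _ ≤ (C₂ * (q * ℓ)) ^ 3 := by (clear * - hR h7; gcongr)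

/-- Case (ii) of (S-pt). -/
lemma sPtAux_caseII {W : ℝ → ℝ} {t : ℝ} {z₀ : ℂ} {R L : ℝ} (S : SA W t z₀ R L)
    (h : ¬ CaseI W t z₀ R L) {z : ℂ} (hz : z ∈ EE z₀ R L) :
    om L (EE z₀ R L) W t (Zf W z t) ≤ (R ^ 2)⁻¹ := by
  have hR := S.hR
  obtain ⟨M, hM, -, -, hIM⟩ := caseII S h
  have h1 := hIM z hz
  unfold om
  rw [one_div]
  apply inv_anti₀ (by (clear * - hR; positivity))
  have h3 : 1 / 10000 * R ^ 2 * (96000 * R) ≤ 1 / 10000 * R ^ 2 * M := by (clear * - hM hR; gcongr)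
  have h4 : R ^ 2 ≤ 1 / 10000 * R ^ 2 * (96000 * R) := by
    have h5 : 0 ≤ R ^ 2 := sq_nonneg R
    have h6 : 1 ≤ 48 / 5 * R := by linarith only [hR]
    calc R ^ 2 = R ^ 2 * 1 := by ring
      _ ≤ R ^ 2 * (48 / 5 * R) := by (clear * - h6 hR; gcongr)
      _ = 1 / 10000 * R ^ 2 * (96000 * R) := by ring
  linarith

/-- The room bound on the arc. -/
lemma sPtAux_room {c a q : ℝ} (hc : 0 < c) (ha : 0 < a) (ha3 : a ^ 3 = 5000 / c) (hq : 0 < q)
    {W : ℝ → ℝ} {t : ℝ} {z₀ : ℂ} {R L : ℝ} (hL : 0 < L) {z b : ℂ}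
    (hq3 : q ^ 3 = 1 + IQ L (EE z₀ R L) W t (Zf W z t))
    (hroom : c * (Real.exp (Uf W b t) / L) ^ 3 * KK (Zf W b t) (Zf W z t) ≤
      IQ L (EE z₀ R L) W t (Zf W z t))
    (hZim : 0 < (Zf W z t).im) {σ θ₀ θ : ℝ}
    (hσ : σ = 1 ∨ σ = -1) (hθ0 : 0 < θ₀) (hθ1 : θ₀ ≤ Real.pi / 2)
    (hsinθ : Real.sin θ₀ = sn (Zf W z t))
    (hZe : Zf W z t = ⟨σ * (‖Zf W z t‖ * Real.cos θ₀), ‖Zf W z t‖ * Real.sin θ₀⟩)
    (hθ : θ ∈ Icc θ₀ (Real.pi / 2))
    (hbZ : Zf W b t = ⟨σ * (‖Zf W z t‖ * Real.cos θ), ‖Zf W z t‖ * Real.sin θ⟩) :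
    Real.exp (Uf W b t) ≤ L * (a * q) := by
  have hr : 0 < ‖Zf W z t‖ := norm_pos_iff.2 (by
    intro h; rw [h] at hZim; simp at hZim)
  have hσ2 : σ ^ 2 = 1 := by rcases hσ with h | h <;> rw [h] <;> norm_num
  have hn : ‖Zf W b t‖ = ‖Zf W z t‖ := by rw [hbZ, sPtAux_norm hr.le hσ]
  have him : (Zf W z t).im ≤ (Zf W b t).im := by
    have e1 : (Zf W z t).im = ‖Zf W z t‖ * Real.sin θ₀ := by
      rw [hsinθ]; unfold sn; (clear * - hr hZim; field_simp)
    have e2 : (Zf W b t).im = ‖Zf W z t‖ * Real.sin θ := by rw [hbZ]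
    rw [e1, e2]
    have := Real.sin_le_sin_of_le_of_le_pi_div_two (by linarith only [hθ0, hθ1]) hθ.2 hθ.1
    (clear * - this hr; gcongr)
  have hre : 0 ≤ (Zf W b t).re * (Zf W z t).re := by
    have e1 : (Zf W z t).re = σ * (‖Zf W z t‖ * Real.cos θ₀) := by
      conv_lhs => rw [hZe]
    have e2 : (Zf W b t).re = σ * (‖Zf W z t‖ * Real.cos θ) := by rw [hbZ]
    rw [e1, e2]
    have h1 : 0 ≤ Real.cos θ := Real.cos_nonneg_of_mem_Icc ⟨by linarith only [hθ0, hθ1, hθ.1], hθ.2⟩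
    have h2 : 0 ≤ Real.cos θ₀ := Real.cos_nonneg_of_mem_Icc ⟨by linarith only [hθ0, hθ1], hθ1⟩
    have e2 : σ * (‖Zf W z t‖ * Real.cos θ) * (σ * (‖Zf W z t‖ * Real.cos θ₀)) =
        σ ^ 2 * (‖Zf W z t‖ ^ 2 * (Real.cos θ * Real.cos θ₀)) := by ring
    rw [e2, hσ2]
    (clear * - hr h1 h2; positivity)
  have h2 := KK_arc hZim hn him hre
  have h3 : c * (Real.exp (Uf W b t) / L) ^ 3 * (1 / 5000) ≤
      IQ L (EE z₀ R L) W t (Zf W z t) := by
    refine le_trans ?_ hroom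
    (clear * - h2 hc hL; gcongr)
  have h4 : (Real.exp (Uf W b t) / L) ^ 3 ≤ (a * q) ^ 3 := by
    rw [mul_pow, ha3, hq3, div_mul_eq_mul_div, le_div_iff₀ hc]
    linarith only [h3]
  have h5 : Real.exp (Uf W b t) / L ≤ a * q :=
    (pow_le_pow_iff_left₀ (by positivity) (by positivity) (by norm_num)).1 h4
  rw [div_le_iff₀ hL] at h5
  linarith only [h5]

/-- The point at the top of the arc and `ζ` are close. -/
lemma sPtAux_top {C₁ B : ℝ} (hC₁ : 1 ≤ C₁)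
    (hchain : ∀ {W : ℝ → ℝ} (_ : Continuous W) {t : ℝ} (_ : 0 ≤ t) {z z' : ℂ}
      (_ : z ∈ loewnerDomain W t) (_ : z' ∈ loewnerDomain W t)
      (_ : dist (Zf W z' t) (Zf W z t) ≤ 1 * min (Zf W z t).im (Zf W z' t).im),
      dist z' z ≤ C₁ * Real.exp (Uf W z t) ∧
        Real.exp (Uf W z' t) ≤ C₁ * Real.exp (Uf W z t) ∧
          Real.exp (Uf W z t) ≤ C₁ * Real.exp (Uf W z' t))
    {W : ℝ → ℝ} {t : ℝ} (hW : Continuous W) (ht : 0 ≤ t) {r σ : ℝ} {l : ℤ} {y ζ : ℂ}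
    (hy : y ∈ loewnerDomain W t) (hζ : ζ ∈ loewnerDomain W t)
    (hs1 : (2 : ℝ) ^ l ≤ r) (hs2 : r < (2 : ℝ) ^ (l + 1))
    (hyZ : Zf W y t = ⟨σ * (r * Real.cos (Real.pi / 2)), r * Real.sin (Real.pi / 2)⟩)
    (hζZ : Zf W ζ t = ⟨0, 2 ^ l⟩) (hB : Real.exp (Uf W y t) ≤ B) :
    dist ζ y ≤ C₁ * B := by
  have h1 := (hchain hW ht hy hζ ?_).1
  · exact h1.trans (by (clear * - hB hC₁; gcongr))
  · rw [hζZ, hyZ, Real.cos_pi_div_two, Real.sin_pi_div_two]
    have hs3 : r < 2 ^ l * 2 := by rwa [zpow_add_one₀ two_ne_zero] at hs2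
    have e1 : dist (⟨0, 2 ^ l⟩ : ℂ) ⟨σ * (r * 0), r * 1⟩ = |2 ^ l - r| := by
      rw [Complex.dist_of_re_eq (by simp)]
      simp [Real.dist_eq]
    rw [e1]
    simp only [mul_one, one_mul]
    rw [min_eq_right hs1, abs_le]
    constructor <;> linarith only [hs1, hs3]

end Vale.Agent.P164
end

section

/-!
# X-A7, auxiliary file: measurability and elementary estimates for `TB`
-/

namespace Vale.Agent.P164

open Set Metric Filter Topology MeasureTheory ProbabilityTheory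
open scoped NNReal ENNReal

lemma tb_meas_alive {W : ℝ → ℝ} {t : ℝ} (hW : Continuous W) (ht : 0 ≤ t) :
    MeasurableSet (loewnerDomain W t) := by
  have hm : Measurable (fun z : ℂ => St (fun _ _ => (1 : ℝ)) W z t) :=
    St_measurable_z hW (by fun_prop) ht
  have h : loewnerDomain W t = {z : ℂ | 1 ≤ St (fun _ _ => (1 : ℝ)) W z t} := by
    ext z
    by_cases hz : z ∈ loewnerDomain W t
    · simp only [hz, mem_ofPred_eq, St_of_mem hz, Std.le_refl]
    · simp only [hz, mem_ofPred_eq, St_of_not_mem hz, false_iff, not_le, zero_lt_one]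
  rw [h]
  exact measurableSet_le measurable_const hm

lemma tb_meas_far {W : ℝ → ℝ} {t ϰ : ℝ} (hW : Continuous W) (ht : 0 ≤ t) :
    MeasurableSet {z : ℂ | ϰ ≤ ‖Zf W z t‖} := by
  have hm : Measurable (fun z : ℂ => St (fun Z _ => ‖Z‖) W z t) :=
    St_measurable_z hW (by unfold Function.uncurry; fun_prop) ht
  have h : {z : ℂ | ϰ ≤ ‖Zf W z t‖} = {z : ℂ | ϰ ≤ St (fun Z _ => ‖Z‖) W z t} := by
    ext z
    by_cases hz : z ∈ loewnerDomain W t
    · simp only [mem_ofPred_eq, St_of_mem hz]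
    · simp only [mem_ofPred_eq, Zf_of_not_mem hz, norm_zero, St_of_not_mem hz]
  rw [h]
  exact measurableSet_le measurable_const hm

/-- `ω K³ ≤ C min(1, Λ^{-3/2})` from `ω = 1/(1+I)` and `c Λ³ K⁶ ≤ I`. -/
lemma tb_om_aux {c I K u Λ : ℝ} (hc : 0 < c) (hK0 : 0 ≤ K) (hK1 : K ≤ 1)
    (hI : 0 ≤ I) (hΛ : Λ = Real.exp u) (h : c * Λ ^ 3 * K ^ 6 ≤ I) :
    1 / (1 + I) * K ^ 3 ≤ (1 + 1 / √c) * min 1 (Real.exp (-3 / 2 * u)) := by
  have hs : 0 < √c := Real.sqrt_pos.2 hc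
  have hsc : √c ^ 2 = c := Real.sq_sqrt hc.le
  have h1 : (0 : ℝ) < 1 + I := by linarith only [hI]
  have hK3 : K ^ 3 ≤ 1 := pow_le_one₀ hK0 hK1
  have hK3' : 0 ≤ K ^ 3 := by (clear * - hK0; positivity)
  set q := Real.exp (3 / 2 * u) with hq
  have hq0 : 0 < q := Real.exp_pos _
  have hqw : Real.exp (-3 / 2 * u) = q⁻¹ := by
    rw [hq, ← Real.exp_neg]
    congr 1
    ring
  have hq2 : q ^ 2 = Λ ^ 3 := by
    rw [hq, hΛ, ← Real.exp_nat_mul, ← Real.exp_nat_mul]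
    congr 1
    push_cast
    ring
  have hA : 1 / (1 + I) * K ^ 3 ≤ 1 := by
    rw [one_div, inv_mul_le_iff₀ h1]
    linarith only [hI, hK3]
  have hB : 1 / (1 + I) * K ^ 3 ≤ 1 / √c * q⁻¹ := by
    have e1 : √c * q * K ^ 3 ≤ 1 + I := by
      have e2 : (√c * q * K ^ 3) ^ 2 ≤ I := by
        have : (√c * q * K ^ 3) ^ 2 = √c ^ 2 * q ^ 2 * K ^ 6 := by ring
        rw [this, hsc, hq2]
        exact h
      nlinarith only [e2]
    rw [one_div, inv_mul_le_iff₀ h1]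
    have e3 : 0 < √c * q := by (clear * - hc; positivity)
    have e4 : 1 / √c * q⁻¹ = (√c * q)⁻¹ := by
      rw [one_div, mul_inv]
    rw [e4, ← div_eq_mul_inv, le_div_iff₀ e3]
    linarith only [e1]
  rw [hqw]
  have hs' : 0 ≤ 1 / √c := by positivity
  have hq' : 0 < q⁻¹ := inv_pos.2 hq0
  rcases le_total 1 q⁻¹ with h | h
  · rw [min_eq_left h]
    linarith only [hA, hs']
  · rw [min_eq_right h]
    nlinarith only [hB, hq']

/-- `K1 K2³ (1 + 1/s) ≤ 4 min(1,s)⁴ Th(1/s)`. -/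
lemma tb_ker_aux {A Z : ℂ} (hA : 0 < A.im) (hZ : 0 < Z.im) :
    K1 A Z * K2 A Z ^ 3 * (1 + ‖Z‖ / ‖A‖) ≤ 4 * (min 1 (‖A‖ / ‖Z‖) ^ 4 * Th (‖Z‖ / ‖A‖)) := by
  have hAn : 0 < ‖A‖ := norm_pos_iff.2 (fun h => by simp [h] at hA)
  have hZn : 0 < ‖Z‖ := norm_pos_iff.2 (fun h => by simp [h] at hZ)
  have hK1 := K1_pos hA hZ
  have hK1' := K1_le_one hA hZ
  have hK1d := K1_le_div hA hZ
  have hK2 : 0 < K2 A Z := K2_pos hA
  have hK2' := K2_le_one A Z
  have hK2s := K2_le (A := A) hZ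
  set s := ‖A‖ / ‖Z‖ with hs
  have hs0 : 0 < s := by positivity
  have hinv : ‖Z‖ / ‖A‖ = s⁻¹ := by rw [hs, inv_div]
  rw [hinv] at hK1d ⊢
  have hT := min_le_Th (inv_pos.2 hs0)
  rw [inv_inv] at hT
  have hsi : 0 < s⁻¹ := inv_pos.2 hs0
  have hss : s * s⁻¹ = 1 := mul_inv_cancel₀ hs0.ne'
  rcases le_total s 1 with h | h
  · have h1 : 1 ≤ s⁻¹ := (one_le_inv₀ hs0).2 h
    rw [min_eq_right h]
    rw [min_eq_right (h.trans h1)] at hT
    calc K1 A Z * K2 A Z ^ 3 * (1 + s⁻¹) ≤ 1 * (s ^ 2) ^ 3 * (2 * s⁻¹) := by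
          gcongr
          linarith only [h1]
      _ = 2 * (s ^ 4 * s) * (s * s⁻¹) := by ring
      _ = 2 * (s ^ 4 * s) := by rw [hss, mul_one]
      _ ≤ 4 * (s ^ 4 * s) := by
          have : 0 ≤ s ^ 4 * s := by positivity
          linarith only [this]
      _ ≤ 4 * (s ^ 4 * Th s⁻¹) := by (clear * - hT hAn hZn; gcongr)
  · have h1 : s⁻¹ ≤ 1 := inv_le_one_of_one_le₀ h
    rw [min_eq_left h]
    rw [min_eq_left (h1.trans h)] at hT
    calc K1 A Z * K2 A Z ^ 3 * (1 + s⁻¹) ≤ (2 * s⁻¹) * 1 ^ 3 * 2 := by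
          gcongr
          linarith only [h1]
      _ = 4 * (1 ^ 4 * s⁻¹) := by ring
      _ ≤ 4 * (1 ^ 4 * Th s⁻¹) := by (clear * - hT; gcongr)

/-- Case (ii): the integrand is bounded by a constant times `(R² M)⁻²`. -/
lemma tb_caseII_pt {κ : ℝ} (h0 : 0 < κ) (h8 : κ < 8) {W : ℝ → ℝ} {t : ℝ} {z₀ : ℂ} {R L M : ℝ}
    (S : SA W t z₀ R L) (hM : 1 ≤ M) {A Z : ℂ} (hA : 0 < A.im) (hZ : 0 < Z.im) {U : ℝ}
    (hU : 1 ≤ Real.exp U / L) (hI : 1 / 10000 * R ^ 2 * M ≤ IQ L (EE z₀ R L) W t Z) :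
    FF κ L Z U * om L (EE z₀ R L) W t Z ^ 2 * KT A Z ≤ 2 * 10 ^ 8 / (R ^ 2 * M) ^ 2 := by
  have hR0 : 0 < R := lt_of_lt_of_le one_pos S.hR
  have hM0 : 0 < M := lt_of_lt_of_le one_pos hM
  have hRM : 0 < R ^ 2 * M := by (clear * - hR0 hM; positivity)
  have hp : 0 ≤ pX κ := by
    have h1 : 0 ≤ be κ := by
      unfold be
      have : 1 ≤ 8 / κ := by rw [le_div_iff₀ h0]; (clear * - h8; linarith)
      linarith only [this]
    unfold pX
    (clear * - h1; positivity)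
  have hUL : Real.log L ≤ U := by
    rw [Real.log_le_iff_le_exp S.hL]
    rwa [le_div_iff₀ S.hL, one_mul] at hU
  have hF : FF κ L Z U ≤ 1 := by
    unfold FF
    rw [max_eq_left (by linarith only [hUL]), mul_zero, Real.exp_zero, one_mul]
    exact Real.rpow_le_one (sn_pos hZ).le (sn_le_one Z) hp
  have hF0 : 0 ≤ FF κ L Z U := by
    unfold FF
    have := (sn_pos hZ).le
    (clear * - this; positivity)
  have ho := om_pos S hZ
  have hoI := om_mul_IQ S hZ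
  set o := om L (EE z₀ R L) W t Z with ho'
  have h1 : o * (R ^ 2 * M) ≤ 10 ^ 4 := by
    have h2 : o * (1 / 10000 * R ^ 2 * M) ≤ 1 :=
      (mul_le_mul_of_nonneg_left hI ho.le).trans hoI
    linarith only [h2]
  have h2 : o ^ 2 ≤ 10 ^ 8 / (R ^ 2 * M) ^ 2 := by
    rw [le_div_iff₀ (by (clear * - hR0 hM; positivity))]
    have : (o * (R ^ 2 * M)) ^ 2 ≤ (10 ^ 4) ^ 2 := by (clear * - ho hR0 hM h1; gcongr)
    calc o ^ 2 * (R ^ 2 * M) ^ 2 = (o * (R ^ 2 * M)) ^ 2 := by ring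
      _ ≤ (10 ^ 4) ^ 2 := this
      _ = 10 ^ 8 := by norm_num
  have hAn : 0 < ‖A‖ := norm_pos_iff.2 (fun h => by simp [h] at hA)
  have hZn : 0 < ‖Z‖ := norm_pos_iff.2 (fun h => by simp [h] at hZ)
  have hK : KT A Z ≤ 2 := by
    refine (KT_le hA hZ).trans ?_
    have h3 : min 1 (‖A‖ / ‖Z‖) ^ 11 ≤ 1 :=
      pow_le_one₀ (le_min zero_le_one (by (clear * - hAn hZn; positivity))) (min_le_left _ _)
    linarith only [h3]
  have hK0 := KT_nonneg hA hZ
  calc FF κ L Z U * o ^ 2 * KT A Z ≤ 1 * (10 ^ 8 / (R ^ 2 * M) ^ 2) * 2 := by (clear * - hF h2 ho hK hK0 hR0 hM; gcongr)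
    _ = 2 * 10 ^ 8 / (R ^ 2 * M) ^ 2 := by ring

/-- Volume of `D`. -/
lemma tb_vol (z₀ : ℂ) {R L : ℝ} (hR : 0 ≤ R) (hL : 0 ≤ L) :
    volume (DD z₀ R L) ≤ ENNReal.ofReal (4 * (R * L) ^ 2) := by
  unfold DD
  rw [Complex.volume_ball]
  have h1 : (NNReal.pi : ℝ≥0∞) = ENNReal.ofReal Real.pi := by
    rw [← NNReal.coe_real_pi, ENNReal.ofReal_coe_nnreal]
  rw [h1, ← ENNReal.ofReal_pow (by (clear * - hR hL; positivity)), ← ENNReal.ofReal_mul (by (clear * -; positivity))]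
  apply ENNReal.ofReal_le_ofReal
  have := Real.pi_le_four
  nlinarith only [this]

end Vale.Agent.P164
end

section

/-!
# X-A8. Pair estimates integrated over `b`, for a fixed point `Q` (`Z = Z_Q`)

Everything follows from pointwise (in `b`) inequalities between the integrands by `BI_mono`
(integrability: `IQ_int`, `IX1_int`, ..., `VQ_int`) and
`e^u K |w-v|² ≤ e^u KT η²` (`KK_mul_sq`), `om·IQ ≤ 1`, `|kX| ≤ 6|w-v|`,
`|κ/2(kX²+kXX)+k3| ≤ 300|w-v|(|w|+|v|)`; `v = Z⁻¹`, `w = A⁻¹`, `η² = rate/4`.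
-/

namespace Vale.Agent.P164

open Set Metric Filter Topology MeasureTheory ProbabilityTheory
open scoped NNReal ENNReal

variable {κ L R t : ℝ} {z₀ : ℂ} {W : ℝ → ℝ} {Z : ℂ}

lemma Pair_St_lin (a b : ℝ) (G H : ℂ → ℝ → ℝ) (z : ℂ) :
    St (fun A U => a * G A U + b * H A U) W z t = a * St G W z t + b * St H W z t := by
  unfold St
  split_ifs <;> simp

lemma Pair_int_lin {E : Set ℂ} {G H : ℂ → ℝ → ℝ} (a b : ℝ)
    (hG : IntegrableOn (fun z => St G W z t) E) (hH : IntegrableOn (fun z => St H W z t) E) :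
    IntegrableOn (fun z => St (fun A U => a * G A U + b * H A U) W z t) E := by
  have h : (fun z => St (fun A U => a * G A U + b * H A U) W z t) =
      fun z => a * St G W z t + b * St H W z t := by
    funext z
    exact Pair_St_lin a b G H z
  rw [h]
  exact (hG.const_mul a).add (hH.const_mul b)

lemma Pair_BI_lin {E : Set ℂ} {G H : ℂ → ℝ → ℝ} (a b : ℝ)
    (hG : IntegrableOn (fun z => St G W z t) E) (hH : IntegrableOn (fun z => St H W z t) E) :
    BI L E W t (fun A U => a * G A U + b * H A U) = a * BI L E W t G + b * BI L E W t H := by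
  unfold BI
  have h : (∫ z in E, St (fun A U => a * G A U + b * H A U) W z t) =
      a * (∫ z in E, St G W z t) + b * ∫ z in E, St H W z t := by
    rw [← integral_const_mul, ← integral_const_mul, ← integral_add (hG.const_mul a)
      (hH.const_mul b)]
    refine integral_congr_ae (Eventually.of_forall fun z => ?_)
    exact Pair_St_lin a b G H z
  rw [h]
  ring

/-- `K |w-v|² ≤ KT η²`. -/
lemma Pair_sq_le {A : ℂ} (hA : 0 < A.im) (hZ : 0 < Z.im) :
    KK A Z * ‖A⁻¹ - Z⁻¹‖ ^ 2 ≤ KT A Z * (rate A / 4) := by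
  refine (KK_mul_sq hA hZ).trans ?_
  have h1 : 0 ≤ rate A / 4 := by
    unfold rate
    (clear * -; positivity)
  have h2 : 0 ≤ ‖Z‖ / ‖A‖ := by positivity
  have h3 : 0 ≤ K1 A Z ^ 4 * K2 A Z ^ 6 := by
    have := (K2_pos hA : 0 < K2 A Z)
    have := K1_pos hA hZ
    positivity
  refine mul_le_mul_of_nonneg_right ?_ h1
  unfold KT
  nlinarith only [h2, h3]

lemma Pair_pt_J {A : ℂ} (h0 : 0 < κ) (h8 : κ < 8) (hA : 0 < A.im) (hZ : 0 < Z.im) {s : ℝ}
    (hs : 0 < s) (hs1 : s ≤ 1) :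
    KK A Z * |κ / 2 * (kX A Z ^ 2 + kXX A Z) + (k3 A Z - rate A)| ≤
      900 * s / ‖Z‖ ^ 2 * KK A Z + 1804 / s * (KT A Z * (rate A / 4)) := by
  have hK := KK_pos hA hZ
  have hKT := KK_le_KT hA hZ
  have hr : 0 ≤ rate A / 4 := by
    unfold rate
    (clear * -; positivity)
  have h1 : |κ / 2 * (kX A Z ^ 2 + kXX A Z) + (k3 A Z - rate A)| ≤
      300 * (‖A⁻¹ - Z⁻¹‖ * (‖A⁻¹‖ + ‖Z⁻¹‖)) + rate A := by
    have h2 := kgen_abs h0 h8 hA hZ
    have h3 : κ / 2 * (kX A Z ^ 2 + kXX A Z) + (k3 A Z - rate A) =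
      (κ / 2 * (kX A Z ^ 2 + kXX A Z) + k3 A Z) - rate A := by ring
    rw [h3]
    refine (abs_sub _ _).trans ?_
    rw [abs_of_nonneg (show 0 ≤ rate A by linarith only [hr])]
    linarith only [h2]
  have hsq := Pair_sq_le hA hZ
  have h4 : ‖A⁻¹‖ ≤ ‖A⁻¹ - Z⁻¹‖ + ‖Z⁻¹‖ := by
    calc ‖A⁻¹‖ = ‖(A⁻¹ - Z⁻¹) + Z⁻¹‖ := by ring_nf
      _ ≤ _ := norm_add_le _ _
  have hv : ‖Z⁻¹‖ ^ 2 = 1 / ‖Z‖ ^ 2 := by
    rw [norm_inv]
    simp
  set D := ‖A⁻¹ - Z⁻¹‖ with hD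
  set w := ‖A⁻¹‖ with hw
  set v := ‖Z⁻¹‖ with hv'
  have hD0 : 0 ≤ D := norm_nonneg _
  have hw0 : 0 ≤ w := norm_nonneg _
  have hv0 : 0 ≤ v := norm_nonneg _
  have h5 : D * (w + v) ≤ 3 * s * v ^ 2 + 6 / s * D ^ 2 := by
    have h6 : D * (w + v) ≤ 2 * D * v + D ^ 2 := by nlinarith only [h4, hD0]
    have h7 : 2 * D * v ≤ s * v ^ 2 + 1 / s * D ^ 2 := by
      have h8 : 0 ≤ (s * v - D) ^ 2 / s := by (clear * - hs; positivity)
      have h9 : (s * v - D) ^ 2 / s = s * v ^ 2 + 1 / s * D ^ 2 - 2 * D * v := by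
        field_simp
        ring
      linarith only [h8, h9]
    have h10 : 1 ≤ 1 / s := by
      rw [le_div_iff₀ hs]
      linarith only [hs1]
    have h11 : D ^ 2 ≤ 1 / s * D ^ 2 := by nlinarith only [h10]
    have h12 : 6 / s * D ^ 2 = 6 * (1 / s * D ^ 2) := by ring
    have h13 : 0 ≤ s * v ^ 2 := by (clear * - hs; positivity)
    have h14 : 0 ≤ 1 / s * D ^ 2 := by (clear * - hs; positivity)
    nlinarith only [h6, h7, h11, h12, h13]
  calc KK A Z * |κ / 2 * (kX A Z ^ 2 + kXX A Z) + (k3 A Z - rate A)|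
      ≤ KK A Z * (300 * (D * (w + v)) + rate A) := mul_le_mul_of_nonneg_left h1 hK.le
    _ ≤ KK A Z * (300 * (3 * s * v ^ 2 + 6 / s * D ^ 2) + rate A) := by
        refine mul_le_mul_of_nonneg_left ?_ hK.le
        linarith only [h5]
    _ = 900 * s * v ^ 2 * KK A Z + 1800 / s * (KK A Z * D ^ 2) +
          4 * (KK A Z * (rate A / 4)) := by ring
    _ ≤ 900 * s * v ^ 2 * KK A Z + 1800 / s * (KT A Z * (rate A / 4)) +
          4 / s * (KT A Z * (rate A / 4)) := by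
        have e1 : 1800 / s * (KK A Z * D ^ 2) ≤ 1800 / s * (KT A Z * (rate A / 4)) :=
          mul_le_mul_of_nonneg_left hsq (by positivity)
        have e2 : KK A Z * (rate A / 4) ≤ KT A Z * (rate A / 4) :=
          mul_le_mul_of_nonneg_right hKT hr
        have e3 : (4 : ℝ) ≤ 4 / s := by
          rw [le_div_iff₀ hs]
          linarith only [hs1]
        have e4 : 0 ≤ KT A Z * (rate A / 4) := mul_nonneg (hK.le.trans hKT) hr
        have e5 : 4 * (KT A Z * (rate A / 4)) ≤ 4 / s * (KT A Z * (rate A / 4)) :=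
          mul_le_mul_of_nonneg_right e3 e4
        linarith only [e1, e2, e5]
    _ = 900 * s / ‖Z‖ ^ 2 * KK A Z + 1804 / s * (KT A Z * (rate A / 4)) := by
        rw [hv]
        ring

/-- The integrated form of the generator. -/
lemma Pair_J_eq (S : SA W t z₀ R L) (hZ : 0 < Z.im) :
    κ / 2 * IX2 L (EE z₀ R L) W t Z + IX3 L (EE z₀ R L) W t Z =
      BI L (EE z₀ R L) W t (fun A U =>
        κ / 2 * (Real.exp (U - Real.log L) * (KK A Z * (kX A Z ^ 2 + kXX A Z))) +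
        1 * (Real.exp (U - Real.log L) * (KK A Z * (k3 A Z - rate A)))) := by
  rw [Pair_BI_lin (κ / 2) 1 (IX2_int S hZ) (IX3_int S hZ)]
  unfold IX2 IX3
  ring

/-- Two-sided monotonicity. -/
lemma Pair_abs_BI {E : Set ℂ} {G H : ℂ → ℝ → ℝ} (hG : IntegrableOn (fun z => St G W z t) E)
    (hH : IntegrableOn (fun z => St H W z t) E) (hE : MeasurableSet E)
    (h : ∀ z ∈ E, z ∈ loewnerDomain W t →
      |G (Zf W z t) (Uf W z t)| ≤ H (Zf W z t) (Uf W z t)) :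
    |BI L E W t G| ≤ BI L E W t H := by
  rw [abs_le]
  constructor
  · have h1 : BI L E W t (fun A U => (-1) * H A U + 0 * H A U) ≤ BI L E W t G := by
      refine BI_mono (Pair_int_lin _ _ hH hH) hG hE fun z hz hz' => ?_
      have := (abs_le.1 (h z hz hz')).1
      linarith
    rw [Pair_BI_lin _ _ hH hH] at h1
    linarith only [h1]
  · exact BI_mono hG hH hE fun z hz hz' => (abs_le.1 (h z hz hz')).2

/-- (P1) For `s ∈ (0,1]`: `|w-v|(|w|+|v|) ≤ 3s|v|² + (3+3/s)|w-v|²` (if `|w| ≤ 2|v|`: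
`|w|+|v| ≤ 3|v|`; else `|w|+|v| ≤ 3|w-v|`), and the term `-4η²K`. -/
theorem pair_J (h0 : 0 < κ) (h8 : κ < 8) (S : SA W t z₀ R L) (hZ : 0 < Z.im) {s : ℝ}
    (hs : 0 < s) (hs1 : s ≤ 1) :
    om L (EE z₀ R L) W t Z ^ 2 *
        |κ / 2 * IX2 L (EE z₀ R L) W t Z + IX3 L (EE z₀ R L) W t Z| ≤
      2000 * (s * (om L (EE z₀ R L) W t Z / ‖Z‖ ^ 2) +
        1 / s * (om L (EE z₀ R L) W t Z ^ 2 * VQ L (EE z₀ R L) W t Z)) := by
  have hE : MeasurableSet (EE z₀ R L) := measurableSet_ball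
  have h1 : |κ / 2 * IX2 L (EE z₀ R L) W t Z + IX3 L (EE z₀ R L) W t Z| ≤
      900 * s / ‖Z‖ ^ 2 * IQ L (EE z₀ R L) W t Z + 1804 / s * VQ L (EE z₀ R L) W t Z := by
    rw [Pair_J_eq S hZ]
    have h2 := Pair_BI_lin (L := L) (900 * s / ‖Z‖ ^ 2) (1804 / s) (IQ_int S hZ) (VQ_int S hZ)
    have h3 : 900 * s / ‖Z‖ ^ 2 * IQ L (EE z₀ R L) W t Z +
        1804 / s * VQ L (EE z₀ R L) W t Z = BI L (EE z₀ R L) W t (fun A U =>
          900 * s / ‖Z‖ ^ 2 * (Real.exp (U - Real.log L) * KK A Z) +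
          1804 / s * (Real.exp (U - Real.log L) * (KT A Z * (rate A / 4)))) := by
      rw [h2]
      rfl
    rw [h3]
    refine Pair_abs_BI (Pair_int_lin _ _ (IX2_int S hZ) (IX3_int S hZ))
      (Pair_int_lin _ _ (IQ_int S hZ) (VQ_int S hZ)) hE fun b hb hb' => ?_
    have hA := Zf_im_pos S.ht hb'
    set A := Zf W b t with hAdef
    have h4 := Pair_pt_J (Z := Z) h0 h8 hA hZ hs hs1
    have hexp := Real.exp_pos (Uf W b t - Real.log L)
    have h5 : κ / 2 * (Real.exp (Uf W b t - Real.log L) * (KK A Z * (kX A Z ^ 2 + kXX A Z))) +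
        1 * (Real.exp (Uf W b t - Real.log L) * (KK A Z * (k3 A Z - rate A))) =
        Real.exp (Uf W b t - Real.log L) * (KK A Z *
          (κ / 2 * (kX A Z ^ 2 + kXX A Z) + (k3 A Z - rate A))) := by ring
    show |κ / 2 * (Real.exp (Uf W b t - Real.log L) * (KK A Z * (kX A Z ^ 2 + kXX A Z))) +
        1 * (Real.exp (Uf W b t - Real.log L) * (KK A Z * (k3 A Z - rate A)))| ≤ _
    rw [h5, abs_mul, abs_of_pos hexp, abs_mul, abs_of_pos (KK_pos hA hZ)]
    have h6 := mul_le_mul_of_nonneg_left h4 hexp.le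
    refine h6.trans (le_of_eq ?_)
    ring
  have ho := om_pos S hZ
  have hoI := om_mul_IQ S hZ
  have hV := VQ_nonneg S hZ
  have hI := IQ_nonneg S hZ
  set o := om L (EE z₀ R L) W t Z with ho'
  set I := IQ L (EE z₀ R L) W t Z with hI'
  set V := VQ L (EE z₀ R L) W t Z with hV'
  have h7 : o ^ 2 * |κ / 2 * IX2 L (EE z₀ R L) W t Z + IX3 L (EE z₀ R L) W t Z| ≤
      o ^ 2 * (900 * s / ‖Z‖ ^ 2 * I + 1804 / s * V) :=
    mul_le_mul_of_nonneg_left h1 (by (clear * - ho; positivity))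
  have h8' : o ^ 2 * (900 * s / ‖Z‖ ^ 2 * I) ≤ 2000 * (s * (o / ‖Z‖ ^ 2)) := by
    have : o ^ 2 * (900 * s / ‖Z‖ ^ 2 * I) = 900 * (s * (o / ‖Z‖ ^ 2)) * (o * I) := by ring
    rw [this]
    have h9 : 0 ≤ s * (o / ‖Z‖ ^ 2) := by (clear * - hs ho; positivity)
    nlinarith only [h9, hoI]
  have h10 : o ^ 2 * (1804 / s * V) ≤ 2000 * (1 / s * (o ^ 2 * V)) := by
    have : o ^ 2 * (1804 / s * V) = 1804 * (1 / s * (o ^ 2 * V)) := by ring
    rw [this]
    have h9 : 0 ≤ 1 / s * (o ^ 2 * V) := by (clear * - hs ho hV; positivity)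
    nlinarith only [h9]
  linarith

/-- `|IX1| ≤ 3 (λ IQ + VQ/λ)`. -/
lemma Pair_IX1_le (S : SA W t z₀ R L) (hZ : 0 < Z.im) {s : ℝ} (hs : 0 < s) :
    |IX1 L (EE z₀ R L) W t Z| ≤
      3 * s * IQ L (EE z₀ R L) W t Z + 3 / s * VQ L (EE z₀ R L) W t Z := by
  have hE : MeasurableSet (EE z₀ R L) := measurableSet_ball
  have h2 := Pair_BI_lin (L := L) (3 * s) (3 / s) (IQ_int S hZ) (VQ_int S hZ)
  have h3 : 3 * s * IQ L (EE z₀ R L) W t Z + 3 / s * VQ L (EE z₀ R L) W t Z =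
      BI L (EE z₀ R L) W t (fun A U => 3 * s * (Real.exp (U - Real.log L) * KK A Z) +
        3 / s * (Real.exp (U - Real.log L) * (KT A Z * (rate A / 4)))) := by
    rw [h2]
    rfl
  rw [h3]
  unfold IX1
  refine Pair_abs_BI (IX1_int S hZ) (Pair_int_lin _ _ (IQ_int S hZ) (VQ_int S hZ)) hE
    fun b hb hb' => ?_
  have hA := Zf_im_pos S.ht hb'
  set A := Zf W b t with hAdef
  have hexp := Real.exp_pos (Uf W b t - Real.log L)
  have hK := KK_pos hA hZ
  have hsq := Pair_sq_le hA hZ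
  have hk := kX_abs hA hZ
  rw [abs_mul, abs_of_pos hexp, abs_mul, abs_of_pos hK]
  set D := ‖A⁻¹ - Z⁻¹‖ with hD
  have h4 : 6 * D ≤ 3 * s + 3 / s * D ^ 2 := by
    have h8 : 0 ≤ 3 * ((s - D) ^ 2 / s) := by (clear * - hs; positivity)
    have h9 : 3 * ((s - D) ^ 2 / s) = 3 * s + 3 / s * D ^ 2 - 6 * D := by
      field_simp
      ring
    linarith only [h8, h9]
  have h5 : KK A Z * |kX A Z| ≤ 3 * s * KK A Z + 3 / s * (KT A Z * (rate A / 4)) := by
    calc KK A Z * |kX A Z| ≤ KK A Z * (3 * s + 3 / s * D ^ 2) :=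
          mul_le_mul_of_nonneg_left (hk.trans h4) hK.le
      _ = 3 * s * KK A Z + 3 / s * (KK A Z * D ^ 2) := by ring
      _ ≤ _ := by
          have := mul_le_mul_of_nonneg_left hsq (show 0 ≤ 3 / s by positivity)
          linarith only [this]
  refine (mul_le_mul_of_nonneg_left h5 hexp.le).trans (le_of_eq ?_)
  ring

lemma Pair_discr {x a b : ℝ} (ha : 0 ≤ a) (hb : 0 ≤ b)
    (h : ∀ s : ℝ, 0 < s → |x| ≤ 3 * s * a + 3 / s * b) : x ^ 2 ≤ 36 * (a * b) := by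
  have key : |x| ≤ 6 * (√a * √b) := by
    refine le_of_forall_pos_le_add fun e he => ?_
    -- use `s = (√b + δ)/(√a + δ)`
    have hlim : Tendsto (fun d : ℝ => 3 * ((√b + d) / (√a + d)) * a +
        3 / ((√b + d) / (√a + d)) * b) (𝓝[>] 0) (𝓝 (6 * (√a * √b))) := by
      have hsa := Real.sqrt_nonneg a
      have hsb := Real.sqrt_nonneg b
      have e1 : ∀ d : ℝ, 0 < d → 3 * ((√b + d) / (√a + d)) * a +
        3 / ((√b + d) / (√a + d)) * b =
          3 * (√b + d) * (√a * (√a / (√a + d))) + 3 * (√a + d) * (√b * (√b / (√b + d))) := by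
        intro d hd
        have h1 : √a + d ≠ 0 := by positivity
        have h2 : √b + d ≠ 0 := by positivity
        field_simp
        rw [Real.sq_sqrt ha, Real.sq_sqrt hb]
        ring
      have f1 : ∀ c : ℝ, 0 ≤ c → Tendsto (fun d : ℝ => c * (c / (c + d))) (𝓝[>] 0) (𝓝 c) := by
        intro c hc
        rcases hc.eq_or_lt with rfl | hc
        · simp
        · have : ContinuousAt (fun d : ℝ => c * (c / (c + d))) 0 := by
            refine continuousAt_const.mul (continuousAt_const.div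
              (continuousAt_const.add continuousAt_id) ?_)
            simp [hc.ne']
          have h3 := this.tendsto
          simp only [add_zero, div_self hc.ne', mul_one] at h3
          exact h3.mono_left nhdsWithin_le_nhds
      have f2 : ∀ c : ℝ, Tendsto (fun d : ℝ => 3 * (c + d)) (𝓝[>] 0) (𝓝 (3 * c)) := by
        intro c
        have : Continuous (fun d : ℝ => 3 * (c + d)) := by fun_prop
        have h3 := this.tendsto 0
        simp only [add_zero] at h3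
        exact h3.mono_left nhdsWithin_le_nhds
      have f3 := ((f2 (√b)).mul (f1 (√a) hsa)).add ((f2 (√a)).mul (f1 (√b) hsb))
      have f4 : 3 * √b * √a + 3 * √a * √b = 6 * (√a * √b) := by ring
      rw [f4] at f3
      refine f3.congr' ?_
      filter_upwards [self_mem_nhdsWithin] with d hd
      exact (e1 d hd).symm
    have := ge_of_tendsto hlim (b := |x|) (by
      filter_upwards [self_mem_nhdsWithin] with d hd
      have hd' : 0 < d := hd
      exact h _ (by (clear * - hd'; positivity)))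
    linarith only [he, this]
  calc x ^ 2 = |x| ^ 2 := (sq_abs x).symm
    _ ≤ (6 * (√a * √b)) ^ 2 := pow_le_pow_left₀ (abs_nonneg _) key 2
    _ = 36 * (a * b) := by
        rw [mul_pow, mul_pow, Real.sq_sqrt ha, Real.sq_sqrt hb]
        norm_num

/-- (P2) Cauchy-Schwarz in the form `|IX1| ≤ 3 (λ IQ + VQ/λ)` for all `λ > 0`, so
`IX1² ≤ 36 IQ VQ`. -/
theorem pair_sq (S : SA W t z₀ R L) (hZ : 0 < Z.im) :
    om L (EE z₀ R L) W t Z ^ 3 * IX1 L (EE z₀ R L) W t Z ^ 2 ≤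
      36 * (om L (EE z₀ R L) W t Z ^ 2 * VQ L (EE z₀ R L) W t Z) := by
  have ho := om_pos S hZ
  have hoI := om_mul_IQ S hZ
  have hV := VQ_nonneg S hZ
  have hI := IQ_nonneg S hZ
  have h1 := Pair_discr hI hV fun s hs => Pair_IX1_le S hZ hs
  set o := om L (EE z₀ R L) W t Z with ho'
  set I := IQ L (EE z₀ R L) W t Z with hI'
  set V := VQ L (EE z₀ R L) W t Z with hV'
  calc o ^ 3 * IX1 L (EE z₀ R L) W t Z ^ 2 ≤ o ^ 3 * (36 * (I * V)) :=
        mul_le_mul_of_nonneg_left h1 (by positivity)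
    _ = 36 * (o ^ 2 * V) * (o * I) := by ring
    _ ≤ 36 * (o ^ 2 * V) * 1 := mul_le_mul_of_nonneg_left hoI (by (clear * - ho hV; positivity))
    _ = _ := by ring

/-- `|IX1| ≤ a IQ + b VQ` from a pointwise inequality. -/
lemma pairL_IX1_le (S : SA W t z₀ R L) (hZ : 0 < Z.im) {a b : ℝ}
    (h : ∀ A : ℂ, 0 < A.im → 6 * (KK A Z * ‖A⁻¹ - Z⁻¹‖) ≤
      a * KK A Z + b * (KT A Z * (rate A / 4))) :
    |IX1 L (EE z₀ R L) W t Z| ≤
      a * IQ L (EE z₀ R L) W t Z + b * VQ L (EE z₀ R L) W t Z := by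
  have hI := IQ_int S hZ
  have hV := VQ_int S hZ
  have h1 := IX1_int S hZ
  have hE : MeasurableSet (EE z₀ R L) := measurableSet_ball
  have hpt : ∀ z ∈ EE z₀ R L,
      |St (fun A U => Real.exp (U - Real.log L) * (KK A Z * kX A Z)) W z t| ≤
        a * St (fun A U => Real.exp (U - Real.log L) * KK A Z) W z t +
        b * St (fun A U => Real.exp (U - Real.log L) * (KT A Z * (rate A / 4))) W z t := by
    intro z _
    by_cases hal : z ∈ loewnerDomain W t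
    · rw [St_of_mem hal, St_of_mem hal, St_of_mem hal]
      have hA := Zf_im_pos S.ht hal
      have hK := KK_pos hA hZ
      have hk := kX_abs hA hZ
      have hh := h _ hA
      have he := Real.exp_pos (Uf W z t - Real.log L)
      rw [abs_mul, abs_mul, abs_of_pos he, abs_of_pos hK]
      have e1 : KK (Zf W z t) Z * |kX (Zf W z t) Z| ≤
          a * KK (Zf W z t) Z + b * (KT (Zf W z t) Z * (rate (Zf W z t) / 4)) := by
        refine le_trans ?_ hh
        calc KK (Zf W z t) Z * |kX (Zf W z t) Z|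
            ≤ KK (Zf W z t) Z * (6 * ‖(Zf W z t)⁻¹ - Z⁻¹‖) := by (clear * - hk hK; gcongr)
          _ = _ := by ring
      calc Real.exp (Uf W z t - Real.log L) * (KK (Zf W z t) Z * |kX (Zf W z t) Z|)
          ≤ Real.exp (Uf W z t - Real.log L) * (a * KK (Zf W z t) Z +
            b * (KT (Zf W z t) Z * (rate (Zf W z t) / 4))) := by (clear * - e1; gcongr)
        _ = _ := by ring
    · rw [St_of_not_mem hal, St_of_not_mem hal, St_of_not_mem hal]
      simp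
  have key : |∫ z in EE z₀ R L,
      St (fun A U => Real.exp (U - Real.log L) * (KK A Z * kX A Z)) W z t| ≤
      a * (∫ z in EE z₀ R L, St (fun A U => Real.exp (U - Real.log L) * KK A Z) W z t) +
      b * (∫ z in EE z₀ R L,
        St (fun A U => Real.exp (U - Real.log L) * (KT A Z * (rate A / 4))) W z t) := by
    rw [← integral_const_mul, ← integral_const_mul,
      ← integral_add (hI.const_mul a) (hV.const_mul b)]
    refine (abs_integral_le_integral_abs).trans ?_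
    exact setIntegral_mono_on h1.abs ((hI.const_mul a).add (hV.const_mul b)) hE hpt
  have hL2 : 0 < L ^ 2 := pow_pos S.hL 2
  unfold IX1 IQ VQ BI
  have hs : ∀ X Y : ℝ, (a * (X / L ^ 2) + b * (Y / L ^ 2)) * L ^ 2 = a * X + b * Y := by
    intro X Y
    have := hL2.ne'
    rw [add_mul, mul_assoc, mul_assoc, div_mul_cancel₀ _ this, div_mul_cancel₀ _ this]
  rw [abs_div, abs_of_pos hL2, div_le_iff₀ hL2, hs]
  exact key

/-- Weighted version. -/
lemma pairL_om (S : SA W t z₀ R L) (hZ : 0 < Z.im) {a b : ℝ} (ha : 0 ≤ a)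
    (h : ∀ A : ℂ, 0 < A.im → 6 * (KK A Z * ‖A⁻¹ - Z⁻¹‖) ≤
      a * KK A Z + b * (KT A Z * (rate A / 4))) :
    om L (EE z₀ R L) W t Z ^ 2 * |IX1 L (EE z₀ R L) W t Z| ≤
      a * om L (EE z₀ R L) W t Z +
        b * (om L (EE z₀ R L) W t Z ^ 2 * VQ L (EE z₀ R L) W t Z) := by
  have h1 := pairL_IX1_le S hZ h
  have h2 := om_mul_IQ S hZ
  have h3 := om_pos S hZ
  calc om L (EE z₀ R L) W t Z ^ 2 * |IX1 L (EE z₀ R L) W t Z|
      ≤ om L (EE z₀ R L) W t Z ^ 2 *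
        (a * IQ L (EE z₀ R L) W t Z + b * VQ L (EE z₀ R L) W t Z) := by (clear * - h1 h3; gcongr)
    _ = a * om L (EE z₀ R L) W t Z * (om L (EE z₀ R L) W t Z * IQ L (EE z₀ R L) W t Z) +
        b * (om L (EE z₀ R L) W t Z ^ 2 * VQ L (EE z₀ R L) W t Z) := by ring
    _ ≤ a * om L (EE z₀ R L) W t Z * 1 +
        b * (om L (EE z₀ R L) W t Z ^ 2 * VQ L (EE z₀ R L) W t Z) := by (clear * - h2 ha h3; gcongr)
    _ = _ := by ring

/-- (P3). -/
theorem pair_lin (S : SA W t z₀ R L) (hZ : 0 < Z.im) {s : ℝ} (hs : 0 < s) :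
    om L (EE z₀ R L) W t Z ^ 2 * |IX1 L (EE z₀ R L) W t Z| / ‖Z‖ ≤
      3 * (s * (om L (EE z₀ R L) W t Z / ‖Z‖ ^ 2) +
        1 / s * (om L (EE z₀ R L) W t Z ^ 2 * VQ L (EE z₀ R L) W t Z)) := by
  have hn : 0 < ‖Z‖ := Kern_norm_pos hZ
  have hpt : ∀ A : ℂ, 0 < A.im → 6 * (KK A Z * ‖A⁻¹ - Z⁻¹‖) ≤
      (3 * s / ‖Z‖) * KK A Z + (3 * ‖Z‖ / s) * (KT A Z * (rate A / 4)) := by
    intro A hA
    have hK := KK_pos hA hZ
    have h1 : KK A Z * ‖A⁻¹ - Z⁻¹‖ ^ 2 ≤ KT A Z * (rate A / 4) := by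
      refine (KK_mul_sq hA hZ).trans ?_
      have hr : 0 ≤ rate A / 4 := by unfold rate; (clear * -; positivity)
      have hk1 := K1_pos hA hZ
      have hk2 := K2_pos (Z := Z) hA
      have ha := Kern_norm_pos hA
      unfold KT
      refine mul_le_mul_of_nonneg_right ?_ hr
      refine le_mul_of_one_le_right (by (clear * - hk1 hk2; positivity)) ?_
      have : 0 ≤ ‖Z‖ / ‖A‖ := by positivity
      linarith only [this]
    have h2 : 2 * ‖A⁻¹ - Z⁻¹‖ ≤ s / ‖Z‖ + ‖Z‖ / s * ‖A⁻¹ - Z⁻¹‖ ^ 2 := by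
      have e : s / ‖Z‖ + ‖Z‖ / s * ‖A⁻¹ - Z⁻¹‖ ^ 2 - 2 * ‖A⁻¹ - Z⁻¹‖
          = ‖Z‖ / s * (‖A⁻¹ - Z⁻¹‖ - s / ‖Z‖) ^ 2 := by
        field_simp
        ring
      have : 0 ≤ ‖Z‖ / s * (‖A⁻¹ - Z⁻¹‖ - s / ‖Z‖) ^ 2 := by (clear * - hn hs; positivity)
      linarith only [e, this]
    calc 6 * (KK A Z * ‖A⁻¹ - Z⁻¹‖) = 3 * KK A Z * (2 * ‖A⁻¹ - Z⁻¹‖) := by ring
      _ ≤ 3 * KK A Z * (s / ‖Z‖ + ‖Z‖ / s * ‖A⁻¹ - Z⁻¹‖ ^ 2) := by gcongr
      _ = (3 * s / ‖Z‖) * KK A Z + (3 * ‖Z‖ / s) * (KK A Z * ‖A⁻¹ - Z⁻¹‖ ^ 2) := by ring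
      _ ≤ _ := by gcongr
  have h := pairL_om S hZ (by (clear * - hs hn; positivity)) hpt
  rw [div_le_iff₀ hn]
  refine h.trans (le_of_eq ?_)
  (clear * - hn hs; field_simp)

/-- Pointwise inequality behind (P4), in real numbers: `k = KK`, `r = KT η²`, `d = |w - v|`,
`a = |w|`, `v = |v|`. -/
lemma pairL_far_pt {k r d a v τ : ℝ} (hk : 0 ≤ k) (hd : 0 ≤ d) (hv : 0 < v) (hτ : 0 < τ)
    (had : d ≤ a + v) (hr : k * d ^ 2 * (1 + a / v) ≤ r) :
    6 * (k * d) ≤ (18 * v + 18 * τ * Th (v⁻¹ * τ)) * k + 18 / τ * r := by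
  have hr0 : 0 ≤ k * d ^ 2 := by (clear * - hk; positivity)
  have hTh : 0 ≤ Th (v⁻¹ * τ) := Real.sqrt_nonneg _
  by_cases h1 : d ≤ 3 * v
  · have ha : -1 ≤ a / v := by
      rw [le_div_iff₀ hv]; linarith only [hd, had]
    have hr1 : 0 ≤ r := le_trans (mul_nonneg hr0 (by linarith only [ha])) hr
    have h2 : 6 * (k * d) ≤ 18 * v * k := by
      have := mul_le_mul_of_nonneg_left h1 hk
      linarith only [this]
    have h3 : 0 ≤ 18 * τ * Th (v⁻¹ * τ) * k := by positivity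
    have h4 : 0 ≤ 18 / τ * r := by positivity
    linarith only [h2, h3, h4]
  · push Not at h1
    have ha : 2 / 3 * d ≤ a := by linarith only [had, h1]
    have ha0 : 0 < a := by linarith only [hv, had, h1]
    have hr1 : 0 ≤ r := le_trans (mul_nonneg hr0 (by positivity)) hr
    by_cases h2 : d ^ 2 ≤ τ * v
    · have hvt : v ≤ τ := by
        have : v * v ≤ τ * v := by nlinarith only [h2, h1, hv]
        exact le_of_mul_le_mul_right this hv
      have hT : Th (v⁻¹ * τ) = √(v / τ) := by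
        have e1 : (1 : ℝ) ≤ v⁻¹ * τ := by
          rw [inv_mul_eq_div, le_div_iff₀ hv]; linarith only [hvt]
        have e2 : (v⁻¹ * τ)⁻¹ = v / τ := by
          rw [inv_mul_eq_div, inv_div]
        have e3 : (v⁻¹ * τ)⁻¹ ≤ v⁻¹ * τ := (inv_le_one_of_one_le₀ e1).trans e1
        unfold Th
        rw [min_eq_right e3, e2]
      have h3 : d ≤ τ * Th (v⁻¹ * τ) := by
        rw [hT]
        have e4 : τ * √(v / τ) = √(τ * v) := by
          have : τ * v = τ ^ 2 * (v / τ) := by (clear * - hv hτ; field_simp)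
          rw [this, Real.sqrt_mul (by (clear * - hτ; positivity)), Real.sqrt_sq hτ.le]
        rw [e4]
        exact Real.le_sqrt_of_sq_le h2
      have h4 : 6 * (k * d) ≤ 18 * τ * Th (v⁻¹ * τ) * k := by
        have e5 := mul_le_mul_of_nonneg_left h3 hk
        have e6 : 0 ≤ k * d := by (clear * - hk hd; positivity)
        nlinarith only [e5, e6]
      have h5 : 0 ≤ 18 * v * k := by (clear * - hv hk; positivity)
      have h6 : 0 ≤ 18 / τ * r := by positivity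
      linarith only [h4, h5, h6]
    · push Not at h2
      have h3 : 6 * (k * d) ≤ 18 / τ * r := by
        have e1 : τ * (2 / 3 * (k * d)) ≤ r := by
          refine le_trans ?_ hr
          have e2 : τ * (2 / 3 * (k * d)) ≤ d ^ 2 / v * (2 / 3 * (k * d)) := by
            have : τ ≤ d ^ 2 / v := by rw [le_div_iff₀ hv]; exact h2.le
            have hkd : 0 ≤ 2 / 3 * (k * d) := by (clear * - hk hd; positivity)
            gcongr
          refine e2.trans ?_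
          calc d ^ 2 / v * (2 / 3 * (k * d)) = k * d ^ 2 * ((2 / 3 * d) / v) := by ring
            _ ≤ k * d ^ 2 * (a / v) := by (clear * - ha hv hk; gcongr)
            _ ≤ k * d ^ 2 * (1 + a / v) := by gcongr; linarith only []
        have e3 : 6 * (k * d) = 9 / τ * (τ * (2 / 3 * (k * d))) := by
          field_simp
          ring
        rw [e3]
        calc 9 / τ * (τ * (2 / 3 * (k * d))) ≤ 9 / τ * r := by (clear * - e1 hτ; gcongr)
          _ ≤ 18 / τ * r := by gcongr; norm_num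
      have h5 : 0 ≤ 18 * v * k := by (clear * - hv hk; positivity)
      have h6 : 0 ≤ 18 * τ * Th (v⁻¹ * τ) * k := by (clear * - hτ hTh hk; positivity)
      linarith only [h3, h5, h6]

/-- (P4) For every `τ > 0`. Pairs with `|w-v| ≤ 3|v|` contribute `≤ 18|v|`. Otherwise
`|w| ≥ 2|v|` (so `s = |v|/|w| ≤ 1/2`), `|w-v| ≤ 1.5|w|`, `|v| ≤ |w-v|/3`:
* if `|w-v|² ≤ τ|v|`: then `|v| ≤ τ` and `|w-v| ≤ (τ|v|)^{1/2} = τ (|v|/τ)^{1/2} =
  τ Th(‖Z‖τ)` (as `‖Z‖τ ≥ 1`, `Th q = q^{-1/2}`);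
* if `|w-v|² > τ|v|`: `1/|w-v| ≤ 1.5|w|/(τ|v|) = 1.5/(τ s)`, so
  `K|w-v| ≤ (1.5/τ)(K/s)|w-v|² ≤ (1.5/τ) KT η²`. -/
theorem pair_far (S : SA W t z₀ R L) (hZ : 0 < Z.im) {τ : ℝ} (hτ : 0 < τ) :
    om L (EE z₀ R L) W t Z ^ 2 * |IX1 L (EE z₀ R L) W t Z| ≤
      18 * (om L (EE z₀ R L) W t Z / ‖Z‖ + τ * (om L (EE z₀ R L) W t Z * Th (‖Z‖ * τ)) +
        1 / τ * (om L (EE z₀ R L) W t Z ^ 2 * VQ L (EE z₀ R L) W t Z)) := by
  have hn : 0 < ‖Z‖ := Kern_norm_pos hZ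
  have hTh : 0 ≤ Th (‖Z‖ * τ) := Real.sqrt_nonneg _
  have hpt : ∀ A : ℂ, 0 < A.im → 6 * (KK A Z * ‖A⁻¹ - Z⁻¹‖) ≤
      (18 * ‖Z‖⁻¹ + 18 * τ * Th (‖Z‖ * τ)) * KK A Z + 18 / τ * (KT A Z * (rate A / 4)) := by
    intro A hA
    have ha := Kern_norm_pos hA
    have hr : KK A Z * ‖A⁻¹ - Z⁻¹‖ ^ 2 * (1 + ‖A‖⁻¹ / ‖Z‖⁻¹) ≤ KT A Z * (rate A / 4) := by
      have h1 := KK_mul_sq hA hZ
      have e : ‖A‖⁻¹ / ‖Z‖⁻¹ = ‖Z‖ / ‖A‖ := by field_simp
      rw [e]
      have h2 : 0 ≤ 1 + ‖Z‖ / ‖A‖ := by (clear * - hn ha; positivity)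
      calc KK A Z * ‖A⁻¹ - Z⁻¹‖ ^ 2 * (1 + ‖Z‖ / ‖A‖)
          ≤ K1 A Z ^ 4 * K2 A Z ^ 6 * (rate A / 4) * (1 + ‖Z‖ / ‖A‖) := by gcongr
        _ = _ := by unfold KT; ring
    have hd : ‖A⁻¹ - Z⁻¹‖ ≤ ‖A‖⁻¹ + ‖Z‖⁻¹ := by
      refine (norm_sub_le _ _).trans ?_
      rw [norm_inv, norm_inv]
    have h := pairL_far_pt (KK_pos hA hZ).le (norm_nonneg _) (inv_pos.2 hn) hτ hd hr
    rwa [inv_inv] at h
  have h := pairL_om S hZ (by positivity) hpt
  refine h.trans (le_of_eq ?_)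
  ring

end Vale.Agent.P164
end

section

/-!
# X-B7, B8. The weight is close to `1` where content accumulates
-/

namespace Vale.Agent.P164

open Set Metric Filter Topology MeasureTheory ProbabilityTheory
open scoped NNReal ENNReal

/-- going up vertically: `m` doublings of the height. -/
theorem GrowthK_up {W : ℝ → ℝ} (hW : Continuous W) {t : ℝ} (ht : 0 ≤ t) {C₁ : ℝ} (hC : 1 ≤ C₁)
    (hH : ∀ {z z' : ℂ} (_ : z ∈ loewnerDomain W t) (_ : z' ∈ loewnerDomain W t)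
      (_ : dist (Zf W z' t) (Zf W z t) ≤ 3 * min (Zf W z t).im (Zf W z' t).im),
        Real.exp (Uf W z' t) ≤ C₁ * Real.exp (Uf W z t)) {b : ℂ} (hb : b ∈ loewnerDomain W t)
    (m : ℕ) : ∃ b' ∈ loewnerDomain W t, (Zf W b' t).re = (Zf W b t).re ∧
      (Zf W b' t).im = 2 ^ m * (Zf W b t).im ∧
      Real.exp (Uf W b t) ≤ C₁ ^ m * Real.exp (Uf W b' t) ∧
      Real.exp (Uf W b' t) ≤ C₁ ^ m * Real.exp (Uf W b t) := by
  have hY := Zf_im_pos ht hb
  induction m with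
  | zero => exact ⟨b, hb, rfl, by simp, by simp, by simp⟩
  | succ m ih =>
    obtain ⟨x, hx, h1, h2, h3, h4⟩ := ih
    have hYx := Zf_im_pos ht hx
    obtain ⟨y, hy, hyw⟩ := Zf_surj hW ht (w := ⟨(Zf W x t).re, 2 * (Zf W x t).im⟩)
      (by (clear * - hYx; positivity))
    have hre : (Zf W y t).re = (Zf W x t).re := by rw [hyw]
    have him : (Zf W y t).im = 2 * (Zf W x t).im := by rw [hyw]
    have hd : dist (Zf W y t) (Zf W x t) = (Zf W x t).im := by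
      rw [Complex.dist_of_re_eq hre, him, Real.dist_eq]
      rw [show 2 * (Zf W x t).im - (Zf W x t).im = (Zf W x t).im by ring, abs_of_pos hYx]
    have e1 : Real.exp (Uf W y t) ≤ C₁ * Real.exp (Uf W x t) := by
      refine hH hx hy ?_
      rw [hd, him, min_eq_left (by linarith only [hYx])]
      linarith only [hYx]
    have e2 : Real.exp (Uf W x t) ≤ C₁ * Real.exp (Uf W y t) := by
      refine hH hy hx ?_
      rw [dist_comm, hd, him, min_eq_right (by linarith only [hYx])]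
      linarith only [hYx]
    have hC0 : 0 ≤ C₁ := by linarith only [hC]
    refine ⟨y, hy, by rw [hre, h1], by rw [him, h2]; ring, ?_, ?_⟩
    · calc Real.exp (Uf W b t) ≤ C₁ ^ m * Real.exp (Uf W x t) := h3
        _ ≤ C₁ ^ m * (C₁ * Real.exp (Uf W y t)) := by (clear * - e2 hC; gcongr)
        _ = C₁ ^ (m + 1) * Real.exp (Uf W y t) := by ring
    · calc Real.exp (Uf W y t) ≤ C₁ * Real.exp (Uf W x t) := e1
        _ ≤ C₁ * (C₁ ^ m * Real.exp (Uf W b t)) := by gcongr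
        _ = C₁ ^ (m + 1) * Real.exp (Uf W b t) := by ring

/-- (HK) `Υ_b ≤ C q^n Υ_Q`, `q = |Z_b - conj Z_Q|²/(Y_b Y_Q)`. From `Z_b` go up vertically,
doubling the height (each step costs a factor `C₁`, `harnack_chain` with `A = 1`), up to height
about `H = |Z_b - conj Z_Q| ≥ max(Y_b, Y_Q, |Re Z_b - Re Z_Q|)`; the same from `Z_Q`; then one
more step (`A = 2`). Number of steps `≤ log₂(H/Y_b) + log₂(H/Y_Q) + 3`. Points exist by
`Zf_surj`. -/
theorem growth_q : ∃ (C : ℝ) (n : ℕ), 1 ≤ C ∧ 2 ≤ n ∧ ∀ {W : ℝ → ℝ} (_ : Continuous W) {t : ℝ}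
    (_ : 0 ≤ t) {b z : ℂ} (_ : b ∈ loewnerDomain W t) (_ : z ∈ loewnerDomain W t),
    Real.exp (Uf W b t) ≤
      C * (‖Zf W b t - (starRingEnd ℂ) (Zf W z t)‖ ^ 2 / ((Zf W b t).im * (Zf W z t).im)) ^ n *
        Real.exp (Uf W z t) := by
  obtain ⟨C₁, hC1, hH0⟩ := harnack_chain (A := 3) (by norm_num)
  obtain ⟨n, hn⟩ : ∃ n : ℕ, C₁ ≤ 2 ^ (n + 2) := by
    obtain ⟨n, hn⟩ := pow_unbounded_of_one_lt C₁ (one_lt_two)
    refine ⟨n, hn.le.trans (pow_le_pow_right₀ (by norm_num) (by omega))⟩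
  refine ⟨C₁, n + 2, hC1, by omega, fun {W} hW {t} ht {b z} hb hz => ?_⟩
  have hC0 : 0 ≤ C₁ := by linarith
  have hH : ∀ {z z' : ℂ} (_ : z ∈ loewnerDomain W t) (_ : z' ∈ loewnerDomain W t)
      (_ : dist (Zf W z' t) (Zf W z t) ≤ 3 * min (Zf W z t).im (Zf W z' t).im),
        Real.exp (Uf W z' t) ≤ C₁ * Real.exp (Uf W z t) := fun h1 h2 h3 =>
    (hH0 hW ht h1 h2 h3).2.1
  have hYb := Zf_im_pos ht hb
  have hYz := Zf_im_pos ht hz
  set H : ℝ := ‖Zf W b t - (starRingEnd ℂ) (Zf W z t)‖ with hHd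
  have him : (Zf W b t - (starRingEnd ℂ) (Zf W z t)).im = (Zf W b t).im + (Zf W z t).im := by
    simp only [Complex.sub_im, Complex.conj_im, sub_neg_eq_add]
  have hre : (Zf W b t - (starRingEnd ℂ) (Zf W z t)).re = (Zf W b t).re - (Zf W z t).re := by
    simp
  have hHim : (Zf W b t).im + (Zf W z t).im ≤ H := by
    rw [← him]
    exact (le_abs_self _).trans (Complex.abs_im_le_norm _)
  have hHre : |(Zf W b t).re - (Zf W z t).re| ≤ H := by
    rw [← hre]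
    exact Complex.abs_re_le_norm _
  have hHpos : 0 < H := by linarith only [hYb, hYz, hHim]
  obtain ⟨m, hm1, hm2⟩ := exists_nat_pow_near (x := H / (Zf W b t).im) (y := 2)
    (by rw [le_div_iff₀ hYb]; linarith only [hYz, hHim]) one_lt_two
  obtain ⟨k, hk1, hk2⟩ := exists_nat_pow_near (x := H / (Zf W z t).im) (y := 2)
    (by rw [le_div_iff₀ hYz]; linarith only [hYb, hHim]) one_lt_two
  rw [le_div_iff₀ hYb] at hm1
  rw [le_div_iff₀ hYz] at hk1
  rw [div_lt_iff₀ hYb, pow_succ] at hm2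
  rw [div_lt_iff₀ hYz, pow_succ] at hk2
  obtain ⟨b', hb', hbr, hbi, hb1, -⟩ := GrowthK_up hW ht hC1 hH hb m
  obtain ⟨z', hz', hzr, hzi, -, hz1⟩ := GrowthK_up hW ht hC1 hH hz k
  have hstep : Real.exp (Uf W b' t) ≤ C₁ * Real.exp (Uf W z' t) := by
    refine hH hz' hb' ?_
    have h1 : dist (Zf W b' t) (Zf W z' t) ≤
        |(Zf W b' t - Zf W z' t).re| + |(Zf W b' t - Zf W z' t).im| := by
      rw [dist_eq_norm]
      exact Complex.norm_le_abs_re_add_abs_im _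
    rw [Complex.sub_re, Complex.sub_im, hbr, hzr] at h1
    have h2 : |(Zf W b' t).im - (Zf W z' t).im| ≤ H / 2 := by
      rw [abs_le]
      constructor <;> linarith only [hm1, hk2, hbi, hzi, hm2, hk1]
    have h3 : H / 2 ≤ min (Zf W z' t).im (Zf W b' t).im := le_min (by linarith only [hk2, hzi]) (by linarith only [hm2, hbi])
    linarith only [hHre, h1, h2, h3]
  have hpow : C₁ ^ (m + k) ≤
      (H ^ 2 / ((Zf W b t).im * (Zf W z t).im)) ^ (n + 2) := by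
    calc C₁ ^ (m + k) ≤ (2 ^ (n + 2)) ^ (m + k) := by (clear * - hC1 hn; gcongr)
      _ = ((2 ^ m) * (2 ^ k)) ^ (n + 2) := by rw [← pow_add, ← pow_mul, ← pow_mul, mul_comm]
      _ ≤ _ := by
        refine pow_le_pow_left₀ (by positivity) ?_ _
        rw [le_div_iff₀ (by (clear * - hYb hYz; positivity))]
        calc 2 ^ m * 2 ^ k * ((Zf W b t).im * (Zf W z t).im) =
              (2 ^ m * (Zf W b t).im) * (2 ^ k * (Zf W z t).im) := by ring
          _ ≤ H * H := by (clear * - hm1 hk1 hYz hHpos; gcongr)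
          _ = H ^ 2 := by ring
  calc Real.exp (Uf W b t) ≤ C₁ ^ m * Real.exp (Uf W b' t) := hb1
    _ ≤ C₁ ^ m * (C₁ * Real.exp (Uf W z' t)) := by (clear * - hstep hC1; gcongr)
    _ ≤ C₁ ^ m * (C₁ * (C₁ ^ k * Real.exp (Uf W z t))) := by (clear * - hz1 hC1; gcongr)
    _ = C₁ * C₁ ^ (m + k) * Real.exp (Uf W z t) := by ring
    _ ≤ _ := by (clear * - hpow hC1; gcongr)

/-- `K ≤ (q sn_Q)⁻²`: `K1² = (q sn_Q)⁻¹ sn_b |Z_Q|/|Z_b|`, `K ≤ K1⁴ K2⁶`, `K2⁶ ≤ (|Z_b|/|Z_Q|)²`. -/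
theorem KK_le_q {A Z : ℂ} (hA : 0 < A.im) (hZ : 0 < Z.im) :
    KK A Z * ((‖A - (starRingEnd ℂ) Z‖ ^ 2 / (A.im * Z.im)) * sn Z) ^ 2 ≤ 1 := by
  have hK1p := K1_pos hA hZ
  have hK1 := K1_le_one hA hZ
  have hK2p : 0 < K2 A Z := K2_pos hA
  have hK2 := K2_le_one A Z
  have hK2s : K2 A Z ≤ (‖A‖ / ‖Z‖) ^ 2 := K2_le hZ
  have hnA : A.im ≤ ‖A‖ := (le_abs_self _).trans (Complex.abs_im_le_norm A)
  have hnA0 : 0 < ‖A‖ := hA.trans_le hnA
  have hnZ0 : 0 < ‖Z‖ := hZ.trans_le ((le_abs_self _).trans (Complex.abs_im_le_norm Z))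
  have hH0 : 0 < ‖A - (starRingEnd ℂ) Z‖ := by
    rw [norm_pos_iff]
    intro h
    have h1 := congrArg Complex.im h
    simp only [Complex.sub_im, Complex.conj_im, sub_neg_eq_add, Complex.zero_im] at h1
    linarith only [hA, hZ, h1]
  have hK1def : K1 A Z = A.im * ‖Z‖ / (‖A‖ * ‖A - (starRingEnd ℂ) Z‖) := rfl
  obtain ⟨H, hH⟩ : ∃ H, H = ‖A - (starRingEnd ℂ) Z‖ := ⟨_, rfl⟩
  obtain ⟨k, hk⟩ : ∃ k, k = K1 A Z := ⟨_, rfl⟩
  obtain ⟨m, hm⟩ : ∃ m, m = K2 A Z := ⟨_, rfl⟩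
  unfold KK sn
  rw [← hH] at hH0 hK1def ⊢
  rw [← hk] at hK1p hK1 hK1def ⊢
  rw [← hm] at hK2p hK2 hK2s ⊢
  have e1 : k ^ 2 * (H ^ 2 / (A.im * Z.im) * (Z.im / ‖Z‖)) = A.im * ‖Z‖ / ‖A‖ ^ 2 := by
    rw [hK1def]
    field_simp
  have e2 : (k * m) ^ 6 * (H ^ 2 / (A.im * Z.im) * (Z.im / ‖Z‖)) ^ 2 =
      k ^ 2 * (m ^ 6 * (k ^ 2 * (H ^ 2 / (A.im * Z.im) * (Z.im / ‖Z‖))) ^ 2) := by ring
  rw [e2, e1]
  have h1 : (A.im * ‖Z‖ / ‖A‖ ^ 2) ^ 2 ≤ (‖Z‖ / ‖A‖) ^ 2 := by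
    refine pow_le_pow_left₀ (by positivity) ?_ 2
    rw [div_le_div_iff₀ (by positivity) hnA0]
    have h2 := mul_le_mul_of_nonneg_right hnA (mul_nonneg hnZ0.le hnA0.le)
    calc A.im * ‖Z‖ * ‖A‖ = A.im * (‖Z‖ * ‖A‖) := by ring
      _ ≤ ‖A‖ * (‖Z‖ * ‖A‖) := h2
      _ = ‖Z‖ * ‖A‖ ^ 2 := by ring
  have h3 : m ^ 6 ≤ (‖A‖ / ‖Z‖) ^ 2 := by
    refine le_trans ?_ hK2s
    calc m ^ 6 ≤ m ^ 1 := pow_le_pow_of_le_one hK2p.le hK2 (by norm_num)
      _ = m := pow_one m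
  have h4 : m ^ 6 * (A.im * ‖Z‖ / ‖A‖ ^ 2) ^ 2 ≤ 1 := by
    calc m ^ 6 * (A.im * ‖Z‖ / ‖A‖ ^ 2) ^ 2 ≤ (‖A‖ / ‖Z‖) ^ 2 * (‖Z‖ / ‖A‖) ^ 2 :=
          mul_le_mul h3 h1 (by positivity) (by positivity)
      _ = 1 := by (clear * - hnA0 hnZ0; field_simp)
  have h5 : k ^ 2 ≤ 1 := pow_le_one₀ hK1p.le hK1
  calc k ^ 2 * (m ^ 6 * (A.im * ‖Z‖ / ‖A‖ ^ 2) ^ 2) ≤ 1 * 1 :=
        mul_le_mul h5 h4 (by positivity) zero_le_one
    _ = 1 := one_mul 1

/-- The pointwise bound of (B8). -/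
lemma growthK_pt {C : ℝ} {n : ℕ} (hC : 1 ≤ C) (hn : 2 ≤ n) {B r y q Q s K : ℝ}
    (hB : 0 < B) (hy : 0 < y) (hyB : y ≤ B) (hQ : 0 < Q) (hQr : Q ≤ r) (hq : 0 ≤ q)
    (hK : 0 ≤ K) (h : y ≤ C * q ^ n * Q) (hKq : K * (q * s) ^ 2 ≤ 1) :
    y * (K * s ^ 2) ≤ B * (C * (r / B) ^ (2 / n : ℝ)) := by
  have hn0 : (0 : ℝ) < n := by exact_mod_cast (by omega : 0 < n)
  have hn2 : (2 : ℝ) ≤ n := by exact_mod_cast hn
  obtain ⟨a, ha⟩ : ∃ a : ℝ, a = 2 / n := ⟨_, rfl⟩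
  rw [← ha]
  have ha0 : 0 < a := by rw [ha]; positivity
  have ha1 : a ≤ 1 := by rw [ha]; exact (div_le_one hn0).2 hn2
  have hna : (n : ℝ) * a = 2 := by rw [ha]; field_simp
  have hr0 : 0 < r := hQ.trans_le hQr
  have hC0 : 0 < C := by linarith only [hC]
  have h1 : y = y ^ (1 - a) * y ^ a := by
    rw [← Real.rpow_add hy, sub_add_cancel, Real.rpow_one]
  have h2 : y ^ (1 - a) ≤ B ^ (1 - a) := Real.rpow_le_rpow hy.le hyB (by linarith only [ha1])
  have h3 : y ^ a ≤ C * q ^ 2 * r ^ a := by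
    calc y ^ a ≤ (C * q ^ n * Q) ^ a := Real.rpow_le_rpow hy.le h ha0.le
      _ = C ^ a * q ^ 2 * Q ^ a := by
          rw [Real.mul_rpow (by (clear * - hC hq; positivity)) hQ.le, Real.mul_rpow hC0.le (by (clear * - hq; positivity)),
            ← Real.rpow_natCast q n, ← Real.rpow_mul hq, hna]
          norm_num
      _ ≤ C * q ^ 2 * r ^ a := by
          have h4 : C ^ a ≤ C := by
            calc C ^ a ≤ C ^ (1 : ℝ) := Real.rpow_le_rpow_of_exponent_le hC ha1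
              _ = C := Real.rpow_one C
          have h5 : Q ^ a ≤ r ^ a := Real.rpow_le_rpow hQ.le hQr ha0.le
          have h6 : 0 ≤ q ^ 2 := sq_nonneg q
          (clear * - h4 h5 hQ hC; gcongr)
  have h7 : B ^ (1 - a) * r ^ a = B * (r / B) ^ a := by
    rw [Real.div_rpow hr0.le hB.le, Real.rpow_sub hB, Real.rpow_one]
    ring
  have h8 : y ≤ B ^ (1 - a) * (C * q ^ 2 * r ^ a) := by
    calc y = y ^ (1 - a) * y ^ a := h1
      _ ≤ B ^ (1 - a) * (C * q ^ 2 * r ^ a) :=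
        mul_le_mul h2 h3 (by positivity) (by positivity)
  calc y * (K * s ^ 2) ≤ B ^ (1 - a) * (C * q ^ 2 * r ^ a) * (K * s ^ 2) :=
        mul_le_mul_of_nonneg_right h8 (by (clear * - hK; positivity))
    _ = B ^ (1 - a) * r ^ a * C * (K * (q * s) ^ 2) := by ring
    _ ≤ B ^ (1 - a) * r ^ a * C * 1 :=
        mul_le_mul_of_nonneg_left hKq (by (clear * - hB hr0 hC; positivity))
    _ = B * (C * (r / B) ^ a) := by rw [h7]; ring

/-- (B8) Where `Υ_Q ≤ r ≤ R L`: `I_Q ≤ C R³ (r/(RL))^a sn_Q⁻²`. First: case (i) holds (in case (ii)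
`Υ_Q ≥ 96000 R · L/40 > R L`), so `Υ_b ≤ 96000 R L` for `b ∈ D3`. With `a = 2/n`:
`Υ_b = Υ_b^{1-a} Υ_b^a ≤ (96000 RL)^{1-a} C q² Υ_Q^a`, and `K ≤ (q sn_Q)⁻²`; area `9πR²L²`. -/
theorem i_small : ∃ C a : ℝ, 1 ≤ C ∧ 0 < a ∧ a ≤ 1 ∧
    ∀ {W : ℝ → ℝ} {t : ℝ} {z₀ : ℂ} {R L : ℝ} (_ : SA W t z₀ R L) {z : ℂ} (_ : z ∈ DD z₀ R L)
      (_ : z ∈ loewnerDomain W t) {r : ℝ} (_ : Real.exp (Uf W z t) ≤ r) (_ : r ≤ R * L),
    IQ L (EE z₀ R L) W t (Zf W z t) * sn (Zf W z t) ^ 2 ≤ C * R ^ 3 * (r / (R * L)) ^ a := by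
  obtain ⟨C, n, hC, hn, hG⟩ := growth_q
  have hn0 : (0 : ℝ) < n := by exact_mod_cast (by omega : 0 < n)
  have hn2 : (2 : ℝ) ≤ n := by exact_mod_cast hn
  have ha1 : (2 / n : ℝ) ≤ 1 := (div_le_one hn0).2 hn2
  refine ⟨864000 * Real.pi * C, 2 / n, ?_, by positivity, ha1, ?_⟩
  · have h1 : (1 : ℝ) ≤ Real.pi := by linarith only [Real.pi_gt_three]
    have h2 : (1 : ℝ) * 1 ≤ Real.pi * C := mul_le_mul h1 hC zero_le_one (by linarith only [h1])
    linarith only [h2]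
  intro W t z₀ R L S z hz hal r hr hrR
  have hL := S.hL
  have hR0 : 0 < R := lt_of_lt_of_le one_pos S.hR
  have hRL : 0 < R * L := mul_pos hR0 hL
  have hzE : z ∈ EE z₀ R L := S.DD_sub hz
  have hZim : 0 < (Zf W z t).im := Zf_im_pos S.ht hal
  have hsn := sn_pos hZim
  have hI : CaseI W t z₀ R L := by
    by_contra hcon
    obtain ⟨M, hM, hM1, -⟩ := caseII S hcon
    have h1 := (hM1 z hzE).2.1
    rw [le_div_iff₀ hL] at h1
    have h2 : 96000 * R / 40 * L ≤ M / 40 * L :=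
      mul_le_mul_of_nonneg_right (by linarith only [hM]) hL.le
    have h3 : 96000 * R / 40 * L = 2400 * (R * L) := by ring
    linarith only [hr, hrR, hRL, h1, h2]
  obtain ⟨s, hs⟩ : ∃ s, s = sn (Zf W z t) := ⟨_, rfl⟩
  obtain ⟨b0, hb0⟩ : ∃ b0, b0 = 96000 * R * (C * (r / (R * L)) ^ (2 / n : ℝ)) := ⟨_, rfl⟩
  have hr0 : 0 < r := (Real.exp_pos _).trans_le hr
  have hb00 : 0 ≤ b0 := by
    rw [hb0]
    have : 0 ≤ (r / (R * L)) ^ (2 / n : ℝ) := Real.rpow_nonneg (by (clear * - hr0 hR0 hL; positivity)) _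
    have hC0 : 0 ≤ C := by linarith only [hC]
    (clear * - hR0 hC hr0 hL; positivity)
  rw [← hs] at hsn ⊢
  have key : ∀ b ∈ EE z₀ R L,
      ‖St (fun A U => Real.exp (U - Real.log L) * KK A (Zf W z t)) W b t‖ ≤ b0 / s ^ 2 := by
    intro b hb
    by_cases hbal : b ∈ loewnerDomain W t
    · rw [St_of_mem hbal]
      have hAim : 0 < (Zf W b t).im := Zf_im_pos S.ht hbal
      have hKK := (KK_pos hAim hZim).le
      have hB : (0 : ℝ) < 96000 * (R * L) := by (clear * - hR0 hL; positivity)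
      have hp := growthK_pt hC hn hB (Real.exp_pos (Uf W b t)) (hI b hb hbal)
        (Real.exp_pos (Uf W z t)) hr
        (q := ‖Zf W b t - (starRingEnd ℂ) (Zf W z t)‖ ^ 2 / ((Zf W b t).im * (Zf W z t).im))
        (by (clear * - hAim hZim; positivity)) hKK (hG S.hW S.ht hbal hal) (KK_le_q hAim hZim)
      rw [← hs] at hp
      have hmono : (r / (96000 * (R * L))) ^ (2 / n : ℝ) ≤ (r / (R * L)) ^ (2 / n : ℝ) := by
        refine Real.rpow_le_rpow (by positivity) ?_ (by positivity)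
        exact div_le_div_of_nonneg_left hr0.le hRL (by linarith only [hRL])
      have hC0 : 0 ≤ C := by linarith only [hC]
      have e1 : Real.exp (Uf W b t - Real.log L) = Real.exp (Uf W b t) / L := by
        rw [Real.exp_sub, Real.exp_log hL]
      rw [Real.norm_eq_abs, abs_of_nonneg (mul_nonneg (Real.exp_pos _).le hKK), e1,
        le_div_iff₀ (by (clear * - hsn; positivity))]
      calc Real.exp (Uf W b t) / L * KK (Zf W b t) (Zf W z t) * s ^ 2
          = Real.exp (Uf W b t) * (KK (Zf W b t) (Zf W z t) * s ^ 2) / L := by ring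
        _ ≤ 96000 * (R * L) * (C * (r / (96000 * (R * L))) ^ (2 / n : ℝ)) / L :=
            div_le_div_of_nonneg_right hp hL.le
        _ ≤ 96000 * (R * L) * (C * (r / (R * L)) ^ (2 / n : ℝ)) / L := by (clear * - hmono hC hR0 hL; gcongr)
        _ = b0 := by
            rw [hb0]
            (clear * - hL hr0 hR0 hC; field_simp)
    · have e0 : St (fun A U => Real.exp (U - Real.log L) * KK A (Zf W z t)) W b t = 0 := by
        simp only [St, hbal, if_false]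
      rw [e0, norm_zero]
      (clear * - hb00 hsn; positivity)
  have hvol : (volume : Measure ℂ).real (EE z₀ R L) = Real.pi * (3 * (R * L)) ^ 2 := by
    unfold EE
    rw [measureReal_def, Complex.volume_ball, ENNReal.toReal_mul, ENNReal.toReal_pow,
      ENNReal.toReal_ofReal (by positivity)]
    simp only [ENNReal.coe_toReal, NNReal.coe_real_pi]
    ring
  have hfin : (volume : Measure ℂ) (EE z₀ R L) < ⊤ := measure_ball_lt_top
  have hint := norm_setIntegral_le_of_norm_le_const hfin key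
  rw [hvol] at hint
  have h9 := (le_abs_self _).trans hint
  unfold IQ BI
  rw [div_mul_eq_mul_div, div_le_iff₀ (by (clear * - hL; positivity))]
  calc (∫ b in EE z₀ R L, St (fun A U => Real.exp (U - Real.log L) * KK A (Zf W z t)) W b t) *
        s ^ 2 ≤ b0 / s ^ 2 * (Real.pi * (3 * (R * L)) ^ 2) * s ^ 2 :=
        mul_le_mul_of_nonneg_right h9 (by (clear * - hsn; positivity))
    _ = b0 * (Real.pi * (3 * (R * L)) ^ 2) := by
        (clear * - hsn hL hR0; field_simp)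
    _ = 864000 * Real.pi * C * R ^ 3 * (r / (R * L)) ^ (2 / n : ℝ) * L ^ 2 := by
        rw [hb0]
        ring

end Vale.Agent.P164
end
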