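import Vale.Agent.P164.MathlibUsed
import Vale.Agent.P164.Bdl.B8

set_option linter.all false

section

/-!
# X-A5. The pointwise bound (S-pt)
-/

namespace Vale.Agent.P164

open Set Metric Filter Topology MeasureTheory ProbabilityTheory
open scoped NNReal ENNReal

theorem SPt_deriv_curve (r σ θ : ℝ) :
    HasDerivAt (fun θ : ℝ => (⟨σ * (r * Real.cos θ), r * Real.sin θ⟩ : ℂ))
      (⟨σ * (r * -Real.sin θ), r * Real.cos θ⟩ : ℂ) θ := by
  have e : (fun θ : ℝ => (⟨σ * (r * Real.cos θ), r * Real.sin θ⟩ : ℂ)) =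
      fun θ : ℝ => ((σ * (r * Real.cos θ) : ℝ) : ℂ) + ((r * Real.sin θ : ℝ) : ℂ) * Complex.I := by
    funext x
    exact Complex.mk_eq_add_mul_I _ _
  rw [e, Complex.mk_eq_add_mul_I]
  have h1 : HasDerivAt (fun θ : ℝ => σ * (r * Real.cos θ)) (σ * (r * -Real.sin θ)) θ :=
    ((Real.hasDerivAt_cos θ).const_mul r).const_mul σ
  have h2 : HasDerivAt (fun θ : ℝ => r * Real.sin θ) (r * Real.cos θ) θ :=
    (Real.hasDerivAt_sin θ).const_mul r
  exact h1.ofReal_comp.add (h2.ofReal_comp.mul_const Complex.I)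

theorem SPt_norm_curve {r σ θ : ℝ} (hr : 0 < r) (hσ : σ = 1 ∨ σ = -1) :
    ‖(⟨σ * (r * -Real.sin θ), r * Real.cos θ⟩ : ℂ)‖ = r := by
  rw [Complex.norm_def, Complex.normSq_mk]
  have hs := Real.sin_sq_add_cos_sq θ
  have : σ * (r * -Real.sin θ) * (σ * (r * -Real.sin θ)) + r * Real.cos θ * (r * Real.cos θ)
      = r ^ 2 := by
    rcases hσ with h | h <;> rw [h] <;> linear_combination r ^ 2 * hs
  rw [this, Real.sqrt_sq hr.le]

/-- The path along the arc. `Γ(θ)` = the point with `Z = r e^{iθ}` (`invflow`), with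
`|Γ'(θ)| = Υ_{Γ(θ)}/sin θ`. If all the points of the arc between `θ₀` and `θ₁ ≤ π/2` have
`Υ ≤ B`, then `|Γ(θ₁) - Γ(θ₀)| ≤ 2 B log(θ₁/θ₀)` (`1/sin θ ≤ (π/2)/θ`). The mirror image (points
with `Re Z < 0`) is stated via a sign `σ = ±1` of the real part. -/
theorem arc_move {W : ℝ → ℝ} {t : ℝ} (hW : Continuous W) (ht : 0 ≤ t) {r B θ₀ θ₁ σ : ℝ}
    (hr : 0 < r) (hσ : σ = 1 ∨ σ = -1) (h0 : 0 < θ₀) (h01 : θ₀ ≤ θ₁) (h1 : θ₁ ≤ Real.pi / 2)
    (hB : ∀ θ ∈ Ico θ₀ θ₁, ∀ z ∈ loewnerDomain W t,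
      Zf W z t = ⟨σ * (r * Real.cos θ), r * Real.sin θ⟩ → Real.exp (Uf W z t) ≤ B)
    {z z' : ℂ} (hz : z ∈ loewnerDomain W t) (hz' : z' ∈ loewnerDomain W t)
    (hZ : Zf W z t = ⟨σ * (r * Real.cos θ₀), r * Real.sin θ₀⟩)
    (hZ' : Zf W z' t = ⟨σ * (r * Real.cos θ₁), r * Real.sin θ₁⟩) :
    dist z' z ≤ 2 * B * Real.log (θ₁ / θ₀) := by
  have hWc : ContinuousOn W (Icc 0 t) := hW.continuousOn
  set ψ : ℝ → ℂ := fun θ => ⟨σ * (r * Real.cos θ), r * Real.sin θ⟩ with hψ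
  have hpos : ∀ θ ∈ Icc θ₀ θ₁, 0 < Real.sin θ := fun θ hθ =>
    Real.sin_pos_of_pos_of_lt_pi (h0.trans_le hθ.1) (by linarith only [h0, h01, h1, hθ.2])
  have him : ∀ θ ∈ Icc θ₀ θ₁, 0 < (ψ θ).im := fun θ hθ => mul_pos hr (hpos θ hθ)
  have hd : ∀ θ ∈ Icc θ₀ θ₁, HasDerivAt (fun θ => invflow W t (ψ θ))
      ((dflow W t (invflow W t (ψ θ)))⁻¹ * (⟨σ * (r * -Real.sin θ), r * Real.cos θ⟩ : ℂ)) θ := by
    intro θ hθ
    exact (hasDerivAt_invflow ht hWc (him θ hθ)).comp_of_eq θ (SPt_deriv_curve r σ θ) rfl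
  have hz0 : invflow W t (ψ θ₀) = z := by
    have := invflow_flow ht hWc hz
    rwa [show flow W t z = ψ θ₀ from hZ] at this
  have hz1 : invflow W t (ψ θ₁) = z' := by
    have := invflow_flow ht hWc hz'
    rwa [show flow W t z' = ψ θ₁ from hZ'] at this
  have key := image_norm_le_of_norm_deriv_right_le_deriv_boundary'
    (f := fun θ => invflow W t (ψ θ) - z)
    (f' := fun θ => (dflow W t (invflow W t (ψ θ)))⁻¹ *
      (⟨σ * (r * -Real.sin θ), r * Real.cos θ⟩ : ℂ))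
    (a := θ₀) (b := θ₁)
    (B := fun θ => 2 * B * (Real.log θ - Real.log θ₀)) (B' := fun θ => 2 * B * (1 / θ))
    (fun θ hθ => ((hd θ hθ).sub_const z).continuousAt.continuousWithinAt)
    (fun θ hθ => ((hd θ ⟨hθ.1, hθ.2.le⟩).sub_const z).hasDerivWithinAt)
    (by simp only [hz0, sub_self, norm_zero, mul_zero, le_refl])
    (fun θ hθ => by
      have h2 : θ ≠ 0 := (h0.trans_le hθ.1).ne'
      exact ((((Real.continuousAt_log h2).sub continuousAt_const).const_mul _)).continuousWithinAt)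
    (fun θ hθ => by
      have h2 : θ ≠ 0 := (h0.trans_le hθ.1).ne'
      have := ((Real.hasDerivAt_log h2).sub_const (Real.log θ₀)).const_mul (2 * B)
      rw [one_div]
      exact this.hasDerivWithinAt)
    (fun θ hθ => by
      have hθ' : θ ∈ Icc θ₀ θ₁ := ⟨hθ.1, hθ.2.le⟩
      have hθ0 : 0 < θ := h0.trans_le hθ.1
      have hmem : invflow W t (ψ θ) ∈ loewnerDomain W t := invflow_mem ht hWc (him θ hθ')
      have hfl : flow W t (invflow W t (ψ θ)) = ψ θ := flow_invflow ht hWc (him θ hθ')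
      have hU := hB θ hθ _ hmem hfl
      have hUpos := Real.exp_pos (Uf W (invflow W t (ψ θ)) t)
      have hs := hpos θ hθ'
      have hnd : ‖dflow W t (invflow W t (ψ θ))‖ =
          r * Real.sin θ * Real.exp (-Uf W (invflow W t (ψ θ)) t) := by
        rw [norm_dflow ht hWc hmem, hfl]
        rfl
      rw [norm_mul, norm_inv, hnd, SPt_norm_curve hr hσ, Real.exp_neg]
      have hjordan : 2 / Real.pi * θ ≤ Real.sin θ :=
        Real.mul_le_sin hθ0.le (by linarith only [h1, hθ.2])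
      have hpi : Real.pi ≤ 4 := Real.pi_le_four
      have hhalf : θ / 2 ≤ Real.sin θ := by
        refine le_trans ?_ hjordan
        rw [div_mul_eq_mul_div, div_le_div_iff₀ (by norm_num) Real.pi_pos]
        nlinarith only [hθ0, hpi]
      have e : (r * Real.sin θ * (Real.exp (Uf W (invflow W t (ψ θ)) t))⁻¹)⁻¹ * r =
          Real.exp (Uf W (invflow W t (ψ θ)) t) / Real.sin θ := by
        (clear * - hr hs; field_simp)
      rw [e, mul_one_div, div_le_div_iff₀ hs hθ0]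
      nlinarith only [hU, hs, hUpos, hhalf])
  have h3 := key (right_mem_Icc.2 h01)
  rw [hz1] at h3
  rw [dist_eq_norm, Real.log_div (h0.trans_le h01).ne' h0.ne']
  exact h3

/-- The move along the arc, as long as it stays in `D3`. -/
lemma sPt_move {B : ℝ} (hB0 : 0 < B) {W : ℝ → ℝ} {t : ℝ} (hW : Continuous W) (ht : 0 ≤ t)
    {E : Set ℂ} {z : ℂ} (hz : z ∈ loewnerDomain W t) {σ θ₀ θ₁ : ℝ} {Γ : ℝ → ℂ}
    (hσ : σ = 1 ∨ σ = -1) (hθ0 : 0 < θ₀)
    (hsinθ : Real.sin θ₀ = sn (Zf W z t))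
    (hZe : Zf W z t = ⟨σ * (‖Zf W z t‖ * Real.cos θ₀), ‖Zf W z t‖ * Real.sin θ₀⟩)
    (hΓ : ∀ θ ∈ Ioo 0 Real.pi, Γ θ ∈ loewnerDomain W t ∧
      Zf W (Γ θ) t = ⟨σ * (‖Zf W z t‖ * Real.cos θ), ‖Zf W z t‖ * Real.sin θ⟩)
    (hθ₁ : θ₁ ∈ Icc θ₀ (Real.pi / 2)) (hin : ∀ θ ∈ Ico θ₀ θ₁, Γ θ ∈ E)
    (harcB : ∀ θ ∈ Icc θ₀ (Real.pi / 2), ∀ b ∈ E, b ∈ loewnerDomain W t →
      Zf W b t = ⟨σ * (‖Zf W z t‖ * Real.cos θ), ‖Zf W z t‖ * Real.sin θ⟩ →
      Real.exp (Uf W b t) ≤ B) :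
    dist (Γ θ₁) z ≤ 2 * B * Real.log (2 / sn (Zf W z t)) := by
  have hr : 0 < ‖Zf W z t‖ := Zf_norm_pos ht hz
  have hsn := sn_pos (Zf_im_pos ht hz)
  have hpi := Real.pi_pos
  have hIcc : Icc θ₀ (Real.pi / 2) ⊆ Ioo 0 Real.pi := fun θ hθ =>
    ⟨lt_of_lt_of_le hθ0 hθ.1, lt_of_le_of_lt hθ.2 (by linarith only [hpi])⟩
  have hh := arc_move hW ht (r := ‖Zf W z t‖) (B := B) (θ₀ := θ₀) (θ₁ := θ₁)
    (σ := σ) hr hσ hθ0 hθ₁.1 hθ₁.2 (z := z) (z' := Γ θ₁) ?_ hz (hΓ θ₁ (hIcc hθ₁)).1 hZe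
    (hΓ θ₁ (hIcc hθ₁)).2
  · refine hh.trans ?_
    have h1 : θ₁ / θ₀ ≤ 2 / sn (Zf W z t) := by
      rw [div_le_div_iff₀ hθ0 hsn, ← hsinθ]
      have h2 := Real.sin_le hθ0.le
      have h3 := Real.pi_le_four
      have h4 : θ₁ ≤ 2 := by linarith only [h3, hθ₁.2]
      have h5 : 0 ≤ Real.sin θ₀ := by rw [hsinθ]; exact hsn.le
      (clear * - h4 h2 h5; gcongr)
    have h2 : 0 < θ₁ / θ₀ := div_pos (lt_of_lt_of_le hθ0 hθ₁.1) hθ0
    have h3 := Real.log_le_log h2 h1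
    (clear * - h3 hB0; gcongr)
  · intro θ hθ b hb hbZ
    have hθ' : θ ∈ Icc θ₀ (Real.pi / 2) := ⟨hθ.1, hθ.2.le.trans hθ₁.2⟩
    have hbΓ : b = Γ θ := by
      have h1 := hΓ θ (hIcc hθ')
      apply Zf_injOn hW ht hb h1.1
      change Zf W b t = Zf W (Γ θ) t
      rw [h1.2, hbZ]
    exact harcB θ hθ' b (hbΓ ▸ hin θ hθ) hb hbZ

/-- (S-pt) For every `c' > 0`: `sn^{c'} ω_Q ≤ C ((1+|Q-ζ_l|/L)^{-3} + R^{-2})` for `Q ∈ D` alive
in shell `l`, where `ζ_l` is the point with `Z = i 2^l`.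
PROOF. Case (ii) (`¬ CaseI`): `ω ≤ 1/I ≤ (10^{-4}R²·96000R)^{-1} ≤ R^{-2}`. Case (i):
`r = |Z_Q|`, `Re Z_Q ≥ 0` (mirror otherwise), arc from `Q` to `Γ(π/2)`. For `b` on the arc
`K(b,Q) ≥ 1/5000` (`KK_arc`), so while `b ∈ D3`, (R1) gives `Υ_b ≤ B := C L (1+I_Q)^{1/3}`.
* If the arc stays in `D3`: `|Q - Γ(π/2)| ≤ 2B log(π/(2θ_Q)) ≤ 2B log(2/sn_Q)` and
  `|Γ(π/2) - ζ_l| ≤ C Υ_{Γ(π/2)} ≤ C B` (`harnack_chain`, `Z`'s on the imaginary axis,
  ratio at most 2), so `(1+|Q-ζ_l|/L)³ ≤ C (1+I_Q)(1+log(2/sn))³`.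
* If it leaves `D3`: at the first exit `2RL ≤ 2B log(2/sn)`, so
  `R² ≤ R³ ≤ C (1+I_Q)(1+log(2/sn))³` (`R ≥ 1`).
In both cases `sn^{c'}(1+log(2/sn))³ ≤ C`. -/
theorem s_pt {c' : ℝ} (hc' : 0 < c') : ∃ C : ℝ, 0 < C ∧ ∀ {W : ℝ → ℝ} {t : ℝ} {z₀ : ℂ} {R L : ℝ}
    (_ : SA W t z₀ R L) (l : ℤ), ∃ ζ : ℂ, ∀ z ∈ DD z₀ R L, z ∈ loewnerDomain W t →
      Shell l (Zf W z t) →
      sn (Zf W z t) ^ c' * om L (EE z₀ R L) W t (Zf W z t) ≤
        C * (((1 + dist z ζ / L) ^ 3)⁻¹ + (R ^ 2)⁻¹) := by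
  obtain ⟨C₀, hC₀, hlogb⟩ := sPtAux_log hc'
  obtain ⟨c, hc, hroom⟩ := room_lb
  obtain ⟨C₁, hC₁, hchain⟩ := harnack_chain one_pos
  -- the constant `a = (5000/c)^{1/3}`
  obtain ⟨a, ha, ha3⟩ : ∃ a : ℝ, 0 < a ∧ a ^ 3 = 5000 / c := by
    refine ⟨(5000 / c) ^ ((1 : ℝ) / 3), by (clear * - hc; positivity), ?_⟩
    rw [← Real.rpow_natCast, ← Real.rpow_mul (by positivity)]
    norm_num
  obtain ⟨C₂, hC₂⟩ : ∃ C₂ : ℝ, C₂ = 1 + (2 + C₁) * a := ⟨_, rfl⟩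
  have hC₂p : 0 < C₂ := by rw [hC₂]; (clear * - hC₁ ha; positivity)
  have hC₂a : a ≤ C₂ := by
    rw [hC₂, add_mul]
    have : 0 < C₁ * a := by positivity
    linarith only [ha, this]
  have hCC : 0 < C₂ ^ 3 * C₀ := by positivity
  refine ⟨1 + C₂ ^ 3 * C₀, by positivity, ?_⟩
  intro W t z₀ R L S l
  have hW := S.hW
  have ht := S.ht
  have hL := S.hL
  have hR := S.hR
  obtain ⟨ζ, hζ, hζe⟩ := Zf_surj hW ht (w := (⟨0, 2 ^ l⟩ : ℂ))
    (show (0 : ℝ) < 2 ^ l by positivity)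
  refine ⟨ζ, ?_⟩
  intro z hzD hz hsh
  have hZim := Zf_im_pos ht hz
  have hsn := sn_pos hZim
  have hsn1 := sn_le_one (Zf W z t)
  have hsnc1 : sn (Zf W z t) ^ c' ≤ 1 := Real.rpow_le_one hsn.le hsn1 hc'.le
  have hI := IQ_nonneg S hZim
  have hzE : z ∈ EE z₀ R L := S.DD_sub hzD
  have hQ3 : 0 < ((1 + dist z ζ / L) ^ 3)⁻¹ := by (clear * - hL; positivity)
  have hR2 : 0 < (R ^ 2)⁻¹ := by positivity
  by_cases hcase : CaseI W t z₀ R L
  swap
  · -- case (ii)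
    have h2 := sPtAux_caseII S hcase hzE
    have h3 : 0 < om L (EE z₀ R L) W t (Zf W z t) := om_pos S hZim
    calc sn (Zf W z t) ^ c' * om L (EE z₀ R L) W t (Zf W z t)
        ≤ 1 * (R ^ 2)⁻¹ := by (clear * - hsnc1 h2 h3; gcongr)
      _ ≤ (1 + C₂ ^ 3 * C₀) * (((1 + dist z ζ / L) ^ 3)⁻¹ + (R ^ 2)⁻¹) := by
          gcongr
          · linarith only [hCC]
          · linarith only [hQ3]
  -- case (i)
  obtain ⟨q, hq, hq3⟩ : ∃ q : ℝ, 0 < q ∧ q ^ 3 = 1 + IQ L (EE z₀ R L) W t (Zf W z t) := by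
    refine ⟨(1 + IQ L (EE z₀ R L) W t (Zf W z t)) ^ ((1 : ℝ) / 3), by (clear * - hI; positivity), ?_⟩
    rw [← Real.rpow_natCast, ← Real.rpow_mul (by (clear * - hI; positivity))]
    norm_num
  have hq1 : 1 ≤ q := by
    by_contra hcon
    push Not at hcon
    have : q ^ 3 < 1 := pow_lt_one₀ hq.le hcon (by norm_num)
    linarith only [hI, hq3, this]
  have hlog0 : 0 ≤ Real.log (2 / sn (Zf W z t)) := by
    apply Real.log_nonneg
    rw [le_div_iff₀ hsn]; linarith only [hsn1]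
  have hℓ1 : 1 ≤ 1 + Real.log (2 / sn (Zf W z t)) := by linarith only [hlog0]
  have hB0 : 0 < L * (a * q) := by (clear * - hL ha hq; positivity)
  obtain ⟨σ, θ₀, hσ, hθ0, hθ1, hsinθ, hZe⟩ := sPtAux_polar hZim
  have hr : 0 < ‖Zf W z t‖ := Zf_norm_pos ht hz
  obtain ⟨Γ, hΓc, hΓ⟩ := sPtAux_arc hW ht (r := ‖Zf W z t‖) (σ := σ) hr
  have hpi := Real.pi_pos
  have hIcc : Icc θ₀ (Real.pi / 2) ⊆ Ioo 0 Real.pi := fun θ hθ =>
    ⟨lt_of_lt_of_le hθ0 hθ.1, lt_of_le_of_lt hθ.2 (by linarith only [hθ0, hθ1])⟩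
  -- the bound at the points of the arc in `D3`
  have harcB : ∀ θ ∈ Icc θ₀ (Real.pi / 2), ∀ b ∈ EE z₀ R L, b ∈ loewnerDomain W t →
      Zf W b t = ⟨σ * (‖Zf W z t‖ * Real.cos θ), ‖Zf W z t‖ * Real.sin θ⟩ →
      Real.exp (Uf W b t) ≤ L * (a * q) := fun θ hθ b hbE hb hbZ =>
    sPtAux_room hc ha ha3 hq hL hq3 (hroom S hcase hbE hb hZim) hZim hσ hθ0 hθ1 hsinθ hZe hθ hbZ
  have hfin : ∀ X : ℝ, 0 < X → X ≤ (C₂ * (q * (1 + Real.log (2 / sn (Zf W z t))))) ^ 3 →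
      sn (Zf W z t) ^ c' * om L (EE z₀ R L) W t (Zf W z t) ≤ C₂ ^ 3 * C₀ * X⁻¹ :=
    fun X hX hXle => sPtAux_fin hC₂p.le hsn hq hq3 hX (hlogb _ hsn hsn1) hXle
  rcases sPtAux_exit (hΓc.mono hIcc) (E := EE z₀ R L) isOpen_ball with hall | hex
  · -- the arc stays in `D3`
    have hpm : Real.pi / 2 ∈ Icc θ₀ (Real.pi / 2) := ⟨hθ1, le_rfl⟩
    have hd1 := sPt_move hB0 hW ht hz hσ hθ0 hsinθ hZe hΓ hpm
      (fun θ hθ => hall θ ⟨hθ.1, hθ.2.le⟩) harcB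
    obtain ⟨hm1, hm2⟩ := hΓ (Real.pi / 2) (hIcc hpm)
    have hB1 := harcB _ hpm _ (hall _ hpm) hm1 hm2
    have hd2 := sPtAux_top hC₁ hchain hW ht hm1 hζ hsh.1 hsh.2 hm2 hζe hB1
    have hd : dist z ζ ≤ 2 * (L * (a * q)) * (1 + Real.log (2 / sn (Zf W z t)) - 1) +
        C₁ * (L * (a * q)) := by
      have h1 : dist z ζ ≤ dist (Γ (Real.pi / 2)) z + dist ζ (Γ (Real.pi / 2)) := by
        rw [dist_comm (Γ (Real.pi / 2)) z, dist_comm ζ]
        exact dist_triangle _ _ _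
      rw [add_sub_cancel_left]
      linarith only [hd1, hd2, h1]
    have hX := sPtAux_stay hL ha hC₁ hC₂ hq1 hℓ1 dist_nonneg hd
    refine (hfin _ (by (clear * - hL; positivity)) hX).trans ?_
    gcongr
    · linarith only []
    · linarith only [hR2]
  · -- exit from `D3`
    obtain ⟨θ₁, hθ₁, hout, hin⟩ := hex
    have hd1 := sPt_move hB0 hW ht hz hσ hθ0 hsinθ hZe hΓ hθ₁ hin harcB
    have h1 : 3 * (R * L) ≤ dist (Γ θ₁) z₀ := by
      unfold EE at hout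
      rw [mem_ball, not_lt] at hout
      exact hout
    have h2 : dist z z₀ < R * L := hzD
    have h3 : dist (Γ θ₁) z₀ ≤ dist (Γ θ₁) z + dist z z₀ := dist_triangle _ _ _
    have h8 := sPtAux_leave (ℓ := 1 + Real.log (2 / sn (Zf W z t))) (D := dist (Γ θ₁) z)
      hL hR ha hC₂a hq1 hℓ1 (by linarith only [h1, h2, h3])
      (by rw [add_sub_cancel_left]; exact hd1)
    refine (hfin _ (by (clear * - hR; positivity)) h8).trans ?_
    gcongr
    · linarith only []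
    · linarith only [hQ3]

end Vale.Agent.P164
end

section

/-!
# X-A6. Shell sums
-/

namespace Vale.Agent.P164

open Set Metric Filter Topology MeasureTheory ProbabilityTheory
open scoped NNReal ENNReal

theorem shellX_scale {L : ℝ} (hL : 0 < L) (ζ : ℂ) (f : ℝ → ℝ≥0∞) (hf : Measurable f) :
    ∫⁻ z : ℂ, f (dist z ζ / L) = ENNReal.ofReal (L ^ 2) * ∫⁻ z : ℂ, f ‖z‖ := by
  have h1 : ∫⁻ z : ℂ, f (dist z ζ / L) = ∫⁻ z : ℂ, f (‖z‖ / L) := by
    have := lintegral_sub_right_eq_self (μ := (volume : Measure ℂ)) (fun z => f (‖z‖ / L)) ζ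
    rw [← this]
    simp only [dist_eq_norm]
  have h2 : ∫⁻ z : ℂ, f (‖z‖ / L) = ENNReal.ofReal (L ^ 2) * ∫⁻ z : ℂ, f ‖z‖ := by
    have h3 := Measure.map_addHaar_smul (volume : Measure ℂ) (inv_ne_zero hL.ne')
    have h4 : ∫⁻ z : ℂ, f ‖z‖ ∂(Measure.map (fun x : ℂ => L⁻¹ • x) volume)
        = ∫⁻ z : ℂ, f (‖z‖ / L) := by
      rw [lintegral_map (f := fun z : ℂ => f ‖z‖) (hf.comp measurable_norm)
        (measurable_const_smul _)]
      refine lintegral_congr fun z => ?_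
      rw [norm_smul, norm_inv, Real.norm_eq_abs, abs_of_pos hL, inv_mul_eq_div]
    rw [← h4]
    change ∫⁻ z : ℂ, f ‖z‖ ∂(Measure.map (L⁻¹ • ·) volume) = _
    rw [h3, lintegral_smul_measure]
    congr 1
    rw [Complex.finrank_real_complex]
    congr 1
    rw [inv_pow, inv_inv, abs_of_pos (by positivity)]
  rw [h1, h2]

/-- Area integral of the profile. -/
theorem area_profile : ∃ C : ℝ, 0 < C ∧ ∀ {z₀ ζ : ℂ} {R L : ℝ} (_ : 0 < L) (_ : 1 ≤ R),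
    ∫⁻ z in DD z₀ R L, ENNReal.ofReal (((1 + dist z ζ / L) ^ 3)⁻¹ + (R ^ 2)⁻¹) ≤
      ENNReal.ofReal (C * L ^ 2) := by
  set S : ℝ≥0∞ := ∫⁻ z : ℂ, ENNReal.ofReal (((1 + ‖z‖) ^ 3)⁻¹) with hS
  have hSfin : S < ⊤ := by
    have h := finite_integral_one_add_norm (E := ℂ) (μ := volume) (r := 3)
      (by rw [Complex.finrank_real_complex]; norm_num)
    refine lt_of_le_of_lt (le_of_eq ?_) h
    refine lintegral_congr fun z => ?_
    congr 1
    rw [Real.rpow_neg (by (clear * -; positivity))]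
    norm_num
  refine ⟨S.toReal + Real.pi, by positivity, fun {z₀ ζ R L} hL hR => ?_⟩
  have h1 : ∫⁻ z in DD z₀ R L, ENNReal.ofReal (((1 + dist z ζ / L) ^ 3)⁻¹ + (R ^ 2)⁻¹)
      ≤ (∫⁻ z in DD z₀ R L, ENNReal.ofReal (((1 + dist z ζ / L) ^ 3)⁻¹))
        + ∫⁻ z in DD z₀ R L, ENNReal.ofReal ((R ^ 2)⁻¹) := by
    rw [← lintegral_add_right _ measurable_const]
    refine lintegral_mono fun z => ?_
    exact ENNReal.ofReal_add_le
  refine h1.trans ?_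
  have h2 : ∫⁻ z in DD z₀ R L, ENNReal.ofReal (((1 + dist z ζ / L) ^ 3)⁻¹)
      ≤ ENNReal.ofReal (L ^ 2) * S := by
    refine (setLIntegral_le_lintegral _ _).trans ?_
    rw [hS, ← shellX_scale hL ζ (fun r => ENNReal.ofReal (((1 + r) ^ 3)⁻¹)) (by fun_prop)]
  have h3 : ∫⁻ z in DD z₀ R L, ENNReal.ofReal ((R ^ 2)⁻¹) = ENNReal.ofReal (Real.pi * L ^ 2) := by
    rw [setLIntegral_const, DD, Complex.volume_ball]
    rw [← ENNReal.ofReal_pow (by positivity), ← NNReal.coe_real_pi]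
    rw [← ENNReal.ofReal_coe_nnreal, ← ENNReal.ofReal_mul (by positivity),
      ← ENNReal.ofReal_mul (by positivity)]
    congr 1
    (clear * - hR hL; field_simp)
  rw [h3]
  refine (add_le_add_left h2 _).trans ?_
  have e5 : S = ENNReal.ofReal S.toReal := (ENNReal.ofReal_toReal hSfin.ne).symm
  rw [e5, ← ENNReal.ofReal_mul (by positivity), ← ENNReal.ofReal_add (by positivity)
    (by positivity)]
  apply ENNReal.ofReal_le_ofReal
  rw [ENNReal.toReal_ofReal ENNReal.toReal_nonneg]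
  linarith only []

theorem shellX_int {m M : ℝ} (hM : 0 < M) :
    ∫⁻ w : ℂ, (ENNReal.ofReal (m ^ (-(11 / 10) : ℝ)) * ((Icc (-M) M).indicator 1 w.re *
      (Ioc 0 M).indicator (fun y => ENNReal.ofReal (y ^ (-(9 / 10) : ℝ))) w.im))
      = ENNReal.ofReal (m ^ (-(11 / 10) : ℝ)) *
        (ENNReal.ofReal (2 * M) * ENNReal.ofReal (10 * M ^ (1 / 10 : ℝ))) := by
  have hmeas1 : Measurable ((Icc (-M) M).indicator (1 : ℝ → ℝ≥0∞)) :=
    measurable_one.indicator measurableSet_Icc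
  have hmeas2 : Measurable ((Ioc 0 M).indicator
      (fun y : ℝ => ENNReal.ofReal (y ^ (-(9 / 10) : ℝ)))) :=
    (by fun_prop : Measurable fun y : ℝ => ENNReal.ofReal (y ^ (-(9 / 10) : ℝ))).indicator
      measurableSet_Ioc
  rw [lintegral_const_mul _ (by (clear * - hmeas1 hmeas2; fun_prop))]
  congr 1
  have h1 := Complex.volume_preserving_equiv_real_prod.lintegral_comp
    (f := fun p : ℝ × ℝ => (Icc (-M) M).indicator 1 p.1 *
      (Ioc 0 M).indicator (fun y => ENNReal.ofReal (y ^ (-(9 / 10) : ℝ))) p.2) (by (clear * - hmeas1 hmeas2; fun_prop))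
  refine Eq.trans h1 ?_
  change ∫⁻ p : ℝ × ℝ, _ ∂((volume : Measure ℝ).prod (volume : Measure ℝ)) = _
  rw [lintegral_prod_mul hmeas1.aemeasurable hmeas2.aemeasurable]
  congr 1
  · rw [lintegral_indicator_one measurableSet_Icc, Real.volume_Icc]
    congr 1
    ring
  · rw [lintegral_indicator measurableSet_Ioc]
    have h2 : IntervalIntegrable (fun y : ℝ => y ^ (-(9 / 10) : ℝ)) volume 0 M :=
      intervalIntegral.intervalIntegrable_rpow' (by norm_num)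
    have h3 : ∫ y in (0 : ℝ)..M, y ^ (-(9 / 10) : ℝ) = 10 * M ^ (1 / 10 : ℝ) := by
      rw [integral_rpow (Or.inl (by norm_num))]
      norm_num
      ring
    rw [← h3, intervalIntegral.integral_of_le hM.le,
      ofReal_integral_eq_lintegral_ofReal]
    · exact (intervalIntegrable_iff_integrableOn_Ioc_of_le hM.le).1 h2
    · filter_upwards [ae_restrict_mem measurableSet_Ioc] with y hy
      exact Real.rpow_nonneg hy.1.le _

/-- (CV) `∫_{shell} e^{-2U} sn^{1.1} ≤ ∫_{2^l ≤ |w| < 2^{l+1}} sn^{1.1} Y^{-2} dw ≤ C`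
(`chvar` with `G w = Y^{-2} sn^{1.1} 1_shell`; polar coordinates `∫ sin^{-0.9} dθ ∫ dr/r`). -/
theorem shell_cv : ∃ C : ℝ, 0 < C ∧ ∀ {W : ℝ → ℝ} {t : ℝ} (_ : Continuous W) (_ : 0 ≤ t)
    {D : Set ℂ} (_ : MeasurableSet D) (l : ℤ),
    ∫⁻ z in (D ∩ loewnerDomain W t) ∩ {z | Shell l (Zf W z t)},
      ENNReal.ofReal (Real.exp (-2 * Uf W z t) * sn (Zf W z t) ^ (11 / 10 : ℝ)) ≤
        ENNReal.ofReal C := by
  refine ⟨80, by norm_num, fun {W t} hW ht {D} hD l => ?_⟩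
  set m : ℝ := (2 : ℝ) ^ l with hm
  set M : ℝ := (2 : ℝ) ^ (l + 1) with hM
  have hm0 : 0 < m := by positivity
  have hM0 : 0 < M := by positivity
  have hMm : M = 2 * m := by rw [hM, hm, zpow_add₀ (by norm_num)]; ring
  have hopen := isOpen_dom hW ht
  have hcont : ContinuousOn (fun z => Zf W z t) (loewnerDomain W t) := fun z hz =>
    (Zf_hasDerivAt hW ht hz).continuousAt.continuousWithinAt
  have hDm : MeasurableSet (D ∩ loewnerDomain W t) := hD.inter hopen.measurableSet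
  -- the set of the shell
  have hSh : MeasurableSet {w : ℂ | Shell l w} :=
    (measurableSet_le measurable_const measurable_norm).inter
      (measurableSet_lt measurable_norm measurable_const)
  have hmeas : MeasurableSet ((D ∩ loewnerDomain W t) ∩ {z | Shell l (Zf W z t)}) := by
    have h1 : (D ∩ loewnerDomain W t) ∩ {z | Shell l (Zf W z t)}
        = D ∩ (Subtype.val '' ((fun z : loewnerDomain W t => Zf W z t) ⁻¹' {w | Shell l w})) := by
      ext z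
      simp only [mem_inter_iff, mem_ofPred_eq, mem_image, mem_preimage, Subtype.exists,
        exists_and_right, exists_eq_right]
      (clear * -; tauto)
    rw [h1]
    refine hD.inter (MeasurableSet.subtype_image hopen.measurableSet ?_)
    exact (continuousOn_iff_continuous_domRestrict.1 hcont).measurable hSh
  set G : ℂ → ℝ≥0∞ := {w : ℂ | Shell l w}.indicator
    (fun w => ENNReal.ofReal (sn w ^ (11 / 10 : ℝ) / w.im ^ 2)) with hG
  have hcv := chvar hW ht hD G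
  have h2 : ∫⁻ z in (D ∩ loewnerDomain W t) ∩ {z | Shell l (Zf W z t)},
      ENNReal.ofReal (Real.exp (-2 * Uf W z t) * sn (Zf W z t) ^ (11 / 10 : ℝ)) ≤
      ∫⁻ z in D ∩ loewnerDomain W t, ENNReal.ofReal ((Zf W z t).im ^ 2 *
        Real.exp (-2 * Uf W z t)) * G (Zf W z t) := by
    calc ∫⁻ z in (D ∩ loewnerDomain W t) ∩ {z | Shell l (Zf W z t)},
          ENNReal.ofReal (Real.exp (-2 * Uf W z t) * sn (Zf W z t) ^ (11 / 10 : ℝ))
        = ∫⁻ z in (D ∩ loewnerDomain W t) ∩ {z | Shell l (Zf W z t)},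
          ENNReal.ofReal ((Zf W z t).im ^ 2 * Real.exp (-2 * Uf W z t)) * G (Zf W z t) := by
          refine setLIntegral_congr_fun hmeas fun z hz => ?_
          have hz1 : Shell l (Zf W z t) := hz.2
          have him : 0 < (Zf W z t).im := Zf_im_pos ht hz.1.2
          simp only [hG]
          rw [indicator_of_mem (show Zf W z t ∈ {w : ℂ | Shell l w} from hz1),
            ← ENNReal.ofReal_mul (by (clear * - him; positivity))]
          congr 1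
          (clear * - him; field_simp)
      _ ≤ _ := lintegral_mono_set inter_subset_left
  refine h2.trans (hcv.trans ?_)
  have h3 : ∫⁻ w in {w : ℂ | 0 < w.im}, G w ≤
      ∫⁻ w : ℂ, (ENNReal.ofReal (m ^ (-(11 / 10) : ℝ)) * ((Icc (-M) M).indicator 1 w.re *
        (Ioc 0 M).indicator (fun y => ENNReal.ofReal (y ^ (-(9 / 10) : ℝ))) w.im)) := by
    rw [← lintegral_indicator (measurableSet_lt measurable_const Complex.measurable_im)]
    refine lintegral_mono fun w => ?_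
    by_cases hw : w ∈ {w : ℂ | 0 < w.im}
    · rw [indicator_of_mem hw]
      by_cases hs : w ∈ {w : ℂ | Shell l w}
      · rw [hG, indicator_of_mem hs]
        have hw' : 0 < w.im := hw
        have hs' : m ≤ ‖w‖ ∧ ‖w‖ < M := hs
        have hn : 0 < ‖w‖ := lt_of_lt_of_le hm0 hs'.1
        have hre : w.re ∈ Icc (-M) M := abs_le.1 ((Complex.abs_re_le_norm w).trans hs'.2.le)
        have him : w.im ∈ Ioc 0 M := ⟨hw', (Complex.im_le_norm w).trans hs'.2.le⟩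
        rw [indicator_of_mem hre, indicator_of_mem him, Pi.one_apply, one_mul,
          ← ENNReal.ofReal_mul (by positivity)]
        apply ENNReal.ofReal_le_ofReal
        rw [sn, Real.div_rpow hw'.le hn.le, Real.rpow_neg hm0.le, Real.rpow_neg hw'.le]
        have h4 : w.im ^ (11 / 10 : ℝ) / w.im ^ 2 = (w.im ^ (9 / 10 : ℝ))⁻¹ := by
          rw [← Real.rpow_natCast w.im 2, ← Real.rpow_sub hw', ← Real.rpow_neg hw'.le]
          norm_num
        have h5 : w.im ^ (11 / 10 : ℝ) / ‖w‖ ^ (11 / 10 : ℝ) / w.im ^ 2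
            = (‖w‖ ^ (11 / 10 : ℝ))⁻¹ * (w.im ^ (9 / 10 : ℝ))⁻¹ := by
          rw [← h4]
          ring
        rw [h5]
        have h6 : m ^ (11 / 10 : ℝ) ≤ ‖w‖ ^ (11 / 10 : ℝ) :=
          Real.rpow_le_rpow hm0.le hs'.1 (by norm_num)
        have h7 : 0 < m ^ (11 / 10 : ℝ) := Real.rpow_pos_of_pos hm0 _
        (clear * - h6 hw'; gcongr)
      · rw [hG, indicator_of_notMem hs]
        exact zero_le
    · rw [indicator_of_notMem hw]
      exact zero_le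
  refine h3.trans ?_
  rw [shellX_int hM0, ← ENNReal.ofReal_mul (by positivity), ← ENNReal.ofReal_mul (by positivity)]
  apply ENNReal.ofReal_le_ofReal
  have h8 : 2 * M * (10 * M ^ (1 / 10 : ℝ)) = 20 * M ^ (11 / 10 : ℝ) := by
    have h9 : M ^ (11 / 10 : ℝ) = M * M ^ (1 / 10 : ℝ) := by
      have h10 := Real.rpow_add hM0 1 (1 / 10 : ℝ)
      rw [Real.rpow_one] at h10
      rw [← h10]
      norm_num
    rw [h9]
    ring
  rw [h8, hMm, Real.mul_rpow (by norm_num) hm0.le, Real.rpow_neg hm0.le]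
  have h11 : (2 : ℝ) ^ (11 / 10 : ℝ) ≤ 4 := by
    calc (2 : ℝ) ^ (11 / 10 : ℝ) ≤ (2 : ℝ) ^ (2 : ℝ) :=
          Real.rpow_le_rpow_of_exponent_le (by norm_num) (by norm_num)
      _ = 4 := by norm_num
  have h12 : 0 < m ^ (11 / 10 : ℝ) := Real.rpow_pos_of_pos hm0 _
  calc (m ^ (11 / 10 : ℝ))⁻¹ * (20 * (2 ^ (11 / 10 : ℝ) * m ^ (11 / 10 : ℝ)))
      = 20 * 2 ^ (11 / 10 : ℝ) := by field_simp
    _ ≤ 80 := by (clear * - h11; linarith)

/-- Measurability of the shells, for one shell. -/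
theorem ShellX_one_meas {W : ℝ → ℝ} {t : ℝ} (hW : Continuous W) (ht : 0 ≤ t) {D : Set ℂ}
    (hD : MeasurableSet D) (l : ℤ) :
    MeasurableSet ((D ∩ loewnerDomain W t) ∩ {z | Shell l (Zf W z t)}) := by
  have h1 : Measurable (fun z : ℂ => St (fun Z _ => ‖Z‖) W z t) :=
    St_measurable_z hW (G := fun Z _ => ‖Z‖) (by
      have : Measurable fun p : ℂ × ℝ => ‖p.1‖ := by fun_prop
      exact this) ht
  have h2 : ((D ∩ loewnerDomain W t) ∩ {z | Shell l (Zf W z t)})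
      = (D ∩ loewnerDomain W t) ∩ {z | (2 : ℝ) ^ l ≤ St (fun Z _ => ‖Z‖) W z t ∧
        St (fun Z _ => ‖Z‖) W z t < (2 : ℝ) ^ (l + 1)} := by
    ext z
    constructor
    · rintro ⟨h, hs⟩
      refine ⟨h, ?_⟩
      rw [mem_ofPred_eq, St_of_mem h.2]
      exact hs
    · rintro ⟨h, hs⟩
      refine ⟨h, ?_⟩
      rw [mem_ofPred_eq, St_of_mem h.2] at hs
      exact hs
  rw [h2]
  apply (hD.inter (isOpen_dom hW ht).measurableSet).inter
  exact (measurableSet_le measurable_const h1).inter (measurableSet_lt h1 measurable_const)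

/-- Pointwise bound of the dominating field. -/
theorem ShellX_FF_le {κ : ℝ} (h0 : 0 < κ) (h8 : κ < 8) {L U s o A₁ A C₁ C₂ : ℝ} (hL : 0 < L)
    (hs : 0 < s) (ho : 0 ≤ o) (hA₁ : 0 ≤ A₁) (hA : 0 ≤ A) (hA2 : A ≤ 2)
    (h1 : s ^ pX κ * o ≤ C₁ * A₁) (h2 : s ^ (pX κ - 11 / 10 * thX κ) * o ≤ C₂ * A)
    (hC1 : 0 < C₁) (hC2 : 0 < C₂) :
    Real.exp (xs κ * max 0 (Real.log L - U)) * s ^ pX κ * o ≤
      C₁ * A₁ + C₂ * A + 2 * C₂ * L ^ 2 * (Real.exp (-2 * U) * s ^ (11 / 10 : ℝ)) := by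
  have hbe : 0 < be κ := by
    unfold be
    rw [sub_pos, lt_div_iff₀ h0]
    linarith only [h8]
  have hx0 : 0 < xx κ := by
    unfold xx
    linarith only [h8]
  have hx1 : xx κ < 1 := by
    unfold xx
    linarith only [h0]
  have hxb : xx κ ≤ be κ := by
    have h3 : be κ = 8 / κ * xx κ := by
      unfold be xx
      (clear * - h0; field_simp)
    have h4 : 1 ≤ 8 / κ := by
      rw [le_div_iff₀ h0]
      linarith only [h8]
    rw [h3]
    exact le_mul_of_one_le_left hx0.le h4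
  have hth0 : 0 < thX κ := by
    unfold thX
    have := lt_min one_pos hbe
    positivity
  have hth1 : thX κ ≤ 1 := by
    unfold thX
    have := min_le_left (1 : ℝ) (be κ)
    (clear * - hx0 hx1 this; linarith)
  have hxs : xs κ ≤ 2 * thX κ := by
    unfold xs thX
    have := le_min hx1.le hxb
    linarith only [hx0, this]
  have hexp : 0 ≤ Real.exp (-2 * U) * s ^ (11 / 10 : ℝ) := by positivity
  rcases le_total (Real.log L) U with hU | hU
  · rw [max_eq_left (by linarith only [hU]), mul_zero, Real.exp_zero, one_mul]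
    have h5 : 0 ≤ C₂ * A := by (clear * - hC2 hA; positivity)
    have h6 : 0 ≤ 2 * C₂ * L ^ 2 * (Real.exp (-2 * U) * s ^ (11 / 10 : ℝ)) := by positivity
    linarith only [h1, h5, h6]
  · rw [max_eq_right (by linarith only [hU])]
    set X : ℝ := L ^ 2 * (Real.exp (-2 * U) * s ^ (11 / 10 : ℝ)) with hX
    have hX0 : 0 < X := by positivity
    have hXe : X = Real.exp (2 * (Real.log L - U)) * s ^ (11 / 10 : ℝ) := by
      rw [hX, ← mul_assoc]
      congr 1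
      rw [show 2 * (Real.log L - U) = Real.log L + Real.log L + (-2 * U) by ring, Real.exp_add,
        Real.exp_add, Real.exp_log hL]
      ring
    have hXt : Real.exp (xs κ * (Real.log L - U)) * s ^ pX κ
        ≤ X ^ thX κ * s ^ (pX κ - 11 / 10 * thX κ) := by
      rw [hXe, Real.mul_rpow (Real.exp_pos _).le (Real.rpow_nonneg hs.le _), ← Real.exp_mul,
        ← Real.rpow_mul hs.le, mul_assoc, ← Real.rpow_add hs]
      have h7 : 11 / 10 * thX κ + (pX κ - 11 / 10 * thX κ) = pX κ := by ring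
      rw [h7]
      apply mul_le_mul_of_nonneg_right _ (Real.rpow_nonneg hs.le _)
      apply Real.exp_le_exp.mpr
      nlinarith only [hxs, hU]
    have hX1 : X ^ thX κ ≤ 1 + X := by
      rcases le_total X 1 with h | h
      · have := Real.rpow_le_one hX0.le h hth0.le
        linarith only [hX0, this]
      · have := Real.rpow_le_rpow_of_exponent_le h hth1
        rw [Real.rpow_one] at this
        linarith only [this]
    calc Real.exp (xs κ * (Real.log L - U)) * s ^ pX κ * o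
        ≤ X ^ thX κ * s ^ (pX κ - 11 / 10 * thX κ) * o := by (clear * - hXt ho; gcongr)
      _ = X ^ thX κ * (s ^ (pX κ - 11 / 10 * thX κ) * o) := by ring
      _ ≤ (1 + X) * (C₂ * A) := by (clear * - hX1 h2 hs ho hL; gcongr)
      _ = C₂ * A + C₂ * X * A := by ring
      _ ≤ C₂ * A + C₂ * X * 2 := by (clear * - hA2 hC2 hL hs; gcongr)
      _ ≤ C₁ * A₁ + C₂ * A + 2 * C₂ * L ^ 2 * (Real.exp (-2 * U) * s ^ (11 / 10 : ℝ)) := by
          have : 0 ≤ C₁ * A₁ := by (clear * - hC1 hA₁; positivity)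
          rw [hX]
          linarith only [this]

/-- (S) on one shell. Pointwise: `F ω ≤ C (A_Q + L² e^{-2U} sn^{1.1})`: if `U ≥ log L`, `F = sn^p`
and (S-pt) with `c' = p`; if `U ≤ log L`: `x* ≤ 2θ`, `p = 1.1θ + c'` (`c' = p - 1.1 θ > 0`), so
`F ω ≤ (e^{-2u} sn^{1.1})^θ (sn^{c'} ω)`, `sn^{c'} ω ≤ C A_Q ≤ C' A_Q^{1-θ}` (`A_Q ≤ 2`) and
weighted AM-GM `X^θ Y^{1-θ} ≤ X + Y`. -/
theorem shell_one {κ : ℝ} (h0 : 0 < κ) (h8 : κ < 8) : ∃ C : ℝ, 0 < C ∧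
    ∀ {W : ℝ → ℝ} {t : ℝ} {z₀ : ℂ} {R L : ℝ} (_ : SA W t z₀ R L) (l : ℤ),
    ∫⁻ z in (DD z₀ R L ∩ loewnerDomain W t) ∩ {z | Shell l (Zf W z t)},
      ENNReal.ofReal (FF κ L (Zf W z t) (Uf W z t) * om L (EE z₀ R L) W t (Zf W z t)) ≤
        ENNReal.ofReal (C * L ^ 2) := by
  have hbe : 0 < be κ := by
    unfold be
    rw [sub_pos, lt_div_iff₀ h0]
    linarith
  have hp : 0 < pX κ := by
    unfold pX
    positivity
  have hp2 : 0 < pX κ - 11 / 10 * thX κ := by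
    unfold pX thX
    have := min_le_right (1 : ℝ) (be κ)
    linarith
  obtain ⟨C₁, hC1, H1⟩ := s_pt hp
  obtain ⟨C₂, hC2, H2⟩ := s_pt hp2
  obtain ⟨C₃, hC3, H3⟩ := area_profile
  obtain ⟨C₄, hC4, H4⟩ := shell_cv
  refine ⟨C₁ * C₃ + C₂ * C₃ + 2 * C₂ * C₄, by (clear * - hC1 hC3 hC2 hC4; positivity), ?_⟩
  intro W t z₀ R L S l
  obtain ⟨ζ₁, h1⟩ := H1 S l
  obtain ⟨ζ₂, h2⟩ := H2 S l
  have hL := S.hL
  have hR := S.hR
  have hD : MeasurableSet (DD z₀ R L) := measurableSet_ball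
  have hS := ShellX_one_meas S.hW S.ht hD l
  have hprof : ∀ ζ : ℂ, Measurable fun z : ℂ =>
      ENNReal.ofReal (((1 + dist z ζ / L) ^ 3)⁻¹ + (R ^ 2)⁻¹) := by
    intro ζ
    have : Measurable fun z : ℂ => dist z ζ := (continuous_id.dist continuous_const).measurable
    fun_prop
  have hpt : ∀ z ∈ (DD z₀ R L ∩ loewnerDomain W t) ∩ {z | Shell l (Zf W z t)},
      ENNReal.ofReal (FF κ L (Zf W z t) (Uf W z t) * om L (EE z₀ R L) W t (Zf W z t)) ≤
        ENNReal.ofReal C₁ * ENNReal.ofReal (((1 + dist z ζ₁ / L) ^ 3)⁻¹ + (R ^ 2)⁻¹)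
        + (ENNReal.ofReal C₂ * ENNReal.ofReal (((1 + dist z ζ₂ / L) ^ 3)⁻¹ + (R ^ 2)⁻¹)
        + ENNReal.ofReal (2 * C₂ * L ^ 2) *
          ENNReal.ofReal (Real.exp (-2 * Uf W z t) * sn (Zf W z t) ^ (11 / 10 : ℝ))) := by
    intro z hz
    have hZ := Zf_im_pos S.ht hz.1.2
    have hA : ∀ ζ : ℂ, 0 ≤ ((1 + dist z ζ / L) ^ 3)⁻¹ + (R ^ 2)⁻¹ := by
      intro ζ
      have : 0 ≤ dist z ζ / L := by (clear * - hL; positivity)
      (clear * - hL hR; positivity)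
    have hA2 : ((1 + dist z ζ₂ / L) ^ 3)⁻¹ + (R ^ 2)⁻¹ ≤ 2 := by
      have h3 : 0 ≤ dist z ζ₂ / L := by (clear * - hL; positivity)
      have h4 : ((1 + dist z ζ₂ / L) ^ 3)⁻¹ ≤ 1 := by
        apply inv_le_one_of_one_le₀
        exact one_le_pow₀ (by linarith only [h3])
      have h5 : (R ^ 2)⁻¹ ≤ 1 := by
        apply inv_le_one_of_one_le₀
        exact one_le_pow₀ hR
      linarith only [h4, h5]
    rw [← ENNReal.ofReal_mul hC1.le, ← ENNReal.ofReal_mul hC2.le,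
      ← ENNReal.ofReal_mul (by (clear * - hC2 hL; positivity)), ← ENNReal.ofReal_add (mul_nonneg hC2.le (hA ζ₂))
        (mul_nonneg (by positivity) (mul_nonneg (Real.exp_pos _).le
          (Real.rpow_nonneg (sn_pos hZ).le _))),
      ← ENNReal.ofReal_add (mul_nonneg hC1.le (hA ζ₁)) (add_nonneg (mul_nonneg hC2.le (hA ζ₂))
        (mul_nonneg (by (clear * - hC2 hL; positivity)) (mul_nonneg (Real.exp_pos _).le
          (Real.rpow_nonneg (sn_pos hZ).le _))))]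
    apply ENNReal.ofReal_le_ofReal
    rw [← add_assoc]
    exact ShellX_FF_le h0 h8 hL (sn_pos hZ) (om_pos S hZ).le (hA ζ₁) (hA ζ₂) hA2
      (h1 z hz.1.1 hz.1.2 hz.2) (h2 z hz.1.1 hz.1.2 hz.2) hC1 hC2
  have hsub : (DD z₀ R L ∩ loewnerDomain W t) ∩ {z | Shell l (Zf W z t)} ⊆ DD z₀ R L :=
    fun z hz => hz.1.1
  have hprof2 : ∀ ζ : ℂ, ∫⁻ z in (DD z₀ R L ∩ loewnerDomain W t) ∩ {z | Shell l (Zf W z t)},
      ENNReal.ofReal (((1 + dist z ζ / L) ^ 3)⁻¹ + (R ^ 2)⁻¹) ≤ ENNReal.ofReal (C₃ * L ^ 2) :=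
    fun ζ => (lintegral_mono_set hsub).trans (H3 hL hR)
  calc ∫⁻ z in (DD z₀ R L ∩ loewnerDomain W t) ∩ {z | Shell l (Zf W z t)},
      ENNReal.ofReal (FF κ L (Zf W z t) (Uf W z t) * om L (EE z₀ R L) W t (Zf W z t))
      ≤ ∫⁻ z in (DD z₀ R L ∩ loewnerDomain W t) ∩ {z | Shell l (Zf W z t)},
        (ENNReal.ofReal C₁ * ENNReal.ofReal (((1 + dist z ζ₁ / L) ^ 3)⁻¹ + (R ^ 2)⁻¹)
        + (ENNReal.ofReal C₂ * ENNReal.ofReal (((1 + dist z ζ₂ / L) ^ 3)⁻¹ + (R ^ 2)⁻¹)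
        + ENNReal.ofReal (2 * C₂ * L ^ 2) *
          ENNReal.ofReal (Real.exp (-2 * Uf W z t) * sn (Zf W z t) ^ (11 / 10 : ℝ)))) :=
        setLIntegral_mono' hS hpt
    _ = ENNReal.ofReal C₁ * (∫⁻ z in (DD z₀ R L ∩ loewnerDomain W t) ∩ {z | Shell l (Zf W z t)},
          ENNReal.ofReal (((1 + dist z ζ₁ / L) ^ 3)⁻¹ + (R ^ 2)⁻¹))
        + (ENNReal.ofReal C₂ * (∫⁻ z in (DD z₀ R L ∩ loewnerDomain W t) ∩ {z | Shell l (Zf W z t)},
          ENNReal.ofReal (((1 + dist z ζ₂ / L) ^ 3)⁻¹ + (R ^ 2)⁻¹))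
        + ENNReal.ofReal (2 * C₂ * L ^ 2) *
          (∫⁻ z in (DD z₀ R L ∩ loewnerDomain W t) ∩ {z | Shell l (Zf W z t)},
          ENNReal.ofReal (Real.exp (-2 * Uf W z t) * sn (Zf W z t) ^ (11 / 10 : ℝ)))) := by
        rw [lintegral_add_left ((hprof ζ₁).const_mul _), lintegral_add_left
          ((hprof ζ₂).const_mul _), lintegral_const_mul _ (hprof ζ₁),
          lintegral_const_mul _ (hprof ζ₂), lintegral_const_mul' _ _ ENNReal.ofReal_ne_top]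
    _ ≤ ENNReal.ofReal C₁ * ENNReal.ofReal (C₃ * L ^ 2)
        + (ENNReal.ofReal C₂ * ENNReal.ofReal (C₃ * L ^ 2)
        + ENNReal.ofReal (2 * C₂ * L ^ 2) * ENNReal.ofReal C₄) := by
        gcongr
        · exact hprof2 ζ₁
        · exact hprof2 ζ₂
        · exact H4 S.hW S.ht hD l
    _ = ENNReal.ofReal ((C₁ * C₃ + C₂ * C₃ + 2 * C₂ * C₄) * L ^ 2) := by
        rw [← ENNReal.ofReal_mul hC1.le, ← ENNReal.ofReal_mul hC2.le,
          ← ENNReal.ofReal_mul (by positivity), ← ENNReal.ofReal_add (by (clear * - hC2 hC3 hL; positivity))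
            (by (clear * - hC2 hL hC4; positivity)), ← ENNReal.ofReal_add (by (clear * - hC1 hC3 hL; positivity)) (by (clear * - hC2 hC3 hL hC4; positivity))]
        congr 1
        ring

theorem ShellX_meas {W : ℝ → ℝ} {t : ℝ} (hW : Continuous W) (ht : 0 ≤ t) {D : Set ℂ}
    (hD : MeasurableSet D) (l : ℤ) :
    MeasurableSet ((D ∩ loewnerDomain W t) ∩ {z | Shell l (Zf W z t)}) := by
  have hop := isOpen_dom hW ht
  have hc : ContinuousOn (fun z => Zf W z t) (loewnerDomain W t) := fun z hz =>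
    (Zf_hasDerivAt hW ht hz).continuousAt.continuousWithinAt
  have hA : ∀ r : ℝ, MeasurableSet (loewnerDomain W t ∩ (fun z => Zf W z t) ⁻¹' {w | ‖w‖ < r}) :=
    fun r => (hc.isOpen_inter_preimage hop (isOpen_lt continuous_norm continuous_const)).measurableSet
  have h1 : (D ∩ loewnerDomain W t) ∩ {z | Shell l (Zf W z t)} =
      D ∩ ((loewnerDomain W t ∩ (fun z => Zf W z t) ⁻¹' {w | ‖w‖ < (2 : ℝ) ^ (l + 1)}) \
        (loewnerDomain W t ∩ (fun z => Zf W z t) ⁻¹' {w | ‖w‖ < (2 : ℝ) ^ l})) := by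
    ext z
    simp only [mem_inter_iff, Set.mem_sdiff, mem_preimage, mem_ofPred_eq, Shell]
    constructor
    · rintro ⟨⟨h1, h2⟩, h3, h4⟩
      exact ⟨h1, ⟨h2, h4⟩, fun h => absurd h3 (not_le.2 h.2)⟩
    · rintro ⟨h1, ⟨h2, h4⟩, h5⟩
      refine ⟨⟨h1, h2⟩, ?_, h4⟩
      by_contra h6
      exact h5 ⟨h2, not_le.1 h6⟩
  rw [h1]
  exact hD.inter ((hA _).diff (hA _))

/-- the bound of `Th` on a shell -/
theorem ShellX_Th {l l₀ : ℤ} {x τ : ℝ} (hx : 0 < x) (hτ : 0 < τ) (h1 : (2 : ℝ) ^ l ≤ x)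
    (h2 : x < (2 : ℝ) ^ (l + 1)) (h3 : (2 : ℝ) ^ l₀ ≤ τ) (h4 : τ < (2 : ℝ) ^ (l₀ + 1)) :
    Th (x / τ) ≤ √2 * √(1 / 2) ^ (l - l₀).natAbs := by
  have h20 : (2 : ℝ) ≠ 0 := two_ne_zero
  have hsq : (√2 * √(1 / 2) ^ (l - l₀).natAbs) ^ 2 = 2 * (1 / 2 : ℝ) ^ (l - l₀).natAbs := by
    rw [mul_pow, Real.sq_sqrt (by norm_num), ← pow_mul, mul_comm (l - l₀).natAbs, pow_mul,
      Real.sq_sqrt (by norm_num)]
  refine Real.sqrt_le_iff.2 ⟨by positivity, ?_⟩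
  rw [hsq]
  rcases le_total l₀ l with h | h
  · obtain ⟨m, rfl⟩ : ∃ m : ℕ, l = l₀ + m := ⟨(l - l₀).toNat, by omega⟩
    have hm : (l₀ + (m : ℤ) - l₀).natAbs = m := by omega
    rw [hm]
    refine (min_le_right _ _).trans ?_
    rw [inv_div, div_le_iff₀ hx]
    rw [zpow_add₀ h20, zpow_natCast] at h1
    rw [zpow_add₀ h20, zpow_one] at h4
    have h5 : 0 < (2 : ℝ) ^ l₀ := by positivity
    calc τ ≤ (2 : ℝ) ^ l₀ * 2 := h4.le
      _ = 2 * (1 / 2 : ℝ) ^ m * ((2 : ℝ) ^ l₀ * 2 ^ m) := by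
          rw [one_div, inv_pow]
          field_simp
      _ ≤ 2 * (1 / 2 : ℝ) ^ m * x := by (clear * - h1; gcongr)
  · obtain ⟨m, rfl⟩ : ∃ m : ℕ, l₀ = l + m := ⟨(l₀ - l).toNat, by omega⟩
    have hm : (l - (l + (m : ℤ))).natAbs = m := by omega
    rw [hm]
    refine (min_le_left _ _).trans ?_
    rw [div_le_iff₀ hτ]
    rw [zpow_add₀ h20, zpow_natCast] at h3
    rw [zpow_add₀ h20, zpow_one] at h2
    calc x ≤ (2 : ℝ) ^ l * 2 := h2.le
      _ = 2 * (1 / 2 : ℝ) ^ m * ((2 : ℝ) ^ l * 2 ^ m) := by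
          rw [one_div, inv_pow]
          field_simp
      _ ≤ 2 * (1 / 2 : ℝ) ^ m * τ := by gcongr

theorem ShellX_summable : Summable fun l : ℤ => √2 * √(1 / 2 : ℝ) ^ l.natAbs := by
  have h1 : √(1 / 2 : ℝ) < 1 := by
    rw [Real.sqrt_lt' one_pos]
    norm_num
  have h2 : Summable fun m : ℕ => √(1 / 2 : ℝ) ^ m :=
    summable_geometric_of_lt_one (Real.sqrt_nonneg _) h1
  refine Summable.mul_left _ ?_
  rw [summable_int_iff_summable_nat_and_neg]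
  refine ⟨?_, ?_⟩
  · simpa only [one_div, Real.sqrt_inv, Int.natAbs_natCast, inv_pow] using h2
  · simpa only [one_div, Real.sqrt_inv, Int.natAbs_neg, Int.natAbs_natCast, inv_pow] using h2

theorem ShellX_tsum (l₀ : ℤ) : ∑' l : ℤ, ENNReal.ofReal (√2 * √(1 / 2 : ℝ) ^ (l - l₀).natAbs) =
    ENNReal.ofReal (∑' l : ℤ, √2 * √(1 / 2 : ℝ) ^ l.natAbs) := by
  rw [ENNReal.ofReal_tsum_of_nonneg (fun l => by positivity) ShellX_summable]
  exact (Equiv.subRight l₀).tsum_eq fun l : ℤ => ENNReal.ofReal (√2 * √(1 / 2 : ℝ) ^ l.natAbs)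

/-- (S*) Sum over all shells `l : ℤ` with `Th(|Z|/τ) ≤ √2 · 2^{-|l - l₀|/2}`-type bounds. -/
theorem shell_sum {κ : ℝ} (h0 : 0 < κ) (h8 : κ < 8) : ∃ C : ℝ, 0 < C ∧
    ∀ {W : ℝ → ℝ} {t : ℝ} {z₀ : ℂ} {R L : ℝ} (_ : SA W t z₀ R L) {τ : ℝ} (_ : 0 < τ),
    ∫⁻ z in DD z₀ R L ∩ loewnerDomain W t,
      ENNReal.ofReal (FF κ L (Zf W z t) (Uf W z t) * om L (EE z₀ R L) W t (Zf W z t) *
        Th (‖Zf W z t‖ / τ)) ≤ ENNReal.ofReal (C * L ^ 2) := by
  obtain ⟨C, hC, hone⟩ := shell_one h0 h8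
  have hS1 : 0 ≤ ∑' l : ℤ, √2 * √(1 / 2 : ℝ) ^ l.natAbs := tsum_nonneg fun l => by positivity
  refine ⟨C * (1 + ∑' l : ℤ, √2 * √(1 / 2 : ℝ) ^ l.natAbs), by positivity, ?_⟩
  intro W t z₀ R L hSA τ hτ
  obtain ⟨l₀, hl₀⟩ := exists_mem_Ico_zpow hτ (one_lt_two : (1 : ℝ) < 2)
  have hsub : DD z₀ R L ∩ loewnerDomain W t ⊆
      ⋃ l : ℤ, (DD z₀ R L ∩ loewnerDomain W t) ∩ {z | Shell l (Zf W z t)} := by
    intro z hz
    have him : 0 < (Zf W z t).im := Zf_im_pos hSA.ht hz.2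
    have hn : 0 < ‖Zf W z t‖ := norm_pos_iff.2 fun h => by
      rw [h] at him
      exact lt_irrefl _ him
    obtain ⟨l, hl⟩ := exists_mem_Ico_zpow hn (one_lt_two : (1 : ℝ) < 2)
    exact mem_iUnion.2 ⟨l, hz, hl.1, hl.2⟩
  refine (lintegral_mono_set hsub).trans ((lintegral_iUnion_le _ _).trans ?_)
  have hl : ∀ l : ℤ, ∫⁻ z in (DD z₀ R L ∩ loewnerDomain W t) ∩ {z | Shell l (Zf W z t)},
      ENNReal.ofReal (FF κ L (Zf W z t) (Uf W z t) * om L (EE z₀ R L) W t (Zf W z t) *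
        Th (‖Zf W z t‖ / τ)) ≤
      ENNReal.ofReal (C * L ^ 2) * ENNReal.ofReal (√2 * √(1 / 2) ^ (l - l₀).natAbs) := by
    intro l
    refine (setLIntegral_mono' (ShellX_meas hSA.hW hSA.ht measurableSet_ball l)
      (g := fun z => ENNReal.ofReal (FF κ L (Zf W z t) (Uf W z t) *
        om L (EE z₀ R L) W t (Zf W z t)) * ENNReal.ofReal (√2 * √(1 / 2) ^ (l - l₀).natAbs))
      fun z hz => ?_).trans ?_
    · have hTh : 0 ≤ Th (‖Zf W z t‖ / τ) := Real.sqrt_nonneg _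
      rw [ENNReal.ofReal_mul' hTh]
      refine mul_le_mul_right (ENNReal.ofReal_le_ofReal ?_) _
      have hn : 0 < ‖Zf W z t‖ := lt_of_lt_of_le (by positivity) hz.2.1
      exact ShellX_Th hn hτ hz.2.1 hz.2.2 hl₀.1 hl₀.2
    · rw [lintegral_mul_const' _ _ ENNReal.ofReal_ne_top]
      exact mul_le_mul_left (hone hSA l) _
  refine (ENNReal.tsum_le_tsum hl).trans ?_
  rw [ENNReal.tsum_mul_left, ShellX_tsum, ← ENNReal.ofReal_mul (by have := hC.le; (clear * - hC; positivity))]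
  apply ENNReal.ofReal_le_ofReal
  have h5 : 0 ≤ C * L ^ 2 := by (clear * - hC; positivity)
  linarith only [h5]

end Vale.Agent.P164
end

section

/-!
# X-A7. The bound (T) and the payment of the quadratic errors by the budget
-/

namespace Vale.Agent.P164

open Set Metric Filter Topology MeasureTheory ProbabilityTheory
open scoped NNReal ENNReal

/-- Pointwise form of (T): for `b ∈ D3` alive, `Q` alive, `s = |Z_b|/|Z_Q|`:
`ω_Q KT(b,Q) ≤ C min(1, Λ_b^{-3/2}) min(1, s)⁴ Th(|Z_Q|/|Z_b|)`.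
Case (i): by (R1) `ω ≤ min(1, C (Λ³ K)^{-1/2})`, `K = K1⁶K2⁶`, so
`ω KT ≤ C min(1,Λ^{-3/2}) K1 K2³ (1+1/s)`, and `K2 ≤ min(1,s²)`, `K1 ≤ min(1, 2/s)`.
Case (ii) (`¬ CaseI`, and `Q ∈ D`): `1/2 ≤ s ≤ 2`, `ω ≤ 1/I_Q ≤ (10^{-4} R² M)^{-1}`, `M ≥ 96000 R`:
`ω ≤ C R^{-2} M^{-1}`. (Here only one power of `ω` is used; the second one is needed in
`tb_bound` in case (ii).) -/
theorem tb_pt : ∃ C : ℝ, 0 < C ∧ ∀ {W : ℝ → ℝ} {t : ℝ} {z₀ : ℂ} {R L : ℝ}
    (_ : SA W t z₀ R L) (_ : CaseI W t z₀ R L) {b : ℂ} (_ : b ∈ EE z₀ R L)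
    (_ : b ∈ loewnerDomain W t) {Z : ℂ} (_ : 0 < Z.im),
    om L (EE z₀ R L) W t Z * KT (Zf W b t) Z ≤
      C * min 1 (Real.exp (-3 / 2 * (Uf W b t - Real.log L))) *
        min 1 (‖Zf W b t‖ / ‖Z‖) ^ 4 * Th (‖Z‖ / ‖Zf W b t‖) := by
  obtain ⟨c, hc, H⟩ := room_lb
  refine ⟨(1 + 1 / √c) * 4, by positivity, ?_⟩
  intro W t z₀ R L S hI b hb hal Z hZ
  have hA : 0 < (Zf W b t).im := Zf_im_pos S.ht hal
  have hIQ := IQ_nonneg S hZ
  have hroom := H S hI hb hal hZ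
  have hK1 : 0 < K1 (Zf W b t) Z := K1_pos hA hZ
  have hK2 : 0 < K2 (Zf W b t) Z := K2_pos hA
  have hK : K1 (Zf W b t) Z * K2 (Zf W b t) Z ≤ 1 :=
    mul_le_one₀ (K1_le_one hA hZ) hK2.le (K2_le_one _ _)
  have hΛ : Real.exp (Uf W b t) / L = Real.exp (Uf W b t - Real.log L) := by
    rw [Real.exp_sub, Real.exp_log S.hL]
  have h1 := tb_om_aux hc (by (clear * - hK1 hK2; positivity)) hK hIQ hΛ (K := K1 (Zf W b t) Z * K2 (Zf W b t) Z)
    hroom
  have h2 := tb_ker_aux hA hZ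
  have h3 : 0 ≤ K1 (Zf W b t) Z * K2 (Zf W b t) Z ^ 3 * (1 + ‖Z‖ / ‖Zf W b t‖) := by
    positivity
  have h4 : 0 ≤ (1 + 1 / √c) * min 1 (Real.exp (-3 / 2 * (Uf W b t - Real.log L))) := by
    have : 0 ≤ min 1 (Real.exp (-3 / 2 * (Uf W b t - Real.log L))) :=
      le_min zero_le_one (Real.exp_pos _).le
    positivity
  have h5 := mul_le_mul h1 h2 h3 h4
  calc om L (EE z₀ R L) W t Z * KT (Zf W b t) Z
      = 1 / (1 + IQ L (EE z₀ R L) W t Z) * (K1 (Zf W b t) Z * K2 (Zf W b t) Z) ^ 3 *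
        (K1 (Zf W b t) Z * K2 (Zf W b t) Z ^ 3 * (1 + ‖Z‖ / ‖Zf W b t‖)) := by
        unfold om KT
        ring
    _ ≤ _ := h5
    _ = _ := by ring

/-- (T). Case (i): `tb_pt` + `shell_sum` with `τ = |Z_b|` (and `|Z_Q| ≥ ϰ`). Case (ii):
`F ≤ 1` (`Λ ≥ M/40 ≥ 1` on `D`), `ω² ≤ (10^{-4}R²M)^{-2}`, `KT ≤ 2`, area of `D` is `π R² L²`,
`M^{-2}R^{-2} ≤ C M^{-3/2} ≤ C Λ_b^{-3/2}` (`M ≥ 1`), `|Z_b| ≥ |Z_Q|/2 ≥ ϰ/2` if `D` contains a
point with `|Z_Q| ≥ ϰ`. -/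
theorem tb_bound {κ : ℝ} (h0 : 0 < κ) (h8 : κ < 8) : ∃ C : ℝ, 0 < C ∧
    ∀ {W : ℝ → ℝ} {t : ℝ} {z₀ : ℂ} {R L ϰ : ℝ} (_ : SA W t z₀ R L) (_ : 0 < ϰ) {b : ℂ}
      (_ : b ∈ EE z₀ R L) (_ : b ∈ loewnerDomain W t),
    ∫⁻ z in (DD z₀ R L ∩ loewnerDomain W t) ∩ {z | ϰ ≤ ‖Zf W z t‖},
      ENNReal.ofReal (FF κ L (Zf W z t) (Uf W z t) * om L (EE z₀ R L) W t (Zf W z t) ^ 2 *
        KT (Zf W b t) (Zf W z t)) ≤
      ENNReal.ofReal (C * L ^ 2 * (min 1 (Real.exp (-3 / 2 * (Uf W b t - Real.log L))) *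
        min 1 (‖Zf W b t‖ / ϰ) ^ 4)) := by
  obtain ⟨C₁, hC₁, H₁⟩ := tb_pt
  obtain ⟨C₂, hC₂, H₂⟩ := shell_sum h0 h8
  refine ⟨C₁ * C₂ + 8 * 10 ^ 8 * 1600 * 16, by positivity, ?_⟩
  intro W t z₀ R L ϰ S hϰ b hb hal
  have hA : 0 < (Zf W b t).im := Zf_im_pos S.ht hal
  have hAn : 0 < ‖Zf W b t‖ := Zf_norm_pos S.ht hal
  have hL := S.hL
  have hR0 : 0 < R := lt_of_lt_of_le one_pos S.hR
  have hmD : MeasurableSet (DD z₀ R L ∩ loewnerDomain W t) :=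
    measurableSet_ball.inter (tb_meas_alive S.hW S.ht)
  have hmS : MeasurableSet ((DD z₀ R L ∩ loewnerDomain W t) ∩ {z | ϰ ≤ ‖Zf W z t‖}) :=
    hmD.inter (tb_meas_far S.hW S.ht)
  set w := min 1 (Real.exp (-3 / 2 * (Uf W b t - Real.log L))) with hw
  have hw0 : 0 < w := lt_min one_pos (Real.exp_pos _)
  set m := min 1 (‖Zf W b t‖ / ϰ) with hm
  have hm0 : 0 < m := lt_min one_pos (by (clear * - hAn hϰ; positivity))
  by_cases hI : CaseI W t z₀ R L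
  · have hpt : ∀ z ∈ (DD z₀ R L ∩ loewnerDomain W t) ∩ {z | ϰ ≤ ‖Zf W z t‖},
        ENNReal.ofReal (FF κ L (Zf W z t) (Uf W z t) *
          om L (EE z₀ R L) W t (Zf W z t) ^ 2 * KT (Zf W b t) (Zf W z t)) ≤
        ENNReal.ofReal (C₁ * w * m ^ 4) *
          ENNReal.ofReal (FF κ L (Zf W z t) (Uf W z t) * om L (EE z₀ R L) W t (Zf W z t) *
            Th (‖Zf W z t‖ / ‖Zf W b t‖)) := by
      rintro z ⟨⟨hzD, hzal⟩, hzf⟩
      have hzf' : ϰ ≤ ‖Zf W z t‖ := hzf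
      have hZ : 0 < (Zf W z t).im := Zf_im_pos S.ht hzal
      have hZn : 0 < ‖Zf W z t‖ := Zf_norm_pos S.ht hzal
      have ho := om_pos S hZ
      have hF0 : 0 ≤ FF κ L (Zf W z t) (Uf W z t) := by
        unfold FF
        have := (sn_pos hZ).le
        (clear * - this; positivity)
      have hTh : 0 < Th (‖Zf W z t‖ / ‖Zf W b t‖) := Th_pos (by (clear * - hZn hAn; positivity))
      have h1 := H₁ S hI hb hal hZ
      rw [← ENNReal.ofReal_mul (by positivity)]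
      apply ENNReal.ofReal_le_ofReal
      have hmm : min 1 (‖Zf W b t‖ / ‖Zf W z t‖) ≤ m := by
        rw [hm]
        (clear * - hAn hϰ hzf'; gcongr)
      have hmm0 : 0 ≤ min 1 (‖Zf W b t‖ / ‖Zf W z t‖) := le_min zero_le_one (by (clear * - hAn hZn; positivity))
      calc FF κ L (Zf W z t) (Uf W z t) * om L (EE z₀ R L) W t (Zf W z t) ^ 2 *
            KT (Zf W b t) (Zf W z t)
          = (FF κ L (Zf W z t) (Uf W z t) * om L (EE z₀ R L) W t (Zf W z t)) *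
            (om L (EE z₀ R L) W t (Zf W z t) * KT (Zf W b t) (Zf W z t)) := by ring
        _ ≤ (FF κ L (Zf W z t) (Uf W z t) * om L (EE z₀ R L) W t (Zf W z t)) *
            (C₁ * w * min 1 (‖Zf W b t‖ / ‖Zf W z t‖) ^ 4 * Th (‖Zf W z t‖ / ‖Zf W b t‖)) := by
            (clear * - h1 hF0 ho; gcongr)
        _ ≤ (FF κ L (Zf W z t) (Uf W z t) * om L (EE z₀ R L) W t (Zf W z t)) *
            (C₁ * w * m ^ 4 * Th (‖Zf W z t‖ / ‖Zf W b t‖)) := by
            (clear * - hAn hZn hmm hC₁ hTh hF0 ho; gcongr)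
        _ = _ := by ring
    calc ∫⁻ z in (DD z₀ R L ∩ loewnerDomain W t) ∩ {z | ϰ ≤ ‖Zf W z t‖},
          ENNReal.ofReal (FF κ L (Zf W z t) (Uf W z t) *
            om L (EE z₀ R L) W t (Zf W z t) ^ 2 * KT (Zf W b t) (Zf W z t))
        ≤ ∫⁻ z in (DD z₀ R L ∩ loewnerDomain W t) ∩ {z | ϰ ≤ ‖Zf W z t‖},
          ENNReal.ofReal (C₁ * w * m ^ 4) *
          ENNReal.ofReal (FF κ L (Zf W z t) (Uf W z t) * om L (EE z₀ R L) W t (Zf W z t) *
            Th (‖Zf W z t‖ / ‖Zf W b t‖)) := setLIntegral_mono' hmS hpt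
      _ ≤ ∫⁻ z in (DD z₀ R L ∩ loewnerDomain W t),
          ENNReal.ofReal (C₁ * w * m ^ 4) *
          ENNReal.ofReal (FF κ L (Zf W z t) (Uf W z t) * om L (EE z₀ R L) W t (Zf W z t) *
            Th (‖Zf W z t‖ / ‖Zf W b t‖)) := lintegral_mono_set inter_subset_left
      _ = ENNReal.ofReal (C₁ * w * m ^ 4) * ∫⁻ z in (DD z₀ R L ∩ loewnerDomain W t),
          ENNReal.ofReal (FF κ L (Zf W z t) (Uf W z t) * om L (EE z₀ R L) W t (Zf W z t) *
            Th (‖Zf W z t‖ / ‖Zf W b t‖)) :=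
          lintegral_const_mul' _ _ ENNReal.ofReal_ne_top
      _ ≤ ENNReal.ofReal (C₁ * w * m ^ 4) * ENNReal.ofReal (C₂ * L ^ 2) := by
          gcongr
          exact H₂ S hAn
      _ = ENNReal.ofReal ((C₁ * w * m ^ 4) * (C₂ * L ^ 2)) := by
          rw [← ENNReal.ofReal_mul (by (clear * - hC₁ hAn hϰ; positivity))]
      _ ≤ _ := by
          apply ENNReal.ofReal_le_ofReal
          have : 0 ≤ 8 * 10 ^ 8 * 1600 * 16 * (L ^ 2 * (w * m ^ 4)) := by (clear * - hL hAn hϰ; positivity)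
          linarith only [this]
  · obtain ⟨M, hM, hb1, hb2, hb3⟩ := caseII S hI
    rcases Set.eq_empty_or_nonempty
      ((DD z₀ R L ∩ loewnerDomain W t) ∩ {z | ϰ ≤ ‖Zf W z t‖}) with he | hne
    · rw [he]
      simp only [Measure.restrict_empty, lintegral_zero_measure, zero_le]
    obtain ⟨z₁, ⟨hz₁D, hz₁al⟩, hz₁f⟩ := hne
    have hz₁f' : ϰ ≤ ‖Zf W z₁ t‖ := hz₁f
    have hR1 := S.hR
    have hM1 : 1 ≤ M := by linarith only [hM, hR1]
    have hM0 : 0 < M := by linarith only [hR0, hM]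
    have hm4 : 1 / 16 ≤ m ^ 4 := by
      have h1 := (hb2 z₁ (S.DD_sub hz₁D) b hb).2
      have h2 : 1 / 2 ≤ m := by
        rw [hm]
        refine le_min (by norm_num) ?_
        rw [le_div_iff₀ hϰ]
        linarith only [hz₁f', h1]
      calc (1 : ℝ) / 16 = (1 / 2) ^ 4 := by norm_num
        _ ≤ m ^ 4 := by (clear * - h2; gcongr)
    have hexp : Real.exp (Uf W b t) / L = Real.exp (Uf W b t - Real.log L) := by
      rw [Real.exp_sub, Real.exp_log S.hL]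
    have hw1 : 1 / (1600 * M ^ 2) ≤ w := by
      have hlo := (hb1 b hb).2.1
      have hup := (hb1 b hb).2.2
      rw [hexp] at hlo hup
      set u := Uf W b t - Real.log L with hu
      have hu0 : 0 ≤ u := by
        have : 1 ≤ Real.exp u := by linarith only [hM, hR1, hlo]
        exact Real.one_le_exp_iff.1 this |>.trans le_rfl
      have e1 : Real.exp (-(2 * u)) ≤ w := by
        rw [hw]
        refine le_min (Real.exp_le_one_iff.2 (by linarith only [hu0])) ?_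
        exact Real.exp_le_exp.2 (by linarith only [hu0])
      have e2 : Real.exp (-(2 * u)) = (Real.exp u ^ 2)⁻¹ := by
        rw [Real.exp_neg, ← Real.exp_nat_mul]
        norm_num
      rw [e2] at e1
      refine le_trans ?_ e1
      rw [one_div]
      have e3 : 0 < Real.exp u := Real.exp_pos _
      have e4 : Real.exp u ^ 2 ≤ 1600 * M ^ 2 := by
        calc Real.exp u ^ 2 ≤ (40 * M) ^ 2 := by (clear * - hup; gcongr)
          _ = 1600 * M ^ 2 := by ring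
      exact inv_anti₀ (by positivity) e4
    have hpt : ∀ z ∈ (DD z₀ R L ∩ loewnerDomain W t) ∩ {z | ϰ ≤ ‖Zf W z t‖},
        ENNReal.ofReal (FF κ L (Zf W z t) (Uf W z t) *
          om L (EE z₀ R L) W t (Zf W z t) ^ 2 * KT (Zf W b t) (Zf W z t)) ≤
        ENNReal.ofReal (2 * 10 ^ 8 / (R ^ 2 * M) ^ 2) := by
      rintro z ⟨⟨hzD, hzal⟩, hzf⟩
      have hzE := S.DD_sub hzD
      apply ENNReal.ofReal_le_ofReal
      refine tb_caseII_pt h0 h8 S hM1 hA (Zf_im_pos S.ht hzal) ?_ (hb3 z hzE)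
      have := (hb1 z hzE).2.1
      linarith only [hM, hR1, this]
    calc ∫⁻ z in (DD z₀ R L ∩ loewnerDomain W t) ∩ {z | ϰ ≤ ‖Zf W z t‖},
          ENNReal.ofReal (FF κ L (Zf W z t) (Uf W z t) *
            om L (EE z₀ R L) W t (Zf W z t) ^ 2 * KT (Zf W b t) (Zf W z t))
        ≤ ∫⁻ _ in (DD z₀ R L ∩ loewnerDomain W t) ∩ {z | ϰ ≤ ‖Zf W z t‖},
          ENNReal.ofReal (2 * 10 ^ 8 / (R ^ 2 * M) ^ 2) := setLIntegral_mono' hmS hpt
      _ ≤ ∫⁻ _ in DD z₀ R L, ENNReal.ofReal (2 * 10 ^ 8 / (R ^ 2 * M) ^ 2) :=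
          lintegral_mono_set (inter_subset_left.trans inter_subset_left)
      _ = ENNReal.ofReal (2 * 10 ^ 8 / (R ^ 2 * M) ^ 2) * volume (DD z₀ R L) := by
          rw [setLIntegral_const]
      _ ≤ ENNReal.ofReal (2 * 10 ^ 8 / (R ^ 2 * M) ^ 2) * ENNReal.ofReal (4 * (R * L) ^ 2) := by
          gcongr
          exact tb_vol z₀ hR0.le hL.le
      _ = ENNReal.ofReal (2 * 10 ^ 8 / (R ^ 2 * M) ^ 2 * (4 * (R * L) ^ 2)) := by
          rw [← ENNReal.ofReal_mul (by (clear * - hR0 hM1; positivity))]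
      _ ≤ _ := by
          apply ENNReal.ofReal_le_ofReal
          have e1 : 2 * 10 ^ 8 / (R ^ 2 * M) ^ 2 * (4 * (R * L) ^ 2) =
              8 * 10 ^ 8 * 1600 * 16 * L ^ 2 * (1 / (1600 * M ^ 2) * (1 / 16)) * (1 / R ^ 2) := by
            field_simp
            ring
          have e2 : (1 : ℝ) / R ^ 2 ≤ 1 := by
            rw [div_le_one (by positivity)]
            nlinarith only [hR1]
          have e3 : 1 / (1600 * M ^ 2) * (1 / 16) ≤ w * m ^ 4 := by (clear * - hw1 hm4; gcongr)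
          calc 2 * 10 ^ 8 / (R ^ 2 * M) ^ 2 * (4 * (R * L) ^ 2) = _ := e1
            _ ≤ 8 * 10 ^ 8 * 1600 * 16 * L ^ 2 * (1 / (1600 * M ^ 2) * (1 / 16)) * 1 := by
                (clear * - e2 hL hM1; gcongr)
            _ ≤ 8 * 10 ^ 8 * 1600 * 16 * L ^ 2 * (w * m ^ 4) * 1 := by
                (clear * - e3 hL; gcongr)
            _ ≤ _ := by
                have : 0 ≤ C₁ * C₂ * (L ^ 2 * (w * m ^ 4)) := by (clear * - hC₁ hC₂ hL hAn hϰ; positivity)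
                linarith only [this]

lemma TB_Zf_meas {W : ℝ → ℝ} {t : ℝ} (hW : Continuous W) (ht : 0 ≤ t) :
    Measurable fun z => Zf W z t := by
  have m1 : Measurable fun z => St (fun Z _ => Z.re) W z t :=
    St_measurable_z hW (Complex.measurable_re.comp measurable_fst) ht
  have m2 : Measurable fun z => St (fun Z _ => Z.im) W z t :=
    St_measurable_z hW (Complex.measurable_im.comp measurable_fst) ht
  have e : (fun z => Zf W z t) = fun z => (St (fun Z _ => Z.re) W z t : ℂ) +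
      (St (fun Z _ => Z.im) W z t : ℂ) * Complex.I := by
    funext z
    by_cases hz : z ∈ loewnerDomain W t
    · rw [St_of_mem hz, St_of_mem hz, Complex.re_add_im]
    · rw [St_of_not_mem hz, St_of_not_mem hz, Zf_of_not_mem hz]
      simp
  rw [e]
  exact (Complex.measurable_ofReal.comp m1).add
    ((Complex.measurable_ofReal.comp m2).mul_const _)

lemma TB_sn_meas : Measurable sn := by
  unfold sn
  exact Complex.measurable_im.div measurable_norm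

lemma TB_rate_meas : Measurable rate := by
  unfold rate
  exact ((TB_sn_meas.pow_const 2).const_mul 4).div (measurable_norm.pow_const 2)

lemma TB_FF_meas (κ L : ℝ) : Measurable fun p : ℂ × ℝ => FF κ L p.1 p.2 := by
  unfold FF
  have h1 : Measurable fun p : ℂ × ℝ => sn p.1 ^ pX κ := (TB_sn_meas.comp measurable_fst).pow_const _
  have h2 : Measurable fun p : ℂ × ℝ => Real.exp (xs κ * max 0 (Real.log L - p.2)) := by
    (clear * -; fun_prop)
  exact h2.mul h1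

lemma TB_rate_nonneg (A : ℂ) : 0 ≤ rate A := by
  unfold rate
  positivity

/-- a set integral of a nonnegative state function as a lower integral over the alive points -/
lemma TB_St_lint {W : ℝ → ℝ} {t : ℝ} (hW : Continuous W) (ht : 0 ≤ t) {E : Set ℂ}
    (mE : MeasurableSet E) {G : ℂ → ℝ → ℝ} (hi : IntegrableOn (fun z => St G W z t) E)
    (hn : ∀ z ∈ E, z ∈ loewnerDomain W t → 0 ≤ G (Zf W z t) (Uf W z t)) :
    ENNReal.ofReal (∫ z in E, St G W z t) =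
      ∫⁻ z in loewnerDomain W t ∩ E, ENNReal.ofReal (G (Zf W z t) (Uf W z t)) := by
  have mD : MeasurableSet (loewnerDomain W t) := (isOpen_dom hW ht).measurableSet
  have h1 : 0 ≤ᵐ[volume.restrict E] fun z => St G W z t := by
    filter_upwards [ae_restrict_mem mE] with z hz
    by_cases hd : z ∈ loewnerDomain W t
    · simp only [Pi.zero_apply]
      rw [St_of_mem hd]
      exact hn z hz hd
    · simp only [Pi.zero_apply]
      rw [St_of_not_mem hd]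
  rw [ofReal_integral_eq_lintegral_ofReal hi h1, ← setLIntegral_indicator mD]
  apply lintegral_congr
  intro z
  by_cases hd : z ∈ loewnerDomain W t
  · rw [St_of_mem hd, indicator_of_mem hd]
  · rw [St_of_not_mem hd, indicator_of_notMem hd, ENNReal.ofReal_zero]

/-- (P5) `∫_𝒬 F ω² VQ ≤ C N2` (Tonelli, `tb_bound`, `Gp_eq`). -/
theorem p5 {κ : ℝ} (h0 : 0 < κ) (h8 : κ < 8) : ∃ C : ℝ, 0 < C ∧
    ∀ {W : ℝ → ℝ} {t : ℝ} {z₀ : ℂ} {R L ϰ : ℝ} (_ : SA W t z₀ R L) (_ : 0 < ϰ) {𝒬 : Set ℂ}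
      (_ : Adm W t z₀ R L ϰ 𝒬),
    ∫⁻ z in 𝒬, ENNReal.ofReal (FF κ L (Zf W z t) (Uf W z t) *
        (om L (EE z₀ R L) W t (Zf W z t) ^ 2 * VQ L (EE z₀ R L) W t (Zf W z t))) ≤
      ENNReal.ofReal (C * L ^ 2 * N2 L ϰ (EE z₀ R L) W t) := by
  obtain ⟨C, hC, H⟩ := tb_bound h0 h8
  refine ⟨C, hC, ?_⟩
  intro W t z₀ R L ϰ S hϰ 𝒬 hQ
  have hW := S.hW
  have ht := S.ht
  have hL := S.hL
  set E := EE z₀ R L with hE
  have mE : MeasurableSet E := measurableSet_ball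
  have mD : MeasurableSet (loewnerDomain W t) := (isOpen_dom hW ht).measurableSet
  have mZ : Measurable fun z => Zf W z t := TB_Zf_meas hW ht
  set V : ℂ → ℝ := fun z => St (fun _ U => U) W z t with hV
  have mV : Measurable V := St_measurable_z hW measurable_snd ht
  have hVe : ∀ z ∈ loewnerDomain W t, V z = Uf W z t := fun z hz => St_of_mem hz
  have mom : Measurable (om L E W t) := measurable_om hW ht E
  set A : Set ℂ := loewnerDomain W t ∩ E with hA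
  have mA : MeasurableSet A := mD.inter mE
  -- the factors
  set a : ℂ → ℝ≥0∞ := fun z => ENNReal.ofReal (FF κ L (Zf W z t) (V z) *
    om L E W t (Zf W z t) ^ 2) with ha
  have ma : Measurable a :=
    (((TB_FF_meas κ L).comp (mZ.prodMk mV)).mul ((mom.comp mZ).pow_const 2)).ennreal_ofReal
  set kb : ℂ → ℝ≥0∞ := fun b => ENNReal.ofReal (Real.exp (V b - Real.log L) *
    (rate (Zf W b t) / 4)) with hkb
  have mkb : Measurable kb :=
    ((Real.measurable_exp.comp (mV.sub_const _)).mul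
      ((TB_rate_meas.comp mZ).div_const 4)).ennreal_ofReal
  set kk : ℂ × ℂ → ℝ≥0∞ := fun p => ENNReal.ofReal (KT (Zf W p.2 t) (Zf W p.1 t)) with hkk
  have mkk : Measurable kk :=
    (measurable_KT.comp ((mZ.comp measurable_snd).prodMk (mZ.comp measurable_fst))).ennreal_ofReal
  set c : ℝ≥0∞ := ENNReal.ofReal (1 / L ^ 2) with hc
  have hFF : ∀ Z U, 0 < Z.im → 0 ≤ FF κ L Z U := by
    intro Z U hZ
    unfold FF
    have : 0 ≤ sn Z := by
      unfold sn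
      (clear * - hZ; positivity)
    (clear * - this; positivity)
  -- VQ as a lower integral
  have hVQ : ∀ z ∈ 𝒬, ENNReal.ofReal (VQ L E W t (Zf W z t)) =
      c * ∫⁻ b in A, kb b * kk (z, b) := by
    intro z hz
    have hzi : 0 < (Zf W z t).im := Zf_im_pos ht (hQ.alive z hz)
    unfold VQ BI
    rw [div_eq_mul_one_div, mul_comm, ENNReal.ofReal_mul (by positivity),
      TB_St_lint hW ht mE (VQ_int S hzi)]
    · congr 1
      apply setLIntegral_congr_fun mA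
      intro b hb
      have hbi : 0 < (Zf W b t).im := Zf_im_pos ht hb.1
      simp only [hkb, hkk]
      rw [← ENNReal.ofReal_mul (by have := TB_rate_nonneg (Zf W b t); (clear * - this; positivity)), hVe b hb.1]
      congr 1
      ring
    · intro b _ hb
      have hbi : 0 < (Zf W b t).im := Zf_im_pos ht hb
      have h1 := KT_nonneg hbi hzi
      have h2 := TB_rate_nonneg (Zf W b t)
      (clear * - h1 h2; positivity)
  have e1 : ∫⁻ z in 𝒬, ENNReal.ofReal (FF κ L (Zf W z t) (Uf W z t) *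
        (om L E W t (Zf W z t) ^ 2 * VQ L E W t (Zf W z t))) =
      ∫⁻ z in 𝒬, ∫⁻ b in A, c * kb b * (a z * kk (z, b)) := by
    apply setLIntegral_congr_fun hQ.meas
    intro z hz
    have hzi : 0 < (Zf W z t).im := Zf_im_pos ht (hQ.alive z hz)
    have h1 : ∫⁻ b in A, c * kb b * (a z * kk (z, b)) = (c * a z) * ∫⁻ b in A, kb b * kk (z, b) := by
      rw [← lintegral_const_mul]
      · apply lintegral_congr
        intro b
        ring
      · exact mkb.mul (mkk.comp measurable_prodMk_left)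
    have h2 : ∀ X : ℝ≥0∞, c * a z * X = a z * (c * X) := fun X => by ring
    dsimp only
    rw [h1, h2, ← hVQ z hz, ← mul_assoc,
      ENNReal.ofReal_mul (mul_nonneg (hFF _ _ hzi) (by (clear * -; positivity)))]
    simp only [ha]
    rw [hVe z (hQ.alive z hz)]
  rw [e1]
  have mjoint : AEMeasurable (Function.uncurry fun z b => c * kb b * (a z * kk (z, b)))
      ((volume.restrict 𝒬).prod (volume.restrict A)) := by
    apply Measurable.aemeasurable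
    exact (((mkb.comp measurable_snd).const_mul c)).mul ((ma.comp measurable_fst).mul mkk)
  rw [lintegral_lintegral_swap mjoint]
  -- bound the inner integral
  have e2 : ∀ b ∈ A, ∫⁻ z in 𝒬, c * kb b * (a z * kk (z, b)) ≤
      ENNReal.ofReal (C * (Gp (Uf W b t - Real.log L) * (rate (Zf W b t) / 4) *
        min 1 (‖Zf W b t‖ / ϰ) ^ 4)) := by
    intro b hb
    have hbi : 0 < (Zf W b t).im := Zf_im_pos ht hb.1
    have h2 := TB_rate_nonneg (Zf W b t)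
    have h3 : ∫⁻ z in 𝒬, a z * kk (z, b) ≤
        ENNReal.ofReal (C * L ^ 2 * (min 1 (Real.exp (-3 / 2 * (Uf W b t - Real.log L))) *
          min 1 (‖Zf W b t‖ / ϰ) ^ 4)) := by
      refine le_trans ?_ (H S hϰ hb.2 hb.1)
      have hsub : 𝒬 ⊆ (DD z₀ R L ∩ loewnerDomain W t) ∩ {z | ϰ ≤ ‖Zf W z t‖} :=
        fun z hz => ⟨⟨hQ.sub hz, hQ.alive z hz⟩, hQ.far z hz⟩
      refine le_trans (le_of_eq ?_) (lintegral_mono_set hsub)
      apply setLIntegral_congr_fun hQ.meas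
      intro z hz
      have hzi : 0 < (Zf W z t).im := Zf_im_pos ht (hQ.alive z hz)
      simp only [ha, hkk]
      rw [← ENNReal.ofReal_mul (mul_nonneg (hFF _ _ hzi) (by (clear * -; positivity))), hVe z (hQ.alive z hz)]
    have h4 : ∫⁻ z in 𝒬, c * kb b * (a z * kk (z, b)) = c * kb b * ∫⁻ z in 𝒬, a z * kk (z, b) :=
      lintegral_const_mul _ (ma.mul (mkk.comp measurable_prodMk_right))
    rw [h4]
    refine (mul_le_mul_right h3 _).trans (le_of_eq ?_)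
    simp only [hc, hkb]
    rw [hVe b hb.1, ← ENNReal.ofReal_mul (by positivity), ← ENNReal.ofReal_mul (by (clear * - hL h2; positivity)),
      ← Gp_eq]
    congr 1
    (clear * - hL hC; field_simp)
  refine (setLIntegral_mono' mA e2).trans (le_of_eq ?_)
  have e3 : ∀ b, ENNReal.ofReal (C * (Gp (Uf W b t - Real.log L) * (rate (Zf W b t) / 4) *
        min 1 (‖Zf W b t‖ / ϰ) ^ 4)) = ENNReal.ofReal C *
      ENNReal.ofReal ((fun A U => Gp (U - Real.log L) * (rate A / 4) * min 1 (‖A‖ / ϰ) ^ 4)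
        (Zf W b t) (Uf W b t)) := by
    intro b
    rw [← ENNReal.ofReal_mul hC.le]
  simp only [e3]
  rw [lintegral_const_mul' _ _ ENNReal.ofReal_ne_top,
    ← TB_St_lint hW ht mE (N2_int S hϰ), ← ENNReal.ofReal_mul hC.le]
  · congr 1
    unfold N2 BI
    field_simp
  · intro b _ _
    have h1 := (Gp_pos (Uf W b t - Real.log L)).le
    have h2 := TB_rate_nonneg (Zf W b t)
    (clear * - h1 h2; positivity)

end Vale.Agent.P164
end

section

/-!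
# X-A9. Pointwise (in `Q`) inequalities for the generator and the derivative
-/

namespace Vale.Agent.P164

open Set Metric Filter Topology MeasureTheory ProbabilityTheory
open scoped NNReal ENNReal

/-- Splitting `f = f₁ + f₂` with the optimal parameter for `f₁`. -/
lemma statPt_gen_split {s f1 f2 G a b K X : ℝ} (hs0 : 0 < s) (hs1 : s ≤ 1) (hf1 : 0 ≤ f1)
    (hf2 : 0 ≤ f2) (hG : 0 ≤ G) (h1 : f1 ≤ G) (h2 : f2 ≤ G) (hsq : f1 ^ 2 ≤ 2 * G * f2)
    (ha : 0 ≤ a) (hb : 0 ≤ b) (hK : 0 ≤ K)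
    (hX : ∀ {r : ℝ}, 0 < r → r ≤ 1 → X ≤ K * (r * a + 1 / r * b)) :
    (f1 + f2) * X ≤ K * (2 * s * (f2 * a) + G * (1 + 3 / s) * b) := by
  have e2 : f2 * X ≤ K * (s * (f2 * a) + G * (1 / s) * b) := by
    calc f2 * X ≤ f2 * (K * (s * a + 1 / s * b)) := mul_le_mul_of_nonneg_left (hX hs0 hs1) hf2
      _ = K * (s * (f2 * a) + f2 * (1 / s * b)) := by ring
      _ ≤ K * (s * (f2 * a) + G * (1 / s * b)) := by
          have h3 : f2 * (1 / s * b) ≤ G * (1 / s * b) :=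
            mul_le_mul_of_nonneg_right h2 (by positivity)
          exact mul_le_mul_of_nonneg_left (by linarith only [h3]) hK
      _ = _ := by ring
  have e1 : f1 * X ≤ K * (s * (f2 * a) + G * (1 + 2 / s) * b) := by
    rcases hf1.lt_or_eq with h3 | h3
    · have hf2p : 0 < f2 := by
        rcases hf2.lt_or_eq with h4 | h4
        · exact h4
        · rw [← h4, mul_zero] at hsq
          have := pow_pos h3 2
          linarith only [hsq, this]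
      obtain ⟨r, hr⟩ : ∃ r, r = min 1 (s * f2 / f1) := ⟨_, rfl⟩
      have hr0 : 0 < r := by
        rw [hr]
        exact lt_min one_pos (by (clear * - hs0 hf2p h3; positivity))
      have hr1 : r ≤ 1 := by
        rw [hr]
        exact min_le_left _ _
      have hr2 : f1 * r ≤ s * f2 := by
        have h4 : r ≤ s * f2 / f1 := by
          rw [hr]
          exact min_le_right _ _
        calc f1 * r ≤ f1 * (s * f2 / f1) := mul_le_mul_of_nonneg_left h4 hf1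
          _ = s * f2 := by field_simp
      have hr3 : f1 * (1 / r) ≤ G * (1 + 2 / s) := by
        rcases le_total 1 (s * f2 / f1) with h4 | h4
        · have h5 : r = 1 := by rw [hr, min_eq_left h4]
          rw [h5]
          have h6 : 0 ≤ G * (2 / s) := by (clear * - hG hs0; positivity)
          have h7 : G * (1 + 2 / s) = G + G * (2 / s) := by ring
          rw [h7]
          linarith only [h1, h6]
        · have h5 : r = s * f2 / f1 := by rw [hr, min_eq_right h4]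
          have h6 : f1 * (1 / r) = f1 ^ 2 / (s * f2) := by
            rw [h5]
            field_simp
          rw [h6]
          have h7 : f1 ^ 2 / (s * f2) ≤ 2 * G * f2 / (s * f2) :=
            div_le_div_of_nonneg_right hsq (by positivity)
          have h8 : 2 * G * f2 / (s * f2) = G * (2 / s) := by
            (clear * - hf2p hs0; field_simp)
          have h9 : G * (1 + 2 / s) = G + G * (2 / s) := by ring
          rw [h9]
          linarith only [h1, h3, h7, h8]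
      calc f1 * X ≤ f1 * (K * (r * a + 1 / r * b)) := mul_le_mul_of_nonneg_left (hX hr0 hr1) hf1
        _ = K * ((f1 * r) * a + (f1 * (1 / r)) * b) := by ring
        _ ≤ K * ((s * f2) * a + (G * (1 + 2 / s)) * b) := by
            have h4 := mul_le_mul_of_nonneg_right hr2 ha
            have h5 := mul_le_mul_of_nonneg_right hr3 hb
            exact mul_le_mul_of_nonneg_left (by linarith only [h4, h5]) hK
        _ = _ := by ring
    · rw [← h3, zero_mul]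
      positivity
  calc (f1 + f2) * X = f1 * X + f2 * X := by ring
    _ ≤ K * (s * (f2 * a) + G * (1 + 2 / s) * b) + K * (s * (f2 * a) + G * (1 / s) * b) :=
        add_le_add e1 e2
    _ = _ := by
        have : G * (1 + 2 / s) * b + G * (1 / s) * b = G * (1 + 3 / s) * b := by ring
        rw [← mul_add, ← this]
        ring

/-- Generator. `genX ≤ ω(fXL + aX) + f (κ ω³IX1² + ω²|κ/2 IX2 + IX3|) + κ|fDX| ω²|IX1|`;
`fXL_le`; `|fDX| ≤ β f/‖Z‖`; use (P1), (P2), (P3) for `f₂` with `s = s₀` and for `f₁` with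
`s = min 1 (s₀ f₂/f₁)` (if `f₁ > 0`; then `f₁ s ≤ s₀ f₂`, `f₁/s ≤ f₁ + f₁²/(s₀f₂)`; note
`f₁ > 0 → f₂ > 0` by `f1X_sq_le`), `f1X_le`, `f2X_le`, `f1X_sq_le`. Then choose `s₀` small
(depending on `κ`) so that the `s₀ f₂ω/‖Z‖²`-terms are at most half of `cp f₂ω/‖Z‖²`. -/
theorem gen_pt {κ : ℝ} (h0 : 0 < κ) (h8 : κ < 8) : ∃ cp C : ℝ, 0 < cp ∧ 0 < C ∧
    ∀ {c ε : ℝ} (_ : 0 < c) {W : ℝ → ℝ} {t : ℝ} {z₀ : ℂ} {R L : ℝ} (_ : SA W t z₀ R L)
      {Z : ℂ} (_ : 0 < Z.im) (U : ℝ),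
      genX κ c L ε (EE z₀ R L) W t Z U ≤
        -cp * (f2X κ c L ε Z U * om L (EE z₀ R L) W t Z / ‖Z‖ ^ 2) +
          C * c * (FF κ L Z U * (om L (EE z₀ R L) W t Z ^ 2 * VQ L (EE z₀ R L) W t Z)) := by
  obtain ⟨cp, hcp, hcpF⟩ := fXL_le h0 h8
  have hbe : 0 < be κ := by
    unfold be
    rw [sub_pos, lt_div_iff₀ h0]
    linarith
  obtain ⟨D, hD⟩ : ∃ D : ℝ, D = 4000 + 6 * (κ * be κ) := ⟨_, rfl⟩
  have hkb : 0 < κ * be κ := mul_pos h0 hbe
  have hD0 : 0 < D := by rw [hD]; linarith only [hkb]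
  obtain ⟨s, hs⟩ : ∃ s : ℝ, s = min 1 (cp / (2 * D)) := ⟨_, rfl⟩
  have hs0 : 0 < s := by
    rw [hs]
    exact lt_min one_pos (by positivity)
  have hs1 : s ≤ 1 := by
    rw [hs]
    exact min_le_left _ _
  have hsD : s * D ≤ cp / 2 := by
    have h1 : s ≤ cp / (2 * D) := by
      rw [hs]
      exact min_le_right _ _
    calc s * D ≤ cp / (2 * D) * D := mul_le_mul_of_nonneg_right h1 hD0.le
      _ = cp / 2 := by (clear * - hD0 hcp; field_simp)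
  refine ⟨cp / 2, 72 * κ + (2000 + 3 * (κ * be κ)) * (1 + 3 / s), by positivity, by (clear * - h0 hbe hs0; positivity), ?_⟩
  intro c ε hc W t z₀ R L S Z hZ U
  have hom := om_pos S hZ
  have hV := VQ_nonneg S hZ
  have hF := FF_pos (κ := κ) (L := L) hZ U
  have hf1 := f1X_nonneg (κ := κ) (L := L) (ε := ε) hc.le hZ U
  have hf2 := f2X_nonneg (κ := κ) (L := L) (ε := ε) hc.le hZ U
  have hf1F := f1X_le (L := L) (ε := ε) h0 h8 hc.le hZ U
  have hf2F := f2X_le (L := L) (ε := ε) h0 h8 hc.le hZ U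
  have hsq := f1X_sq_le (L := L) (ε := ε) h0 h8 hc.le hZ U
  have hfe := fX_eq (κ := κ) (c := c) (L := L) (ε := ε) Z U
  have hfD := fDX_abs (L := L) (ε := ε) h0 h8 hc.le hZ U
  have hL := hcpF (c := c) (L := L) (ε := ε) hc.le hZ U
  have hZ0 : 0 < ‖Z‖ := norm_pos_iff.2 (fun h => by rw [h] at hZ; simp at hZ)
  have p1 := fun {s : ℝ} (hs : 0 < s) (hs1 : s ≤ 1) => pair_J h0 h8 S hZ hs hs1
  have p2 := pair_sq S hZ
  have p3 := fun {s : ℝ} (hs : 0 < s) => pair_lin S hZ hs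
  obtain ⟨ω, hω⟩ : ∃ ω, ω = om L (EE z₀ R L) W t Z := ⟨_, rfl⟩
  obtain ⟨V, hVe⟩ : ∃ V, V = VQ L (EE z₀ R L) W t Z := ⟨_, rfl⟩
  obtain ⟨F, hFe⟩ : ∃ F, F = FF κ L Z U := ⟨_, rfl⟩
  obtain ⟨f1, hf1e⟩ : ∃ f1, f1 = f1X κ c L ε Z U := ⟨_, rfl⟩
  obtain ⟨f2, hf2e⟩ : ∃ f2, f2 = f2X κ c L ε Z U := ⟨_, rfl⟩
  unfold genX
  rw [hfe] at hfD ⊢
  rw [← hω] at hom p1 p2 p3 ⊢
  rw [← hVe] at hV p1 p2 p3 ⊢
  rw [← hFe] at hF hf1F hf2F hsq ⊢
  rw [← hf1e] at hf1 hf1F hsq hfD ⊢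
  rw [← hf2e] at hf2 hf2F hsq hfD hL ⊢
  obtain ⟨J, hJ⟩ : ∃ J, J = κ / 2 * IX2 L (EE z₀ R L) W t Z + IX3 L (EE z₀ R L) W t Z := ⟨_, rfl⟩
  obtain ⟨I, hI⟩ : ∃ I, I = IX1 L (EE z₀ R L) W t Z := ⟨_, rfl⟩
  rw [← hJ] at p1 ⊢
  rw [← hI] at p2 p3 ⊢
  have ha : 0 ≤ ω / ‖Z‖ ^ 2 := by (clear * - hom hZ0; positivity)
  have hb : 0 ≤ ω ^ 2 * V := by (clear * - hom hV; positivity)
  have q1 := statPt_gen_split hs0 hs1 hf1 hf2 (mul_nonneg hc.le hF.le) hf1F hf2F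
    (by linarith only [hsq]) ha hb (by norm_num : (0 : ℝ) ≤ 2000) (X := ω ^ 2 * |J|)
    (fun {s} h1 h2 => p1 h1 h2)
  have q3 := statPt_gen_split hs0 hs1 hf1 hf2 (mul_nonneg hc.le hF.le) hf1F hf2F
    (by linarith only [hsq]) ha hb (by norm_num : (0 : ℝ) ≤ 3) (X := ω ^ 2 * |I| / ‖Z‖)
    (fun {s} h1 _ => p3 h1)
  have q2 : (f1 + f2) * (κ * (ω ^ 3 * I ^ 2)) ≤ 72 * κ * c * (F * (ω ^ 2 * V)) := by
    calc (f1 + f2) * (κ * (ω ^ 3 * I ^ 2)) ≤ (2 * (c * F)) * (κ * (36 * (ω ^ 2 * V))) := by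
          refine mul_le_mul (by linarith only [hf1F, hf2F]) (mul_le_mul_of_nonneg_left p2 h0.le) ?_ (by (clear * - hc hF; positivity))
          exact mul_nonneg h0.le (mul_nonneg (pow_nonneg hom.le 3) (sq_nonneg _))
      _ = _ := by ring
  have q4 : ω * (fXL κ c L ε Z U + aX κ c L ε Z U) ≤ -cp * (f2 * ω / ‖Z‖ ^ 2) := by
    calc ω * (fXL κ c L ε Z U + aX κ c L ε Z U) ≤ ω * (-cp * (f2 / ‖Z‖ ^ 2)) :=
          mul_le_mul_of_nonneg_left hL hom.le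
      _ = _ := by ring
  have q5 : -(f1 + f2) * (ω ^ 2 * J) ≤ (f1 + f2) * (ω ^ 2 * |J|) := by
    have h1 : -J ≤ |J| := neg_le_abs J
    have h2 : 0 ≤ (f1 + f2) * ω ^ 2 := by (clear * - hf1 hf2 hom; positivity)
    nlinarith only [h1, h2]
  have q6 : -κ * fDX κ c L ε Z U * (ω ^ 2 * I) ≤
      κ * be κ * ((f1 + f2) * (ω ^ 2 * |I| / ‖Z‖)) := by
    calc -κ * fDX κ c L ε Z U * (ω ^ 2 * I) ≤ |-κ * fDX κ c L ε Z U * (ω ^ 2 * I)| :=
          le_abs_self _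
      _ = κ * |fDX κ c L ε Z U| * (ω ^ 2 * |I|) := by
          rw [abs_mul, abs_mul, abs_neg, abs_of_pos h0, abs_mul, abs_of_nonneg (sq_nonneg ω)]
      _ ≤ κ * (be κ * ((f1 + f2) / ‖Z‖)) * (ω ^ 2 * |I|) :=
          mul_le_mul_of_nonneg_right (mul_le_mul_of_nonneg_left hfD h0.le) (by (clear * - hom; positivity))
      _ = _ := by ring
  have e1 : f2 * (ω / ‖Z‖ ^ 2) = f2 * ω / ‖Z‖ ^ 2 := by ring
  rw [e1] at q1 q3
  obtain ⟨A, hA⟩ : ∃ A, A = f2 * ω / ‖Z‖ ^ 2 := ⟨_, rfl⟩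
  obtain ⟨B, hB⟩ : ∃ B, B = F * (ω ^ 2 * V) := ⟨_, rfl⟩
  have hA0 : 0 ≤ A := by rw [hA]; (clear * - hf2 hom hZ0; positivity)
  have e2 : c * F * (1 + 3 / s) * (ω ^ 2 * V) = c * (1 + 3 / s) * B := by rw [hB]; ring
  rw [e2] at q1 q3
  rw [← hA] at q1 q3 q4 ⊢
  rw [← hB] at q2 ⊢
  have q7 : κ * be κ * ((f1 + f2) * (ω ^ 2 * |I| / ‖Z‖)) ≤
      κ * be κ * (3 * (2 * s * A + c * (1 + 3 / s) * B)) :=
    mul_le_mul_of_nonneg_left q3 hkb.le
  have e3 : ω * (fXL κ c L ε Z U + aX κ c L ε Z U) +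
      (f1 + f2) * (κ * ω ^ 3 * I ^ 2 - ω ^ 2 * J) - κ * fDX κ c L ε Z U * (ω ^ 2 * I) =
      ω * (fXL κ c L ε Z U + aX κ c L ε Z U) + (f1 + f2) * (κ * (ω ^ 3 * I ^ 2)) +
        -(f1 + f2) * (ω ^ 2 * J) + -κ * fDX κ c L ε Z U * (ω ^ 2 * I) := by ring
  rw [e3]
  have q8 : s * D * A ≤ cp / 2 * A := mul_le_mul_of_nonneg_right hsD hA0
  have e4 : s * D * A = 4000 * s * A + 6 * (κ * be κ) * s * A := by rw [hD]; ring
  rw [e4] at q8
  calc _ ≤ -cp * A + 72 * κ * c * B + 2000 * (2 * s * A + c * (1 + 3 / s) * B) +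
        κ * be κ * (3 * (2 * s * A + c * (1 + 3 / s) * B)) := by linarith only [q5, q6, q4, q2, q1, q7]
    _ = -cp * A + (4000 * s * A + 6 * (κ * be κ) * s * A) +
        (72 * κ + (2000 + 3 * (κ * be κ)) * (1 + 3 / s)) * c * B := by ring
    _ ≤ _ := by linarith only [q8]

/-- `Th q ≥ q` for `0 ≤ q ≤ 1`. -/
lemma StatPt_Th_ge {q : ℝ} (h0 : 0 < q) (h1 : q ≤ 1) : q ≤ Th q := by
  have h2 : q ≤ q⁻¹ := h1.trans ((one_le_inv₀ h0).2 h1)
  rw [Th, min_eq_left h2]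
  apply Real.le_sqrt_of_sq_le
  nlinarith only [h0, h1]

/-- `Th q ≥ q⁻¹` for `1 ≤ q`. -/
lemma StatPt_Th_ge' {q : ℝ} (h1 : 1 ≤ q) : q⁻¹ ≤ Th q := by
  have h2 : q⁻¹ ≤ 1 := inv_le_one_of_one_le₀ h1
  have h3 : q⁻¹ ≤ q := h2.trans h1
  have h4 : 0 < q⁻¹ := by positivity
  rw [Th, min_eq_right h3]
  apply Real.le_sqrt_of_sq_le
  (clear * - h2 h4; nlinarith)

/-- The algebraic core of `aa_pt` near the tip: `f₁³ ≤ 3 g f₂²` implies
`f₁ ≤ 5 g / a² + a f₂`. -/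
lemma StatPt_amgm {g x y a : ℝ} (hg : 0 ≤ g) (hx : 0 ≤ x) (hy : 0 ≤ y) (ha : 0 < a)
    (h : x ^ 3 ≤ 3 * g * y ^ 2) : x ≤ 5 * g / a ^ 2 + a * y := by
  by_contra hcon
  push Not at hcon
  have hX : 0 ≤ 5 * g / a ^ 2 := by positivity
  have hY : 0 ≤ a * y / 2 := by positivity
  set X := 5 * g / a ^ 2 with hXdef
  set Y := a * y / 2 with hYdef
  have e1 : X * Y ^ 2 = 5 / 4 * (g * y ^ 2) := by
    rw [hXdef, hYdef]
    field_simp
    ring
  have e2 : 27 * (X * Y ^ 2) ≤ (X + 2 * Y) ^ 3 := by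
    nlinarith only [mul_nonneg (sq_nonneg (X - Y)) (by positivity : 0 ≤ X + 8 * Y)]
  have e3 : X + 2 * Y < x := by
    have : X + 2 * Y = X + a * y := by rw [hYdef]; ring
    rw [this]
    exact hcon
  have e4 : (X + 2 * Y) ^ 3 < x ^ 3 := by
    apply pow_lt_pow_left₀ e3 (by (clear * - hg ha hy; positivity)) (by norm_num)
  have hx3 : 0 ≤ x ^ 3 := by (clear * - hx; positivity)
  linarith

/-- (AA-pt) for every `τ > 0`. `‖Z‖ ≥ τ`: `f/‖Z‖ ≤ 2cF/‖Z‖ ≤ (2c/τ)F·Th(‖Z‖/τ)`.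
`‖Z‖ ≤ τ`: `f₂/‖Z‖ ≤ τ f₂/‖Z‖²`; `f₁ ≤ g^{1/3}f₂^{2/3}` with `g = f₁³/f₂² ≤ 3cF`, so by AM-GM
`f₁/‖Z‖ ≤ (1/3) g‖Z‖/τ² + (2/3) τ f₂/‖Z‖²` and `‖Z‖/τ² ≤ Th(‖Z‖/τ)/τ`. -/
theorem aa_pt {κ : ℝ} (h0 : 0 < κ) (h8 : κ < 8) {c L ε τ : ℝ} (hc : 0 < c) (hτ : 0 < τ)
    {Z : ℂ} (hZ : 0 < Z.im) (U : ℝ) :
    fX κ c L ε Z U / ‖Z‖ ≤ 5 * c / τ * (FF κ L Z U * Th (‖Z‖ / τ)) +
      2 * τ * (f2X κ c L ε Z U / ‖Z‖ ^ 2) := by
  have hn : 0 < ‖Z‖ := norm_pos_iff.2 (fun h => by simp [h] at hZ)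
  have hF : 0 < FF κ L Z U := FF_pos hZ U
  have h1 : 0 ≤ f1X κ c L ε Z U := f1X_nonneg hc.le hZ U
  have h2 : 0 ≤ f2X κ c L ε Z U := f2X_nonneg hc.le hZ U
  have h1F : f1X κ c L ε Z U ≤ c * FF κ L Z U := f1X_le h0 h8 hc.le hZ U
  have h2F : f2X κ c L ε Z U ≤ c * FF κ L Z U := f2X_le h0 h8 hc.le hZ U
  have h3 : f1X κ c L ε Z U ^ 3 ≤ 3 * (c * FF κ L Z U) * f2X κ c L ε Z U ^ 2 := by
    have := f1X_cube_le (L := L) (ε := ε) h0 h8 hc.le hZ U
    linarith only [this]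
  have hq : 0 < ‖Z‖ / τ := by (clear * - hn hτ; positivity)
  rw [fX_eq]
  set n := ‖Z‖ with hndef
  set F := FF κ L Z U with hFdef
  set a1 := f1X κ c L ε Z U with ha1
  set a2 := f2X κ c L ε Z U with ha2
  rcases le_total n τ with hle | hge
  · have hT : n / τ ≤ Th (n / τ) := StatPt_Th_ge hq ((div_le_one hτ).2 hle)
    have e1 : a1 ≤ 5 * (c * F) / (τ / n) ^ 2 + τ / n * a2 :=
      StatPt_amgm (by positivity) h1 h2 (by positivity) h3
    have e2 : a1 / n ≤ 5 * c / τ * (F * (n / τ)) + τ * (a2 / n ^ 2) := by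
      have : a1 / n ≤ (5 * (c * F) / (τ / n) ^ 2 + τ / n * a2) / n := by (clear * - e1 hn; gcongr)
      refine this.trans (le_of_eq ?_)
      field_simp
    have e3 : a2 / n ≤ τ * (a2 / n ^ 2) := by
      have : a2 / n = n * (a2 / n ^ 2) := by (clear * - hn; field_simp)
      rw [this]
      gcongr
    have e4 : 5 * c / τ * (F * (n / τ)) ≤ 5 * c / τ * (F * Th (n / τ)) := by gcongr
    rw [add_div]
    linarith only [e2, e3, e4]
  · have hT : (n / τ)⁻¹ ≤ Th (n / τ) := StatPt_Th_ge' ((one_le_div hτ).2 hge)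
    have e1 : (a1 + a2) / n ≤ 2 * (c * F) / n := by
      gcongr
      linarith only [h1F, h2F]
    have e2 : 2 * (c * F) / n = 2 * c / τ * (F * (n / τ)⁻¹) := by
      (clear * - hτ hn hF hc; field_simp)
    have e3 : 2 * c / τ * (F * (n / τ)⁻¹) ≤ 5 * c / τ * (F * Th (n / τ)) := by
      gcongr
      norm_num
    have e4 : 0 ≤ 2 * τ * (a2 / n ^ 2) := by (clear * - hτ h2 hn; positivity)
    linarith

/-- The algebra of `der_pt`. -/
lemma StatPt_der_alg {b c F f fD a2 w V I n τ τ' q1 q2 : ℝ} (hb : 0 < b) (hc : 0 < c)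
    (hτ : 0 < τ) (hτ' : 0 < τ') (hn : 0 < n) (hF : 0 < F) (h2 : 0 ≤ a2)
    (hf : f ≤ 2 * c * F) (hf0 : 0 ≤ f) (hD : |fD| ≤ b * (f / n))
    (hA : f / n ≤ 5 * c / τ * (F * q1) + 2 * τ * (a2 / n ^ 2))
    (hP : w ^ 2 * |I| ≤ 18 * (w / n + τ' * (w * q2) + 1 / τ' * (w ^ 2 * V)))
    (hw : 0 < w) (hV : 0 ≤ V) (hq1 : 0 < q1) (hq2 : 0 < q2) :
    |fD * w - f * (w ^ 2 * I)| ≤
      (5 * (b + 18) + 36) * (c / τ * (F * w * q1) + τ * (a2 * w / n ^ 2) +
        c * τ' * (F * w * q2) + c / τ' * (F * (w ^ 2 * V))) := by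
  have e1 : |fD * w - f * (w ^ 2 * I)| ≤ b * (f / n) * w + f * (w ^ 2 * |I|) := by
    refine (abs_sub _ _).trans ?_
    rw [abs_mul, abs_mul, abs_mul, abs_of_pos hw, abs_of_nonneg hf0,
      abs_of_pos (by (clear * - hw; positivity) : (0 : ℝ) < w ^ 2)]
    exact add_le_add (mul_le_mul_of_nonneg_right hD hw.le) le_rfl
  have e2 : f * (w ^ 2 * |I|) ≤
      f * (18 * (w / n + τ' * (w * q2) + 1 / τ' * (w ^ 2 * V))) :=
    mul_le_mul_of_nonneg_left hP hf0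
  have e3 : f * (18 * (w / n + τ' * (w * q2) + 1 / τ' * (w ^ 2 * V))) =
      18 * (f / n * w) + f * (18 * (τ' * (w * q2) + 1 / τ' * (w ^ 2 * V))) := by
    ring
  have e4 : f * (18 * (τ' * (w * q2) + 1 / τ' * (w ^ 2 * V))) ≤
      2 * c * F * (18 * (τ' * (w * q2) + 1 / τ' * (w ^ 2 * V))) :=
    mul_le_mul_of_nonneg_right hf (by (clear * - hτ' hw hq2 hV; positivity))
  have e5 : f / n * w ≤ (5 * c / τ * (F * q1) + 2 * τ * (a2 / n ^ 2)) * w :=
    mul_le_mul_of_nonneg_right hA hw.le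
  have e6 : (b + 18) * (f / n * w) ≤
      (b + 18) * ((5 * c / τ * (F * q1) + 2 * τ * (a2 / n ^ 2)) * w) :=
    mul_le_mul_of_nonneg_left e5 (by positivity)
  have s1 : (5 * c / τ * (F * q1) + 2 * τ * (a2 / n ^ 2)) * w =
      5 * (c / τ * (F * w * q1)) + 2 * (τ * (a2 * w / n ^ 2)) := by ring
  have s2 : 2 * c * F * (18 * (τ' * (w * q2) + 1 / τ' * (w ^ 2 * V))) =
      36 * (c * τ' * (F * w * q2)) + 36 * (c / τ' * (F * (w ^ 2 * V))) := by ring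
  rw [s1] at e6
  rw [s2] at e4
  have t1 : 0 ≤ c / τ * (F * w * q1) := by positivity
  have t2 : 0 ≤ τ * (a2 * w / n ^ 2) := by (clear * - hτ h2 hw hn; positivity)
  have t3 : 0 ≤ c * τ' * (F * w * q2) := by (clear * - hc hτ' hF hw hq2; positivity)
  have t4 : 0 ≤ c / τ' * (F * (w ^ 2 * V)) := by positivity
  generalize c / τ * (F * w * q1) = T1 at *
  generalize τ * (a2 * w / n ^ 2) = T2 at *
  generalize c * τ' * (F * w * q2) = T3 at *
  generalize c / τ' * (F * (w ^ 2 * V)) = T4 at *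
  have e7 : |fD * w - f * (w ^ 2 * I)| ≤ (b + 18) * (f / n * w) + (36 * T3 + 36 * T4) := by
    have : b * (f / n) * w = b * (f / n * w) := by ring
    linarith only [e1, e2, e3, e4]
  have u1 : 0 ≤ b * T1 := by (clear * - hb t1; positivity)
  have u2 : 0 ≤ b * T2 := by (clear * - hb t2; positivity)
  have u3 : 0 ≤ b * T3 := by (clear * - hb t3; positivity)
  have u4 : 0 ≤ b * T4 := by (clear * - hb t4; positivity)
  have e8 : (b + 18) * (5 * T1 + 2 * T2) + (36 * T3 + 36 * T4) ≤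
      (5 * (b + 18) + 36) * (T1 + T2 + T3 + T4) := by
    nlinarith only [t1, t2, t3, t4, u2, u3, u4]
  linarith only [e1, e2, e3, t1, t2, e6, t3, t4, e4, u2, u3, u4]

/-- Derivative: `|derX| ≤ β fω/‖Z‖ + f ω²|IX1|`, (P4) with `τ'`, `f ≤ 2cF`, `aa_pt`. -/
theorem der_pt {κ : ℝ} (h0 : 0 < κ) (h8 : κ < 8) : ∃ C : ℝ, 0 < C ∧
    ∀ {c ε τ τ' : ℝ} (_ : 0 < c) (_ : 0 < τ) (_ : 0 < τ') {W : ℝ → ℝ} {t : ℝ} {z₀ : ℂ}
      {R L : ℝ} (_ : SA W t z₀ R L) {Z : ℂ} (_ : 0 < Z.im) (U : ℝ),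
      |derX κ c L ε (EE z₀ R L) W t Z U| ≤
        C * (c / τ * (FF κ L Z U * om L (EE z₀ R L) W t Z * Th (‖Z‖ / τ)) +
          τ * (f2X κ c L ε Z U * om L (EE z₀ R L) W t Z / ‖Z‖ ^ 2) +
          c * τ' * (FF κ L Z U * om L (EE z₀ R L) W t Z * Th (‖Z‖ * τ')) +
          c / τ' * (FF κ L Z U * (om L (EE z₀ R L) W t Z ^ 2 * VQ L (EE z₀ R L) W t Z))) := by
  have hbe : 0 < be κ := by
    have : 1 < 8 / κ := (one_lt_div h0).2 h8
    rw [be]
    linarith only [this]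
  refine ⟨5 * (be κ + 18) + 36, by positivity, ?_⟩
  intro c ε τ τ' hc hτ hτ' W t z₀ R L S Z hZ U
  have hn : 0 < ‖Z‖ := norm_pos_iff.2 (fun h => by simp [h] at hZ)
  have hF : 0 < FF κ L Z U := FF_pos hZ U
  have h1 : 0 ≤ f1X κ c L ε Z U := f1X_nonneg hc.le hZ U
  have h2 : 0 ≤ f2X κ c L ε Z U := f2X_nonneg hc.le hZ U
  have h1F : f1X κ c L ε Z U ≤ c * FF κ L Z U := f1X_le h0 h8 hc.le hZ U
  have h2F : f2X κ c L ε Z U ≤ c * FF κ L Z U := f2X_le h0 h8 hc.le hZ U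
  have hf : fX κ c L ε Z U ≤ 2 * c * FF κ L Z U := by rw [fX_eq]; linarith only [h1F, h2F]
  have hf0 : 0 ≤ fX κ c L ε Z U := by rw [fX_eq]; linarith only [h1, h2]
  have hD := fDX_abs (L := L) (ε := ε) h0 h8 hc.le hZ U
  have hA := aa_pt (L := L) (ε := ε) h0 h8 hc hτ hZ U
  have hP := pair_far S hZ hτ'
  have hom := om_pos S hZ
  have hVQ := VQ_nonneg S hZ
  have hT1 : 0 < Th (‖Z‖ / τ) := Th_pos (by positivity)
  have hT2 : 0 < Th (‖Z‖ * τ') := Th_pos (by positivity)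
  exact StatPt_der_alg hbe hc hτ hτ' hn hF h2 hf hf0 hD hA hP hom hVQ hT1 hT2

end Vale.Agent.P164
end

section

/-!
# X-A10. The static inequality (H'')
-/

namespace Vale.Agent.P164

open Set Metric Filter Topology MeasureTheory ProbabilityTheory
open scoped NNReal ENNReal

/-- Optimisation in one parameter. -/
lemma static_opt {x a b : ℝ} (ha : 0 ≤ a) (hb : 0 ≤ b)
    (h : ∀ τ : ℝ, 0 < τ → x ≤ a / τ + b * τ) : x ≤ 2 * √(a * b) := by
  by_contra hx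
  rw [not_le] at hx
  have hs : 0 ≤ √(a * b) := Real.sqrt_nonneg _
  have hx0 : 0 < x := by linarith
  have hsq : √(a * b) ^ 2 = a * b := Real.sq_sqrt (mul_nonneg ha hb)
  have hx2 : 4 * (a * b) < x ^ 2 := by nlinarith only [hsq, hx, hs]
  rcases hb.eq_or_lt with hb0 | hb0
  · have h1 := h ((a + 1) / x) (by positivity)
    rw [← hb0, zero_mul, add_zero, div_div_eq_mul_div, le_div_iff₀ (by positivity)] at h1
    linarith
  · have h1 := h (x / (2 * b)) (by positivity)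
    have h2 : a / (x / (2 * b)) = 2 * (a * b) / x := by
      field_simp
    have h3 : b * (x / (2 * b)) = x / 2 := by
      field_simp
    rw [h2, h3] at h1
    have h4 : x / 2 ≤ 2 * (a * b) / x := by linarith only [h1]
    rw [le_div_iff₀ hx0] at h4
    nlinarith only [hx2, h4]

/-- From the bound of the `lintegral` of a nonnegative state function to integrability and a
bound of the integral. -/
lemma static_int {W : ℝ → ℝ} {t : ℝ} (hW : Continuous W) (ht : 0 ≤ t) {𝒬 : Set ℂ}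
    (hm : MeasurableSet 𝒬) (hal : ∀ z ∈ 𝒬, z ∈ loewnerDomain W t) {H : ℂ → ℝ → ℝ}
    (hH : Measurable (Function.uncurry H)) (h0 : ∀ Z U, 0 < Z.im → 0 ≤ H Z U) {B : ℝ}
    (hB : 0 ≤ B)
    (hle : ∫⁻ z in 𝒬, ENNReal.ofReal (H (Zf W z t) (Uf W z t)) ≤ ENNReal.ofReal B) :
    IntegrableOn (fun z => St H W z t) 𝒬 ∧ ∫ z in 𝒬, St H W z t ≤ B := by
  have hmeas : AEStronglyMeasurable (fun z => St H W z t) (volume.restrict 𝒬) :=
    (St_measurable_z hW hH ht).aestronglyMeasurable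
  have hnn : ∀ᵐ z ∂(volume.restrict 𝒬), 0 ≤ St H W z t := by
    filter_upwards [ae_restrict_mem hm] with z hz
    rw [St_of_mem (hal z hz)]
    exact h0 _ _ (Zf_im_pos ht (hal z hz))
  have heq : ∫⁻ z in 𝒬, ENNReal.ofReal (St H W z t) =
      ∫⁻ z in 𝒬, ENNReal.ofReal (H (Zf W z t) (Uf W z t)) := by
    refine setLIntegral_congr_fun hm fun z hz => ?_
    simp only [St_of_mem (hal z hz)]
  constructor
  · refine ⟨hmeas, ?_⟩
    rw [hasFiniteIntegral_iff_ofReal hnn, heq]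
    exact hle.trans_lt ENNReal.ofReal_lt_top
  · rw [integral_eq_lintegral_of_nonneg_ae hnn hmeas, heq]
    exact ENNReal.toReal_le_of_le_ofReal hB hle

lemma static_lin4 {μ : Measure ℂ} {f1 f2 f3 f4 : ℂ → ℝ} (h1 : Integrable f1 μ)
    (h2 : Integrable f2 μ) (h3 : Integrable f3 μ) (h4 : Integrable f4 μ) (C a b d e : ℝ) :
    Integrable (fun z => C * (a * f1 z + b * f2 z + d * f3 z + e * f4 z)) μ ∧
    ∫ z, C * (a * f1 z + b * f2 z + d * f3 z + e * f4 z) ∂μ =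
      C * (a * ∫ z, f1 z ∂μ + b * ∫ z, f2 z ∂μ + d * ∫ z, f3 z ∂μ + e * ∫ z, f4 z ∂μ) := by
  have g1 : Integrable (fun z => a * f1 z) μ := h1.const_mul a
  have g2 : Integrable (fun z => b * f2 z) μ := h2.const_mul b
  have g3 : Integrable (fun z => d * f3 z) μ := h3.const_mul d
  have g4 : Integrable (fun z => e * f4 z) μ := h4.const_mul e
  have g12 : Integrable (fun z => a * f1 z + b * f2 z) μ := g1.add g2
  have g123 : Integrable (fun z => a * f1 z + b * f2 z + d * f3 z) μ := g12.add g3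
  have g : Integrable (fun z => a * f1 z + b * f2 z + d * f3 z + e * f4 z) μ := g123.add g4
  refine ⟨g.const_mul C, ?_⟩
  rw [integral_const_mul, integral_add g123 g4, integral_add g12 g3, integral_add g1 g2,
    integral_const_mul, integral_const_mul, integral_const_mul, integral_const_mul]

lemma static_meas_Th : Measurable Th := by
  unfold Th
  exact (measurable_id.min measurable_inv).sqrt

lemma static_Th_nonneg (q : ℝ) : 0 ≤ Th q := Real.sqrt_nonneg _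

lemma static_vol {W : ℝ → ℝ} {t : ℝ} {z₀ : ℂ} {R L ϰ : ℝ} {𝒬 : Set ℂ}
    (hA : Adm W t z₀ R L ϰ 𝒬) : volume 𝒬 ≠ ⊤ :=
  ((measure_mono hA.sub).trans_lt measure_ball_lt_top).ne

/-- The integral in `p5` (real form). -/
lemma static_p5 {κ : ℝ} (h0 : 0 < κ) (h8 : κ < 8) : ∃ C : ℝ, 0 < C ∧
    ∀ {W : ℝ → ℝ} {t : ℝ} {z₀ : ℂ} {R L ϰ : ℝ} (_ : SA W t z₀ R L) (_ : 0 < ϰ) {𝒬 : Set ℂ}
      (_ : Adm W t z₀ R L ϰ 𝒬),
      IntegrableOn (fun z => St (fun Z U => FF κ L Z U *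
        (om L (EE z₀ R L) W t Z ^ 2 * VQ L (EE z₀ R L) W t Z)) W z t) 𝒬 ∧
      ∫ z in 𝒬, St (fun Z U => FF κ L Z U *
        (om L (EE z₀ R L) W t Z ^ 2 * VQ L (EE z₀ R L) W t Z)) W z t ≤
        C * L ^ 2 * N2 L ϰ (EE z₀ R L) W t := by
  obtain ⟨C, hC, H⟩ := p5 h0 h8
  refine ⟨C, hC, ?_⟩
  intro W t z₀ R L ϰ S hϰ 𝒬 hA
  refine static_int S.hW S.ht hA.meas hA.alive ?_ ?_ ?_ (H S hϰ hA)
  · have h1 : Measurable fun p : ℂ × ℝ => FF κ L p.1 p.2 := measurable_FF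
    have h2 : Measurable fun p : ℂ × ℝ => om L (EE z₀ R L) W t p.1 :=
      (measurable_om S.hW S.ht _).comp measurable_fst
    have h3 : Measurable fun p : ℂ × ℝ => VQ L (EE z₀ R L) W t p.1 :=
      (measurable_VQ S.hW S.ht _).comp measurable_fst
    exact h1.mul ((h2.pow_const 2).mul h3)
  · intro Z U hZ
    exact mul_nonneg (FF_pos hZ U).le (mul_nonneg (by (clear * -; positivity)) (VQ_nonneg S hZ))
  · exact mul_nonneg (mul_nonneg hC.le (sq_nonneg L)) (N2_nonneg S hϰ)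

/-- The integral in `shell_sum` (real form). -/
lemma static_shell {κ : ℝ} (h0 : 0 < κ) (h8 : κ < 8) : ∃ C : ℝ, 0 < C ∧
    ∀ {W : ℝ → ℝ} {t : ℝ} {z₀ : ℂ} {R L ϰ : ℝ} (_ : SA W t z₀ R L) {τ : ℝ} (_ : 0 < τ)
      {𝒬 : Set ℂ} (_ : Adm W t z₀ R L ϰ 𝒬),
      IntegrableOn (fun z => St (fun Z U => FF κ L Z U *
        om L (EE z₀ R L) W t Z * Th (‖Z‖ / τ)) W z t) 𝒬 ∧
      ∫ z in 𝒬, St (fun Z U => FF κ L Z U *
        om L (EE z₀ R L) W t Z * Th (‖Z‖ / τ)) W z t ≤ C * L ^ 2 := by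
  obtain ⟨C, hC, H⟩ := shell_sum h0 h8
  refine ⟨C, hC, ?_⟩
  intro W t z₀ R L ϰ S τ hτ 𝒬 hA
  refine static_int S.hW S.ht hA.meas hA.alive ?_ ?_ ?_ (le_trans (lintegral_mono_set ?_) (H S hτ))
  · have h1 : Measurable fun p : ℂ × ℝ => FF κ L p.1 p.2 := measurable_FF
    have h2 : Measurable fun p : ℂ × ℝ => om L (EE z₀ R L) W t p.1 :=
      (measurable_om S.hW S.ht _).comp measurable_fst
    have h3 : Measurable fun p : ℂ × ℝ => Th (‖p.1‖ / τ) :=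
      static_meas_Th.comp ((measurable_norm.comp measurable_fst).div_const τ)
    exact (h1.mul h2).mul h3
  · intro Z U hZ
    exact mul_nonneg (mul_nonneg (FF_pos hZ U).le (om_pos S hZ).le) (static_Th_nonneg _)
  · (clear * - hC; positivity)
  · exact fun z hz => ⟨hA.sub hz, hA.alive z hz⟩

/-- `∫_𝒬 genX ≤ -cp N1 + C c N2` (`gen_pt`, `p5`). -/
theorem gen_int {κ : ℝ} (h0 : 0 < κ) (h8 : κ < 8) : ∃ cp C : ℝ, 0 < cp ∧ 0 < C ∧
    ∀ {c ε : ℝ} (_ : 0 < c) {W : ℝ → ℝ} {t : ℝ} {z₀ : ℂ} {R L ϰ : ℝ} (_ : SA W t z₀ R L)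
      (_ : 0 < ϰ) {𝒬 : Set ℂ} (_ : Adm W t z₀ R L ϰ 𝒬),
      BI L 𝒬 W t (genX κ c L ε (EE z₀ R L) W t) ≤
        -cp * N1 κ c L ε (EE z₀ R L) 𝒬 W t + C * c * N2 L ϰ (EE z₀ R L) W t := by
  obtain ⟨cp, C, hcp, hC, H⟩ := gen_pt h0 h8
  obtain ⟨C5, hC5, H5⟩ := static_p5 h0 h8
  refine ⟨cp, C * C5, hcp, by positivity, ?_⟩
  intro c ε hc W t z₀ R L ϰ S hϰ 𝒬 hA
  obtain ⟨i5, b5⟩ := H5 S hϰ hA
  have hL := S.hL
  obtain ⟨Cb, hCb, Hb⟩ := gen_bounds (c := c) h0 h8 hc.le S.hL S.hR hϰ z₀ ε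
  obtain ⟨-, -, m3, m4, -, -⟩ := gen_meas (κ := κ) (c := c) (L := L) (ε := ε) h0 h8 S.hW S.ht
    (EE z₀ R L)
  have hbd : ∀ z ∈ 𝒬, z ∈ loewnerDomain W t → 0 < (Zf W z t).im ∧ ϰ ≤ ‖Zf W z t‖ :=
    fun z hz hal => ⟨Zf_im_pos S.ht hal, hA.far z hz⟩
  have i1 : IntegrableOn (fun z => St (genX κ c L ε (EE z₀ R L) W t) W z t) 𝒬 :=
    St_int S.hW S.ht m4 hA.meas (static_vol hA) fun z hz hal =>
      (Hb S (hbd z hz hal).1 (hbd z hz hal).2 (Uf W z t)).2.2.2.1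
  have i2 : IntegrableOn (fun z => St (fun Z U => f2X κ c L ε Z U *
      om L (EE z₀ R L) W t Z / ‖Z‖ ^ 2) W z t) 𝒬 :=
    St_int S.hW S.ht m3 hA.meas (static_vol hA) fun z hz hal =>
      (Hb S (hbd z hz hal).1 (hbd z hz hal).2 (Uf W z t)).2.2.1
  have hle : ∫ z in 𝒬, St (genX κ c L ε (EE z₀ R L) W t) W z t ≤
      ∫ z in 𝒬, (-cp * St (fun Z U => f2X κ c L ε Z U *
        om L (EE z₀ R L) W t Z / ‖Z‖ ^ 2) W z t +
        C * c * St (fun Z U => FF κ L Z U *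
        (om L (EE z₀ R L) W t Z ^ 2 * VQ L (EE z₀ R L) W t Z)) W z t) := by
    refine setIntegral_mono_on i1 ((i2.const_mul _).add (i5.const_mul _)) hA.meas ?_
    intro z hz
    have hal := hA.alive z hz
    rw [St_of_mem hal, St_of_mem hal, St_of_mem hal]
    exact H hc S (Zf_im_pos S.ht hal) (Uf W z t)
  rw [integral_add (i2.const_mul _) (i5.const_mul _), integral_const_mul,
    integral_const_mul] at hle
  have hL2 : 0 < L ^ 2 := by (clear * - hL; positivity)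
  unfold N1
  simp only [BI]
  rw [div_le_iff₀ hL2]
  refine hle.trans ?_
  have h2 := mul_le_mul_of_nonneg_left b5 (mul_nonneg hC.le hc.le)
  have h3 : (-cp * ((∫ z in 𝒬, St (fun Z U => f2X κ c L ε Z U *
        om L (EE z₀ R L) W t Z / ‖Z‖ ^ 2) W z t) / L ^ 2) +
        C * C5 * c * N2 L ϰ (EE z₀ R L) W t) * L ^ 2 =
      -cp * (∫ z in 𝒬, St (fun Z U => f2X κ c L ε Z U *
        om L (EE z₀ R L) W t Z / ‖Z‖ ^ 2) W z t) +
      C * c * (C5 * L ^ 2 * N2 L ϰ (EE z₀ R L) W t) := by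
    (clear * - hL; field_simp)
  rw [h3]
  linarith only [h2]

/-- `(∫_𝒬 derX)² ≤ C (c N1 + c² N2)`: `der_pt`, `shell_sum` (twice), `p5` give
`|∫ derX| ≤ C (c/τ + τ N1 + c τ' + (c/τ') N2)` for all `τ, τ' > 0`. -/
theorem der_int {κ : ℝ} (h0 : 0 < κ) (h8 : κ < 8) : ∃ C : ℝ, 0 < C ∧
    ∀ {c ε : ℝ} (_ : 0 < c) {W : ℝ → ℝ} {t : ℝ} {z₀ : ℂ} {R L ϰ : ℝ} (_ : SA W t z₀ R L)
      (_ : 0 < ϰ) {𝒬 : Set ℂ} (_ : Adm W t z₀ R L ϰ 𝒬),
      BI L 𝒬 W t (derX κ c L ε (EE z₀ R L) W t) ^ 2 ≤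
        C * (c * N1 κ c L ε (EE z₀ R L) 𝒬 W t + c ^ 2 * N2 L ϰ (EE z₀ R L) W t) := by
  obtain ⟨C, hC, H⟩ := der_pt h0 h8
  obtain ⟨C5, hC5, H5⟩ := static_p5 h0 h8
  obtain ⟨Cs, hCs, Hs⟩ := static_shell h0 h8
  refine ⟨8 * C ^ 2 * Cs * (1 + C5), by (clear * - hC hCs hC5; positivity), ?_⟩
  intro c ε hc W t z₀ R L ϰ S hϰ 𝒬 hA
  obtain ⟨i5, b5⟩ := H5 S hϰ hA
  have hL := S.hL
  have hL2 : 0 < L ^ 2 := by (clear * - hL; positivity)
  obtain ⟨Cb, hCb, Hb⟩ := gen_bounds (c := c) h0 h8 hc.le S.hL S.hR hϰ z₀ ε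
  obtain ⟨-, -, m3, -, -, -⟩ := gen_meas (κ := κ) (c := c) (L := L) (ε := ε) h0 h8 S.hW S.ht
    (EE z₀ R L)
  have i2 : IntegrableOn (fun z => St (fun Z U => f2X κ c L ε Z U *
      om L (EE z₀ R L) W t Z / ‖Z‖ ^ 2) W z t) 𝒬 :=
    St_int S.hW S.ht m3 hA.meas (static_vol hA) fun z hz hal =>
      (Hb S (Zf_im_pos S.ht hal) (hA.far z hz) (Uf W z t)).2.2.1
  have hN2 : 0 ≤ N2 L ϰ (EE z₀ R L) W t := N2_nonneg S hϰ
  have hN1 : 0 ≤ N1 κ c L ε (EE z₀ R L) 𝒬 W t := by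
    refine BI_nonneg hA.meas fun z hz hal => ?_
    have him := Zf_im_pos S.ht hal
    exact div_nonneg (mul_nonneg (f2X_nonneg hc.le him _) (om_pos S him).le) (by (clear * -; positivity))
  have hN1e : (∫ z in 𝒬, St (fun Z U => f2X κ c L ε Z U *
      om L (EE z₀ R L) W t Z / ‖Z‖ ^ 2) W z t) = N1 κ c L ε (EE z₀ R L) 𝒬 W t * L ^ 2 := by
    unfold N1
    simp only [BI]
    (clear * - hL; field_simp)
  set A := N1 κ c L ε (EE z₀ R L) 𝒬 W t with hAdef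
  set B := N2 L ϰ (EE z₀ R L) W t with hBdef
  set x := |BI L 𝒬 W t (derX κ c L ε (EE z₀ R L) W t)| with hx
  have key : ∀ τ τ' : ℝ, 0 < τ → 0 < τ' →
      x ≤ C * (c / τ * Cs + τ * A + c * τ' * Cs + c / τ' * (C5 * B)) := by
    intro τ τ' hτ hτ'
    obtain ⟨is1, bs1⟩ := Hs S hτ hA
    obtain ⟨is2, bs2⟩ := Hs S (inv_pos.2 hτ') hA
    have hle : ‖∫ z in 𝒬, St (derX κ c L ε (EE z₀ R L) W t) W z t‖ ≤
        ∫ z in 𝒬, C * (c / τ * St (fun Z U => FF κ L Z U *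
            om L (EE z₀ R L) W t Z * Th (‖Z‖ / τ)) W z t +
          τ * St (fun Z U => f2X κ c L ε Z U * om L (EE z₀ R L) W t Z / ‖Z‖ ^ 2) W z t +
          c * τ' * St (fun Z U => FF κ L Z U *
            om L (EE z₀ R L) W t Z * Th (‖Z‖ / τ'⁻¹)) W z t +
          c / τ' * St (fun Z U => FF κ L Z U *
            (om L (EE z₀ R L) W t Z ^ 2 * VQ L (EE z₀ R L) W t Z)) W z t) := by
      refine norm_integral_le_of_norm_le
        (static_lin4 is1 i2 is2 i5 C (c / τ) τ (c * τ') (c / τ')).1 ?_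
      filter_upwards [ae_restrict_mem hA.meas] with z hz
      have hal := hA.alive z hz
      rw [St_of_mem hal, St_of_mem hal, St_of_mem hal, St_of_mem hal, St_of_mem hal]
      have h1 := H (τ := τ) (τ' := τ') (ε := ε) hc hτ hτ' S (Zf_im_pos S.ht hal) (Uf W z t)
      simp only [div_inv_eq_mul]
      exact h1
    rw [(static_lin4 is1 i2 is2 i5 C (c / τ) τ (c * τ') (c / τ')).2, hN1e] at hle
    have e1 : x = ‖∫ z in 𝒬, St (derX κ c L ε (EE z₀ R L) W t) W z t‖ / L ^ 2 := by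
      rw [hx, BI, abs_div, abs_of_pos hL2, Real.norm_eq_abs]
    rw [e1, div_le_iff₀ hL2]
    refine hle.trans ?_
    have g1 := mul_le_mul_of_nonneg_left bs1 (by (clear * - hc hτ; positivity) : 0 ≤ c / τ)
    have g2 := mul_le_mul_of_nonneg_left bs2 (by (clear * - hc hτ'; positivity) : 0 ≤ c * τ')
    have g3 := mul_le_mul_of_nonneg_left b5 (by (clear * - hc hτ'; positivity) : 0 ≤ c / τ')
    rw [mul_assoc C]
    refine mul_le_mul_of_nonneg_left ?_ hC.le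
    have e2 : (c / τ * Cs + τ * A + c * τ' * Cs + c / τ' * (C5 * B)) * L ^ 2 =
      c / τ * (Cs * L ^ 2) + τ * (A * L ^ 2) + c * τ' * (Cs * L ^ 2) +
        c / τ' * (C5 * L ^ 2 * B) := by ring
    rw [e2]
    linarith only [g1, g2, g3]
  -- optimise in `τ'`
  have k1 : ∀ τ : ℝ, 0 < τ → x - C * (c / τ * Cs + τ * A) ≤
      2 * √((C * c * C5 * B) * (C * c * Cs)) := by
    intro τ hτ
    refine static_opt (by (clear * - hC hc hC5 hN2; positivity)) (by positivity) fun τ' hτ' => ?_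
    have := key τ τ' hτ hτ'
    have e : C * c * C5 * B / τ' + C * c * Cs * τ' =
      C * (c * τ' * Cs + c / τ' * (C5 * B)) := by ring
    rw [e]
    linarith only [this]
  have k2 : x - 2 * √((C * c * C5 * B) * (C * c * Cs)) ≤ 2 * √((C * c * Cs) * (C * A)) := by
    refine static_opt (by (clear * - hC hc hCs; positivity)) (by (clear * - hC hN1; positivity)) fun τ hτ => ?_
    have := k1 τ hτ
    have e : C * c * Cs / τ + C * A * τ = C * (c / τ * Cs + τ * A) := by ring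
    rw [e]
    linarith only [this]
  have hx0 : 0 ≤ x := abs_nonneg _
  have hxx : BI L 𝒬 W t (derX κ c L ε (EE z₀ R L) W t) ^ 2 = x ^ 2 := by rw [hx, sq_abs]
  rw [hxx]
  set p := √((C * c * C5 * B) * (C * c * Cs)) with hp
  set q := √((C * c * Cs) * (C * A)) with hq
  have hp2 : p ^ 2 = (C * c * C5 * B) * (C * c * Cs) := Real.sq_sqrt (by (clear * - hC hc hC5 hN2 hCs; positivity))
  have hq2 : q ^ 2 = (C * c * Cs) * (C * A) := Real.sq_sqrt (by (clear * - hC hc hCs hN1; positivity))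
  have hp0 : 0 ≤ p := Real.sqrt_nonneg _
  have hq0 : 0 ≤ q := Real.sqrt_nonneg _
  have h1 : x ^ 2 ≤ (2 * p + 2 * q) ^ 2 := pow_le_pow_left₀ hx0 (by linarith only [k2]) 2
  have h2 : (2 * p + 2 * q) ^ 2 ≤ 8 * p ^ 2 + 8 * q ^ 2 := by nlinarith only [sq_nonneg (p - q)]
  rw [hp2, hq2] at h2
  have h3 : 8 * ((C * c * C5 * B) * (C * c * Cs)) + 8 * ((C * c * Cs) * (C * A)) =
      8 * C ^ 2 * Cs * (C5 * (c ^ 2 * B) + c * A) := by ring
  have h4 : 8 * C ^ 2 * Cs * (1 + C5) * (c * A + c ^ 2 * B) -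
      8 * C ^ 2 * Cs * (C5 * (c ^ 2 * B) + c * A) = 8 * C ^ 2 * Cs * (c ^ 2 * B + C5 * (c * A)) := by
    ring
  have h5 : 0 ≤ 8 * C ^ 2 * Cs * (c ^ 2 * B + C5 * (c * A)) := by (clear * - hC hCs hc hN2 hC5 hN1; positivity)
  linarith only [h1, h2, h5]

/-- (H'') The static inequality. -/
theorem static_ineq {κ : ℝ} (h0 : 0 < κ) (h8 : κ < 8) : ∃ c K₀ : ℝ, 0 < c ∧ 0 < K₀ ∧
    ∀ {ε : ℝ} {W : ℝ → ℝ} {t : ℝ} {z₀ : ℂ} {R L ϰ : ℝ} (_ : SA W t z₀ R L)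
      (_ : 0 < ϰ) {𝒬 : Set ℂ} (_ : Adm W t z₀ R L ϰ 𝒬),
      BI L 𝒬 W t (genX κ c L ε (EE z₀ R L) W t) +
        κ / 2 * BI L 𝒬 W t (derX κ c L ε (EE z₀ R L) W t) ^ 2 ≤
          K₀ / 10 * N2 L ϰ (EE z₀ R L) W t := by
  obtain ⟨cp, C₁, hcp, hC₁, H1⟩ := gen_int h0 h8
  obtain ⟨C₂, hC₂, H2⟩ := der_int h0 h8
  set c : ℝ := min 1 (cp / (κ * C₂ + 1)) with hc
  have hk : 0 < κ * C₂ + 1 := by positivity
  have hc0 : 0 < c := lt_min one_pos (div_pos hcp hk)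
  have hc1 : c ≤ 1 := min_le_left _ _
  have hc2 : c * (κ * C₂ + 1) ≤ cp := by
    have : c ≤ cp / (κ * C₂ + 1) := min_le_right _ _
    calc c * (κ * C₂ + 1) ≤ cp / (κ * C₂ + 1) * (κ * C₂ + 1) :=
          mul_le_mul_of_nonneg_right this hk.le
      _ = cp := div_mul_cancel₀ _ hk.ne'
  refine ⟨c, 10 * (C₁ + κ * C₂), hc0, by (clear * - hC₁ h0 hC₂; positivity), ?_⟩
  intro ε W t z₀ R L ϰ S hϰ 𝒬 hA
  have h1 := H1 (ε := ε) hc0 S hϰ hA
  have h2 := H2 (ε := ε) hc0 S hϰ hA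
  have hN2 := N2_nonneg S hϰ
  have hN1 : 0 ≤ N1 κ c L ε (EE z₀ R L) 𝒬 W t := by
    refine BI_nonneg hA.meas fun z hz hal => ?_
    have him := Zf_im_pos S.ht hal
    exact div_nonneg (mul_nonneg (f2X_nonneg hc0.le him _) (om_pos S him).le) (by (clear * -; positivity))
  set N := N1 κ c L ε (EE z₀ R L) 𝒬 W t
  set M := N2 L ϰ (EE z₀ R L) W t
  have h3 : κ / 2 * BI L 𝒬 W t (derX κ c L ε (EE z₀ R L) W t) ^ 2 ≤
      κ / 2 * (C₂ * (c * N + c ^ 2 * M)) := mul_le_mul_of_nonneg_left h2 (by positivity)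
  have h4 : κ / 2 * (C₂ * (c * N)) ≤ cp * N := by
    have : κ / 2 * C₂ * c ≤ cp := by nlinarith only [hcp, hc0, hc2]
    nlinarith only [hcp, hN1, hc0, hc2]
  have h5 : c * M ≤ M := by nlinarith only [hc1, hN2]
  have h6 : c ^ 2 * M ≤ M := by nlinarith only [h5, hc0]
  have h7 : κ / 2 * (C₂ * (c ^ 2 * M)) ≤ κ * C₂ * M := by
    nlinarith only [h6, hN2, mul_pos h0 hC₂]
  (clear * - h1 h3 h4 h7 h5 hC₁; nlinarith [mul_le_mul_of_nonneg_left h5 hC₁.le])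

end Vale.Agent.P164
end
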