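import Vale.Agent.P164.MathlibUsed
import Vale.Agent.P164.Bdl.B5
import Vale.Agent.P164.Bdl.B1
import Vale.Agent.P164.Bdl.B6
import Vale.Agent.P164.Bdl.B4
import Vale.Agent.P164.Bdl.B3
import Vale.Agent.P164.Bdl.B2

set_option linter.all false

section

/-!
# The gauge `r^d (log log (1/r))^{1/2-κ/16}` exists
-/

namespace Vale.Agent.P164

open Set Metric Filter Topology MeasureTheory

noncomputable section

/-- The cut-off radius. -/
def exR : ℝ := Real.exp (-Real.exp 1)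

lemma exR_pos : 0 < exR := Real.exp_pos _

/-- `log log (1/min r r₁)`. -/
def exLL (r : ℝ) : ℝ := Real.log (Real.log (1 / min r exR))

lemma exLL_log {r : ℝ} (hr : 0 < r) : Real.exp 1 ≤ Real.log (1 / min r exR) := by
  have h1 : 0 < min r exR := lt_min hr exR_pos
  have h2 : min r exR ≤ exR := min_le_right _ _
  rw [one_div, Real.log_inv]
  have h3 := Real.log_le_log h1 h2
  rw [show Real.log exR = -Real.exp 1 from Real.log_exp _] at h3
  linarith only [h3]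

lemma exLL_one_le {r : ℝ} (hr : 0 < r) : 1 ≤ exLL r := by
  have h := exLL_log hr
  have h1 := Real.log_le_log (Real.exp_pos 1) h
  rwa [Real.log_exp] at h1

/-- A gauge with exponent `d ≥ 1` and power `p` of the iterated logarithm. -/
def exG (d p r : ℝ) : ℝ := if r ≤ 0 then 0 else r ^ d * exLL r ^ p

lemma exG_mono_pos {d p : ℝ} (hd : 1 ≤ d) (hp0 : 0 ≤ p) (hp1 : p ≤ 1) {r s : ℝ} (hr : 0 < r)
    (hrs : r ≤ s) : r ^ d * exLL r ^ p ≤ s ^ d * exLL s ^ p := by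
  have hs : 0 < s := hr.trans_le hrs
  -- auxiliary claim for arguments below the cut-off
  have key : ∀ r s : ℝ, 0 < r → r ≤ s → s ≤ exR → r ^ d * exLL r ^ p ≤ s ^ d * exLL s ^ p := by
    intro r s hr hrs hsR
    have hs : 0 < s := hr.trans_le hrs
    have hlr := exLL_log hr
    have hls := exLL_log hs
    have h1r := exLL_one_le hr
    have h1s := exLL_one_le hs
    rw [min_eq_left (hrs.trans hsR)] at hlr
    rw [min_eq_left hsR] at hls
    have er : exLL r = Real.log (Real.log (1 / r)) := by rw [exLL, min_eq_left (hrs.trans hsR)]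
    have es : exLL s = Real.log (Real.log (1 / s)) := by rw [exLL, min_eq_left hsR]
    set a := Real.log (1 / r) with ha
    set b := Real.log (1 / s) with hb
    have hb1 : 1 ≤ b := le_trans (by have := Real.add_one_le_exp (1 : ℝ); linarith only [this]) hls
    have hb0 : 0 < b := by linarith only [hb1]
    have hab : b ≤ a := by
      rw [ha, hb, one_div, one_div, Real.log_inv, Real.log_inv]
      have := Real.log_le_log hr hrs
      linarith only [this]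
    have ha0 : 0 < a := hb0.trans_le hab
    have hlogab : Real.log a ≤ Real.log b + (a - b) := by
      have e1 : Real.log a = Real.log b + Real.log (a / b) := by
        rw [Real.log_div ha0.ne' hb0.ne']; ring
      rw [e1]
      have e2 : Real.log (a / b) ≤ a / b - 1 := Real.log_le_sub_one_of_pos (by (clear * - ha0 hb1; positivity))
      have e3 : a / b - 1 = (a - b) / b := by (clear * - hb1; field_simp)
      have e4 : (a - b) / b ≤ a - b := div_le_self (by linarith only [hab]) hb1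
      linarith only [e2, e3, e4]
    have hratio : exLL r ≤ exLL s * Real.exp (a - b) := by
      rw [er, es]
      rw [es] at h1s
      have e5 : 1 + (a - b) ≤ Real.exp (a - b) := by
        have := Real.add_one_le_exp (a - b); linarith only [this]
      have e6 : Real.log b * (1 + (a - b)) ≤ Real.log b * Real.exp (a - b) :=
        mul_le_mul_of_nonneg_left e5 (by linarith only [h1s])
      nlinarith only [h1s, hab, hlogab, e6]
    have h2 : exLL r ^ p ≤ exLL s ^ p * Real.exp (a - b) := by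
      calc exLL r ^ p ≤ (exLL s * Real.exp (a - b)) ^ p :=
            Real.rpow_le_rpow (by linarith only [h1r]) hratio hp0
        _ = exLL s ^ p * Real.exp (a - b) ^ p :=
            Real.mul_rpow (by linarith only [h1s]) (Real.exp_pos _).le
        _ ≤ exLL s ^ p * Real.exp (a - b) := by
            apply mul_le_mul_of_nonneg_left _ (Real.rpow_nonneg (by linarith only [h1s]) _)
            rw [← Real.exp_mul]
            apply Real.exp_le_exp.2
            nlinarith only [hp1, hab]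
    have h3 : r ^ d * Real.exp (a - b) ≤ s ^ d := by
      have e7 : r = Real.exp (-a) := by
        rw [ha, one_div, Real.log_inv, neg_neg, Real.exp_log hr]
      have e8 : s = Real.exp (-b) := by
        rw [hb, one_div, Real.log_inv, neg_neg, Real.exp_log hs]
      rw [e7, e8, ← Real.exp_mul, ← Real.exp_mul, ← Real.exp_add]
      apply Real.exp_le_exp.2
      nlinarith only [hd, hab]
    calc r ^ d * exLL r ^ p ≤ r ^ d * (exLL s ^ p * Real.exp (a - b)) :=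
          mul_le_mul_of_nonneg_left h2 (Real.rpow_nonneg hr.le _)
      _ = (r ^ d * Real.exp (a - b)) * exLL s ^ p := by ring
      _ ≤ s ^ d * exLL s ^ p :=
          mul_le_mul_of_nonneg_right h3 (Real.rpow_nonneg (by linarith only [h1s]) _)
  have key2 : ∀ r s : ℝ, exR ≤ r → r ≤ s → r ^ d * exLL r ^ p ≤ s ^ d * exLL s ^ p := by
    intro r s hr hrs
    have hr0 : 0 < r := exR_pos.trans_le hr
    have er : exLL r = exLL s := by
      rw [exLL, exLL, min_eq_right hr, min_eq_right (hr.trans hrs)]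
    rw [er]
    exact mul_le_mul_of_nonneg_right (Real.rpow_le_rpow hr0.le hrs (by linarith only [hd]))
      (Real.rpow_nonneg (by have := exLL_one_le (hr0.trans_le hrs); linarith) _)
  rcases le_total s exR with h | h
  · exact key r s hr hrs h
  · rcases le_total r exR with h' | h'
    · exact (key r exR hr h' le_rfl).trans (key2 exR s le_rfl h)
    · exact key2 r s h' hrs

lemma exLL_le {r : ℝ} (hr : 0 < r) (hr' : r ≤ exR) : exLL r ≤ r⁻¹ := by
  have h1 := exLL_log hr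
  rw [exLL]
  rw [min_eq_left hr'] at h1 ⊢
  have h2 : Real.log (Real.log (1 / r)) ≤ Real.log (1 / r) := by
    have := Real.log_le_sub_one_of_pos ((Real.exp_pos 1).trans_le h1)
    linarith
  have h3 : Real.log (1 / r) ≤ 1 / r := by
    have := Real.log_le_sub_one_of_pos (show 0 < 1 / r by positivity)
    linarith only [this]
  rw [one_div] at h2 h3
  rw [one_div]
  linarith only [h2, h3]

lemma exG_isGauge {d p : ℝ} (hd : 1 ≤ d) (hp0 : 0 ≤ p) (hp1 : p < 1) : IsGauge (exG d p) := by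
  refine ⟨?_, ?_, by simp [exG], ?_⟩
  · intro r hr
    rcases eq_or_lt_of_le (show (0 : ℝ) ≤ r from hr) with h0 | h0
    · subst h0
      have hz : exG d p 0 = 0 := by simp [exG]
      rw [ContinuousWithinAt, hz]
      have hb : ∀ᶠ s in 𝓝[Ici 0] (0 : ℝ), exG d p s ≤ |s| ^ (d - p) := by
        have : ∀ᶠ s in 𝓝[Ici 0] (0 : ℝ), s < exR :=
          mem_nhdsWithin_of_mem_nhds (Iio_mem_nhds exR_pos)
        filter_upwards [this] with s hs
        unfold exG
        split_ifs with h1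
        · exact Real.rpow_nonneg (abs_nonneg _) _
        · push Not at h1
          have h2 := exLL_le h1 hs.le
          have h3 := exLL_one_le h1
          rw [abs_of_pos h1]
          calc s ^ d * exLL s ^ p ≤ s ^ d * (s⁻¹) ^ p := by
                apply mul_le_mul_of_nonneg_left _ (Real.rpow_nonneg h1.le _)
                exact Real.rpow_le_rpow (by linarith only [h3]) h2 hp0
            _ = s ^ (d - p) := by
                rw [Real.rpow_sub h1, Real.inv_rpow h1.le]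
                rfl
      have hnn : ∀ᶠ s in 𝓝[Ici 0] (0 : ℝ), 0 ≤ exG d p s := by
        filter_upwards with s
        unfold exG
        split_ifs with h1
        · exact le_rfl
        · push Not at h1
          exact mul_nonneg (Real.rpow_nonneg h1.le _)
            (Real.rpow_nonneg (by have := exLL_one_le h1; linarith only [this]) _)
      have hlim : Tendsto (fun s : ℝ => |s| ^ (d - p)) (𝓝[Ici 0] 0) (𝓝 0) := by
        have hc : Continuous fun s : ℝ => |s| ^ (d - p) :=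
          continuous_abs.rpow_const fun _ => Or.inr (by linarith only [hd, hp1])
        have := (hc.tendsto 0).mono_left (nhdsWithin_le_nhds (s := Ici (0 : ℝ)))
        simpa only [abs_zero, Real.zero_rpow (show d - p ≠ 0 by intro h; linarith)] using this
      exact tendsto_of_tendsto_of_tendsto_of_le_of_le' tendsto_const_nhds hlim hnn hb
    · apply ContinuousAt.continuousWithinAt
      have heq : exG d p =ᶠ[𝓝 r] fun s => s ^ d * exLL s ^ p := by
        filter_upwards [Ioi_mem_nhds h0] with s hs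
        simp [exG, not_le.2 (show (0 : ℝ) < s from hs)]
      refine ContinuousAt.congr ?_ heq.symm
      have hm : 0 < min r exR := lt_min h0 exR_pos
      have hl := exLL_log h0
      have hl1 := exLL_one_le h0
      have c1 : ContinuousAt (fun s : ℝ => 1 / min s exR) r := by
        have : ContinuousAt (fun s : ℝ => min s exR) r := by fun_prop
        exact continuousAt_const.div this hm.ne'
      have c2 : ContinuousAt (fun s : ℝ => Real.log (1 / min s exR)) r :=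
        c1.log (by (clear * - hm; positivity))
      have c3 : ContinuousAt exLL r :=
        c2.log ((Real.exp_pos 1).trans_le hl).ne'
      exact (continuousAt_id.rpow_const (Or.inl h0.ne')).mul
        (c3.rpow_const (Or.inl (by linarith only [hl1])))
  · intro r hr s hs hrs
    unfold exG
    split_ifs with h1 h2 h2
    · exact le_rfl
    · push Not at h2
      exact mul_nonneg (Real.rpow_nonneg h2.le _)
        (Real.rpow_nonneg (by have := exLL_one_le h2; linarith only [this]) _)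
    · exact absurd (hrs.trans h2) h1
    · push Not at h1
      exact exG_mono_pos hd hp0 hp1.le h1 hrs
  · intro r hr
    simp only [exG, not_le.2 hr, if_false]
    have := exLL_one_le hr
    positivity

theorem exG_exists {κ : ℝ} (h0 : 0 < κ) (h8 : κ < 8) :
    ∃ h : ℝ → ℝ, IsGauge h ∧ ∃ r₀ : ℝ, 0 < r₀ ∧ r₀ ≤ Real.exp (-Real.exp 1) ∧
      ∀ r, 0 < r → r < r₀ → h r = hh κ r := by
  refine ⟨exG (dd κ) (xx κ / 2), exG_isGauge ?_ ?_ ?_, exR, exR_pos, le_rfl, ?_⟩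
  · unfold dd; linarith only [h0]
  · unfold xx; linarith only [h8]
  · unfold xx; linarith
  · intro r hr hr'
    simp only [exG, not_le.2 hr, if_false, hh, exLL, min_eq_left hr'.le]

end

end Vale.Agent.P164
end

section

/-!
# The drift bound
-/

namespace Vale.Agent.P164

open Set Metric Filter Topology MeasureTheory

end Vale.Agent.P164
end

section

/-!
# Lemma A: the key deterministic inequality
-/

namespace Vale.Agent.P164

open Set Metric Filter Topology MeasureTheory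
open scoped ENNReal Real

end Vale.Agent.P164
end

section

/-!
# The drift condition (H)
-/

namespace Vale.Agent.P164

open Set Metric Filter Topology MeasureTheory

section

variable {W : ℝ → ℝ} {t r ϰ : ℝ} {D : Set ℂ}

end

end Vale.Agent.P164
end

section

/-!
# One step of the exponential supermartingale inequality
-/

namespace Vale.Agent.P164

open Set Metric Filter Topology MeasureTheory ProbabilityTheory
open scoped NNReal ENNReal

lemma exp_le_quad_cubic (x : ℝ) :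
    Real.exp x ≤ 1 + x + x ^ 2 / 2 + |x| ^ 3 * Real.exp |x| := by
  have h := Complex.norm_exp_sub_sum_le_norm_mul_exp (x : ℂ) 3
  have h1 : Complex.exp (x : ℂ) - ∑ m ∈ Finset.range 3, (x : ℂ) ^ m / (m.factorial : ℂ) =
      ((Real.exp x - (1 + x + x ^ 2 / 2) : ℝ) : ℂ) := by
    rw [Finset.sum_range_succ, Finset.sum_range_succ, Finset.sum_range_succ,
      Finset.sum_range_zero]
    push_cast
    simp only [pow_zero, Nat.factorial, Nat.cast_one, ne_eq, one_ne_zero, not_false_eq_true, div_self, zero_add, pow_one, Nat.succ_eq_add_one, mul_one, div_one, Nat.reduceAdd, Nat.cast_ofNat]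
  rw [h1, Complex.norm_real, Complex.norm_real, Real.norm_eq_abs, Real.norm_eq_abs] at h
  have := (abs_le.1 h).2
  linarith only [this]

lemma es_cube {m δ : ℝ} (hm0 : 0 ≤ m) (hδ0 : 0 ≤ δ) (hδ1 : δ ≤ 1) :
    (m + δ) ^ 3 ≤ 4 * (δ ^ 2 + δ * m + m ^ 3) := by
  have h6 : 4 * (m ^ 3 + δ ^ 3) - (m + δ) ^ 3 = 3 * ((m + δ) * (m - δ) ^ 2) := by ring
  have h7 : δ ^ 3 ≤ δ ^ 2 := by
    calc δ ^ 3 = δ ^ 2 * δ := by ring
      _ ≤ δ ^ 2 * 1 := by (clear * - hδ1; gcongr)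
      _ = δ ^ 2 := mul_one _
  have h8 : 0 ≤ (m + δ) * (m - δ) ^ 2 := by (clear * - hm0 hδ0; positivity)
  have h9 : 0 ≤ δ * m := by positivity
  linarith only [h7, h8, h9]

/-- Bound of the remainder. -/
lemma es_rb {C κ k b2 b3 b4 η m δ : ℝ} (hC : 0 < C) (hκ : 0 < κ) (h2 : |b2| ≤ C)
    (h3 : |b3| ≤ C) (h4 : |b4| ≤ C) (hη : |η| ≤ m) (hm0 : 0 ≤ m) (hδ0 : 0 ≤ δ) (hδ1 : δ ≤ 1)
    (hm : m ≤ k) :
    |η ^ 2 / 2 * b2 + δ * (b3 - κ / 2 * b2 + b4) + 2 * C * (δ ^ 2 + δ * m + m ^ 3)| ≤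
      (C / 2 + C * (2 + κ / 2) + 2 * C * (1 + k)) * (m ^ 2 + δ) := by
  have hη2 : η ^ 2 ≤ m ^ 2 := by
    rw [← sq_abs]
    gcongr
  have t1 : |η ^ 2 / 2 * b2| ≤ C / 2 * m ^ 2 := by
    rw [abs_mul, abs_of_nonneg (by positivity : 0 ≤ η ^ 2 / 2)]
    calc η ^ 2 / 2 * |b2| ≤ m ^ 2 / 2 * C := by (clear * - hη2 h2; gcongr)
      _ = _ := by ring
  have t2 : |δ * (b3 - κ / 2 * b2 + b4)| ≤ C * (2 + κ / 2) * δ := by
    rw [abs_mul, abs_of_nonneg hδ0]
    have t3 : |b3 - κ / 2 * b2 + b4| ≤ C * (2 + κ / 2) := by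
      have t4 : |κ / 2 * b2| ≤ κ / 2 * C := by
        rw [abs_mul, abs_of_pos (by positivity : 0 < κ / 2)]
        gcongr
      have t5 := abs_add_le (b3 - κ / 2 * b2) b4
      have t6 := abs_sub b3 (κ / 2 * b2)
      have t7 : C * (2 + κ / 2) = C + κ / 2 * C + C := by ring
      rw [t7]
      linarith only [h3, h4, t4, t5, t6]
    calc δ * |b3 - κ / 2 * b2 + b4| ≤ δ * (C * (2 + κ / 2)) := by (clear * - t3 hδ0; gcongr)
      _ = _ := by ring
  have hele : δ ^ 2 + δ * m + m ^ 3 ≤ (1 + k) * (m ^ 2 + δ) := by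
    have hδ2 : δ ^ 2 ≤ δ := by
      calc δ ^ 2 = δ * δ := by ring
        _ ≤ 1 * δ := by gcongr
        _ = δ := one_mul _
    have hδm : δ * m ≤ δ * k := by (clear * - hm hδ0; gcongr)
    have hm3 : m ^ 3 ≤ k * m ^ 2 := by
      calc m ^ 3 = m * m ^ 2 := by ring
        _ ≤ k * m ^ 2 := by (clear * - hm; gcongr)
    have : 0 ≤ m ^ 2 := sq_nonneg m
    have e1 : (1 + k) * (m ^ 2 + δ) = k * m ^ 2 + δ * k + δ + m ^ 2 := by ring
    rw [e1]
    linarith only [hδ2, hδm, hm3, this]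
  have t5 : |2 * C * (δ ^ 2 + δ * m + m ^ 3)| ≤ 2 * C * (1 + k) * (m ^ 2 + δ) := by
    rw [abs_of_nonneg (by (clear * - hC hδ0 hm0; positivity))]
    calc 2 * C * (δ ^ 2 + δ * m + m ^ 3) ≤ 2 * C * ((1 + k) * (m ^ 2 + δ)) := by (clear * - hele hC; gcongr)
      _ = _ := by ring
  have t6 := abs_add_le (η ^ 2 / 2 * b2 + δ * (b3 - κ / 2 * b2 + b4))
    (2 * C * (δ ^ 2 + δ * m + m ^ 3))
  have t7 := abs_add_le (η ^ 2 / 2 * b2) (δ * (b3 - κ / 2 * b2 + b4))
  have t8 : C / 2 * m ^ 2 ≤ C / 2 * (m ^ 2 + δ) := by gcongr; linarith only [hδ0]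
  have t9 : C * (2 + κ / 2) * δ ≤ C * (2 + κ / 2) * (m ^ 2 + δ) := by
    gcongr
    have := sq_nonneg m
    linarith only [this]
  have t10 : (C / 2 + C * (2 + κ / 2) + 2 * C * (1 + k)) * (m ^ 2 + δ) =
    C / 2 * (m ^ 2 + δ) + C * (2 + κ / 2) * (m ^ 2 + δ) + 2 * C * (1 + k) * (m ^ 2 + δ) := by ring
  rw [t10]
  linarith only [t1, t2, t5, t6, t7, t8, t9]

lemma es_x2 {C R k η b1 r m δ : ℝ} (hC : 0 < C) (hR : 0 < R) (hk : 0 < k) (hm0 : 0 ≤ m)
    (hδ0 : 0 ≤ δ) (hm : m ≤ k) (hηb : |η * b1| ≤ C * m) (hr : |r| ≤ R * (m ^ 2 + δ)) :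
    (-η * b1 + r) ^ 2 ≤ η ^ 2 * b1 ^ 2 +
      2 * (C * R + R ^ 2 * (k + 1)) * (δ ^ 2 + δ * m + m ^ 3) := by
  have h5 : (-η * b1 + r) ^ 2 = η ^ 2 * b1 ^ 2 + -(2 * (η * b1) * r) + r ^ 2 := by ring
  have h6 : -(2 * (η * b1) * r) ≤ 2 * (C * R) * (δ ^ 2 + δ * m + m ^ 3) := by
    calc -(2 * (η * b1) * r) ≤ |2 * (η * b1) * r| := neg_le_abs _
      _ = 2 * |η * b1| * |r| := by rw [abs_mul, abs_mul, abs_two]
      _ ≤ 2 * (C * m) * (R * (m ^ 2 + δ)) := by gcongr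
      _ = 2 * (C * R) * (m ^ 3 + δ * m) := by ring
      _ ≤ 2 * (C * R) * (δ ^ 2 + δ * m + m ^ 3) := by
          refine mul_le_mul_of_nonneg_left ?_ (by positivity)
          have := sq_nonneg δ
          linarith only [this]
  have h7 : r ^ 2 ≤ 2 * (R ^ 2 * (k + 1)) * (δ ^ 2 + δ * m + m ^ 3) := by
    calc r ^ 2 = |r| ^ 2 := (sq_abs r).symm
      _ ≤ (R * (m ^ 2 + δ)) ^ 2 := by (clear * - hr; gcongr)
      _ = R ^ 2 * (m * m ^ 3 + 2 * m * (δ * m) + δ ^ 2) := by ring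
      _ ≤ R ^ 2 * (k * m ^ 3 + 2 * k * (δ * m) + δ ^ 2) := by gcongr
      _ ≤ R ^ 2 * (2 * (k + 1) * (δ ^ 2 + δ * m + m ^ 3)) := by
          gcongr
          have e1 : 0 ≤ m ^ 3 := by (clear * - hm0; positivity)
          have e2 : 0 ≤ δ * m := by (clear * - hδ0 hm0; positivity)
          have e3 : 0 ≤ δ ^ 2 := by (clear * -; positivity)
          have e4 : 0 ≤ k * m ^ 3 := by (clear * - hk hm0; positivity)
          have e5 : 0 ≤ k * δ ^ 2 := by (clear * - hk; positivity)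
          have e6 : 2 * (k + 1) * (δ ^ 2 + δ * m + m ^ 3) - (k * m ^ 3 + 2 * k * (δ * m) + δ ^ 2)
            = k * m ^ 3 + 2 * (k * δ ^ 2) + δ ^ 2 + 2 * (δ * m) + 2 * m ^ 3 := by ring
          linarith only [e1, e2, e3, e4, e5]
      _ = _ := by ring
  rw [h5]
  have h8 : 2 * (C * R + R ^ 2 * (k + 1)) * (δ ^ 2 + δ * m + m ^ 3) =
    2 * (C * R) * (δ ^ 2 + δ * m + m ^ 3) +
    2 * (R ^ 2 * (k + 1)) * (δ ^ 2 + δ * m + m ^ 3) := by ring
  rw [h8]
  linarith only [h6, h7]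

/-- Second order bound of the exponential of the increment. -/
lemma estep_small {C κ ϰ : ℝ} (hC : 0 < C) (hκ : 0 < κ) (hϰ : 0 < ϰ) :
    ∃ C' : ℝ, 0 < C' ∧ ∀ (b1 b2 b3 b4 η m δ y : ℝ), |b1| ≤ C → |b2| ≤ C → |b3| ≤ C → |b4| ≤ C →
      |η| ≤ m → 0 ≤ δ → δ ≤ 1 → m ≤ ϰ / 8 →
      y ≤ -η * b1 + (η ^ 2 / 2 * b2 + δ * (b3 - κ / 2 * b2 + b4) +
        2 * C * (δ ^ 2 + δ * m + m ^ 3)) →
      Real.exp y ≤ 1 - η * b1 + η ^ 2 / 2 * (b2 + b1 ^ 2) + δ * (b3 - κ / 2 * b2 + b4) +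
        C' * (δ ^ 2 + δ * m + m ^ 3) := by
  obtain ⟨k, hk⟩ : ∃ k, k = ϰ / 8 := ⟨_, rfl⟩
  have hk0 : 0 < k := by rw [hk]; positivity
  -- bound for `e`
  obtain ⟨R, hR⟩ : ∃ R, R = C / 2 + C * (2 + κ / 2) + 2 * C * (1 + k) := ⟨_, rfl⟩
  have hR0 : 0 < R := by rw [hR]; positivity
  obtain ⟨M, hM⟩ : ∃ M, M = C * k + R * (k ^ 2 + 1) := ⟨_, rfl⟩
  have hM0 : 0 < M := by rw [hM]; positivity
  obtain ⟨S, hS⟩ : ∃ S, S = C + R * (k + 1) := ⟨_, rfl⟩
  have hS0 : 0 < S := by rw [hS]; positivity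
  refine ⟨2 * C + C * R + R ^ 2 * (k + 1) + 4 * S ^ 3 * Real.exp M, by positivity, ?_⟩
  intro b1 b2 b3 b4 η m δ y h1 h2 h3 h4 hη hδ0 hδ1 hm hy
  rw [← hk] at hm
  have hm0 : 0 ≤ m := (abs_nonneg _).trans hη
  have hrb := es_rb hC hκ h2 h3 h4 hη hm0 hδ0 hδ1 hm
  rw [← hR] at hrb
  obtain ⟨r, hr⟩ : ∃ r, r = η ^ 2 / 2 * b2 + δ * (b3 - κ / 2 * b2 + b4) +
    2 * C * (δ ^ 2 + δ * m + m ^ 3) := ⟨_, rfl⟩
  rw [← hr] at hrb hy
  have hηb : |η * b1| ≤ C * m := by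
    rw [abs_mul]
    calc |η| * |b1| ≤ m * C := by (clear * - hη h1 hm0; gcongr)
      _ = _ := by ring
  have hx2 := es_x2 hC hR0 hk0 hm0 hδ0 hm hηb hrb
  have hcube := es_cube hm0 hδ0 hδ1
  obtain ⟨x, hx⟩ : ∃ x, x = -η * b1 + r := ⟨_, rfl⟩
  rw [← hx] at hx2 hy
  have hxb : |x| ≤ C * m + R * (m ^ 2 + δ) := by
    rw [hx]
    refine (abs_add_le _ _).trans ?_
    rw [neg_mul, abs_neg]
    exact add_le_add hηb hrb
  have hxM : |x| ≤ M := by
    refine hxb.trans ?_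
    rw [hM]
    have : m ^ 2 ≤ k ^ 2 := by (clear * - hm0 hm; gcongr)
    (clear * - hm hC this hδ1 hR0; gcongr)
  have hxS : |x| ≤ S * (m + δ) := by
    refine hxb.trans ?_
    rw [hS]
    have h5 : m ^ 2 ≤ k * m := by
      calc m ^ 2 = m * m := by ring
        _ ≤ k * m := by (clear * - hm hm0; gcongr)
    have h6 : C * m ≤ C * (m + δ) := by gcongr; linarith only [hδ0]
    have h7 : R * (m ^ 2 + δ) ≤ R * ((k + 1) * (m + δ)) := by
      gcongr
      have h8 : (k + 1) * (m + δ) = k * m + δ + (m + k * δ) := by ring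
      have h9 : 0 ≤ k * δ := by (clear * - hk0 hδ0; positivity)
      rw [h8]
      linarith only [hm0, h5, h9]
    have h8 : (C + R * (k + 1)) * (m + δ) = C * (m + δ) + R * ((k + 1) * (m + δ)) := by ring
    rw [h8]
    exact add_le_add h6 h7
  have hx3 : |x| ^ 3 ≤ 4 * S ^ 3 * (δ ^ 2 + δ * m + m ^ 3) := by
    calc |x| ^ 3 ≤ (S * (m + δ)) ^ 3 := by (clear * - hxS; gcongr)
      _ = S ^ 3 * (m + δ) ^ 3 := by ring
      _ ≤ S ^ 3 * (4 * (δ ^ 2 + δ * m + m ^ 3)) := by (clear * - hcube hS0; gcongr)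
      _ = _ := by ring
  have hexp : Real.exp |x| ≤ Real.exp M := Real.exp_le_exp.2 hxM
  have hlast : |x| ^ 3 * Real.exp |x| ≤ 4 * S ^ 3 * Real.exp M * (δ ^ 2 + δ * m + m ^ 3) := by
    calc |x| ^ 3 * Real.exp |x| ≤ (4 * S ^ 3 * (δ ^ 2 + δ * m + m ^ 3)) * Real.exp M :=
          mul_le_mul hx3 hexp (Real.exp_pos _).le (by (clear * - hS0 hδ0 hm0; positivity))
      _ = _ := by ring
  have hq := exp_le_quad_cubic x
  have hyx : Real.exp y ≤ Real.exp x := Real.exp_le_exp.2 hy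
  have hfin : 1 - η * b1 + η ^ 2 / 2 * (b2 + b1 ^ 2) + δ * (b3 - κ / 2 * b2 + b4) +
      (2 * C + C * R + R ^ 2 * (k + 1) + 4 * S ^ 3 * Real.exp M) * (δ ^ 2 + δ * m + m ^ 3) =
      1 + x + (η ^ 2 * b1 ^ 2 + 2 * (C * R + R ^ 2 * (k + 1)) * (δ ^ 2 + δ * m + m ^ 3)) / 2 +
        4 * S ^ 3 * Real.exp M * (δ ^ 2 + δ * m + m ^ 3) := by
    rw [hx, hr]
    ring
  rw [hfin]
  linarith only [hx2, hlast, hq, hyx]

/-- The polynomial majorant is nonnegative off the good event too. -/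
lemma estep_large {C κ ϰ : ℝ} (hC : 0 < C) (hκ : 0 < κ) (hϰ : 0 < ϰ) :
    ∃ C' : ℝ, 0 < C' ∧ ∀ (b1 b2 b3 b4 η m δ : ℝ), |b1| ≤ C → |b2| ≤ C → |b3| ≤ C → |b4| ≤ C →
      |η| ≤ m → 0 ≤ δ → δ ≤ 1 → ϰ / 8 < m →
      0 ≤ 1 - η * b1 + η ^ 2 / 2 * (b2 + b1 ^ 2) + δ * (b3 - κ / 2 * b2 + b4) +
        C' * (δ ^ 2 + δ * m + m ^ 3) := by
  obtain ⟨k, hk⟩ : ∃ k, k = ϰ / 8 := ⟨_, rfl⟩
  have hk0 : 0 < k := by rw [hk]; positivity
  refine ⟨C / k ^ 2 + (C + C ^ 2) / k + C * (2 + κ / 2) / k ^ 3, by (clear * - hC hk0 hκ; positivity), ?_⟩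
  intro b1 b2 b3 b4 η m δ h1 h2 h3 h4 hη hδ0 hδ1 hm
  rw [← hk] at hm
  have hm0 : 0 < m := hk0.trans hm
  have hη2 : η ^ 2 ≤ m ^ 2 := by
    rw [← sq_abs]
    (clear * - hη; gcongr)
  have hmk : 1 ≤ m / k := by rw [one_le_div hk0]; exact hm.le
  have t1 : η * b1 ≤ C / k ^ 2 * m ^ 3 := by
    calc η * b1 ≤ |η * b1| := le_abs_self _
      _ = |η| * |b1| := abs_mul _ _
      _ ≤ m * C := by (clear * - hη h1 hm0; gcongr)
      _ = C * m * 1 ^ 2 := by ring
      _ ≤ C * m * (m / k) ^ 2 := by (clear * - hmk hC hm0; gcongr)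
      _ = _ := by (clear * - hk0 hm0 hC; field_simp)
  have t2 : -(η ^ 2 / 2 * (b2 + b1 ^ 2)) ≤ (C + C ^ 2) / k * m ^ 3 := by
    have h5 : |b2 + b1 ^ 2| ≤ C + C ^ 2 := by
      refine (abs_add_le _ _).trans ?_
      rw [abs_pow]
      gcongr
    calc -(η ^ 2 / 2 * (b2 + b1 ^ 2)) ≤ |η ^ 2 / 2 * (b2 + b1 ^ 2)| := neg_le_abs _
      _ = η ^ 2 / 2 * |b2 + b1 ^ 2| := by rw [abs_mul, abs_of_nonneg (by (clear * -; positivity))]
      _ ≤ m ^ 2 / 2 * (C + C ^ 2) := by (clear * - hη2 h5 hm0; gcongr)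
      _ ≤ m ^ 2 * (C + C ^ 2) := by
          have : 0 ≤ m ^ 2 * (C + C ^ 2) := by positivity
          linarith only [this]
      _ = m ^ 2 * (C + C ^ 2) * 1 := by ring
      _ ≤ m ^ 2 * (C + C ^ 2) * (m / k) := by (clear * - hmk hm0 hC; gcongr)
      _ = _ := by (clear * - hk0 hC hm0; field_simp)
  have t3 : -(δ * (b3 - κ / 2 * b2 + b4)) ≤ C * (2 + κ / 2) / k ^ 3 * m ^ 3 := by
    have t3 : |b3 - κ / 2 * b2 + b4| ≤ C * (2 + κ / 2) := by
      have t4 : |κ / 2 * b2| ≤ κ / 2 * C := by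
        rw [abs_mul, abs_of_pos (by positivity : 0 < κ / 2)]
        gcongr
      have t5 := abs_add_le (b3 - κ / 2 * b2) b4
      have t6 := abs_sub b3 (κ / 2 * b2)
      have t7 : C * (2 + κ / 2) = C + κ / 2 * C + C := by ring
      rw [t7]
      linarith only [h3, h4, t4, t5, t6]
    calc -(δ * (b3 - κ / 2 * b2 + b4)) ≤ |δ * (b3 - κ / 2 * b2 + b4)| := neg_le_abs _
      _ = δ * |b3 - κ / 2 * b2 + b4| := by rw [abs_mul, abs_of_nonneg hδ0]
      _ ≤ 1 * (C * (2 + κ / 2)) := by (clear * - hδ1 t3; gcongr)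
      _ = C * (2 + κ / 2) * 1 ^ 3 := by ring
      _ ≤ C * (2 + κ / 2) * (m / k) ^ 3 := by (clear * - hmk hC hκ; gcongr)
      _ = _ := by (clear * - hk0 hm0 hκ hC; field_simp)
  have t4 : (C / k ^ 2 + (C + C ^ 2) / k + C * (2 + κ / 2) / k ^ 3) * m ^ 3 ≤
      (C / k ^ 2 + (C + C ^ 2) / k + C * (2 + κ / 2) / k ^ 3) * (δ ^ 2 + δ * m + m ^ 3) := by
    gcongr
    have : 0 ≤ δ ^ 2 + δ * m := by (clear * - hδ0 hm0; positivity)
    linarith only [this]
  linarith only [t1, t2, t3, t4]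

lemma estep_poly {C κ ϰ : ℝ} (hC : 0 < C) (hκ : 0 < κ) (hϰ : 0 < ϰ) :
    ∃ C' : ℝ, 0 < C' ∧ ∀ (b1 b2 b3 b4 η m δ : ℝ), |b1| ≤ C → |b2| ≤ C → |b3| ≤ C → |b4| ≤ C →
      |η| ≤ m → 0 ≤ δ → δ ≤ 1 →
      0 ≤ 1 - η * b1 + η ^ 2 / 2 * (b2 + b1 ^ 2) + δ * (b3 - κ / 2 * b2 + b4) +
        C' * (δ ^ 2 + δ * m + m ^ 3) ∧
      ∀ y, m ≤ ϰ / 8 →
      y ≤ -η * b1 + (η ^ 2 / 2 * b2 + δ * (b3 - κ / 2 * b2 + b4) +
        2 * C * (δ ^ 2 + δ * m + m ^ 3)) →
      Real.exp y ≤ 1 - η * b1 + η ^ 2 / 2 * (b2 + b1 ^ 2) + δ * (b3 - κ / 2 * b2 + b4) +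
        C' * (δ ^ 2 + δ * m + m ^ 3) := by
  obtain ⟨C₁, hC₁, H₁⟩ := estep_small hC hκ hϰ
  obtain ⟨C₂, hC₂, H₂⟩ := estep_large hC hκ hϰ
  refine ⟨C₁ + C₂, by (clear * - hC₁ hC₂; positivity), ?_⟩
  intro b1 b2 b3 b4 η m δ h1 h2 h3 h4 hη hδ0 hδ1
  have hm0 : 0 ≤ m := (abs_nonneg _).trans hη
  have he0 : 0 ≤ δ ^ 2 + δ * m + m ^ 3 := by (clear * - hδ0 hm0; positivity)
  have e1 : 0 ≤ C₁ * (δ ^ 2 + δ * m + m ^ 3) := by positivity
  have e2 : 0 ≤ C₂ * (δ ^ 2 + δ * m + m ^ 3) := by (clear * - hC₂ hδ0 hm0; positivity)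
  have hs : ∀ y, m ≤ ϰ / 8 →
      y ≤ -η * b1 + (η ^ 2 / 2 * b2 + δ * (b3 - κ / 2 * b2 + b4) +
        2 * C * (δ ^ 2 + δ * m + m ^ 3)) →
      Real.exp y ≤ 1 - η * b1 + η ^ 2 / 2 * (b2 + b1 ^ 2) + δ * (b3 - κ / 2 * b2 + b4) +
        (C₁ + C₂) * (δ ^ 2 + δ * m + m ^ 3) := by
    intro y hm hy
    have := H₁ b1 b2 b3 b4 η m δ y h1 h2 h3 h4 hη hδ0 hδ1 hm hy
    rw [add_mul]
    linarith only [e2, this]
  refine ⟨?_, hs⟩
  rcases le_or_gt m (ϰ / 8) with hm | hm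
  · exact (Real.exp_pos _).le.trans (hs _ hm le_rfl)
  · have := H₂ b1 b2 b3 b4 η m δ h1 h2 h3 h4 hη hδ0 hδ1 hm
    rw [add_mul]
    linarith

/-- Abstract one-step inequality: expectation of the polynomial majorant. -/
lemma estep_expect {κ C C' c₁ c₃ : ℝ} (hκ : 0 < κ) (hC' : 0 < C')
    {Ω : Type*} [MeasurableSpace Ω] {P : Measure Ω}
    {W : ℝ → Ω → ℝ} (hW : IsDrv κ P W) {t δ : ℝ} (ht : 0 ≤ t) (hδ : 0 < δ) (hδ1 : δ ≤ 1)
    (ho1 : Integrable (fun ω => osc W t δ ω) P) (ho1' : ∫ ω, osc W t δ ω ∂P ≤ c₁ * √δ)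
    (ho3 : Integrable (fun ω => osc W t δ ω ^ 3) P)
    (ho3' : ∫ ω, osc W t δ ω ^ 3 ∂P ≤ c₃ * √δ ^ 3)
    {g b1 b2 b3 b4 : Ω → ℝ} {B : ℝ} (hg0 : ∀ ω, 0 ≤ g ω) (hgB : ∀ ω, g ω ≤ B)
    (mg : Measurable[past W t] g) (m1 : Measurable[past W t] b1)
    (m2 : Measurable[past W t] b2) (m3 : Measurable[past W t] b3) (m4 : Measurable[past W t] b4)
    (h1 : ∀ ω, |b1 ω| ≤ C) (h2 : ∀ ω, |b2 ω| ≤ C) (h3 : ∀ ω, |b3 ω| ≤ C)
    (h4 : ∀ ω, |b4 ω| ≤ C) (hH : ∀ ω, b3 ω + b4 ω + κ / 2 * b1 ω ^ 2 ≤ 0) :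
    Integrable (fun ω => g ω * (1 - (W (t + δ) ω - W t ω) * b1 ω +
      (W (t + δ) ω - W t ω) ^ 2 / 2 * (b2 ω + b1 ω ^ 2) + δ * (b3 ω - κ / 2 * b2 ω + b4 ω) +
        C' * (δ ^ 2 + δ * osc W t δ ω + osc W t δ ω ^ 3))) P ∧
    ∫ ω, g ω * (1 - (W (t + δ) ω - W t ω) * b1 ω +
      (W (t + δ) ω - W t ω) ^ 2 / 2 * (b2 ω + b1 ω ^ 2) + δ * (b3 ω - κ / 2 * b2 ω + b4 ω) +
        C' * (δ ^ 2 + δ * osc W t δ ω + osc W t δ ω ^ 3)) ∂P ≤
      (1 + C' * (1 + c₁ + c₃) * δ * √δ) * ∫ ω, g ω ∂P := by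
  have := hW.prob
  have hple : past W t ≤ _ := hW.past_le (t := t)
  -- measurability
  have iB : ∀ {f : Ω → ℝ} {K : ℝ}, Measurable[past W t] f → (∀ ω, |f ω| ≤ K) →
      Integrable f P := by
    intro f K hf hK
    exact Integrable.of_bound (hf.mono hple le_rfl).aestronglyMeasurable K
      (Eventually.of_forall hK)
  have ig : Integrable g P := iB mg (K := B) fun ω => by
    rw [abs_of_nonneg (hg0 ω)]; exact hgB ω
  have mgb1 : Measurable[past W t] (fun ω => g ω * b1 ω) := mg.mul m1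
  have mgq : Measurable[past W t] (fun ω => g ω * (b2 ω + b1 ω ^ 2)) :=
    mg.mul (m2.add (m1.pow_const 2))
  have mgr : Measurable[past W t] (fun ω => g ω * (b3 ω - κ / 2 * b2 ω + b4 ω)) :=
    mg.mul ((m3.sub (m2.const_mul _)).add m4)
  have hgabs : ∀ ω, |g ω| ≤ B := fun ω => by rw [abs_of_nonneg (hg0 ω)]; exact hgB ω
  have igb1 : Integrable (fun ω => g ω * b1 ω) P := iB mgb1 (K := B * C) fun ω => by
    rw [abs_mul]
    exact mul_le_mul (hgabs ω) (h1 ω) (abs_nonneg _) ((abs_nonneg _).trans (hgabs ω))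
  have igq : Integrable (fun ω => g ω * (b2 ω + b1 ω ^ 2)) P :=
    iB mgq (K := B * (C + C ^ 2)) fun ω => by
      rw [abs_mul]
      refine mul_le_mul (hgabs ω) ?_ (abs_nonneg _) ((abs_nonneg _).trans (hgabs ω))
      refine (abs_add_le _ _).trans ?_
      rw [abs_pow]
      have := h1 ω
      exact add_le_add (h2 ω) (by (clear * - this; gcongr))
  have igr : Integrable (fun ω => g ω * (b3 ω - κ / 2 * b2 ω + b4 ω)) P :=
    iB mgr (K := B * (C + κ / 2 * C + C)) fun ω => by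
      rw [abs_mul]
      refine mul_le_mul (hgabs ω) ?_ (abs_nonneg _) ((abs_nonneg _).trans (hgabs ω))
      refine (abs_add_le _ _).trans (add_le_add ?_ (h4 ω))
      refine (abs_sub _ _).trans (add_le_add (h3 ω) ?_)
      rw [abs_mul, abs_of_pos (by positivity : 0 < κ / 2)]
      have := h2 ω
      (clear * - this hκ; gcongr)
  -- the moments of the increment
  obtain ⟨iη, eη⟩ := IsDrv.incr_integral hκ hW ht hδ.le
  obtain ⟨iη2, eη2⟩ := IsDrv.incr_sq_integral hκ hW ht hδ.le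
  have mη : Measurable[fut W t] (fun ω => W (t + δ) ω - W t ω) := IsDrv.meas_incr hδ.le
  have mη2 : Measurable[fut W t] (fun ω => (W (t + δ) ω - W t ω) ^ 2) := mη.pow_const 2
  have mo : Measurable[fut W t] (osc W t δ) := hW.meas_osc hδ.le
  have mo3 : Measurable[fut W t] (fun ω => osc W t δ ω ^ 3) := mo.pow_const 3
  obtain ⟨i1, e1⟩ := hW.integral_mul_fut ht mgb1 mη igb1 iη
  obtain ⟨i2, e2⟩ := hW.integral_mul_fut ht mgq mη2 igq iη2
  obtain ⟨i3, e3⟩ := hW.integral_mul_fut ht mg mo ig ho1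
  obtain ⟨i4, e4⟩ := hW.integral_mul_fut ht mg mo3 ig ho3
  rw [eη, mul_zero] at e1
  rw [eη2] at e2
  -- the identity
  have hid : (fun ω => g ω * (1 - (W (t + δ) ω - W t ω) * b1 ω +
      (W (t + δ) ω - W t ω) ^ 2 / 2 * (b2 ω + b1 ω ^ 2) + δ * (b3 ω - κ / 2 * b2 ω + b4 ω) +
        C' * (δ ^ 2 + δ * osc W t δ ω + osc W t δ ω ^ 3))) =
      fun ω => (1 + C' * δ ^ 2) * g ω - (g ω * b1 ω) * (W (t + δ) ω - W t ω) +
        (1 / 2) * ((g ω * (b2 ω + b1 ω ^ 2)) * (W (t + δ) ω - W t ω) ^ 2) +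
        δ * (g ω * (b3 ω - κ / 2 * b2 ω + b4 ω)) +
        C' * δ * (g ω * osc W t δ ω) + C' * (g ω * osc W t δ ω ^ 3) := by
    funext ω
    ring
  have j0 := ig.const_mul (1 + C' * δ ^ 2)
  have j2 := i2.const_mul (1 / 2)
  have j3 := igr.const_mul δ
  have j4 := i3.const_mul (C' * δ)
  have j5 := i4.const_mul C'
  have k1 : Integrable (fun ω => (1 + C' * δ ^ 2) * g ω -
      (g ω * b1 ω) * (W (t + δ) ω - W t ω)) P := j0.sub i1
  have k2 : Integrable (fun ω => (1 + C' * δ ^ 2) * g ω -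
      (g ω * b1 ω) * (W (t + δ) ω - W t ω) +
      (1 / 2) * ((g ω * (b2 ω + b1 ω ^ 2)) * (W (t + δ) ω - W t ω) ^ 2)) P := k1.add j2
  have k3 : Integrable (fun ω => (1 + C' * δ ^ 2) * g ω -
      (g ω * b1 ω) * (W (t + δ) ω - W t ω) +
      (1 / 2) * ((g ω * (b2 ω + b1 ω ^ 2)) * (W (t + δ) ω - W t ω) ^ 2) +
      δ * (g ω * (b3 ω - κ / 2 * b2 ω + b4 ω))) P := k2.add j3
  have k4 : Integrable (fun ω => (1 + C' * δ ^ 2) * g ω -
      (g ω * b1 ω) * (W (t + δ) ω - W t ω) +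
      (1 / 2) * ((g ω * (b2 ω + b1 ω ^ 2)) * (W (t + δ) ω - W t ω) ^ 2) +
      δ * (g ω * (b3 ω - κ / 2 * b2 ω + b4 ω)) + C' * δ * (g ω * osc W t δ ω)) P := k3.add j4
  rw [hid]
  refine ⟨k4.add j5, ?_⟩
  rw [integral_add k4 j5, integral_add k3 j4, integral_add k2 j3, integral_add k1 j2,
    integral_sub j0 i1, integral_const_mul, integral_const_mul, integral_const_mul,
    integral_const_mul, integral_const_mul, e1, e2, e3, e4]
  -- the drift is nonpositive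
  have hdrift : 1 / 2 * ((∫ ω, g ω * (b2 ω + b1 ω ^ 2) ∂P) * (κ * δ)) +
      δ * ∫ ω, g ω * (b3 ω - κ / 2 * b2 ω + b4 ω) ∂P ≤ 0 := by
    have h5 : 1 / 2 * ((∫ ω, g ω * (b2 ω + b1 ω ^ 2) ∂P) * (κ * δ)) +
      δ * ∫ ω, g ω * (b3 ω - κ / 2 * b2 ω + b4 ω) ∂P =
      δ * ∫ ω, g ω * (b3 ω + b4 ω + κ / 2 * b1 ω ^ 2) ∂P := by
      have h6 : ∫ ω, g ω * (b3 ω + b4 ω + κ / 2 * b1 ω ^ 2) ∂P =
          κ / 2 * (∫ ω, g ω * (b2 ω + b1 ω ^ 2) ∂P) +
            ∫ ω, g ω * (b3 ω - κ / 2 * b2 ω + b4 ω) ∂P := by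
        rw [← integral_const_mul, ← integral_add (igq.const_mul _) igr]
        refine integral_congr_ae (Eventually.of_forall fun ω => ?_)
        simp only
        ring
      rw [h6]
      ring
    rw [h5]
    refine mul_nonpos_of_nonneg_of_nonpos hδ.le ?_
    exact integral_nonpos fun ω => mul_nonpos_of_nonneg_of_nonpos (hg0 ω) (hH ω)
  have hG0 : 0 ≤ ∫ ω, g ω ∂P := integral_nonneg hg0
  obtain ⟨G, hG⟩ : ∃ G, G = ∫ ω, g ω ∂P := ⟨_, rfl⟩
  rw [← hG] at hG0 ⊢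
  have hsq : √δ ^ 2 = δ := Real.sq_sqrt hδ.le
  have hs0 : 0 ≤ √δ := Real.sqrt_nonneg _
  have hs1 : √δ ≤ 1 := Real.sqrt_le_one.2 hδ1
  have hδ2 : δ ^ 2 ≤ δ * √δ := by
    have h7 : δ ≤ √δ := by
      calc δ = √δ * √δ := by rw [← sq, hsq]
        _ ≤ √δ * 1 := by (clear * - hs1 hδ; gcongr)
        _ = √δ := mul_one _
    calc δ ^ 2 = δ * δ := sq δ
      _ ≤ δ * √δ := by (clear * - h7 hδ; gcongr)
  have hcube : √δ ^ 3 = δ * √δ := by
    calc √δ ^ 3 = √δ ^ 2 * √δ := by ring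
      _ = δ * √δ := by rw [hsq]
  rw [hcube] at ho3'
  have f1 : C' * δ ^ 2 * G ≤ C' * (δ * √δ) * G := by (clear * - hδ2 hC' hG0; gcongr)
  have f2 : C' * δ * (G * ∫ ω, osc W t δ ω ∂P) ≤ C' * δ * (G * (c₁ * √δ)) := by (clear * - ho1' hG0 hC' hδ; gcongr)
  have f3 : C' * (G * ∫ ω, osc W t δ ω ^ 3 ∂P) ≤ C' * (G * (c₃ * (δ * √δ))) := by (clear * - ho3' hG0 hC'; gcongr)
  have f4 : (1 + C' * (1 + c₁ + c₃) * δ * √δ) * G = G + C' * (δ * √δ) * G +
      C' * δ * (G * (c₁ * √δ)) + C' * (G * (c₃ * (δ * √δ))) := by ring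
  have f5 : (1 + C' * δ ^ 2) * G = G + C' * δ ^ 2 * G := by ring
  rw [f4, f5]
  linarith only [hdrift, f1, f2, f3]

end Vale.Agent.P164
end

section

/-!
# Exponential supermartingales of fields
-/

namespace Vale.Agent.P164

open Set Metric Filter Topology MeasureTheory ProbabilityTheory
open scoped NNReal ENNReal

end Vale.Agent.P164
end

section

/-!
# Exponential bound for the increments of the content between two levels
-/

namespace Vale.Agent.P164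

open Set Metric Filter Topology MeasureTheory ProbabilityTheory
open scoped NNReal ENNReal

end Vale.Agent.P164
end

section

/-!
# Abstract chaining and layer-cake lemmas (helper806)
-/

namespace Vale.Agent.P164.H806

open Set Metric Filter Topology MeasureTheory ProbabilityTheory
open scoped NNReal ENNReal

end Vale.Agent.P164.H806
end

section

/-!
# The tail of the content of a disc
-/

namespace Vale.Agent.P164

open Set Metric Filter Topology MeasureTheory ProbabilityTheory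
open scoped NNReal ENNReal

namespace H806

/-- Measurability of the content. -/
theorem mu_meas {κ : ℝ} {Ω : Type*} [MeasurableSpace Ω] {P : Measure Ω} {W : ℝ → Ω → ℝ}
    (hW : IsDrv κ P W) (r : ℝ) (D : Set ℂ) {t₀ T : ℝ} (ht₀ : 0 ≤ t₀) (htT : t₀ ≤ T) :
    Measurable fun ω => mu κ r (fun u => W u ω) D t₀ T := by
  have h := (fieldint_past' hW.cont hW.meas (aR_measurable κ r) ht₀ htT D).mono
    hW.past_le le_rfl
  exact h

end H806

end Vale.Agent.P164
end
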