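import Vale.Agent.P164.MathlibUsed
import Vale.Agent.P164.Bdl.B7
import Vale.Agent.P164.Bdl.B2
import Vale.Agent.P164.Bdl.B10
import Vale.Agent.P164.Bdl.B4
import Vale.Agent.P164.Bdl.B5

set_option linter.all false

section

/-!
# Expected mass of an overcharged disc after the approach, second moment
-/

namespace Vale.Agent.P164

open Set Metric Filter Topology MeasureTheory ProbabilityTheory
open scoped NNReal ENNReal

end Vale.Agent.P164
end

section

/-!
# One step of the tube for the driving function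
-/

namespace Vale.Agent.P164

open Set Metric Filter Topology MeasureTheory ProbabilityTheory
open scoped NNReal ENNReal

/-- Markov's inequality for the oscillation. -/
lemma BMStep_markov {κ : ℝ} {Ω : Type*} [MeasurableSpace Ω] {P : Measure Ω} {W : ℝ → Ω → ℝ}
    (hW : IsDrv κ P W) {s a τ C : ℝ} (ha : 0 < a) (hτ : 0 ≤ τ) (k : ℕ)
    (hi : Integrable (fun ω => osc W s τ ω ^ k) P)
    (hC : ∫ ω, osc W s τ ω ^ k ∂P ≤ C * √τ ^ k) :
    P {ω | a < osc W s τ ω} ≤ ENNReal.ofReal (C * √τ ^ k / a ^ k) := by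
  have := hW.prob
  have h1 := mul_meas_ge_le_integral_of_nonneg
    (ae_of_all P fun ω => pow_nonneg (hW.osc_nonneg (t := s) hτ ω) k) hi (a ^ k)
  have h2 : P.real {ω | a < osc W s τ ω} ≤ P.real {ω | a ^ k ≤ osc W s τ ω ^ k} := by
    refine measureReal_mono ?_ (measure_ne_top _ _)
    intro ω hω
    exact pow_le_pow_left₀ ha.le (le_of_lt hω) k
  have hak : 0 < a ^ k := pow_pos ha k
  have h3 : P.real {ω | a < osc W s τ ω} ≤ C * √τ ^ k / a ^ k := by
    rw [le_div_iff₀ hak]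
    calc P.real {ω | a < osc W s τ ω} * a ^ k
        ≤ P.real {ω | a ^ k ≤ osc W s τ ω ^ k} * a ^ k :=
          mul_le_mul_of_nonneg_right h2 hak.le
      _ = a ^ k * P.real {ω | a ^ k ≤ osc W s τ ω ^ k} := mul_comm _ _
      _ ≤ _ := h1.trans hC
  rw [← ofReal_measureReal (μ := P) (s := {ω | a < osc W s τ ω}) (measure_ne_top _ _)]
  exact ENNReal.ofReal_le_ofReal h3

/-- The standard Gaussian charges `{1 ≤ σ x ≤ 2}`. -/
lemma BMStep_gauss_pos (σ : ℝ) (hσ : σ = 1 ∨ σ = -1) :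
    gaussianReal 0 1 {x | 1 ≤ σ * x ∧ σ * x ≤ 2} ≠ 0 := by
  intro h
  have h1 : volume {x : ℝ | 1 ≤ σ * x ∧ σ * x ≤ 2} = 0 :=
    gaussianReal_absolutelyContinuous' 0 one_ne_zero h
  rcases hσ with rfl | rfl
  · have e : {x : ℝ | 1 ≤ 1 * x ∧ 1 * x ≤ 2} = Icc 1 2 := by
      ext x
      simp only [one_mul, mem_ofPred_eq, mem_Icc]
    rw [e, Real.volume_Icc] at h1
    norm_num at h1
  · have e : {x : ℝ | 1 ≤ -1 * x ∧ -1 * x ≤ 2} = Icc (-2) (-1) := by
      ext x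
      simp only [mem_ofPred_eq, mem_Icc]
      constructor
      · rintro ⟨h2, h3⟩
        constructor <;> linarith only [h2, h3]
      · rintro ⟨h2, h3⟩
        constructor <;> linarith
    rw [e, Real.volume_Icc] at h1
    norm_num at h1

lemma BMStep_gauss_unif : ∃ c : ℝ, 0 < c ∧ ∀ σ : ℝ, σ = 1 ∨ σ = -1 →
    ENNReal.ofReal c ≤ gaussianReal 0 1 {x | 1 ≤ σ * x ∧ σ * x ≤ 2} := by
  have h1 := BMStep_gauss_pos 1 (Or.inl rfl)
  have h2 := BMStep_gauss_pos (-1) (Or.inr rfl)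
  set m := min (gaussianReal 0 1 {x | 1 ≤ 1 * x ∧ 1 * x ≤ (2 : ℝ)})
    (gaussianReal 0 1 {x | 1 ≤ -1 * x ∧ -1 * x ≤ (2 : ℝ)}) with hm
  have hm0 : m ≠ 0 := by
    rcases min_choice (gaussianReal 0 1 {x | 1 ≤ 1 * x ∧ 1 * x ≤ (2 : ℝ)})
      (gaussianReal 0 1 {x | 1 ≤ -1 * x ∧ -1 * x ≤ (2 : ℝ)}) with h | h
    · rw [hm, h]
      exact h1
    · rw [hm, h]
      exact h2
  have hmt : m ≠ ∞ := ne_top_of_le_ne_top (measure_ne_top _ _) (min_le_left _ _)
  refine ⟨m.toReal, ENNReal.toReal_pos hm0 hmt, ?_⟩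
  rintro σ (rfl | rfl)
  · rw [ENNReal.ofReal_toReal hmt]
    exact min_le_left _ _
  · rw [ENNReal.ofReal_toReal hmt]
    exact min_le_right _ _

/-- The increment is of order `a` in the given direction with probability bounded below. -/
lemma BMStep_incr {κ c : ℝ} (hκ : 0 < κ)
    (hc : ∀ σ : ℝ, σ = 1 ∨ σ = -1 →
      ENNReal.ofReal c ≤ gaussianReal 0 1 {x | 1 ≤ σ * x ∧ σ * x ≤ 2})
    {Ω : Type*} [MeasurableSpace Ω] {P : Measure Ω} {W : ℝ → Ω → ℝ} (hW : IsDrv κ P W)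
    {s a τ σ : ℝ} (hs : 0 ≤ s) (ha : 0 < a) (h1 : a ^ 2 / (2 * κ) ≤ τ) (h2 : τ ≤ a ^ 2 / κ)
    (hσ : σ = 1 ∨ σ = -1) :
    ENNReal.ofReal c ≤ P {ω | a / 2 ≤ σ * (W (s + τ) ω - W s ω) ∧
        σ * (W (s + τ) ω - W s ω) ≤ 2 * a} := by
  have hτ : 0 ≤ τ := le_trans (by (clear * - ha hκ; positivity)) h1
  have hlaw := hW.law_incr (t := s) (δ := τ) hs hτ
  have hmm : Measurable fun ω => W (s + τ) ω - W s ω := (hW.meas _).sub (hW.meas _)
  have hms : MeasurableSet {x : ℝ | a / 2 ≤ σ * x ∧ σ * x ≤ 2 * a} :=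
    (measurableSet_le measurable_const (measurable_const.mul measurable_id)).inter
      (measurableSet_le (measurable_const.mul measurable_id) measurable_const)
  have e1 : P {ω | a / 2 ≤ σ * (W (s + τ) ω - W s ω) ∧
        σ * (W (s + τ) ω - W s ω) ≤ 2 * a} =
      gaussianReal 0 (κ * τ).toNNReal {x : ℝ | a / 2 ≤ σ * x ∧ σ * x ≤ 2 * a} := by
    rw [← hlaw, Measure.map_apply hmm hms]
    rfl
  have hv1 : a ^ 2 / 2 ≤ κ * τ := by
    rw [div_le_iff₀ (by positivity)] at h1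
    linarith only [h1]
  have hv2 : κ * τ ≤ a ^ 2 := by
    rw [le_div_iff₀ hκ] at h2
    linarith only [h2]
  set r := √(κ * τ) with hr
  have hr0 : 0 < r := Real.sqrt_pos.mpr (lt_of_lt_of_le (by positivity) hv1)
  have hrsq : r ^ 2 = κ * τ := Real.sq_sqrt (by (clear * - hκ hτ; positivity))
  have hra : r ≤ a := by
    rw [← abs_of_pos hr0, ← abs_of_pos ha, ← sq_le_sq, hrsq]
    exact hv2
  have har : a ≤ 2 * r := by
    have h3 : a ^ 2 ≤ (2 * r) ^ 2 := by
      rw [mul_pow, hrsq]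
      have : 0 ≤ κ * τ := by (clear * - hκ hτ; positivity)
      linarith only [hv1, hv2]
    exact (pow_le_pow_iff_left₀ ha.le (by (clear * - hr0; positivity)) two_ne_zero).mp h3
  have e2 : gaussianReal 0 (κ * τ).toNNReal = (gaussianReal 0 1).map (r * ·) := by
    rw [gaussianReal_map_const_mul]
    congr 1
    · simp
    · rw [mul_one]
      ext
      rw [Real.coe_toNNReal _ (by (clear * - hκ hτ; positivity))]
      simp only [NNReal.coe_mk]
      exact hrsq.symm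
  rw [e1, e2, Measure.map_apply (by fun_prop) hms]
  refine (hc σ hσ).trans (measure_mono ?_)
  rintro x ⟨h3, h4⟩
  change a / 2 ≤ σ * (r * x) ∧ σ * (r * x) ≤ 2 * a
  have e3 : σ * (r * x) = r * (σ * x) := by ring
  rw [e3]
  constructor
  · nlinarith only [hr0, har, h3]
  · nlinarith only [hr0, hra, h4]

theorem bm_step {κ : ℝ} (hκ : 0 < κ) :
    ∃ c lam₀ : ℝ, 0 < c ∧ 1 ≤ lam₀ ∧ ∀ {lam : ℝ} (_ : lam₀ ≤ lam) {Ω : Type*}
      [MeasurableSpace Ω] {P : Measure Ω} {W : ℝ → Ω → ℝ} (_ : IsDrv κ P W)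
      {s a τ σ : ℝ} (_ : 0 ≤ s) (_ : 0 < a) (_ : a ^ 2 / (2 * κ) ≤ τ) (_ : τ ≤ a ^ 2 / κ)
      (_ : σ = 1 ∨ σ = -1) {A : Set Ω} (_ : MeasurableSet[past W s] A),
      ENNReal.ofReal c * P A ≤ P (A ∩ {ω | a / 2 ≤ σ * (W (s + τ) ω - W s ω) ∧
        σ * (W (s + τ) ω - W s ω) ≤ 2 * a ∧ osc W s τ ω ≤ lam * a}) := by
  obtain ⟨c₁, hc₁, hc⟩ := BMStep_gauss_unif
  obtain ⟨C, hC, hCm⟩ := osc_moment κ hκ 2
  refine ⟨c₁ / 2, max 1 √(2 * C / (κ * c₁)), by positivity, le_max_left _ _, ?_⟩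
  intro lam hlam Ω _ P W hW s a τ σ hs ha h1 h2 hσ A hA
  have hlam1 : 1 ≤ lam := (le_max_left _ _).trans hlam
  have hlam2 : √(2 * C / (κ * c₁)) ≤ lam := (le_max_right _ _).trans hlam
  have hlamsq : 2 * C / (κ * c₁) ≤ lam ^ 2 := by
    rw [← Real.sq_sqrt (show 0 ≤ 2 * C / (κ * c₁) by positivity)]
    exact pow_le_pow_left₀ (Real.sqrt_nonneg _) hlam2 2
  have hτ : 0 ≤ τ := le_trans (by positivity) h1
  have := hW.prob
  set E : Set Ω := {ω | a / 2 ≤ σ * (W (s + τ) ω - W s ω) ∧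
    σ * (W (s + τ) ω - W s ω) ≤ 2 * a} with hE
  set F : Set Ω := {ω | lam * a < osc W s τ ω} with hF
  have hEF : {ω | a / 2 ≤ σ * (W (s + τ) ω - W s ω) ∧
        σ * (W (s + τ) ω - W s ω) ≤ 2 * a ∧ osc W s τ ω ≤ lam * a} = E \ F := by
    ext ω
    simp only [hE, hF, mem_ofPred_eq, Set.mem_sdiff, not_lt, and_assoc]
  have hPE : ENNReal.ofReal c₁ ≤ P E := BMStep_incr hκ hc hW hs ha h1 h2 hσ
  have hPF : P F ≤ ENNReal.ofReal (c₁ / 2) := by
    obtain ⟨hi, hm⟩ := hCm hW s τ hs hτ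
    refine (BMStep_markov hW (by (clear * - hlam1 ha; positivity)) hτ 2 hi hm).trans (ENNReal.ofReal_le_ofReal ?_)
    rw [Real.sq_sqrt hτ, mul_pow, div_le_iff₀ (by (clear * - hlam1 ha; positivity))]
    have h3 : C * τ ≤ C * (a ^ 2 / κ) := mul_le_mul_of_nonneg_left h2 hC.le
    have h4 : C * (a ^ 2 / κ) = c₁ / 2 * (2 * C / (κ * c₁) * a ^ 2) := by
      (clear * - hc₁ hκ ha hC; field_simp)
    rw [h4] at h3
    refine h3.trans ?_
    (clear * - hlamsq ha hc₁; gcongr)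
  have mE : MeasurableSet[fut W s] E := by
    have h3 : Measurable[fut W s] (fun ω => W (s + τ) ω - W s ω) := IsDrv.meas_incr hτ
    exact (measurableSet_le measurable_const (h3.const_mul σ)).inter
      (measurableSet_le (h3.const_mul σ) measurable_const)
  have mF : MeasurableSet[fut W s] F :=
    measurableSet_lt measurable_const (hW.meas_osc (t := s) hτ)
  have mEF : MeasurableSet[fut W s] (E \ F) := mE.diff mF
  have hind : P (A ∩ (E \ F)) = P A * P (E \ F) :=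
    (Indep_iff _ _ _).1 (hW.indep s hs) _ _ hA mEF
  rw [hEF, hind, mul_comm]
  have h5 : ENNReal.ofReal (c₁ / 2) ≤ P (E \ F) := by
    have h6 : P E ≤ P (E \ F) + P F := by
      refine (measure_mono (t := (E \ F) ∪ F) ?_).trans (measure_union_le _ _)
      intro ω hω
      by_cases h : ω ∈ F
      · exact Or.inr h
      · exact Or.inl ⟨hω, h⟩
    have h7 : ENNReal.ofReal c₁ = ENNReal.ofReal (c₁ / 2) + ENNReal.ofReal (c₁ / 2) := by
      rw [← ENNReal.ofReal_add (by (clear * - hc₁; positivity)) (by positivity)]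
      congr 1
      ring
    have h8 : ENNReal.ofReal (c₁ / 2) + ENNReal.ofReal (c₁ / 2) ≤
        P (E \ F) + ENNReal.ofReal (c₁ / 2) := by
      rw [← h7]
      exact hPE.trans (h6.trans (by (clear * - hPF; gcongr)))
    exact (ENNReal.add_le_add_iff_right ENNReal.ofReal_ne_top).mp h8
  (clear * - h5; gcongr)

/-- The same with an independent small oscillation. -/
theorem osc_small_prob {κ : ℝ} (hκ : 0 < κ) :
    ∃ C : ℝ, 0 < C ∧ ∀ {Ω : Type*} [MeasurableSpace Ω] {P : Measure Ω} {W : ℝ → Ω → ℝ}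
      (_ : IsDrv κ P W) {s a τ : ℝ} (_ : 0 ≤ s) (_ : 0 < a) (_ : 0 ≤ τ) {A : Set Ω}
      (_ : MeasurableSet[past W s] A),
      P (A ∩ {ω | a < osc W s τ ω}) ≤ ENNReal.ofReal (C * τ ^ 2 / a ^ 4) * P A := by
  obtain ⟨C, hC, hCm⟩ := osc_moment κ hκ 4
  refine ⟨C, hC, ?_⟩
  intro Ω _ P W hW s a τ hs ha hτ A hA
  have mF : MeasurableSet[fut W s] {ω | a < osc W s τ ω} :=
    measurableSet_lt measurable_const (hW.meas_osc (t := s) hτ)
  have hind : P (A ∩ {ω | a < osc W s τ ω}) = P A * P {ω | a < osc W s τ ω} :=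
    (Indep_iff _ _ _).1 (hW.indep s hs) _ _ hA mF
  obtain ⟨hi, hm⟩ := hCm hW s τ hs hτ
  have h1 := BMStep_markov hW (s := s) ha hτ 4 hi hm
  have h2 : √τ ^ 4 = τ ^ 2 := by
    rw [show (4 : ℕ) = 2 * 2 from rfl, pow_mul, Real.sq_sqrt hτ]
  rw [h2] at h1
  rw [hind, mul_comm]
  gcongr

end Vale.Agent.P164
end

section

/-!
# The content collected during one step, with positive conditional probability
-/

namespace Vale.Agent.P164

open Set Metric Filter Topology MeasureTheory ProbabilityTheory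
open scoped NNReal ENNReal

/-- Duration of the content part of a step. -/
noncomputable def Tc (κ ch a : ℝ) : ℝ := 8 * (ch * a) ^ 2 / (4 - κ)

/-- Geometry of the points close to `z`. -/
lemma ContStep_geo {W : ℝ → ℝ} (hW : Continuous W) {z z' : ℂ} {s y q : ℝ} (hs : 0 ≤ s)
    (hy : 0 < y) (hq : 0 < q) (h : z ∈ loewnerDomain W s)
    (hd : dist (Zf W z s) ((y : ℝ) * Complex.I) ≤ y / 10)
    (hU1 : Real.log (q / 2) ≤ Uf W z s) (hU2 : Uf W z s ≤ Real.log (2 * q))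
    (hz' : dist z' z ≤ q / 32000) :
    z' ∈ loewnerDomain W s ∧ ‖Zf W z' s‖ ≤ 2 * y ∧ 1 / 2 ≤ sn (Zf W z' s) ∧
      Real.log (q / 80) ≤ Uf W z' s ∧ Uf W z' s ≤ Real.log (80 * q) := by
  have hE1 : q / 2 ≤ Real.exp (Uf W z s) := by
    rw [← Real.exp_log (show 0 < q / 2 by (clear * - hq; positivity))]
    exact Real.exp_le_exp.2 hU1
  have hE2 : Real.exp (Uf W z s) ≤ 2 * q := by
    rw [← Real.exp_log (show 0 < 2 * q by (clear * - hq; positivity))]
    exact Real.exp_le_exp.2 hU2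
  have hE3 : Real.exp (-Uf W z s) ≤ 2 / q := by
    rw [Real.exp_neg, inv_le_comm₀ (Real.exp_pos _) (by positivity), inv_div]
    exact hE1
  have hzim : |(Zf W z s).im - y| ≤ y / 10 := by
    have h1 := Complex.abs_im_le_norm (Zf W z s - (y : ℝ) * Complex.I)
    rw [dist_eq_norm] at hd
    simp only [Complex.sub_im, Complex.mul_im, Complex.ofReal_re, Complex.I_im, mul_one,
      Complex.ofReal_im, Complex.I_re, mul_zero, add_zero] at h1
    exact h1.trans hd
  rw [abs_le] at hzim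
  have hzim0 : 0 < (Zf W z s).im := Zf_im_pos hs h
  obtain ⟨hz'dom, hz'd⟩ := pull_close hW hs h (z' := z') (by linarith only [hq, hz', hE1])
  have hd1 : dist (Zf W z' s) (Zf W z s) ≤ (Zf W z s).im / 400 := by
    refine hz'd.trans ?_
    have e1 : (dist z' z) * Real.exp (-Uf W z s) ≤ q / 32000 * (2 / q) :=
      mul_le_mul hz' hE3 (Real.exp_pos _).le (by positivity)
    have e2 : q / 32000 * (2 / q) = 1 / 16000 := by
      field_simp
      norm_num
    rw [e2] at e1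
    calc 40 * (Zf W z s).im * (dist z' z) * Real.exp (-Uf W z s)
        = 40 * (Zf W z s).im * ((dist z' z) * Real.exp (-Uf W z s)) := by ring
      _ ≤ 40 * (Zf W z s).im * (1 / 16000) := by (clear * - e1 hzim0; gcongr)
      _ = (Zf W z s).im / 400 := by ring
  obtain ⟨-, hh1, hh2⟩ := harnack_step hW hs h hz'dom hd1
  have hd2 : dist (Zf W z' s) ((y : ℝ) * Complex.I) ≤ y / 5 := by
    have := dist_triangle (Zf W z' s) (Zf W z s) ((y : ℝ) * Complex.I)
    linarith only [hy, hd, hzim, hd1, this]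
  have hn1 : ‖Zf W z' s‖ ≤ 6 / 5 * y := by
    have h1 := norm_le_norm_add_norm_sub ((y : ℝ) * Complex.I) (Zf W z' s)
    rw [← dist_eq_norm, dist_comm] at h1
    have h2 : ‖((y : ℝ) : ℂ) * Complex.I‖ = y := by
      rw [norm_mul, Complex.norm_I, mul_one, Complex.norm_real, Real.norm_of_nonneg hy.le]
    rw [h2] at h1
    linarith only [hd2, h1]
  have hi1 : 4 / 5 * y ≤ (Zf W z' s).im := by
    have h1 := Complex.abs_im_le_norm (Zf W z' s - (y : ℝ) * Complex.I)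
    rw [dist_eq_norm] at hd2
    simp only [Complex.sub_im, Complex.mul_im, Complex.ofReal_re, Complex.I_im, mul_one,
      Complex.ofReal_im, Complex.I_re, mul_zero, add_zero] at h1
    have h2 := (abs_le.1 (h1.trans hd2)).1
    linarith only [h2]
  have hnpos : 0 < ‖Zf W z' s‖ := Zf_norm_pos hs hz'dom
  refine ⟨hz'dom, by linarith only [hy, hn1], ?_, ?_, ?_⟩
  · rw [sn, le_div_iff₀ hnpos]
    linarith only [hy, hn1, hi1]
  · rw [Real.log_le_iff_le_exp (by positivity)]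
    linarith only [hE1, hh1]
  · rw [Real.le_log_iff_exp_le (by positivity)]
    linarith only [hE2, hh2]

end Vale.Agent.P164
end

section

/-!
# Following the tube and collecting content at every good step
-/

namespace Vale.Agent.P164

open Set Metric Filter Topology MeasureTheory ProbabilityTheory
open scoped NNReal ENNReal

/-- Good step: some point of the finite family `Λ` sits at `i·ch·a` at time `t`, with `exp U`
comparable to some `q ∈ Q`. -/
def GoodStep (ch a : ℝ) (Λ : Finset ℂ) (Q : Finset ℝ) (W : ℝ → ℝ) (t : ℝ) (z : ℂ) (q : ℝ) :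
    Prop :=
  z ∈ Λ ∧ q ∈ Q ∧ z ∈ loewnerDomain W t ∧
    dist (Zf W z t) ((ch * a : ℝ) * Complex.I) ≤ ch * a / 10 ∧
    Real.log (q / 2) ≤ Uf W z t ∧ Uf W z t ≤ Real.log (2 * q)

/-- The state condition of a good step. -/
def TubeGood (ch a : ℝ) (W : ℝ → ℝ) (t : ℝ) (p : ℂ × ℝ) : Prop :=
  p.1 ∈ loewnerDomain W t ∧
    dist (Zf W p.1 t) ((ch * a : ℝ) * Complex.I) ≤ ch * a / 10 ∧
    Real.log (p.2 / 2) ≤ Uf W p.1 t ∧ Uf W p.1 t ≤ Real.log (2 * p.2)

/-- The driving function during one step. -/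
def TubeOut {Ω : Type*} (W : ℝ → Ω → ℝ) (s τ a lam σ : ℝ) (B : Set Ω) : Prop :=
  ∀ ω ∈ B, (∀ u ∈ Icc 0 τ, |W (s + u) ω - W s ω| ≤ (lam + 1 / 4) * a) ∧
    a / 4 ≤ σ * (W (s + τ) ω - W s ω) ∧ σ * (W (s + τ) ω - W s ω) ≤ 9 / 4 * a

lemma tube_combine {Ω : Type*} [MeasurableSpace Ω] {P : Measure Ω} {c : ℝ≥0∞}
    {B₁ B₂ E₁ E₂ : Set Ω} (h1 : c * P B₁ ≤ P E₁) (h2 : c * P B₂ ≤ P E₂) (hs1 : E₁ ⊆ B₁)
    (hs2 : E₂ ⊆ B₂) (hd : Disjoint B₁ B₂) (hm : MeasurableSet E₂) :
    c * P (B₁ ∪ B₂) ≤ P (E₁ ∪ E₂) := by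
  rw [measure_union (hd.mono hs1 hs2) hm]
  calc c * P (B₁ ∪ B₂) ≤ c * (P B₁ + P B₂) := by gcongr; exact measure_union_le _ _
    _ = c * P B₁ + c * P B₂ := mul_add _ _ _
    _ ≤ P E₁ + P E₂ := add_le_add h1 h2

lemma tube_meas_good {Ω : Type*} [MeasurableSpace Ω] {κ : ℝ} {P : Measure Ω} {W : ℝ → Ω → ℝ}
    (hW : IsDrv κ P W) {s : ℝ} (hs : 0 ≤ s) (ch a : ℝ) (p : ℂ × ℝ) :
    MeasurableSet[past W s] {ω | TubeGood ch a (fun u => W u ω) s p} := by
  have hS : MeasurableSet {x : ℂ × ℝ | dist x.1 ((ch * a : ℝ) * Complex.I) ≤ ch * a / 10 ∧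
      Real.log (p.2 / 2) ≤ x.2 ∧ x.2 ≤ Real.log (2 * p.2)} := by
    refine (measurableSet_le (measurable_fst.dist measurable_const) measurable_const).inter
      ((measurableSet_le measurable_const measurable_snd).inter
        (measurableSet_le measurable_snd measurable_const))
  exact Z_past hW.cont hW.meas hs p.1 hS

/-- The increment conditions are measurable with respect to the past at the end of the step. -/
lemma tube_meas_step {Ω : Type*} [MeasurableSpace Ω] {κ : ℝ} {P : Measure Ω} {W : ℝ → Ω → ℝ}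
    (hW : IsDrv κ P W) {s τ : ℝ} (hs : 0 ≤ s) (hτ : 0 ≤ τ) (a lam σ : ℝ) :
    MeasurableSet[past W (s + τ)] {ω | a / 2 ≤ σ * (W (s + τ) ω - W s ω) ∧
        σ * (W (s + τ) ω - W s ω) ≤ 2 * a ∧ osc W s τ ω ≤ lam * a} := by
  have m1 : Measurable[past W (s + τ)] (W (s + τ)) :=
    IsDrv.meas_past (add_nonneg hs hτ) le_rfl
  have m2 : Measurable[past W (s + τ)] (W s) := IsDrv.meas_past hs (by linarith)
  have m3 : Measurable[past W (s + τ)] (fun ω => σ * (W (s + τ) ω - W s ω)) :=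
    (m1.sub m2).const_mul σ
  have m4 := tthm_meas_osc hW hs hτ (lam * a)
  exact MeasurableSet.inter (m3 measurableSet_Ici)
    (MeasurableSet.inter (m3 measurableSet_Iic) m4)

section Step

variable {Ω : Type*} [MeasurableSpace Ω] {κ : ℝ} {P : Measure Ω} {W : ℝ → Ω → ℝ}

/-- The step without content. -/
lemma tube_bm (h0 : 0 < κ) {c c₂ lam : ℝ} (hcc : c ≤ c₂)
    (hlam : 1 ≤ lam) (hW : IsDrv κ P W)
    (Hbm : ∀ {s a τ σ : ℝ} (_ : 0 ≤ s) (_ : 0 < a) (_ : a ^ 2 / (2 * κ) ≤ τ) (_ : τ ≤ a ^ 2 / κ)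
      (_ : σ = 1 ∨ σ = -1) {A : Set Ω} (_ : MeasurableSet[past W s] A),
      ENNReal.ofReal c₂ * P A ≤ P (A ∩ {ω | a / 2 ≤ σ * (W (s + τ) ω - W s ω) ∧
        σ * (W (s + τ) ω - W s ω) ≤ 2 * a ∧ osc W s τ ω ≤ lam * a}))
    {s a σ : ℝ} (hs : 0 ≤ s) (ha : 0 < a) (hσ : σ = 1 ∨ σ = -1) {B : Set Ω}
    (hB : MeasurableSet[past W s] B) :
    ∃ E : Set Ω, E ⊆ B ∧ MeasurableSet[past W (s + a ^ 2 / κ)] E ∧
      ENNReal.ofReal c * P B ≤ P E ∧ TubeOut W s (a ^ 2 / κ) a lam σ E := by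
  have hτ : 0 ≤ a ^ 2 / κ := by positivity
  have hh : a ^ 2 / (2 * κ) ≤ a ^ 2 / κ := by
    apply div_le_div_of_nonneg_left (by positivity) h0 (by linarith only [h0])
  refine ⟨B ∩ {ω | a / 2 ≤ σ * (W (s + a ^ 2 / κ) ω - W s ω) ∧
        σ * (W (s + a ^ 2 / κ) ω - W s ω) ≤ 2 * a ∧ osc W s (a ^ 2 / κ) ω ≤ lam * a},
    inter_subset_left, ?_, ?_, ?_⟩
  · exact MeasurableSet.inter (past_mono (by linarith only [hτ]) _ hB) (tube_meas_step hW hs hτ a lam σ)
  · refine le_trans ?_ (Hbm hs ha hh le_rfl hσ hB)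
    gcongr
  · rintro ω ⟨_, h1, h2, h3⟩
    refine ⟨fun u hu => ?_, by linarith only [ha, h1], by linarith only [ha, h2]⟩
    have h4 := hW.le_osc (t := s) (δ := a ^ 2 / κ) ω (u := s + u)
      ⟨by linarith only [hu.1], by linarith only [hu.2]⟩
    have : 0 < 1 / 4 * a := by (clear * - ha; positivity)
    linarith only [ha, h3, h4]

lemma tube_mu_mono (h0 : 0 < κ) (h8 : κ < 8) {ε : ℝ} (hε : 0 < ε) {w : ℝ → ℝ}
    (hw : Continuous w) {z : ℂ} {ρ : ℝ} (hρ : ρ < z.im) {s t T : ℝ} (hs : 0 ≤ s) (hst : s ≤ t)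
    (htT : t ≤ T) : mu κ ε w (ball z ρ) s t ≤ mu κ ε w (ball z ρ) s T := by
  have him : ∀ x ∈ ball z ρ, 0 < x.im := by
    intro x hx
    rw [mem_ball] at hx
    have h1 := Complex.abs_im_le_norm (x - z)
    rw [← Complex.dist_eq, Complex.sub_im] at h1
    have := (abs_lt.1 (h1.trans_lt hx)).1
    linarith only [hρ, this]
  have hv : volume (ball z ρ) ≠ ⊤ := measure_ball_lt_top.ne
  unfold mu
  refine setIntegral_mono_on (yc_integrableOn h0 h8 hε hw measurableSet_ball him hv hs hst)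
    (yc_integrableOn h0 h8 hε hw measurableSet_ball him hv hs (hst.trans htT))
    measurableSet_ball fun x hx => ?_
  have h1 := yc_add h0 h8 hε hw (him x hx) hs hst htT
  have h2 : 0 ≤ yc κ ε w x t T := yc_nonneg (hs.trans hst) htT
  linarith only [h1, h2]

end Step

end Vale.Agent.P164
end

section

/-!
# The content of a fixed disc is bounded below with positive probability
-/

namespace Vale.Agent.P164

open Set Metric Filter Topology MeasureTheory ProbabilityTheory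
open scoped NNReal ENNReal

/-- points of the reference disc -/
lemma ref_disc_facts {z : ℂ} (hz : z ∈ ball Complex.I (1 / 2)) :
    1 / 2 < z.im ∧ z.im < 3 / 2 ∧ ‖z‖ < 3 / 2 := by
  have h1 : ‖z - Complex.I‖ < 1 / 2 := by
    rwa [mem_ball, dist_eq_norm] at hz
  have h2 : |(z - Complex.I).im| < 1 / 2 := lt_of_le_of_lt (Complex.abs_im_le_norm _) h1
  have h3 : (z - Complex.I).im = z.im - 1 := by simp
  rw [h3, abs_lt] at h2
  refine ⟨by linarith only [h2], by linarith only [h2], ?_⟩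
  have h4 : ‖z‖ ≤ ‖z - Complex.I‖ + ‖Complex.I‖ := by
    have := norm_add_le (z - Complex.I) Complex.I
    rwa [sub_add_cancel] at this
  rw [Complex.norm_I] at h4
  linarith only [h1, h4]

end Vale.Agent.P164
end

section

/-!
# The expected mass of an overcharged disc, from time zero
-/

namespace Vale.Agent.P164

open Set Metric Filter Topology MeasureTheory ProbabilityTheory
open scoped NNReal ENNReal

/-- If the centre has `exp U ≥ 20 ρ` then the disc of radius `ρ` is alive, with `exp U ≥ ρ/2`. -/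
lemma discBad_alive {W : ℝ → ℝ} (hW : Continuous W) {t : ℝ} (ht : 0 ≤ t) {z₀ : ℂ} {ρ : ℝ}
    (hρ : 0 < ρ) (h : z₀ ∈ loewnerDomain W t) (hU : Real.log (20 * ρ) ≤ Uf W z₀ t) {z : ℂ}
    (hz : z ∈ ball z₀ ρ) : z ∈ loewnerDomain W t ∧ Real.log (ρ / 2) ≤ Uf W z t := by
  have h1 : 20 * ρ ≤ Real.exp (Uf W z₀ t) := (Real.log_le_iff_le_exp (by (clear * - hρ; positivity))).1 hU
  have h2 : ball z ρ ⊆ loewnerDomain W t := by
    refine Subset.trans (ball_subset_ball' ?_) (ball_subset_dom hW ht h)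
    rw [mem_ball] at hz
    linarith only [hz, h1]
  refine ⟨h2 (mem_ball_self hρ), ?_⟩
  have h3 := le_exp_Uf hW ht hρ h2
  rw [Real.log_le_iff_le_exp (by positivity)]
  linarith only [h3]

/-- No content is collected in the disc before that time. -/
lemma discBad_mu_eq {κ : ℝ} (h0 : 0 < κ) (h8 : κ < 8) {W : ℝ → ℝ} (hW : Continuous W)
    {t T : ℝ} (ht : 0 ≤ t) (htT : t ≤ T) {z₀ : ℂ} {ρ ε : ℝ} (hρ : 0 < ρ)
    (hε : 0 < ε) (hερ : ε ≤ ρ / 8) (h : z₀ ∈ loewnerDomain W t)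
    (hU : Real.log (20 * ρ) ≤ Uf W z₀ t) :
    mu κ ε W (ball z₀ ρ) 0 T = mu κ ε W (ball z₀ ρ) t T := by
  unfold mu
  refine setIntegral_congr_fun measurableSet_ball fun z hz => ?_
  obtain ⟨h1, h2⟩ := discBad_alive hW ht hρ h hU hz
  have h3 : Real.log ε + 1 ≤ Uf W z t := by
    refine le_trans ?_ h2
    rw [show (1 : ℝ) = Real.log (Real.exp 1) from (Real.log_exp 1).symm,
      ← Real.log_mul hε.ne' (Real.exp_pos 1).ne']
    refine Real.log_le_log (by (clear * - hε; positivity)) ?_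
    have := Real.exp_one_lt_d9
    nlinarith only [hε, hερ, this]
  have hz0 : 0 < z.im := im_pos_of_dom ht h1
  change yc κ ε W z 0 T = yc κ ε W z t T
  rw [← yc_add h0 h8 hε hW hz0 le_rfl ht htT, yc_eq_zero hε hW le_rfl ht h1 h3, zero_add]

/-- measurability of the content -/
lemma discBad_mu_past {Ω : Type*} [MeasurableSpace Ω] {P : Measure Ω} {W : ℝ → Ω → ℝ} {κ : ℝ}
    (hW : IsDrv κ P W) {r s t : ℝ} (hs : 0 ≤ s) (hst : s ≤ t) (D : Set ℂ) :
    Measurable[past W t] (fun ω => mu κ r (fun u => W u ω) D s t) :=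
  fieldint_past' hW.cont hW.meas (aR_measurable κ r) hs hst D

/-- the grid -/
noncomputable def dgrid (T : ℝ) (n k : ℕ) : ℝ := k * T / (n + 1)

lemma dgrid_nonneg {T : ℝ} (hT : 0 ≤ T) (n k : ℕ) : 0 ≤ dgrid T n k := by
  unfold dgrid; positivity

lemma dgrid_mono {T : ℝ} (hT : 0 ≤ T) (n : ℕ) {j k : ℕ} (h : j ≤ k) :
    dgrid T n j ≤ dgrid T n k := by
  unfold dgrid
  have : (j : ℝ) ≤ k := by exact_mod_cast h
  (clear * - this hT; gcongr)

lemma dgrid_last (T : ℝ) (n : ℕ) : dgrid T n (n + 1) = T := by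
  unfold dgrid
  push_cast
  field_simp

lemma dgrid_le {T : ℝ} (hT : 0 ≤ T) (n : ℕ) {k : ℕ} (h : k ≤ n + 1) : dgrid T n k ≤ T :=
  (dgrid_mono hT n h).trans (dgrid_last T n).le

/-- the crossing event at the grid point `k + 1` -/
def crossEv {Ω : Type*} (W : ℝ → Ω → ℝ) (z₀ : ℂ) (ρ T : ℝ) (n k : ℕ) : Set Ω :=
  {ω | (z₀ ∈ loewnerDomain (fun u => W u ω) (dgrid T n (k + 1)) ∧
      (Zf (fun u => W u ω) z₀ (dgrid T n (k + 1)), Uf (fun u => W u ω) z₀ (dgrid T n (k + 1))) ∈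
        {p : ℂ × ℝ | Real.log (20 * ρ) ≤ p.2 ∧ p.2 ≤ Real.log (21 * ρ)})} ∩
  {ω | (z₀ ∈ loewnerDomain (fun u => W u ω) (dgrid T n k) ∧
      (Zf (fun u => W u ω) z₀ (dgrid T n k), Uf (fun u => W u ω) z₀ (dgrid T n k)) ∈
        {p : ℂ × ℝ | Real.log (21 * ρ) < p.2})}

lemma crossEv_past {Ω : Type*} [MeasurableSpace Ω] {P : Measure Ω} {W : ℝ → Ω → ℝ} {κ : ℝ}
    (hW : IsDrv κ P W) {z₀ : ℂ} {ρ T : ℝ} (hT : 0 ≤ T) (n k : ℕ) :
    MeasurableSet[past W (dgrid T n (k + 1))] (crossEv W z₀ ρ T n k) := by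
  refine MeasurableSet.inter ?_ ?_
  · refine Z_past hW.cont hW.meas (dgrid_nonneg hT _ _) z₀ ?_
    exact (measurableSet_le measurable_const measurable_snd).inter
      (measurableSet_le measurable_snd measurable_const)
  · refine past_mono (dgrid_mono hT n (Nat.le_succ k)) _ ?_
    exact Z_past hW.cont hW.meas (dgrid_nonneg hT _ _) z₀
      (measurableSet_lt measurable_const measurable_snd)

lemma crossEv_disjoint {Ω : Type*} [MeasurableSpace Ω] {P : Measure Ω} {W : ℝ → Ω → ℝ} {κ : ℝ}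
    (hW : IsDrv κ P W) {z₀ : ℂ} {ρ T : ℝ} (hT : 0 ≤ T) (n : ℕ) {j k : ℕ} (hjk : j < k) :
    Disjoint (crossEv W z₀ ρ T n j) (crossEv W z₀ ρ T n k) := by
  rw [Set.disjoint_left]
  rintro ω ⟨⟨h1, h2, h3⟩, -⟩ ⟨-, h4, h5⟩
  have h6 := Uf_le (hW.cont ω) (dgrid_nonneg hT n (j + 1)) (dgrid_mono hT n hjk) h4
  change Uf (fun u => W u ω) z₀ (dgrid T n (j + 1)) ≤ Real.log (21 * ρ) at h3
  change Real.log (21 * ρ) < Uf (fun u => W u ω) z₀ (dgrid T n k) at h5
  linarith only [h6, h3, h5]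

end Vale.Agent.P164
end

section

/-!
# The good event has probability bounded below
-/

namespace Vale.Agent.P164

open Set Metric Filter Topology MeasureTheory ProbabilityTheory
open scoped NNReal ENNReal

/-- The mesh at level `m`. -/
noncomputable def geRho (m : ℕ) : ℝ := (1 / 2) ^ m

/-- Lattice points at level `m`. -/
noncomputable def gePt (m : ℕ) (p : ℤ × ℤ) : ℂ :=
  ⟨geRho m / 2 * p.1, geRho m / 2 * p.2⟩

open Classical in
/-- The lattice points used at level `m`. -/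
noncomputable def geIdx (m : ℕ) : Finset (ℤ × ℤ) :=
  ((Finset.Icc (-(2 * 2 ^ m)) (2 * 2 ^ m)) ×ˢ (Finset.Icc 0 (4 * 2 ^ m))).filter
    (fun p => dist (gePt m p) Complex.I ≤ 3 / 4)

lemma geRho_pos (m : ℕ) : 0 < geRho m := by unfold geRho; (clear * -; positivity)

lemma geRho_mul (m : ℕ) : geRho m * 2 ^ m = 1 := by
  unfold geRho
  rw [← mul_pow]
  (clear * -; norm_num)

lemma geRho_anti {m n : ℕ} (h : m ≤ n) : geRho n ≤ geRho m :=
  pow_le_pow_of_le_one (by norm_num) (by norm_num) h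

lemma geIdx_dist {m : ℕ} {p : ℤ × ℤ} (h : p ∈ geIdx m) : dist (gePt m p) Complex.I ≤ 3 / 4 := by
  classical
  unfold geIdx at h
  exact (Finset.mem_filter.1 h).2

lemma geIdx_card (m : ℕ) : ((geIdx m).card : ℝ) ≤ 25 * 4 ^ m := by
  classical
  have h1 : (geIdx m).card ≤ (4 * 2 ^ m + 1) * (4 * 2 ^ m + 1) := by
    unfold geIdx
    refine (Finset.card_filter_le _ _).trans ?_
    rw [Finset.card_product, Int.card_Icc, Int.card_Icc]
    have e1 : ((2 : ℤ) * 2 ^ m + 1 - -(2 * 2 ^ m)) = ((4 * 2 ^ m + 1 : ℕ) : ℤ) := by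
      push_cast; ring
    have e2 : ((4 : ℤ) * 2 ^ m + 1 - 0) = ((4 * 2 ^ m + 1 : ℕ) : ℤ) := by
      push_cast; ring
    rw [e1, e2, Int.toNat_natCast]
  have h2 : ((geIdx m).card : ℝ) ≤ (4 * 2 ^ m + 1) * (4 * 2 ^ m + 1) := by exact_mod_cast h1
  have h3 : (1 : ℝ) ≤ 2 ^ m := one_le_pow₀ (by norm_num)
  have h4 : (4 : ℝ) ^ m = 2 ^ m * 2 ^ m := by rw [← mul_pow]; norm_num
  rw [h4]
  nlinarith only [h2, h3]

lemma ge_near {m : ℕ} (hm : 1 ≤ m) {p : ℂ} (hp : dist p Complex.I < 1 / 2) :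
    ∃ q ∈ geIdx m, dist p (gePt m q) < geRho m / 2 := by
  classical
  have hρ := geRho_pos m
  have hρ2 : geRho m ≤ 1 / 2 := by
    have := geRho_anti hm
    unfold geRho at this ⊢
    simpa only [one_div, inv_pow, ge_iff_le, pow_one] using this
  set h : ℝ := geRho m / 2 with hh
  have hh0 : 0 < h := by positivity
  have hmul : h * (2 * 2 ^ m) = 1 := by rw [hh]; linarith only [geRho_mul m]
  set j : ℤ := round (p.re / h) with hj
  set k : ℤ := round (p.im / h) with hk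
  have hj' : |p.re - h * j| ≤ h / 2 := by
    have h1 := abs_sub_round (p.re / h)
    have h2 : p.re - h * j = h * (p.re / h - j) := by (clear * - hh0; field_simp)
    rw [h2, abs_mul, abs_of_pos hh0]
    nlinarith only [hρ, hh, h1]
  have hk' : |p.im - h * k| ≤ h / 2 := by
    have h1 := abs_sub_round (p.im / h)
    have h2 : p.im - h * k = h * (p.im / h - k) := by field_simp
    rw [h2, abs_mul, abs_of_pos hh0]
    nlinarith only [hρ, hh, h1]
  have hre : |p.re| < 1 / 2 := by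
    have := Complex.abs_re_le_norm (p - Complex.I)
    rw [← Complex.dist_eq] at this
    simp only [Complex.sub_re, Complex.I_re, sub_zero] at this
    linarith only [hp, this]
  have him : |p.im - 1| < 1 / 2 := by
    have := Complex.abs_im_le_norm (p - Complex.I)
    rw [← Complex.dist_eq] at this
    simp at this
    linarith only [hp, this]
  have hd : dist p (gePt m (j, k)) < h := by
    rw [Complex.dist_eq_re_im]
    rw [Real.sqrt_lt' hh0]
    have e1 : (gePt m (j, k)).re = h * j := rfl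
    have e2 : (gePt m (j, k)).im = h * k := rfl
    rw [e1, e2, ← sq_abs (p.re - h * j), ← sq_abs (p.im - h * k)]
    have a1 := abs_nonneg (p.re - h * j)
    have a2 := abs_nonneg (p.im - h * k)
    nlinarith only [hh0, hj', hk', a1, a2]
  refine ⟨(j, k), ?_, hd⟩
  unfold geIdx
  rw [Finset.mem_filter, Finset.mem_product, Finset.mem_Icc, Finset.mem_Icc]
  have h2m : (0 : ℝ) < 2 ^ m := by positivity
  rw [abs_le] at hj' hk'
  rw [abs_lt] at hre him
  have key : ∀ a : ℝ, a = (h * a) * (2 * 2 ^ m) := fun a => by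
    calc a = a * (h * (2 * 2 ^ m)) := by rw [hmul, mul_one]
      _ = (h * a) * (2 * 2 ^ m) := by ring
  refine ⟨⟨⟨?_, ?_⟩, ⟨?_, ?_⟩⟩, ?_⟩
  · have : (-(2 * 2 ^ m) : ℝ) ≤ j := by
      rw [key (j : ℝ)]
      nlinarith only [hρ2, hh, hmul, hj', hre]
    exact_mod_cast this
  · have : (j : ℝ) ≤ 2 * 2 ^ m := by
      rw [key (j : ℝ)]
      nlinarith only [hρ, hρ2, hh, hh0, hmul, hj', hre]
    exact_mod_cast this
  · have : (0 : ℝ) ≤ k := by
      rw [key (k : ℝ)]
      apply mul_nonneg _ (by positivity)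
      linarith only [hρ2, hh, hh0, hk', him]
    exact_mod_cast this
  · have : (k : ℝ) ≤ 4 * 2 ^ m := by
      rw [key (k : ℝ)]
      nlinarith only [hρ, hρ2, hh, hh0, hmul, hk', him]
    exact_mod_cast this
  · have := dist_triangle (gePt m (j, k)) p Complex.I
    rw [dist_comm (gePt m (j, k)) p] at this
    linarith only [hp, hρ2, hh, hd, this]

/-- The content of a set covered by finitely many sets. -/
lemma ge_mu_le_sum {κ r T : ℝ} (h0 : 0 < κ) (h8 : κ < 8) (hr : 0 < r) {W : ℝ → ℝ}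
    (hW : Continuous W) (hT : 0 ≤ T) {ι : Type*} (s : Finset ι) (B : ι → Set ℂ)
    (hB : ∀ i ∈ s, MeasurableSet (B i)) (hBim : ∀ i ∈ s, ∀ z ∈ B i, 0 < z.im)
    (hBv : ∀ i ∈ s, volume (B i) ≠ ⊤) {A : Set ℂ} (hA : MeasurableSet A)
    (hAB : A ⊆ ⋃ i ∈ s, B i) :
    ENNReal.ofReal (mu κ r W A 0 T) ≤ ∑ i ∈ s, ENNReal.ofReal (mu κ r W (B i) 0 T) := by
  have key : ∀ D : Set ℂ, MeasurableSet D → (∀ z ∈ D, 0 < z.im) → volume D ≠ ⊤ →
      ENNReal.ofReal (mu κ r W D 0 T) =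
        (volume.withDensity (fun z => ENNReal.ofReal (yc κ r W z 0 T))) D := by
    intro D hD hDim hDv
    rw [withDensity_apply _ hD, mu]
    exact ofReal_integral_eq_lintegral_ofReal
      (yc_integrableOn h0 h8 hr hW hD hDim hDv le_rfl hT)
      (Eventually.of_forall fun z => yc_nonneg le_rfl hT)
  have hAim : ∀ z ∈ A, 0 < z.im := by
    intro z hz
    obtain ⟨i, hi, hzi⟩ := mem_iUnion₂.1 (hAB hz)
    exact hBim i hi z hzi
  have hAv : volume A ≠ ⊤ := by
    refine ne_top_of_le_ne_top ?_ ((measure_mono hAB).trans (measure_biUnion_finset_le s B))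
    exact ENNReal.sum_ne_top.2 hBv
  rw [key A hA hAim hAv, Finset.sum_congr rfl fun i hi => key (B i) (hB i hi) (hBim i hi)
    (hBv i hi)]
  exact (measure_mono hAB).trans (measure_biUnion_finset_le s B)

lemma ge_mu_mono {κ r T : ℝ} (h0 : 0 < κ) (h8 : κ < 8) (hr : 0 < r) {W : ℝ → ℝ}
    (hW : Continuous W) (hT : 0 ≤ T) {A B : Set ℂ}
    (hB : MeasurableSet B) (hBim : ∀ z ∈ B, 0 < z.im)
    (hBv : volume B ≠ ⊤) (hAB : A ⊆ B) : mu κ r W A 0 T ≤ mu κ r W B 0 T := by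
  unfold mu
  exact setIntegral_mono_set (yc_integrableOn h0 h8 hr hW hB hBim hBv le_rfl hT)
    (Eventually.of_forall fun z => yc_nonneg le_rfl hT) hAB.eventuallyLE

lemma ge_loglog {m : ℕ} (hm : 7 ≤ m) {s : ℝ} (hs0 : 0 < s) (hs : s ≤ geRho m / 2) :
    1 ≤ Real.log (Real.log (1 / s)) ∧ Real.log m / 2 ≤ Real.log (Real.log (1 / s)) := by
  have hρ := geRho_pos m
  have hm' : (7 : ℝ) ≤ m := by exact_mod_cast hm
  have h1 : ((m : ℝ) + 1) * Real.log 2 ≤ Real.log (1 / s) := by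
    have e : ((m : ℝ) + 1) * Real.log 2 = Real.log (2 ^ (m + 1)) := by
      rw [Real.log_pow]; push_cast; ring
    rw [e]
    apply Real.log_le_log (by positivity)
    rw [le_div_iff₀ hs0]
    calc (2 : ℝ) ^ (m + 1) * s ≤ 2 ^ (m + 1) * (geRho m / 2) := by (clear * - hs; gcongr)
      _ = geRho m * 2 ^ m := by rw [pow_succ]; ring
      _ = 1 := geRho_mul m
  have hl2 : (0.6931471803 : ℝ) < Real.log 2 := Real.log_two_gt_d9
  constructor
  · rw [Real.le_log_iff_exp_le (by nlinarith only [h1, hl2])]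
    have := Real.exp_one_lt_d9
    nlinarith only [hm', h1, hl2, this]
  · have e : Real.log m / 2 = Real.log (Real.sqrt m) := by
      rw [Real.log_sqrt (by positivity)]
    rw [e]
    apply Real.log_le_log (by positivity)
    have hsq := Real.sq_sqrt (show (0 : ℝ) ≤ m by positivity)
    have h2 : Real.sqrt m ≤ ((m : ℝ) + 1) / 2 := by
      nlinarith only [hsq, sq_nonneg (Real.sqrt m - 1)]
    nlinarith only [h1, hl2, h2]

lemma ge_hh_lower {κ : ℝ} (h0 : 0 < κ) {m : ℕ} {s : ℝ}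
    (hs0 : geRho m / 4 < s) :
    (geRho m / 4) ^ dd κ * Real.log (Real.log (1 / s)) ^ (xx κ / 2) ≤ hh κ s ∨
      Real.log (Real.log (1 / s)) < 0 := by
  rcases lt_or_ge (Real.log (Real.log (1 / s))) 0 with h | h
  · exact Or.inr h
  · left
    unfold hh
    have hρ := geRho_pos m
    have hd : 0 ≤ dd κ := by unfold dd; (clear * - h0; positivity)
    have := Real.rpow_le_rpow (by positivity) hs0.le hd
    (clear * - this h; gcongr)

lemma ge_bound {κ : ℝ} (h0 : 0 < κ) (h8 : κ < 8) {m : ℕ} (hm : 7 ≤ m) {s : ℝ}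
    (hs0 : geRho m / 4 < s) (hs : s ≤ geRho m / 2) {K C : ℝ} (hK : 0 < K) (hC : 0 < C) :
    C * Real.sqrt (K * Real.log m) ^ xx κ * geRho m ^ dd κ ≤
      (C * (2 * K) ^ (xx κ / 2) * 4 ^ dd κ) * hh κ s ∧
    8 ^ xx κ * Real.pi * geRho m ^ dd κ ≤ (8 ^ xx κ * Real.pi * 4 ^ dd κ) * hh κ s := by
  have hρ := geRho_pos m
  have hs1 : 0 < s := by linarith only [hs0, hs]
  obtain ⟨hL1, hL2⟩ := ge_loglog hm hs1 hs
  have hx : 0 < xx κ := by unfold xx; linarith only [h8]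
  have hd : 0 < dd κ := by unfold dd; positivity
  rcases ge_hh_lower (κ := κ) h0 hs0 with h | h
  swap
  · linarith only [hL1, h]
  set L := Real.log (Real.log (1 / s)) with hLdef
  have hm' : (7 : ℝ) ≤ m := by exact_mod_cast hm
  have hlogm : 0 ≤ Real.log m := Real.log_nonneg (by linarith only [hm'])
  have hρ4 : geRho m ^ dd κ = 4 ^ dd κ * (geRho m / 4) ^ dd κ := by
    rw [← Real.mul_rpow (by norm_num) (by positivity)]
    congr 1
    ring
  have hR : Real.sqrt (K * Real.log m) ^ xx κ ≤ (2 * K) ^ (xx κ / 2) * L ^ (xx κ / 2) := by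
    rw [← Real.mul_rpow (by positivity) (by linarith only [hL1]), Real.sqrt_eq_rpow,
      ← Real.rpow_mul (by (clear * - hK; positivity))]
    have : 1 / 2 * xx κ = xx κ / 2 := by ring
    rw [this]
    apply Real.rpow_le_rpow (by (clear * - hK; positivity)) _ (by positivity)
    nlinarith only [hK, hL2]
  have hL3 : (1 : ℝ) ≤ L ^ (xx κ / 2) := Real.one_le_rpow hL1 (by positivity)
  have h4 : (0 : ℝ) < 4 ^ dd κ := by positivity
  have hρd : (0 : ℝ) < (geRho m / 4) ^ dd κ := by positivity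
  constructor
  · calc C * Real.sqrt (K * Real.log m) ^ xx κ * geRho m ^ dd κ
        ≤ C * ((2 * K) ^ (xx κ / 2) * L ^ (xx κ / 2)) * geRho m ^ dd κ := by
          (clear * - hR hC hρ; gcongr)
      _ = (C * (2 * K) ^ (xx κ / 2) * 4 ^ dd κ) * ((geRho m / 4) ^ dd κ * L ^ (xx κ / 2)) := by
          rw [hρ4]; ring
      _ ≤ _ := by (clear * - h hC hK; gcongr)
  · calc 8 ^ xx κ * Real.pi * geRho m ^ dd κ
        = (8 ^ xx κ * Real.pi * 4 ^ dd κ) * ((geRho m / 4) ^ dd κ * 1) := by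
          rw [hρ4]; ring
      _ ≤ (8 ^ xx κ * Real.pi * 4 ^ dd κ) * ((geRho m / 4) ^ dd κ * L ^ (xx κ / 2)) := by
          gcongr
      _ ≤ _ := by (clear * - h; gcongr)

/-- The disc of an index. -/
noncomputable def geB (x : Σ _ : ℕ, ℤ × ℤ) : Set ℂ := ball (gePt x.1 x.2) (geRho x.1)

/-- The threshold at level `m`. -/
noncomputable def geA (κ C K : ℝ) (m : ℕ) : ℝ :=
  C * Real.sqrt (K * Real.log m) ^ xx κ * geRho m ^ dd κ

lemma geRho_seven {m : ℕ} (hm : 7 ≤ m) : geRho m ≤ 1 / 100 := by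
  refine (geRho_anti hm).trans ?_
  unfold geRho
  norm_num

lemma ge_im_pos {m : ℕ} (hm : 7 ≤ m) {q : ℤ × ℤ} (hq : q ∈ geIdx m) {w : ℂ}
    (hw : w ∈ ball (gePt m q) (geRho m)) : 0 < w.im := by
  have h1 := geIdx_dist hq
  have h2 := geRho_seven hm
  rw [mem_ball] at hw
  have h3 : dist w Complex.I < 1 := by
    have := dist_triangle w (gePt m q) Complex.I
    linarith only [hw, h1, h2, this]
  have := Complex.abs_im_le_norm (w - Complex.I)
  rw [← Complex.dist_eq] at this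
  simp only [Complex.sub_im, Complex.I_im] at this
  have h4 := (abs_lt.1 (this.trans_lt h3)).1
  linarith only [h4]

/-- The content is a random variable. -/
lemma ge_meas {κ : ℝ} {Ω : Type*} [MeasurableSpace Ω] {P : Measure Ω} {W : ℝ → Ω → ℝ}
    (hW : IsDrv κ P W) (κ' ε : ℝ) {T : ℝ} (hT : 0 ≤ T) (D : Set ℂ) :
    Measurable (fun ω => mu κ' ε (fun u => W u ω) D 0 T) :=
  (fieldint_past' hW.cont hW.meas (aR_measurable κ' ε) le_rfl hT D).mono hW.past_le le_rfl

end Vale.Agent.P164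
end

section

namespace Vale.Agent.P164

open Set Metric Filter Topology MeasureTheory ProbabilityTheory
open scoped NNReal ENNReal

section

variable {Ω Ω' : Type*} [MeasurableSpace Ω] [MeasurableSpace Ω'] {P : Measure Ω} {P' : Measure Ω'}
  {B : ℝ≥0 → Ω → ℝ} {B' : ℝ≥0 → Ω' → ℝ}

end

section

variable {Ω : Type*} [MeasurableSpace Ω] {P : Measure Ω} {B : ℝ≥0 → Ω → ℝ} {γ : Ω → ℝ → ℂ}
  {Q : Set ℂ → Prop} {κ : ℝ}

/-- Standing assumptions. -/
structure Setup (P : Measure Ω) (B : ℝ≥0 → Ω → ℝ) (γ : Ω → ℝ → ℂ) (κ : ℝ) : Prop where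
  bm : IsBrownianReal B P
  tr : ∀ᵐ ω ∂P, IsSimpleTrace (drv κ (fun t => B t ω)) (γ ω)

namespace Setup

end Setup

/-- The absorbed sets depend only on the driving function on `[0,∞)`. -/
lemma IsLoewnerSol.congr_drive {W W' : ℝ → ℝ} (h : ∀ t, 0 ≤ t → W t = W' t) {z : ℂ} {t : ℝ}
    {g : ℝ → ℂ} (hg : IsLoewnerSol W z t g) : IsLoewnerSol W' z t g := by
  refine ⟨hg.1, fun s hs => ⟨(hg.2 s hs).1, ?_⟩⟩
  rw [← h s hs.1]
  exact (hg.2 s hs).2

lemma domain_congr {W W' : ℝ → ℝ} (h : ∀ t, 0 ≤ t → W t = W' t) (t : ℝ) :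
    loewnerDomain W t = loewnerDomain W' t := by
  ext z
  constructor
  · rintro ⟨g, hg⟩
    exact ⟨g, hg.congr_drive h⟩
  · rintro ⟨g, hg⟩
    exact ⟨g, hg.congr_drive fun t ht => (h t ht).symm⟩

namespace Setup

end Setup

end

end Vale.Agent.P164
end

section

/-!
# The trace visits the disc
-/

namespace Vale.Agent.P164

open Set Metric Filter Topology MeasureTheory ProbabilityTheory
open scoped NNReal ENNReal

end Vale.Agent.P164
end
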