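import Vale.Agent.P164.MathlibUsed
import Vale.Agent.P164.Bdl.B2
import Vale.Agent.P164.Bdl.B4
import Vale.Agent.P164.Bdl.B1
import Vale.Agent.P164.X.Defs8
import Vale.Agent.P164.Bdl.B6
import Vale.Agent.P164.Bdl.B5

set_option linter.all false

section

/-!
# The covering (deterministic)
-/

namespace Vale.Agent.P164

open Set Metric Filter Topology MeasureTheory
open scoped NNReal ENNReal

/-- A set covered by two finite families of closed balls. -/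
lemma cover_two_families {h : ℝ → ℝ} (hh : IsGauge h) {δ : ℝ} (hδ : 0 ≤ δ) {E : Set ℂ}
    (F G : Finset ℂ) (r s : ℂ → ℝ) (hr0 : ∀ z ∈ F, 0 ≤ r z) (hs0 : ∀ z ∈ G, 0 ≤ s z)
    (hr : ∀ z ∈ F, 2 * r z ≤ δ) (hs : ∀ z ∈ G, 2 * s z ≤ δ)
    (hE : ∀ p ∈ E, (∃ z ∈ F, p ∈ closedBall z (r z)) ∨ ∃ z ∈ G, p ∈ closedBall z (s z)) :
    pre h δ E ≤ (∑ z ∈ F, ENNReal.ofReal (h (2 * r z))) +
      ∑ z ∈ G, ENNReal.ofReal (h (2 * s z)) := by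
  classical
  let _ : Encodable ({z // z ∈ F} ⊕ {z // z ∈ G}) := Encodable.ofCountable _
  set V : {z // z ∈ F} ⊕ {z // z ∈ G} → Set ℂ := fun i =>
    Sum.elim (fun z : {z // z ∈ F} => closedBall z.1 (r z.1))
      (fun z : {z // z ∈ G} => closedBall z.1 (s z.1)) i with hV
  have h1 := pre_le_tsum hh.zero hδ (E := E) V ?_ ?_
  · refine h1.trans ?_
    rw [tsum_fintype, Fintype.sum_sum_type]
    refine add_le_add ?_ ?_
    · rw [← Finset.sum_coe_sort F (fun z => ENNReal.ofReal (h (2 * r z)))]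
      refine Finset.sum_le_sum fun z _ => ENNReal.ofReal_le_ofReal ?_
      have h2 : diam (closedBall z.1 (r z.1)) ≤ 2 * r z.1 := diam_closedBall (hr0 z.1 z.2)
      exact hh.mono (mem_Ici.2 diam_nonneg)
        (mem_Ici.2 (mul_nonneg (by norm_num) (hr0 z.1 z.2))) h2
    · rw [← Finset.sum_coe_sort G (fun z => ENNReal.ofReal (h (2 * s z)))]
      refine Finset.sum_le_sum fun z _ => ENNReal.ofReal_le_ofReal ?_
      have h2 : diam (closedBall z.1 (s z.1)) ≤ 2 * s z.1 := diam_closedBall (hs0 z.1 z.2)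
      exact hh.mono (mem_Ici.2 diam_nonneg)
        (mem_Ici.2 (mul_nonneg (by norm_num) (hs0 z.1 z.2))) h2
  · intro p hp
    rcases hE p hp with ⟨z, hz, hpz⟩ | ⟨z, hz, hpz⟩
    · exact mem_iUnion.2 ⟨Sum.inl ⟨z, hz⟩, hpz⟩
    · exact mem_iUnion.2 ⟨Sum.inr ⟨z, hz⟩, hpz⟩
  · rintro (⟨z, hz⟩ | ⟨z, hz⟩)
    · exact ⟨isBounded_closedBall, (diam_closedBall (hr0 z hz)).trans (hr z hz)⟩
    · exact ⟨isBounded_closedBall, (diam_closedBall (hs0 z hz)).trans (hs z hz)⟩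

end Vale.Agent.P164
end

section

/-!
# Deterministic facts on traces for `0 < κ < 8`
-/

namespace Vale.Agent.P164

open Set Metric Filter Topology

/-- The open upper half-plane minus the curve up to time `t`. -/
def cplt (γ : ℝ → ℂ) (t : ℝ) : Set ℂ := {z : ℂ | 0 < z.im} \ γ '' Icc 0 t

/-- A preconnected subset of `S` meeting `unbComp S` lies in it. -/
lemma unbComp_of_preconnected {S C : Set ℂ} (hC : IsPreconnected C) (hCS : C ⊆ S) {z w : ℂ}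
    (hz : z ∈ C) (hw : w ∈ C) (h : z ∈ unbComp S) : w ∈ unbComp S := by
  refine ⟨hCS hw, ?_⟩
  have h1 : w ∈ connectedComponentIn S z := hC.subset_connectedComponentIn hz hCS hw
  rw [← connectedComponentIn_eq h1]
  exact h.2

/-- Sharp Schwarz-Pick inequality for self-maps of the half-plane. -/
lemma schwarz_pick_half {φ : ℂ → ℂ} (hφ : ∀ w : ℂ, 0 < w.im → DifferentiableAt ℂ φ w)
    (him : ∀ w : ℂ, 0 < w.im → 0 < (φ w).im) {w₀ : ℂ} (h0 : 0 < w₀.im) :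
    ‖deriv φ w₀‖ * w₀.im ≤ (φ w₀).im := by
  set c : ℂ := (starRingEnd ℂ) w₀ with hc
  set ψ : ℂ → ℂ := fun ζ => (w₀ - c * ζ) / (1 - ζ) with hψ
  have hne : ∀ ζ ∈ ball (0 : ℂ) 1, (1 : ℂ) - ζ ≠ 0 := by
    intro ζ hζ h
    have : ζ = 1 := by linear_combination -h
    rw [this] at hζ
    simp at hζ
  have hψim : ∀ ζ ∈ ball (0 : ℂ) 1, 0 < (ψ ζ).im := by
    intro ζ hζ
    have hn := hne ζ hζ
    have h1 : 0 < Complex.normSq (1 - ζ) := Complex.normSq_pos.2 hn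
    have h2 : ‖ζ‖ ^ 2 < 1 := by
      have h3 : ‖ζ‖ < 1 := by simpa only [mem_ball, dist_zero_right] using hζ
      have h4 := norm_nonneg ζ
      nlinarith only [h3, h4]
    rw [Complex.sq_norm, Complex.normSq_apply] at h2
    have e : (ψ ζ).im = w₀.im * (1 - (ζ.re * ζ.re + ζ.im * ζ.im)) / Complex.normSq (1 - ζ) := by
      simp only [hψ, hc]
      rw [Complex.div_im]
      simp only [Complex.sub_im, Complex.sub_re, Complex.mul_im, Complex.mul_re, Complex.conj_re,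
        Complex.conj_im, Complex.one_re, Complex.one_im]
      field_simp
      ring
    rw [e]
    have h5 : 0 < 1 - (ζ.re * ζ.re + ζ.im * ζ.im) := by linarith only [h2]
    (clear * - h0 h2 h1; positivity)
  have hψd : ∀ ζ ∈ ball (0 : ℂ) 1,
      HasDerivAt ψ ((-c * (1 - ζ) - (w₀ - c * ζ) * (-1)) / (1 - ζ) ^ 2) ζ := by
    intro ζ hζ
    have h1 : HasDerivAt (fun ζ : ℂ => w₀ - c * ζ) (-c) ζ := by
      simpa only [id_eq, mul_one] using ((hasDerivAt_id ζ).const_mul c).const_sub w₀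
    have h2 : HasDerivAt (fun ζ : ℂ => 1 - ζ) (-1) ζ := by
      simpa using (hasDerivAt_id ζ).const_sub 1
    exact h1.div h2 (hne ζ hζ)
  have hm0 : (0 : ℂ) ∈ ball (0 : ℂ) 1 := mem_ball_self one_pos
  have hψ0 : ψ 0 = w₀ := by simp [hψ]
  set Φ : ℂ → ℂ := fun ζ => cay (φ w₀) (φ (ψ ζ)) with hΦ
  have hφ0 : 0 < (φ w₀).im := him w₀ h0
  have hΦd : DifferentiableOn ℂ Φ (ball 0 1) := by
    intro ζ hζ
    have h1 := (hφ (ψ ζ) (hψim ζ hζ)).hasDerivAt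
    have h2 := h1.comp ζ (hψd ζ hζ)
    exact ((cay_hasDeriv hφ0 (him _ (hψim ζ hζ))).comp ζ h2).differentiableAt.differentiableWithinAt
  have hΦm : MapsTo Φ (ball 0 1) (closedBall (Φ 0) 1) := by
    intro ζ hζ
    have h1 : Φ 0 = 0 := by simp [hΦ, hψ0, cay]
    rw [h1, mem_closedBall_zero_iff]
    exact norm_cay_le hφ0 (him _ (hψim ζ hζ))
  have key := Complex.norm_deriv_le_div_of_mapsTo_ball hΦd hΦm one_pos
  have hd0 : HasDerivAt φ (deriv φ w₀) (ψ 0) := by rw [hψ0]; exact (hφ w₀ h0).hasDerivAt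
  have h3 := hd0.comp (0 : ℂ) (hψd 0 hm0)
  have h4 : HasDerivAt (cay (φ w₀)) ((1 * (φ w₀ - (starRingEnd ℂ) (φ w₀)) - (φ w₀ - φ w₀) * 1) /
      (φ w₀ - (starRingEnd ℂ) (φ w₀)) ^ 2) ((φ ∘ ψ) 0) := by
    have : (φ ∘ ψ) 0 = φ w₀ := by simp [hψ0]
    rw [this]
    exact cay_hasDeriv hφ0 hφ0
  have h5 : deriv Φ 0 = _ := (h4.comp (0 : ℂ) h3).deriv
  rw [h5] at key
  have hden := cay_den_ne hφ0 hφ0
  have e1 : (1 * (φ w₀ - (starRingEnd ℂ) (φ w₀)) - (φ w₀ - φ w₀) * 1) /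
      (φ w₀ - (starRingEnd ℂ) (φ w₀)) ^ 2 *
      (deriv φ w₀ * ((-c * (1 - 0) - (w₀ - c * 0) * (-1)) / (1 - 0) ^ 2)) =
      (φ w₀ - (starRingEnd ℂ) (φ w₀))⁻¹ * deriv φ w₀ * (w₀ - c) := by
    field_simp
    ring
  rw [e1, norm_mul, norm_mul, norm_inv, norm_sub_conj hφ0, hc, norm_sub_conj h0] at key
  have hY := hφ0
  rw [inv_mul_eq_div, div_mul_eq_mul_div, div_le_iff₀ (by linarith only [hφ0])] at key
  linarith only [key]

/-- The domains of a Loewner chain are strictly decreasing. -/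
theorem domain_ne {W : ℝ → ℝ} (hW : Continuous W) {s t : ℝ} (hs : 0 ≤ s) (hst : s < t) :
    loewnerDomain W s ≠ loewnerDomain W t := by
  intro heq
  have ht : 0 ≤ t := hs.trans hst.le
  obtain ⟨z, hz, -⟩ := Zf_surj (W := W) (t := t) hW ht (w := Complex.I) (by simp only [Complex.I_im, zero_lt_one])
  have hzs : z ∈ loewnerDomain W s := dom_mono hst.le hz
  set w₀ := Zf W z s with hw₀
  have hY0 : 0 < w₀.im := Zf_im_pos hs hzs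
  set φ : ℂ → ℂ := fun w => Zf W (invflow W s w) t with hφ
  have hinv : ∀ w : ℂ, 0 < w.im → invflow W s w ∈ loewnerDomain W t := fun w hw => by
    rw [← heq]
    exact invflow_mem hs hW.continuousOn hw
  have hd : ∀ w : ℂ, 0 < w.im → HasDerivAt φ (dflow W t (invflow W s w) *
      (dflow W s (invflow W s w))⁻¹) w := by
    intro w hw
    have h1 := hasDerivAt_invflow hs hW.continuousOn hw
    have h2 := hasDerivAt_flow ht hW.continuousOn (hinv w hw)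
    exact h2.comp w h1
  have hsp := schwarz_pick_half (φ := φ) (fun w hw => (hd w hw).differentiableAt)
    (fun w hw => Zf_im_pos ht (hinv w hw)) hY0
  have hiz : invflow W s w₀ = z := invflow_flow hs hW.continuousOn hzs
  rw [(hd w₀ hY0).deriv, hiz] at hsp
  have hφ0 : φ w₀ = Zf W z t := by simp only [hφ]; rw [hiz]
  rw [hφ0, norm_mul, norm_inv, norm_dflow ht hW.continuousOn hz,
    norm_dflow hs hW.continuousOn hzs] at hsp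
  change (Zf W z t).im * Real.exp (-Uf W z t) * ((Zf W z s).im * Real.exp (-Uf W z s))⁻¹ *
    (Zf W z s).im ≤ (Zf W z t).im at hsp
  have hYt : 0 < (Zf W z t).im := Zf_im_pos ht hz
  have hYs : 0 < (Zf W z s).im := Zf_im_pos hs hzs
  -- strict decrease of `U`
  have hU : Uf W z t < Uf W z s := by
    have h1 := Uf_sub hW hs hst.le hz
    have h2 : 0 < ∫ u in s..t, rate (Zf W z u) := by
      refine intervalIntegral.intervalIntegral_pos_of_pos_on ?_ ?_ hst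
      · exact ((rate_cont hW ht hz).mono
          (by rw [uIcc_of_le hst.le]; exact Icc_subset_Icc hs le_rfl)).intervalIntegrable
      · intro u hu
        have hzu : z ∈ loewnerDomain W u := dom_mono hu.2.le hz
        have h3 : 0 < (Zf W z u).im := Zf_im_pos (hs.trans hu.1.le) hzu
        have h4 : 0 < ‖Zf W z u‖ := Zf_norm_pos (hs.trans hu.1.le) hzu
        rw [rate_eq]
        (clear * - h3 h4; positivity)
    linarith only [h1, h2]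
  have h1 : Real.exp (-Uf W z s) < Real.exp (-Uf W z t) := Real.exp_lt_exp.2 (by linarith only [hU])
  have h2 : (Zf W z t).im * Real.exp (-Uf W z t) * ((Zf W z s).im * Real.exp (-Uf W z s))⁻¹ *
      (Zf W z s).im = (Zf W z t).im * (Real.exp (-Uf W z t) / Real.exp (-Uf W z s)) := by
    have := Real.exp_pos (-Uf W z s)
    (clear * - hYs hYt; field_simp)
  rw [h2] at hsp
  have h3 : 1 < Real.exp (-Uf W z t) / Real.exp (-Uf W z s) := by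
    rw [one_lt_div (Real.exp_pos _)]
    exact h1
  nlinarith only [hsp, hYt, h3]

/-- Segments from an alive point to a dead point of the half-plane meet the curve. -/
theorem trace_segment {W : ℝ → ℝ} {γ : ℝ → ℂ} (hγ : IsTrace W γ) {t : ℝ} (ht : 0 ≤ t) {z w : ℂ}
    (hz : z ∈ loewnerDomain W t) (hw : 0 < w.im) (hw' : w ∉ loewnerDomain W t) :
    ∃ p ∈ segment ℝ z w, p ∈ γ '' Icc 0 t := by
  by_contra hcon
  push Not at hcon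
  rw [hγ.domain_eq t ht] at hz hw'
  refine hw' (unbComp_of_preconnected (convex_segment z w).isPreconnected ?_
    (left_mem_segment ℝ z w) (right_mem_segment ℝ z w) hz)
  intro p hp
  refine ⟨?_, hcon p hp⟩
  have hconv : Convex ℝ {z : ℂ | 0 < z.im} := convex_halfSpace_im_gt 0
  exact hconv.segment_subset hz.1.1 hw hp

/-- Relative version: the curve after time `s` comes close to an alive point whose surrounding
ball was alive at time `s`. -/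
theorem trace_near_segment {W : ℝ → ℝ} {γ : ℝ → ℂ} (hγ : IsTrace W γ) {s t : ℝ}
    (hs : 0 ≤ s) (hst : s ≤ t) {z w : ℂ} {r : ℝ} (hz : z ∈ loewnerDomain W t)
    (hb : ball z r ⊆ loewnerDomain W s) (hw : w ∈ ball z r) (hw' : w ∉ loewnerDomain W t) :
    ∃ p ∈ γ '' Icc s t, p ∈ ball z r := by
  have hwi : 0 < w.im := by
    have := hb hw
    rw [hγ.domain_eq s hs] at this
    exact this.1.1
  obtain ⟨p, hp, u, hu, rfl⟩ := trace_segment hγ (hs.trans hst) hz hwi hw'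
  have hr : 0 < r := pos_of_mem_ball hw
  have hpb : γ u ∈ ball z r :=
    (convex_ball z r).segment_subset (mem_ball_self hr) hw hp
  refine ⟨γ u, ⟨u, ⟨?_, hu.2⟩, rfl⟩, hpb⟩
  by_contra hcon
  push Not at hcon
  have h1 := hb hpb
  rw [hγ.domain_eq s hs] at h1
  exact h1.1.2 ⟨u, ⟨hu.1, hcon.le⟩, rfl⟩

/-- A point of the curve close to `z` is seen by `z` while `z` is alive. -/
theorem trace_cover {W : ℝ → ℝ} (hW : Continuous W) {γ : ℝ → ℂ} (hγ : IsTrace W γ) {t : ℝ}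
    (ht : 0 ≤ t) {z : ℂ} {r : ℝ} (hr : r ≤ z.im) (hp : γ t ∈ ball z r) :
    ∃ s ∈ Icc 0 t, z ∈ loewnerDomain W s ∧ ∃ w ∈ ball z r, w ∉ loewnerDomain W s := by
  by_contra hcon
  push Not at hcon
  have hr0 : 0 < r := pos_of_mem_ball hp
  have hzim : 0 < z.im := by linarith
  have hbH : ball z r ⊆ {z : ℂ | 0 < z.im} := by
    intro w hw
    rw [mem_ball, dist_eq_norm] at hw
    have h1 : |(w - z).im| ≤ ‖w - z‖ := Complex.abs_im_le_norm _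
    have h2 := neg_abs_le (w - z).im
    rw [Complex.sub_im] at h1 h2
    change 0 < w.im
    linarith only [hr, hw, h1, h2]
  -- the set of times at which `z` is alive
  set S : Set ℝ := {s | s ∈ Icc 0 t ∧ z ∈ loewnerDomain W s} with hS
  have h0S : (0 : ℝ) ∈ S := ⟨⟨le_rfl, ht⟩, dom_zero.2 hzim⟩
  have hSb : BddAbove S := ⟨t, fun s hs => hs.1.2⟩
  have hballS : ∀ s ∈ S, ball z r ⊆ loewnerDomain W s := fun s hs w hw =>
    hcon s hs.1 hs.2 w hw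
  have htS : t ∉ S := by
    intro h
    have h1 := hballS t h hp
    rw [hγ.domain_eq t ht] at h1
    exact h1.1.2 ⟨t, ⟨ht, le_rfl⟩, rfl⟩
  set τ := sSup S with hτ
  have hτ0 : 0 ≤ τ := le_csSup hSb h0S
  have hτt : τ ≤ t := csSup_le ⟨0, h0S⟩ fun s hs => hs.1.2
  have hlt : ∀ s, 0 ≤ s → s < τ → s ∈ S := by
    intro s hs hsτ
    obtain ⟨s', hs', hss'⟩ := exists_lt_of_lt_csSup ⟨0, h0S⟩ hsτ
    exact ⟨⟨hs, hss'.le.trans hs'.1.2⟩, dom_mono hss'.le hs'.2⟩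
  -- `z` is not alive at time `τ`
  have hτS : z ∉ loewnerDomain W τ := by
    intro hz
    have hτS' : τ ∈ S := ⟨⟨hτ0, hτt⟩, hz⟩
    have hτlt : τ < t := lt_of_le_of_ne hτt fun h => htS (h ▸ hτS')
    have hc : 0 < (gf W z τ).im := (gf_sol hτ0 hz).2 τ ⟨hτ0, le_rfl⟩ |>.1
    have hext := dom_extend_unif hW hτ0 hz hc le_rfl
    set δ : ℝ := ((gf W z τ).im / 2) ^ 2 / 2 with hδdef
    have hδ : 0 < δ := by (clear * - hc; positivity)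
    have h1 : min (τ + δ) t ∈ S := ⟨⟨le_min (by linarith only [hτ0, hδ]) ht, min_le_right _ _⟩,
      dom_mono (min_le_left _ _) hext⟩
    have h2 : min (τ + δ) t ≤ τ := le_csSup hSb h1
    have h3 : τ < min (τ + δ) t := lt_min (by linarith only [hδ]) hτlt
    linarith only [h2, h3]
  -- the ball is disjoint from the curve up to time `τ`
  have hτpos : 0 < τ := by
    rcases hτ0.eq_or_lt with h | h
    · exact absurd (h ▸ h0S.2) hτS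
    · exact h
  have hdisj : ∀ s ∈ Icc 0 τ, γ s ∉ ball z r := by
    intro s hs hmem
    rcases hs.2.eq_or_lt with h | h
    · -- continuity
      rw [h] at hmem
      have hc : ContinuousWithinAt γ (Iio τ) τ := by
        have h1 : ContinuousAt γ τ := hγ.cont.continuousAt (Ici_mem_nhds hτpos)
        exact h1.continuousWithinAt
      have h2 : ∀ᶠ u in 𝓝[<] τ, γ u ∈ ball z r := hc (isOpen_ball.mem_nhds hmem)
      have h3 : ∀ᶠ u in 𝓝[<] τ, 0 < u := by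
        have : Ioi (0 : ℝ) ∈ 𝓝 τ := Ioi_mem_nhds hτpos
        exact mem_nhdsWithin_of_mem_nhds this
      obtain ⟨u, hu1, hu2, hu3⟩ := (h2.and (h3.and self_mem_nhdsWithin)).exists
      have h4 := hballS u (hlt u hu2.le hu3) hu1
      rw [hγ.domain_eq u hu2.le] at h4
      exact h4.1.2 ⟨u, ⟨hu2.le, le_rfl⟩, rfl⟩
    · have h4 := hballS s (hlt s hs.1 h) hmem
      rw [hγ.domain_eq s hs.1] at h4
      exact h4.1.2 ⟨s, ⟨hs.1, le_rfl⟩, rfl⟩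
  have hτlt : τ < t := lt_of_le_of_ne hτt fun h => hdisj τ ⟨hτ0, le_rfl⟩ (h ▸ hp)
  have hballτ : ball z r ⊆ cplt γ τ := fun w hw =>
    ⟨hbH hw, fun ⟨s, hs, hsw⟩ => hdisj s hs (hsw ▸ hw)⟩
  have hballn : ∀ w ∈ ball z r, w ∉ loewnerDomain W τ := by
    intro w hw hw'
    rw [hγ.domain_eq τ hτ0] at hw' hτS
    exact hτS (unbComp_of_preconnected (convex_ball z r).isPreconnected hballτ hw
      (mem_ball_self hr0) hw')
  -- a time interval during which the curve stays in the ball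
  obtain ⟨s₁, hs₁, hs₁t, hs₁b⟩ : ∃ s₁, τ < s₁ ∧ s₁ < t ∧ ∀ u ∈ Icc s₁ t, γ u ∈ ball z r := by
    have h1 : ContinuousAt γ t := hγ.cont.continuousAt (Ici_mem_nhds (hτpos.trans hτlt))
    have h2 : ∀ᶠ u in 𝓝 t, γ u ∈ ball z r := h1 (isOpen_ball.mem_nhds hp)
    obtain ⟨δ, hδ, H⟩ := Metric.eventually_nhds_iff.1 h2
    refine ⟨max (t - δ / 2) ((τ + t) / 2), lt_max_of_lt_right (by linarith only [hτlt]),
      max_lt (by linarith only [hδ]) (by linarith only [hτlt]), fun u hu => H ?_⟩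
    have h3 := (le_max_left _ _).trans hu.1
    rw [Real.dist_eq, abs_lt]
    constructor
    · linarith only [hδ, h3]
    · have := hu.2
      linarith only [hδ, this]
  -- the domain is constant there
  have hs₁0 : 0 ≤ s₁ := hτ0.trans hs₁.le
  refine domain_ne hW hs₁0 hs₁t (Subset.antisymm ?_ (loewnerDomain_anti W hs₁t.le))
  intro w hw
  rw [hγ.domain_eq s₁ hs₁0] at hw
  rw [hγ.domain_eq t ht]
  set C := connectedComponentIn ({z : ℂ | 0 < z.im} \ γ '' Icc 0 s₁) w with hC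
  have hCsub : C ⊆ {z : ℂ | 0 < z.im} \ γ '' Icc 0 s₁ := connectedComponentIn_subset _ _
  have hwC : w ∈ C := mem_connectedComponentIn hw.1
  have hCpre : IsPreconnected C := isPreconnected_connectedComponentIn
  have hCτ : C ⊆ {z : ℂ | 0 < z.im} \ γ '' Icc 0 τ := fun x hx =>
    ⟨(hCsub hx).1, fun ⟨u, hu, hux⟩ => (hCsub hx).2 ⟨u, ⟨hu.1, hu.2.trans hs₁.le⟩, hux⟩⟩
  have hCball : Disjoint C (ball z r) := by
    rw [Set.disjoint_left]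
    intro x hx hxb
    have hwτ : w ∈ unbComp ({z : ℂ | 0 < z.im} \ γ '' Icc 0 τ) := by
      refine ⟨hCτ hwC, fun hbd => hw.2 (hbd.subset ?_)⟩
      exact hCpre.subset_connectedComponentIn hwC hCτ
    have hxτ := unbComp_of_preconnected hCpre hCτ hwC hx hwτ
    rw [← hγ.domain_eq τ hτ0] at hxτ
    exact hballn x hxb hxτ
  have hCt : C ⊆ {z : ℂ | 0 < z.im} \ γ '' Icc 0 t := by
    intro x hx
    refine ⟨(hCsub hx).1, fun ⟨u, hu, hux⟩ => ?_⟩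
    rcases le_total u s₁ with h | h
    · exact (hCsub hx).2 ⟨u, ⟨hu.1, h⟩, hux⟩
    · exact Set.disjoint_left.1 hCball hx (hux ▸ hs₁b u ⟨h, hu.2⟩)
  refine ⟨hCt hwC, fun hbd => hw.2 (hbd.subset ?_)⟩
  exact hCpre.subset_connectedComponentIn hwC hCt

end Vale.Agent.P164
end

section

/-!
# X-B1. Auxiliary jets for the step of the pair kernel
-/

namespace Vale.Agent.P164

open Set Metric Filter Topology MeasureTheory ProbabilityTheory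
open scoped NNReal ENNReal

/-- Jets of exponentials of differentiable paths. -/
theorem pairStep_rj_exp {C₁ C₂ M δ m η t K : ℝ} {ψ φ : ℝ → ℝ} (h1 : 0 ≤ C₁) (h2 : 0 ≤ C₂)
    (hM : 0 ≤ M) (hδ : 0 ≤ δ) (hm : 0 ≤ m)
    (hd : ∀ s ∈ Icc t (t + δ), HasDerivWithinAt ψ (-(φ s)) (Icc t (t + δ)) s)
    (hK : ∀ s ∈ Icc t (t + δ), |φ s| ≤ K) (hK1 : K * δ ≤ 1) (hKM : K ≤ C₁ * M ^ 2)
    (hc : ∀ s ∈ Icc t (t + δ), |φ s - φ t| ≤ C₂ * (m * M ^ 3 + δ * M ^ 4)) :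
    RJ (C₁ + C₁ ^ 2 + C₂) M δ m η (Real.exp (ψ t)) (Real.exp (ψ (t + δ))) 0 0 (-(φ t)) ∧
      Real.exp (ψ t) / 16 ≤ Real.exp (ψ (t + δ)) := by
  have ht : t ∈ Icc t (t + δ) := ⟨le_rfl, by linarith⟩
  have ht' : t + δ ∈ Icc t (t + δ) := ⟨by linarith, le_rfl⟩
  have hK0 : 0 ≤ K := (abs_nonneg _).trans (hK t ht)
  set x := ψ (t + δ) - ψ t with hx
  have hx1 : |x| ≤ K * δ := by
    have := (convex_Icc t (t + δ)).norm_image_sub_le_of_norm_hasDerivWithin_le (f := ψ)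
      (f' := fun s => -(φ s)) (C := K) hd (fun s hs => by
        rw [norm_neg]; exact hK s hs) ht ht'
    rw [Real.norm_eq_abs, Real.norm_eq_abs, add_sub_cancel_left, abs_of_nonneg hδ] at this
    exact this
  have hx2 : |x + δ * φ t| ≤ C₂ * (m * M ^ 3 + δ * M ^ 4) * δ := by
    have := (convex_Icc t (t + δ)).norm_image_sub_le_of_norm_hasDerivWithin_le
      (f := fun s => ψ s + φ t * s) (f' := fun s => -(φ s) + φ t * 1)
      (C := C₂ * (m * M ^ 3 + δ * M ^ 4))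
      (fun s hs => (hd s hs).add ((hasDerivWithinAt_id s _).const_mul (φ t)))
      (fun s hs => by
        have h3 := hc s hs
        rw [Real.norm_eq_abs, show -(φ s) + φ t * 1 = -(φ s - φ t) by ring, abs_neg]
        exact h3) ht ht'
    rw [Real.norm_eq_abs, Real.norm_eq_abs, add_sub_cancel_left, abs_of_nonneg hδ] at this
    rw [show x + δ * φ t = (fun s => ψ s + φ t * s) (t + δ) - (fun s => ψ s + φ t * s) t by
      rw [hx]; ring]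
    exact this
  have hx3 : |x| ≤ 1 := hx1.trans hK1
  have hexp : |Real.exp x - 1 - x| ≤ x ^ 2 := Real.abs_exp_sub_one_sub_id_le hx3
  have hx4 : x ^ 2 ≤ C₁ ^ 2 * (δ ^ 2 * M ^ 4) := by
    have h3 : |x| ≤ C₁ * M ^ 2 * δ := hx1.trans (mul_le_mul_of_nonneg_right hKM hδ)
    have h4 : x ^ 2 ≤ (C₁ * M ^ 2 * δ) ^ 2 := sq_le_sq' (by linarith only [h3, neg_abs_le x]) ((le_abs_self x).trans h3)
    calc x ^ 2 ≤ (C₁ * M ^ 2 * δ) ^ 2 := h4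
      _ = C₁ ^ 2 * (δ ^ 2 * M ^ 4) := by ring
  have hf : Real.exp (ψ (t + δ)) = Real.exp (ψ t) * Real.exp x := by
    rw [← Real.exp_add]; congr 1; rw [hx]; ring
  have hE0 : 0 ≤ m ^ 3 * M ^ 3 := by (clear * - hm hM; positivity)
  have hE1 : 0 ≤ δ * m * M ^ 3 := by (clear * - hδ hm hM; positivity)
  have hE2 : 0 ≤ δ ^ 2 * M ^ 4 := by (clear * -; positivity)
  refine ⟨⟨by rw [abs_zero]; (clear * - h1 h2 hM; positivity), by rw [abs_zero]; (clear * - h1 h2; positivity), ?_, ?_⟩, ?_⟩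
  · rw [abs_neg]
    have h3 := (hK t ht).trans hKM
    have h4 : 0 ≤ (C₁ ^ 2 + C₂) * M ^ 2 := by (clear * - h2; positivity)
    linarith only [h3, h4]
  · rw [hf, show Real.exp (ψ t) * Real.exp x - Real.exp (ψ t) *
      (1 - η * 0 + η ^ 2 / 2 * 0 + δ * -(φ t)) =
      Real.exp (ψ t) * ((Real.exp x - 1 - x) + (x + δ * φ t)) by ring, abs_mul]
    have h5 : |Real.exp x - 1 - x + (x + δ * φ t)| ≤
        (C₁ + C₁ ^ 2 + C₂) * (m ^ 3 * M ^ 3 + δ * m * M ^ 3 + δ ^ 2 * M ^ 4) := by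
      refine (abs_add_le _ _).trans ?_
      have h6 : |Real.exp x - 1 - x| ≤ C₁ ^ 2 * (δ ^ 2 * M ^ 4) := hexp.trans hx4
      have h7 : C₂ * (m * M ^ 3 + δ * M ^ 4) * δ = C₂ * (δ * m * M ^ 3 + δ ^ 2 * M ^ 4) := by ring
      rw [h7] at hx2
      have h8 : 0 ≤ C₁ * (m ^ 3 * M ^ 3 + δ * m * M ^ 3 + δ ^ 2 * M ^ 4) := by (clear * - h1 hm hM hδ; positivity)
      have h9 : 0 ≤ C₁ ^ 2 * (m ^ 3 * M ^ 3 + δ * m * M ^ 3) := by (clear * - hm hM hδ; positivity)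
      have h10 : 0 ≤ C₂ * (m ^ 3 * M ^ 3) := by (clear * - h2 hm hM; positivity)
      linarith only [hx2, hexp, hx4, h8, h9, h10]
    calc |Real.exp (ψ t)| * |Real.exp x - 1 - x + (x + δ * φ t)|
        ≤ |Real.exp (ψ t)| * ((C₁ + C₁ ^ 2 + C₂) *
          (m ^ 3 * M ^ 3 + δ * m * M ^ 3 + δ ^ 2 * M ^ 4)) :=
          mul_le_mul_of_nonneg_left h5 (abs_nonneg _)
      _ = _ := by ring
  · rw [hf, div_eq_mul_inv]
    refine mul_le_mul_of_nonneg_left ?_ (Real.exp_pos _).le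
    have h3 : Real.exp (-1) ≤ Real.exp x := Real.exp_le_exp.2 (by linarith only [hK1, hx1, neg_abs_le x])
    have h4 : (16 : ℝ)⁻¹ ≤ Real.exp (-1) := by
      rw [Real.exp_neg]
      refine inv_anti₀ (Real.exp_pos _) ?_
      have := Real.exp_one_lt_d9
      linarith only [this]
    linarith only [h3, h4]

/-- Square of the norm after one step. -/
theorem pairStep_sq {C : ℝ} (hC : 0 ≤ C) {A A' : ℂ} {η δ m : ℝ} (hA : 0 < ‖A‖) (hδ : 0 ≤ δ)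
    (hη : |η| ≤ m) (hm : m ≤ ‖A‖ / 8) (hδA : δ ≤ ‖A‖ ^ 2 / 64)
    (hE : ‖A' - (A - (η : ℂ) + 2 * (δ : ℂ) / A)‖ ≤
      C * (δ * m / ‖A‖ ^ 2 + δ ^ 2 / ‖A‖ ^ 3)) :
    |‖A'‖ ^ 2 - (‖A‖ ^ 2 - 2 * η * A.re + η ^ 2 +
        4 * δ * (A.re ^ 2 - A.im ^ 2) / ‖A‖ ^ 2)| ≤
      (4 + 3 * C + C ^ 2) * (δ * m / ‖A‖ + δ ^ 2 / ‖A‖ ^ 2) := by
  set r := ‖A‖ with hr
  set P : ℂ := A - (η : ℂ) + 2 * (δ : ℂ) / A with hP
  have hm0 : 0 ≤ m := (abs_nonneg _).trans hη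
  have hr2 : r ^ 2 = A.re ^ 2 + A.im ^ 2 := by
    rw [hr, Complex.sq_norm, Complex.normSq_apply]; ring
  have hn : Complex.normSq A = r ^ 2 := by rw [hr, Complex.sq_norm]
  have e1 : (2 * (δ : ℂ) / A).re = 2 * δ * A.re / r ^ 2 := by
    rw [Complex.div_re, hn]; simp only [Complex.mul_re, Complex.re_ofNat, Complex.ofReal_re, Complex.im_ofNat, Complex.ofReal_im, mul_zero, sub_zero, Complex.mul_im, zero_mul, add_zero, zero_div]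
  have e2 : (2 * (δ : ℂ) / A).im = -(2 * δ * A.im / r ^ 2) := by
    rw [Complex.div_im, hn]; simp only [Complex.mul_im, Complex.re_ofNat, Complex.ofReal_im, mul_zero, Complex.im_ofNat, Complex.ofReal_re, zero_mul, add_zero, zero_div, Complex.mul_re, sub_zero, zero_sub]
  have hP2 : ‖P‖ ^ 2 = (r ^ 2 - 2 * η * A.re + η ^ 2 + 4 * δ * (A.re ^ 2 - A.im ^ 2) / r ^ 2) +
      (4 * δ ^ 2 / r ^ 2 - 4 * η * δ * A.re / r ^ 2) := by
    rw [Complex.sq_norm, Complex.normSq_apply, hP, Complex.add_re, Complex.add_im,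
      Complex.sub_re, Complex.sub_im, e1, e2, Complex.ofReal_re, Complex.ofReal_im]
    have h3 : A.re ^ 2 + A.im ^ 2 ≠ 0 := by rw [← hr2]; positivity
    rw [hr2]
    field_simp
    ring
  set e := δ * m / r + δ ^ 2 / r ^ 2 with he
  have he0 : 0 ≤ e := by (clear * - hδ hm0 hA; positivity)
  have hre : |A.re| ≤ r := Complex.abs_re_le_norm A
  have hmain : |4 * δ ^ 2 / r ^ 2 - 4 * η * δ * A.re / r ^ 2| ≤ 4 * e := by
    have h3 : |4 * η * δ * A.re / r ^ 2| ≤ 4 * (δ * m / r) := by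
      rw [abs_div, abs_mul, abs_mul, abs_mul, abs_of_nonneg hδ, abs_of_pos (by positivity : (0:ℝ) < r ^ 2),
        abs_of_pos (by norm_num : (0:ℝ) < 4), div_le_iff₀ (by positivity)]
      calc 4 * |η| * δ * |A.re| ≤ 4 * m * δ * r := by (clear * - hη hδ hre hm0; gcongr)
        _ = 4 * (δ * m / r) * r ^ 2 := by (clear * - hA; field_simp)
    have h4 : |4 * δ ^ 2 / r ^ 2| = 4 * (δ ^ 2 / r ^ 2) := by
      rw [abs_of_nonneg (by (clear * - hA; positivity))]; ring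
    calc |4 * δ ^ 2 / r ^ 2 - 4 * η * δ * A.re / r ^ 2|
        ≤ |4 * δ ^ 2 / r ^ 2| + |4 * η * δ * A.re / r ^ 2| := abs_sub _ _
      _ ≤ 4 * (δ ^ 2 / r ^ 2) + 4 * (δ * m / r) := by rw [h4]; linarith only [h3]
      _ = 4 * e := by rw [he]; ring
  have hPn : ‖P‖ ≤ 6 / 5 * r := by
    have h3 : ‖2 * (δ : ℂ) / A‖ ≤ r / 32 := by
      rw [norm_div, norm_mul, Complex.norm_ofNat, Complex.norm_real, Real.norm_eq_abs,
        abs_of_nonneg hδ, ← hr, div_le_iff₀ hA]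
      calc 2 * δ ≤ 2 * (r ^ 2 / 64) := by linarith only [hδA]
        _ = r / 32 * r := by ring
    calc ‖P‖ ≤ ‖A - (η : ℂ)‖ + ‖2 * (δ : ℂ) / A‖ := norm_add_le _ _
      _ ≤ (‖A‖ + ‖(η : ℂ)‖) + ‖2 * (δ : ℂ) / A‖ := by gcongr; exact norm_sub_le _ _
      _ ≤ (r + r / 8) + r / 32 := by
          rw [Complex.norm_real, Real.norm_eq_abs]
          have := hη.trans hm
          (clear * - this h3; gcongr)
      _ ≤ 6 / 5 * r := by linarith only [hA]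
  have hEe : ‖A' - P‖ ≤ C * (e / r) := by
    refine hE.trans (le_of_eq ?_)
    rw [he]
    (clear * - hA; field_simp)
  have her : e / r ≤ r := by
    rw [div_le_iff₀ hA, he]
    have h3 : δ * m / r ≤ r ^ 2 / 2 := by
      rw [div_le_iff₀ hA]
      have h5 : 0 ≤ r ^ 3 := by positivity
      calc δ * m ≤ (r ^ 2 / 64) * (r / 8) := mul_le_mul hδA hm hm0 (by positivity)
        _ = r ^ 3 / 512 := by ring
        _ ≤ r ^ 3 / 2 := by linarith only [h5]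
        _ = r ^ 2 / 2 * r := by ring
    have h4 : δ ^ 2 / r ^ 2 ≤ r ^ 2 / 2 := by
      rw [div_le_iff₀ (by positivity)]
      have h5 : 0 ≤ r ^ 4 := by positivity
      calc δ ^ 2 ≤ (r ^ 2 / 64) ^ 2 := pow_le_pow_left₀ hδ hδA 2
        _ = r ^ 4 / 4096 := by ring
        _ ≤ r ^ 4 / 2 := by linarith only [h5]
        _ = r ^ 2 / 2 * r ^ 2 := by ring
    linarith only [h3, h4]
  have hdiff : |‖A'‖ ^ 2 - ‖P‖ ^ 2| ≤ (3 * C + C ^ 2) * e := by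
    have h3 : |‖A'‖ - ‖P‖| ≤ ‖A' - P‖ := abs_norm_sub_norm_le _ _
    have h4 : ‖A'‖ ≤ ‖P‖ + ‖A' - P‖ := by
      have := norm_add_le P (A' - P)
      rwa [add_sub_cancel] at this
    have h5 : ‖A'‖ + ‖P‖ ≤ (3 + C) * r := by
      have h6 : C * (e / r) ≤ C * r := mul_le_mul_of_nonneg_left her hC
      linarith only [hA, hPn, hEe, h4, h6]
    calc |‖A'‖ ^ 2 - ‖P‖ ^ 2| = |‖A'‖ - ‖P‖| * (‖A'‖ + ‖P‖) := by
          rw [show ‖A'‖ ^ 2 - ‖P‖ ^ 2 = (‖A'‖ - ‖P‖) * (‖A'‖ + ‖P‖) by ring, abs_mul,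
            abs_of_nonneg (by (clear * -; positivity) : 0 ≤ ‖A'‖ + ‖P‖)]
      _ ≤ (C * (e / r)) * ((3 + C) * r) := by
          refine mul_le_mul (h3.trans hEe) h5 (by (clear * -; positivity)) (by (clear * - hC hδ hm0 hA; positivity))
      _ = (3 * C + C ^ 2) * e := by (clear * - hA hC; field_simp)
  calc |‖A'‖ ^ 2 - (r ^ 2 - 2 * η * A.re + η ^ 2 + 4 * δ * (A.re ^ 2 - A.im ^ 2) / r ^ 2)|
      = |(‖A'‖ ^ 2 - ‖P‖ ^ 2) + (4 * δ ^ 2 / r ^ 2 - 4 * η * δ * A.re / r ^ 2)| := by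
        rw [hP2]; congr 1; ring
    _ ≤ |‖A'‖ ^ 2 - ‖P‖ ^ 2| + |4 * δ ^ 2 / r ^ 2 - 4 * η * δ * A.re / r ^ 2| := abs_add_le _ _
    _ ≤ (3 * C + C ^ 2) * e + 4 * e := add_le_add hdiff hmain
    _ = _ := by ring

theorem pairStep_rj_mono {C C' M δ m η f f' a b c : ℝ} (h : C ≤ C') (hM : 0 ≤ M) (hδ : 0 ≤ δ)
    (hm : 0 ≤ m) (hf : RJ C M δ m η f f' a b c) : RJ C' M δ m η f f' a b c where
  ha := hf.ha.trans (mul_le_mul_of_nonneg_right h hM)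
  hb := hf.hb.trans (mul_le_mul_of_nonneg_right h (by positivity))
  hc := hf.hc.trans (mul_le_mul_of_nonneg_right h (by positivity))
  he := hf.he.trans (by gcongr)

/-- The inverse of the centred flow along one step. -/
theorem pairStep_inv {W : ℝ → ℝ} {b : ℂ} {t δ m : ℝ} (ht : 0 ≤ t) (hm0 : 0 ≤ m)
    (hm : ∀ u ∈ Icc t (t + δ), |W u - W t| ≤ m) (hb : b ∈ loewnerDomain W (t + δ))
    (hmove : ∀ s ∈ Icc t (t + δ), ‖Zf W b s - Zf W b t‖ ≤ ‖Zf W b t‖ / 4) {M : ℝ}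
    (hM : ‖Zf W b t‖⁻¹ ≤ M) (hA : 0 < ‖Zf W b t‖) : ∀ s ∈ Icc t (t + δ),
      ‖(Zf W b s)⁻¹‖ ≤ 4 / 3 * ‖Zf W b t‖⁻¹ ∧
      ‖(Zf W b s)⁻¹ - (Zf W b t)⁻¹‖ ≤ 4 * (m * M ^ 2 + δ * M ^ 3) := by
  intro s hs
  set A := Zf W b t with hAdef
  have hlow : ∀ u ∈ Icc t (t + δ), 3 / 4 * ‖A‖ ≤ ‖Zf W b u‖ := by
    intro u hu
    have h1 := norm_sub_norm_le A (Zf W b u)
    rw [norm_sub_rev] at h1
    have h2 := hmove u hu
    linarith
  have hpos : ∀ u ∈ Icc t (t + δ), 0 < ‖Zf W b u‖ := fun u hu =>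
    lt_of_lt_of_le (by positivity) (hlow u hu)
  have hinv : ∀ u ∈ Icc t (t + δ), ‖(Zf W b u)⁻¹‖ ≤ 4 / 3 * ‖A‖⁻¹ := by
    intro u hu
    rw [norm_inv, show 4 / 3 * ‖A‖⁻¹ = (3 / 4 * ‖A‖)⁻¹ by rw [mul_inv]; norm_num]
    exact inv_anti₀ (by positivity) (hlow u hu)
  refine ⟨hinv s hs, ?_⟩
  have hδ : 0 ≤ δ := by linarith only [hs.1, hs.2]
  have h1 : ‖gf W b s - gf W b t‖ ≤ 8 / 3 * ‖A‖⁻¹ * ‖s - t‖ := by
    refine (convex_Icc t s).norm_image_sub_le_of_norm_hasDerivWithin_le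
      (f' := fun v => 2 / Zf W b v) (fun v hv => ?_) (fun v hv => ?_) ⟨le_rfl, hs.1⟩ ⟨hs.1, le_rfl⟩
    · exact (gf_hasDeriv hb ⟨ht.trans hv.1, hv.2.trans hs.2⟩).mono
        (Icc_subset_Icc ht hs.2)
    · have h2 := hinv v ⟨hv.1, hv.2.trans hs.2⟩
      rw [div_eq_mul_inv, norm_mul, Complex.norm_ofNat]
      linarith only [h2]
  have h2 : ‖Zf W b s - A‖ ≤ m + 8 / 3 * ‖A‖⁻¹ * δ := by
    have h3 : Zf W b s - A = (gf W b s - gf W b t) - ((W s - W t : ℝ) : ℂ) := by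
      rw [hAdef, Zf_eq, Zf_eq]; push_cast; ring
    rw [h3]
    refine (norm_sub_le _ _).trans ?_
    rw [Complex.norm_real, Real.norm_eq_abs, add_comm]
    refine add_le_add (hm s hs) (h1.trans ?_)
    rw [Real.norm_eq_abs, abs_of_nonneg (by linarith only [hs.1])]
    have : s - t ≤ δ := by linarith only [hs.2]
    (clear * - this hA; gcongr)
  have hAs : Zf W b s ≠ 0 := norm_pos_iff.1 (hpos s hs)
  have hA0 : A ≠ 0 := norm_pos_iff.1 hA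
  have hM0 : 0 ≤ M := (inv_nonneg.2 hA.le).trans hM
  have h4 : (Zf W b s)⁻¹ - A⁻¹ = -((Zf W b s - A) * (Zf W b s)⁻¹ * A⁻¹) := by
    field_simp
    ring
  rw [h4, norm_neg, norm_mul, norm_mul, norm_inv A]
  have hu : 0 ≤ ‖A‖⁻¹ := inv_nonneg.2 hA.le
  calc ‖Zf W b s - A‖ * ‖(Zf W b s)⁻¹‖ * ‖A‖⁻¹
      ≤ (m + 8 / 3 * ‖A‖⁻¹ * δ) * (4 / 3 * ‖A‖⁻¹) * ‖A‖⁻¹ := by
        have := hinv s hs
        (clear * - h2 this hm0 hA0 hδ; gcongr)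
    _ ≤ (m + 8 / 3 * M * δ) * (4 / 3 * M) * M := by (clear * - hM hδ hA0 hm0 hM0; gcongr)
    _ = 4 / 3 * (m * M ^ 2) + 32 / 9 * (δ * M ^ 3) := by ring
    _ ≤ 4 * (m * M ^ 2 + δ * M ^ 3) := by
        have h5 : 0 ≤ m * M ^ 2 := by (clear * - hm0; positivity)
        have h6 : 0 ≤ δ * M ^ 3 := by (clear * - hδ hM0; positivity)
        linarith only [h5, h6]

theorem pairStep_rate (Z : ℂ) : rate Z = 4 * (Z⁻¹).im ^ 2 := by
  rw [rate_eq, Complex.inv_im, ← Complex.sq_norm, div_pow, neg_sq, ← pow_mul]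
  ring

theorem pairStep_prod {w₁ w₂ v₁ v₂ : ℂ} {M d : ℝ} (h1 : ‖w₁‖ ≤ 4 / 3 * M) (h3 : ‖v₁ - v₂‖ ≤ 4 * d)
    (h4 : ‖v₂‖ ≤ 4 / 3 * M) (h5 : ‖w₁ - w₂‖ ≤ 4 * d) :
    ‖w₁ * v₁ - w₂ * v₂‖ ≤ 32 / 3 * (M * d) := by
  have hd : 0 ≤ 4 * d := (norm_nonneg _).trans h3
  have hM : 0 ≤ 4 / 3 * M := (norm_nonneg _).trans h1
  have e : w₁ * v₁ - w₂ * v₂ = w₁ * (v₁ - v₂) + (w₁ - w₂) * v₂ := by ring
  rw [e]
  refine (norm_add_le _ _).trans ?_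
  rw [norm_mul, norm_mul]
  calc ‖w₁‖ * ‖v₁ - v₂‖ + ‖w₁ - w₂‖ * ‖v₂‖
      ≤ (4 / 3 * M) * (4 * d) + (4 * d) * (4 / 3 * M) := by gcongr
    _ = _ := by ring

/-- Relative jet of the squared norm. -/
theorem pairStep_rj_sq {C : ℝ} (hC : 0 ≤ C) {A A' : ℂ} {η δ m M : ℝ} (hA : 0 < ‖A‖) (hδ : 0 ≤ δ)
    (hM : ‖A‖⁻¹ ≤ M)
    (he : |‖A'‖ ^ 2 - (‖A‖ ^ 2 - 2 * η * A.re + η ^ 2 +
        4 * δ * (A.re ^ 2 - A.im ^ 2) / ‖A‖ ^ 2)| ≤ C * (δ * m / ‖A‖ + δ ^ 2 / ‖A‖ ^ 2))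
    (hm : 0 ≤ m) :
    RJ (C + 4) M δ m η (‖A‖ ^ 2) (‖A'‖ ^ 2) (2 * A.re / ‖A‖ ^ 2) (2 / ‖A‖ ^ 2)
      (4 * (A.re ^ 2 - A.im ^ 2) / ‖A‖ ^ 4) := by
  set r := ‖A‖ with hr
  have hu : 0 ≤ r⁻¹ := inv_nonneg.2 hA.le
  have hM0 : 0 ≤ M := hu.trans hM
  have hr2 : r ^ 2 = A.re ^ 2 + A.im ^ 2 := by
    rw [hr, Complex.sq_norm, Complex.normSq_apply]; ring
  have hre : |A.re| ≤ r := Complex.abs_re_le_norm A
  refine ⟨?_, ?_, ?_, ?_⟩
  · rw [abs_div, abs_mul, abs_of_pos (by positivity : (0:ℝ) < r ^ 2), abs_of_pos (by norm_num : (0:ℝ) < 2)]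
    calc 2 * |A.re| / r ^ 2 ≤ 2 * r / r ^ 2 := by (clear * - hre hA; gcongr)
      _ = 2 * r⁻¹ := by field_simp
      _ ≤ 2 * M := by (clear * - hM; gcongr)
      _ ≤ (C + 4) * M := mul_le_mul_of_nonneg_right (by linarith only [hC]) hM0
  · rw [abs_of_nonneg (by positivity)]
    calc 2 / r ^ 2 = 2 * r⁻¹ ^ 2 := by field_simp
      _ ≤ 2 * M ^ 2 := by gcongr
      _ ≤ (C + 4) * M ^ 2 := mul_le_mul_of_nonneg_right (by linarith only [hC]) (sq_nonneg M)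
  · have h1 : |A.re ^ 2 - A.im ^ 2| ≤ r ^ 2 := by
      rw [hr2, abs_le]
      constructor <;> linarith only [sq_nonneg A.im, sq_nonneg A.re]
    rw [abs_div, abs_mul, abs_of_pos (by positivity : (0:ℝ) < r ^ 4), abs_of_pos (by norm_num : (0:ℝ) < 4)]
    calc 4 * |A.re ^ 2 - A.im ^ 2| / r ^ 4 ≤ 4 * r ^ 2 / r ^ 4 := by (clear * - h1 hA; gcongr)
      _ = 4 * r⁻¹ ^ 2 := by field_simp
      _ ≤ 4 * M ^ 2 := by (clear * - hA hM; gcongr)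
      _ ≤ (C + 4) * M ^ 2 := mul_le_mul_of_nonneg_right (by linarith only [hC]) (sq_nonneg M)
  · have e1 : r ^ 2 * (1 - η * (2 * A.re / r ^ 2) + η ^ 2 / 2 * (2 / r ^ 2) +
        δ * (4 * (A.re ^ 2 - A.im ^ 2) / r ^ 4)) =
        r ^ 2 - 2 * η * A.re + η ^ 2 + 4 * δ * (A.re ^ 2 - A.im ^ 2) / r ^ 2 := by
      field_simp
    rw [e1]
    refine he.trans ?_
    rw [abs_of_pos (by positivity : (0:ℝ) < r ^ 2)]
    have e2 : δ * m / r + δ ^ 2 / r ^ 2 = r ^ 2 * (δ * m * r⁻¹ ^ 3 + δ ^ 2 * r⁻¹ ^ 4) := by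
      field_simp
    rw [e2]
    calc C * (r ^ 2 * (δ * m * r⁻¹ ^ 3 + δ ^ 2 * r⁻¹ ^ 4))
        ≤ C * (r ^ 2 * (δ * m * M ^ 3 + δ ^ 2 * M ^ 4)) := by (clear * - hA hM hδ hm hC; gcongr)
      _ = C * r ^ 2 * (δ * m * M ^ 3 + δ ^ 2 * M ^ 4) := by ring
      _ ≤ (C + 4) * r ^ 2 * (m ^ 3 * M ^ 3 + δ * m * M ^ 3 + δ ^ 2 * M ^ 4) := by
          have : 0 ≤ m ^ 3 * M ^ 3 := by (clear * - hm hM0; positivity)
          gcongr
          · linarith only []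
          · linarith only [this]

/-- Relative jet of a sum of positive functions. -/
theorem pairStep_rj_add {C M δ m η f f' a b c g g' a' b' c' : ℝ} (hf : 0 < f) (hg : 0 < g)
    (h1 : RJ C M δ m η f f' a b c) (h2 : RJ C M δ m η g g' a' b' c') :
    RJ C M δ m η (f + g) (f' + g') ((f * a + g * a') / (f + g)) ((f * b + g * b') / (f + g))
      ((f * c + g * c') / (f + g)) := by
  have hS : 0 < f + g := add_pos hf hg
  have key : ∀ {x y B : ℝ}, |x| ≤ B → |y| ≤ B → |(f * x + g * y) / (f + g)| ≤ B := by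
    intro x y B hx hy
    rw [abs_div, abs_of_pos hS, div_le_iff₀ hS]
    calc |f * x + g * y| ≤ |f * x| + |g * y| := abs_add_le _ _
      _ = f * |x| + g * |y| := by rw [abs_mul, abs_mul, abs_of_pos hf, abs_of_pos hg]
      _ ≤ f * B + g * B := add_le_add (mul_le_mul_of_nonneg_left hx hf.le)
          (mul_le_mul_of_nonneg_left hy hg.le)
      _ = B * (f + g) := by ring
  refine ⟨key h1.ha h2.ha, key h1.hb h2.hb, key h1.hc h2.hc, ?_⟩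
  have e1 : (f + g) * (1 - η * ((f * a + g * a') / (f + g)) +
      η ^ 2 / 2 * ((f * b + g * b') / (f + g)) + δ * ((f * c + g * c') / (f + g))) =
      f * (1 - η * a + η ^ 2 / 2 * b + δ * c) + g * (1 - η * a' + η ^ 2 / 2 * b' + δ * c') := by
    field_simp
    ring
  have h3 := h1.he
  have h4 := h2.he
  rw [abs_of_pos hf] at h3
  rw [abs_of_pos hg] at h4
  rw [e1, abs_of_pos hS]
  calc |f' + g' - (f * (1 - η * a + η ^ 2 / 2 * b + δ * c) +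
        g * (1 - η * a' + η ^ 2 / 2 * b' + δ * c'))|
      = |(f' - f * (1 - η * a + η ^ 2 / 2 * b + δ * c)) +
        (g' - g * (1 - η * a' + η ^ 2 / 2 * b' + δ * c'))| := by congr 1; ring
    _ ≤ _ := abs_add_le _ _
    _ ≤ C * f * (m ^ 3 * M ^ 3 + δ * m * M ^ 3 + δ ^ 2 * M ^ 4) +
        C * g * (m ^ 3 * M ^ 3 + δ * m * M ^ 3 + δ ^ 2 * M ^ 4) := add_le_add h3 h4
    _ = _ := by ring

/-- Derivative of `log |A - conj Z|²` along the flow. -/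
theorem pairStep_logD {W : ℝ → ℝ} {b z : ℂ} {T s : ℝ} (hs : s ∈ Icc 0 T)
    (hb : b ∈ loewnerDomain W T) (hz : z ∈ loewnerDomain W T) :
    HasDerivWithinAt (fun u => Real.log (‖Zf W b u - (starRingEnd ℂ) (Zf W z u)‖ ^ 2))
      (-(4 * ((Zf W b s)⁻¹ * (starRingEnd ℂ) (Zf W z s)⁻¹).re)) (Icc 0 T) s := by
  have hbs := Zf_im_pos hs.1 (dom_mono hs.2 hb)
  have hzs := Zf_im_pos hs.1 (dom_mono hs.2 hz)
  have hA0 := Zf_ne_zero hs.1 (dom_mono hs.2 hb)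
  have hZ0 := Zf_ne_zero hs.1 (dom_mono hs.2 hz)
  have h1 := gf_hasDeriv hb hs
  have h2 := gf_hasDeriv hz hs
  have h3 : HasDerivWithinAt (fun u => (starRingEnd ℂ) (gf W z u))
      ((starRingEnd ℂ) (2 / Zf W z s)) (Icc 0 T) s :=
    Complex.conjCLE.toContinuousLinearMap.hasFDerivAt.comp_hasDerivWithinAt s h2
  have h4 : HasDerivWithinAt (fun u => Zf W b u - (starRingEnd ℂ) (Zf W z u))
      (2 / Zf W b s - (starRingEnd ℂ) (2 / Zf W z s)) (Icc 0 T) s := by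
    refine (h1.sub h3).congr (fun u _ => ?_) ?_
    · rw [Zf_eq, Zf_eq, map_sub, Complex.conj_ofReal]; simp
    · rw [Zf_eq, Zf_eq, map_sub, Complex.conj_ofReal]; simp
  set A := Zf W b s with hA
  set Z := Zf W z s with hZ
  have hD0 : A - (starRingEnd ℂ) Z ≠ 0 := by
    intro h
    have := congrArg Complex.im h
    rw [Complex.sub_im, Complex.conj_im, Complex.zero_im] at this
    linarith
  have h5 := h4.norm_sq.log (by positivity)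
  refine h5.congr_deriv ?_
  have hcZ : (starRingEnd ℂ) Z ≠ 0 := by simpa using hZ0
  have e1 : 2 / A - (starRingEnd ℂ) (2 / Z) =
      (A - (starRingEnd ℂ) Z) * (-2 * (A⁻¹ * (starRingEnd ℂ) Z⁻¹)) := by
    rw [map_div₀, map_inv₀, Complex.conj_ofNat]
    field_simp
    ring
  rw [e1]
  set D := A - (starRingEnd ℂ) Z
  set q := A⁻¹ * (starRingEnd ℂ) Z⁻¹
  have e2 : inner ℝ D (D * (-2 * q)) = ‖D‖ ^ 2 * (-2 * q.re) := by
    rw [Complex.inner, show D * (-2 * q) * (starRingEnd ℂ) D = D * (starRingEnd ℂ) D * (-2 * q) by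
      ring, Complex.mul_conj, Complex.re_ofReal_mul, Complex.sq_norm]
    simp
  rw [e2]
  have hD : ‖D‖ ^ 2 ≠ 0 := by positivity
  field_simp
  ring

theorem pairStep_KK {A Z : ℂ} (hA : A ≠ 0) (hZ : Z ≠ 0) :
    KK A Z = A.im ^ 6 * (‖A‖ ^ 2) ^ 3 * (‖Z‖ ^ 2) ^ 3 *
      ((‖A - (starRingEnd ℂ) Z‖ ^ 2)⁻¹) ^ 3 * ((‖A‖ ^ 2 + ‖Z‖ ^ 2)⁻¹) ^ 6 := by
  have hA' : ‖A‖ ≠ 0 := norm_ne_zero_iff.2 hA
  have hS : ‖A‖ ^ 2 + ‖Z‖ ^ 2 ≠ 0 := by positivity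
  unfold KK K1 K2
  have e : A.im * ‖Z‖ / (‖A‖ * ‖A - (starRingEnd ℂ) Z‖) * (‖A‖ ^ 2 / (‖A‖ ^ 2 + ‖Z‖ ^ 2)) =
      A.im * ‖A‖ * ‖Z‖ * ‖A - (starRingEnd ℂ) Z‖⁻¹ * (‖A‖ ^ 2 + ‖Z‖ ^ 2)⁻¹ := by
    rw [div_eq_mul_inv, mul_inv, div_eq_mul_inv]
    field_simp
  rw [e, mul_pow, mul_pow, mul_pow, mul_pow, inv_pow, inv_pow, inv_pow, ← pow_mul, ← pow_mul,
    ← pow_mul]

/-- bounds on the step in terms of the inverse norms -/
theorem pairStep_small {r ρ δ m : ℝ} (hδ : 0 < δ) (hm : 0 ≤ m) (h1 : 8 * (m + √δ) ≤ r)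
    (h2 : 8 * (m + √δ) ≤ ρ) :
    0 < r ∧ 0 < ρ ∧ m ≤ r / 8 ∧ δ ≤ r ^ 2 / 64 ∧ m * (r⁻¹ + ρ⁻¹) ≤ 1 ∧
      δ * (r⁻¹ + ρ⁻¹) ^ 2 ≤ 1 ∧ δ * (r⁻¹ * ρ⁻¹) ≤ 1 / 64 ∧ δ * r⁻¹ ^ 2 ≤ 1 / 64 := by
  have hs : 0 < √δ := Real.sqrt_pos.2 hδ
  have hss : √δ * √δ = δ := Real.mul_self_sqrt hδ.le
  have hr : 0 < r := lt_of_lt_of_le (by positivity) h1
  have hρ : 0 < ρ := lt_of_lt_of_le (by positivity) h2
  have a1 : m ≤ r / 8 := by linarith only [h1, hs]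
  have a2 : √δ ≤ r / 8 := by linarith only [hm, h1]
  have a3 : m ≤ ρ / 8 := by linarith only [h2, hs]
  have a4 : √δ ≤ ρ / 8 := by linarith only [hm, h2]
  have b1 : m * r⁻¹ ≤ 1 / 8 := by
    rw [← div_eq_mul_inv, div_le_iff₀ hr]; linarith only [h1, hs]
  have b2 : m * ρ⁻¹ ≤ 1 / 8 := by
    rw [← div_eq_mul_inv, div_le_iff₀ hρ]; linarith only [h2, hs]
  have b3 : √δ * r⁻¹ ≤ 1 / 8 := by
    rw [← div_eq_mul_inv, div_le_iff₀ hr]; linarith only [hm, h1]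
  have b4 : √δ * ρ⁻¹ ≤ 1 / 8 := by
    rw [← div_eq_mul_inv, div_le_iff₀ hρ]; linarith only [hm, h2]
  have c3 : 0 ≤ √δ * r⁻¹ := by positivity
  have c4 : 0 ≤ √δ * ρ⁻¹ := by positivity
  refine ⟨hr, hρ, a1, ?_, by linarith only [b1, b2], ?_, ?_, ?_⟩
  · calc δ = √δ * √δ := hss.symm
      _ ≤ r / 8 * (r / 8) := by (clear * - a2 hδ hr; gcongr)
      _ = r ^ 2 / 64 := by ring
  · calc δ * (r⁻¹ + ρ⁻¹) ^ 2 = (√δ * r⁻¹ + √δ * ρ⁻¹) ^ 2 := by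
          rw [← mul_add, mul_pow, sq (√δ), hss]
      _ ≤ (1 / 8 + 1 / 8) ^ 2 := by gcongr
      _ ≤ 1 := by norm_num
  · calc δ * (r⁻¹ * ρ⁻¹) = (√δ * √δ) * (r⁻¹ * ρ⁻¹) := by rw [hss]
      _ = (√δ * r⁻¹) * (√δ * ρ⁻¹) := by ring
      _ ≤ (1 / 8) * (1 / 8) := by (clear * - b3 b4 hδ hρ; gcongr)
      _ = 1 / 64 := by norm_num
  · calc δ * r⁻¹ ^ 2 = (√δ * √δ) * r⁻¹ ^ 2 := by rw [hss]
      _ = (√δ * r⁻¹) * (√δ * r⁻¹) := by ring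
      _ ≤ (1 / 8) * (1 / 8) := by (clear * - b3 hδ hr; gcongr)
      _ = 1 / 64 := by norm_num

/-- the three exponential factors -/
theorem pairStep_exps {W : ℝ → ℝ} (hW : Continuous W) {b z : ℂ} {t δ m : ℝ} (ht : 0 ≤ t)
    (hδ : 0 < δ) (hm0 : 0 ≤ m) (hm : ∀ u ∈ Icc t (t + δ), |W u - W t| ≤ m)
    (hb : b ∈ loewnerDomain W (t + δ)) (hz : z ∈ loewnerDomain W (t + δ))
    (hbm : ∀ s ∈ Icc t (t + δ), ‖Zf W b s - Zf W b t‖ ≤ ‖Zf W b t‖ / 4)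
    (hzm : ∀ s ∈ Icc t (t + δ), ‖Zf W z s - Zf W z t‖ ≤ ‖Zf W z t‖ / 4)
    (h8b : 8 * (m + √δ) ≤ ‖Zf W b t‖) (h8z : 8 * (m + √δ) ≤ ‖Zf W z t‖) {M η : ℝ}
    (hM : M = ‖Zf W b t‖⁻¹ + ‖Zf W z t‖⁻¹) :
    RJ (8 + 8 ^ 2 + 64) M δ m η (Real.exp (Uf W b t)) (Real.exp (Uf W b (t + δ))) 0 0
      (-(rate (Zf W b t))) ∧
    RJ (8 + 8 ^ 2 + 64) M δ m η (Zf W b t).im (Zf W b (t + δ)).im 0 0
      (-(2 / ‖Zf W b t‖ ^ 2)) ∧
    RJ (8 + 8 ^ 2 + 64) M δ m η (‖Zf W b t - (starRingEnd ℂ) (Zf W z t)‖ ^ 2)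
      (‖Zf W b (t + δ) - (starRingEnd ℂ) (Zf W z (t + δ))‖ ^ 2) 0 0
      (-(4 * ((Zf W b t)⁻¹ * (starRingEnd ℂ) (Zf W z t)⁻¹).re)) ∧
    ‖Zf W b t - (starRingEnd ℂ) (Zf W z t)‖ ^ 2 / 16 ≤
      ‖Zf W b (t + δ) - (starRingEnd ℂ) (Zf W z (t + δ))‖ ^ 2 := by
  obtain ⟨hr, hρ, _, _, hmM, hδM, hδrρ, hδr⟩ := pairStep_small hδ hm0 h8b h8z
  have hu : 0 ≤ ‖Zf W b t‖⁻¹ := inv_nonneg.2 hr.le
  have hv : 0 ≤ ‖Zf W z t‖⁻¹ := inv_nonneg.2 hρ.le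
  have huM : ‖Zf W b t‖⁻¹ ≤ M := by rw [hM]; linarith only [hv]
  have hvM : ‖Zf W z t‖⁻¹ ≤ M := by rw [hM]; linarith only [hu]
  have hM0 : 0 ≤ M := hu.trans huM
  have ib := pairStep_inv ht hm0 hm hb hbm huM hr
  have iz := pairStep_inv ht hm0 hm hz hzm hvM hρ
  have htt : t ∈ Icc t (t + δ) := ⟨le_rfl, by linarith only [hδ]⟩
  have htT : t + δ ∈ Icc t (t + δ) := ⟨by linarith only [hδ], le_rfl⟩
  have hT0 : 0 ≤ t + δ := by linarith only [ht, hδ]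
  have hsub : Icc t (t + δ) ⊆ Icc 0 (t + δ) := Icc_subset_Icc_left ht
  have hd : 0 ≤ m * M ^ 2 + δ * M ^ 3 := by (clear * - hm0 hδ hM0; positivity)
  have hMsq : 0 ≤ M ^ 2 := sq_nonneg M
  have hu2 : ‖Zf W b t‖⁻¹ * ‖Zf W b t‖⁻¹ ≤ M ^ 2 := by
    rw [sq]; (clear * - huM hr hM0; gcongr)
  have huv2 : ‖Zf W b t‖⁻¹ * ‖Zf W z t‖⁻¹ ≤ M ^ 2 := by
    rw [sq]; (clear * - huM hvM hρ hM0; gcongr)
  have nb : ∀ s ∈ Icc t (t + δ), ‖(Zf W b s)⁻¹‖ ≤ 4 / 3 * M := fun s hs =>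
    (ib s hs).1.trans (by (clear * - huM; gcongr))
  have nz : ∀ s ∈ Icc t (t + δ), ‖(Zf W z s)⁻¹‖ ≤ 4 / 3 * M := fun s hs =>
    (iz s hs).1.trans (by (clear * - hvM; gcongr))
  refine ⟨?_, ?_, ?_⟩
  · have hrate : ∀ s, rate (Zf W b s) = 4 * ((Zf W b s)⁻¹).im ^ 2 := fun s => pairStep_rate _
    refine (pairStep_rj_exp (C₁ := 8) (C₂ := 64) (K := 64 / 9 * (‖Zf W b t‖⁻¹ * ‖Zf W b t‖⁻¹))
      (ψ := Uf W b) (φ := fun s => rate (Zf W b s)) (by norm_num) (by norm_num) hM0 hδ.le hm0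
      (fun s hs => (Uf_hasDeriv hW hb (hsub hs)).mono hsub) (fun s hs => ?_) ?_ ?_
      (fun s hs => ?_)).1
    · rw [hrate, abs_of_nonneg (by (clear * -; positivity))]
      have h1 : ((Zf W b s)⁻¹).im ^ 2 ≤ (4 / 3 * ‖Zf W b t‖⁻¹) ^ 2 := by
        refine sq_le_sq' ?_ ?_
        · have := neg_le_of_abs_le ((Complex.abs_im_le_norm (Zf W b s)⁻¹).trans (ib s hs).1)
          exact this
        · exact (le_abs_self _).trans ((Complex.abs_im_le_norm _).trans (ib s hs).1)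
      calc 4 * ((Zf W b s)⁻¹).im ^ 2 ≤ 4 * (4 / 3 * ‖Zf W b t‖⁻¹) ^ 2 := by (clear * - h1; gcongr)
        _ = _ := by ring
    · have : δ * (‖Zf W b t‖⁻¹ * ‖Zf W b t‖⁻¹) ≤ 1 / 64 := by rw [← sq]; exact hδr
      linarith only [hδr]
    · linarith only [hMsq, hu2]
    · rw [hrate, hrate]
      have h1 : |((Zf W b s)⁻¹).im - ((Zf W b t)⁻¹).im| ≤ 4 * (m * M ^ 2 + δ * M ^ 3) := by
        rw [← Complex.sub_im]
        exact (Complex.abs_im_le_norm _).trans (ib s hs).2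
      have h2 : |((Zf W b s)⁻¹).im + ((Zf W b t)⁻¹).im| ≤ 4 / 3 * M + 4 / 3 * M :=
        (abs_add_le _ _).trans (add_le_add ((Complex.abs_im_le_norm _).trans (nb s hs))
          ((Complex.abs_im_le_norm _).trans (nb t htt)))
      calc |4 * ((Zf W b s)⁻¹).im ^ 2 - 4 * ((Zf W b t)⁻¹).im ^ 2|
          = 4 * (|((Zf W b s)⁻¹).im - ((Zf W b t)⁻¹).im| *
            |((Zf W b s)⁻¹).im + ((Zf W b t)⁻¹).im|) := by
            rw [show 4 * ((Zf W b s)⁻¹).im ^ 2 - 4 * ((Zf W b t)⁻¹).im ^ 2 =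
              4 * ((((Zf W b s)⁻¹).im - ((Zf W b t)⁻¹).im) *
                (((Zf W b s)⁻¹).im + ((Zf W b t)⁻¹).im)) by ring,
              abs_mul, abs_mul, abs_of_pos (by norm_num : (0:ℝ) < 4)]
        _ ≤ 4 * ((4 * (m * M ^ 2 + δ * M ^ 3)) * (4 / 3 * M + 4 / 3 * M)) := by (clear * - h1 h2 hm0 hδ hM0; gcongr)
        _ = 128 / 3 * (m * M ^ 3 + δ * M ^ 4) := by ring
        _ ≤ 64 * (m * M ^ 3 + δ * M ^ 4) := by
            have : 0 ≤ m * M ^ 3 + δ * M ^ 4 := by (clear * - hm0 hM0 hδ; positivity)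
            linarith only [this]
  · have hφ : ∀ s ∈ Icc t (t + δ), 2 / ‖Zf W b s‖ ^ 2 = 2 * ‖(Zf W b s)⁻¹‖ ^ 2 := fun s _ => by
      rw [norm_inv, inv_pow, div_eq_mul_inv]
    have hy : ∀ s ∈ Icc t (t + δ), Real.exp (Real.log (Zf W b s).im) = (Zf W b s).im :=
      fun s hs => Real.exp_log (Zf_im_pos (ht.trans hs.1) (dom_mono hs.2 hb))
    have := (pairStep_rj_exp (C₁ := 8) (C₂ := 64) (η := η)
      (K := 64 / 9 * (‖Zf W b t‖⁻¹ * ‖Zf W b t‖⁻¹))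
      (ψ := fun s => Real.log (Zf W b s).im) (φ := fun s => 2 / ‖Zf W b s‖ ^ 2)
      (by norm_num) (by norm_num) hM0 hδ.le hm0
      (fun s hs => (logY_hasDeriv hb (hsub hs)).mono hsub) (fun s hs => ?_) ?_ ?_
      (fun s hs => ?_)).1
    · rwa [hy t htt, hy (t + δ) htT] at this
    · rw [hφ s hs, abs_of_nonneg (by (clear * -; positivity))]
      calc 2 * ‖(Zf W b s)⁻¹‖ ^ 2 ≤ 2 * (4 / 3 * ‖Zf W b t‖⁻¹) ^ 2 := by
            have := (ib s hs).1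
            (clear * - this; gcongr)
        _ = 32 / 9 * (‖Zf W b t‖⁻¹ * ‖Zf W b t‖⁻¹) := by ring
        _ ≤ 64 / 9 * (‖Zf W b t‖⁻¹ * ‖Zf W b t‖⁻¹) := by
            have : 0 ≤ ‖Zf W b t‖⁻¹ * ‖Zf W b t‖⁻¹ := by (clear * - hr; positivity)
            linarith only [this]
    · have : δ * (‖Zf W b t‖⁻¹ * ‖Zf W b t‖⁻¹) ≤ 1 / 64 := by rw [← sq]; exact hδr
      linarith only [hδr]
    · linarith only [hMsq, hu2]
    · rw [hφ s hs, hφ t htt]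
      have h1 : |‖(Zf W b s)⁻¹‖ - ‖(Zf W b t)⁻¹‖| ≤ 4 * (m * M ^ 2 + δ * M ^ 3) :=
        (abs_norm_sub_norm_le _ _).trans (ib s hs).2
      have h2 : ‖(Zf W b s)⁻¹‖ + ‖(Zf W b t)⁻¹‖ ≤ 4 / 3 * M + 4 / 3 * M :=
        add_le_add (nb s hs) (nb t htt)
      calc |2 * ‖(Zf W b s)⁻¹‖ ^ 2 - 2 * ‖(Zf W b t)⁻¹‖ ^ 2|
          = 2 * (|‖(Zf W b s)⁻¹‖ - ‖(Zf W b t)⁻¹‖| * (‖(Zf W b s)⁻¹‖ + ‖(Zf W b t)⁻¹‖)) := by
            rw [show 2 * ‖(Zf W b s)⁻¹‖ ^ 2 - 2 * ‖(Zf W b t)⁻¹‖ ^ 2 =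
              2 * ((‖(Zf W b s)⁻¹‖ - ‖(Zf W b t)⁻¹‖) * (‖(Zf W b s)⁻¹‖ + ‖(Zf W b t)⁻¹‖)) by ring,
              abs_mul, abs_mul, abs_of_pos (by norm_num : (0:ℝ) < 2),
              abs_of_nonneg (by (clear * -; positivity) : 0 ≤ ‖(Zf W b s)⁻¹‖ + ‖(Zf W b t)⁻¹‖)]
        _ ≤ 2 * ((4 * (m * M ^ 2 + δ * M ^ 3)) * (4 / 3 * M + 4 / 3 * M)) := by (clear * - h1 h2 hm0 hδ hM0; gcongr)
        _ = 64 / 3 * (m * M ^ 3 + δ * M ^ 4) := by ring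
        _ ≤ 64 * (m * M ^ 3 + δ * M ^ 4) := by
            have : 0 ≤ m * M ^ 3 + δ * M ^ 4 := by (clear * - hm0 hM0 hδ; positivity)
            linarith only [this]
  · have hDpos : ∀ s ∈ Icc t (t + δ), 0 < ‖Zf W b s - (starRingEnd ℂ) (Zf W z s)‖ ^ 2 := by
      intro s hs
      have h1 := Zf_im_pos (ht.trans hs.1) (dom_mono hs.2 hb)
      have h2 := Zf_im_pos (ht.trans hs.1) (dom_mono hs.2 hz)
      have : Zf W b s - (starRingEnd ℂ) (Zf W z s) ≠ 0 := by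
        intro h
        have := congrArg Complex.im h
        rw [Complex.sub_im, Complex.conj_im, Complex.zero_im] at this
        linarith only [h1, h2, this]
      positivity
    have hy : ∀ s ∈ Icc t (t + δ),
        Real.exp (Real.log (‖Zf W b s - (starRingEnd ℂ) (Zf W z s)‖ ^ 2)) =
          ‖Zf W b s - (starRingEnd ℂ) (Zf W z s)‖ ^ 2 := fun s hs => Real.exp_log (hDpos s hs)
    have nzc : ∀ s ∈ Icc t (t + δ), ‖(starRingEnd ℂ) (Zf W z s)⁻¹‖ ≤ 4 / 3 * M := fun s hs => by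
      rw [Complex.norm_conj]; exact nz s hs
    have := pairStep_rj_exp (C₁ := 8) (C₂ := 64) (η := η)
      (K := 64 / 9 * (‖Zf W b t‖⁻¹ * ‖Zf W z t‖⁻¹))
      (ψ := fun s => Real.log (‖Zf W b s - (starRingEnd ℂ) (Zf W z s)‖ ^ 2))
      (φ := fun s => 4 * ((Zf W b s)⁻¹ * (starRingEnd ℂ) (Zf W z s)⁻¹).re)
      (by norm_num) (by norm_num) hM0 hδ.le hm0
      (fun s hs => (pairStep_logD (hsub hs) hb hz).mono hsub) (fun s hs => ?_) ?_ ?_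
      (fun s hs => ?_)
    · rwa [hy t htt, hy (t + δ) htT] at this
    · rw [abs_mul, abs_of_pos (by norm_num : (0:ℝ) < 4)]
      calc 4 * |((Zf W b s)⁻¹ * (starRingEnd ℂ) (Zf W z s)⁻¹).re|
          ≤ 4 * ((4 / 3 * ‖Zf W b t‖⁻¹) * (4 / 3 * ‖Zf W z t‖⁻¹)) := by
            have h1 := Complex.abs_re_le_norm ((Zf W b s)⁻¹ * (starRingEnd ℂ) (Zf W z s)⁻¹)
            rw [norm_mul, Complex.norm_conj] at h1
            have h2 := mul_le_mul (ib s hs).1 (iz s hs).1 (norm_nonneg _) (by positivity)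
            linarith only [h1, h2]
        _ = _ := by ring
    · linarith only [hδrρ]
    · linarith only [hMsq, huv2]
    · rw [← mul_sub, abs_mul, abs_of_pos (by norm_num : (0:ℝ) < 4), ← Complex.sub_re]
      have h1 := pairStep_prod (nb s hs) (v₁ := (starRingEnd ℂ) (Zf W z s)⁻¹)
        (v₂ := (starRingEnd ℂ) (Zf W z t)⁻¹) (d := m * M ^ 2 + δ * M ^ 3)
        (by rw [← map_sub, Complex.norm_conj]; exact (iz s hs).2) (nzc t htt) (ib s hs).2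
      calc 4 * |((Zf W b s)⁻¹ * (starRingEnd ℂ) (Zf W z s)⁻¹ -
            (Zf W b t)⁻¹ * (starRingEnd ℂ) (Zf W z t)⁻¹).re|
          ≤ 4 * (32 / 3 * (M * (m * M ^ 2 + δ * M ^ 3))) := by
            have := Complex.abs_re_le_norm ((Zf W b s)⁻¹ * (starRingEnd ℂ) (Zf W z s)⁻¹ -
              (Zf W b t)⁻¹ * (starRingEnd ℂ) (Zf W z t)⁻¹)
            linarith only [h1, this]
        _ = 128 / 3 * (m * M ^ 3 + δ * M ^ 4) := by ring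
        _ ≤ 64 * (m * M ^ 3 + δ * M ^ 4) := by
            have : 0 ≤ m * M ^ 3 + δ * M ^ 4 := by (clear * - hm0 hM0 hδ; positivity)
            linarith only [this]

theorem pairStep_rj_congr {C M δ m η f f' a b c g g' a' b' c' : ℝ} (h1 : f = g) (h2 : f' = g')
    (h3 : a = a') (h4 : b = b') (h5 : c = c') (h : RJ C M δ m η f f' a b c) :
    RJ C M δ m η g g' a' b' c' := by
  subst h1 h2 h3 h4 h5
  exact h

/-- the product of all factors -/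
theorem pairStep_abs {C₀ C₁ : ℝ} (h0 : 0 ≤ C₀) (h1 : 0 ≤ C₁) : ∃ C : ℝ, 0 ≤ C ∧
    ∀ {M δ m η u u' cu y y' cy d d' cd p p' aA bA cA q q' aZ bZ cZ s s' aS bS cS : ℝ}
      (_ : 0 ≤ M) (_ : 0 ≤ δ) (_ : |η| ≤ m) (_ : m * M ≤ 1) (_ : δ * M ^ 2 ≤ 1)
      (_ : RJ C₀ M δ m η u u' 0 0 cu) (_ : RJ C₀ M δ m η y y' 0 0 cy)
      (_ : RJ C₀ M δ m η d d' 0 0 cd) (_ : 0 < d) (_ : d / 16 ≤ d')
      (_ : RJ C₁ M δ m η p p' aA bA cA) (_ : RJ C₁ M δ m η q q' aZ bZ cZ)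
      (_ : RJ C₁ M δ m η s s' aS bS cS) (_ : 0 < s) (_ : s / 16 ≤ s'),
      RJ C M δ m η (u * (y ^ 6 * p ^ 3 * q ^ 3 * d⁻¹ ^ 3 * s⁻¹ ^ 6))
        (u' * (y' ^ 6 * p' ^ 3 * q' ^ 3 * d'⁻¹ ^ 3 * s'⁻¹ ^ 6))
        (3 * aA + 3 * aZ - 6 * aS)
        ((3 * aA + 3 * aZ - 6 * aS) ^ 2 +
          (3 * (bA - aA ^ 2) + 3 * (bZ - aZ ^ 2) - 6 * (bS - aS ^ 2)))
        (cu + 6 * cy + 3 * cA + 3 * cZ - 3 * cd - 6 * cS) := by
  obtain ⟨Cy, hCy, jy⟩ := RJ.pow h0 6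
  obtain ⟨Ca, hCa, ja⟩ := RJ.pow h1 3
  obtain ⟨Cd, hCd, jd⟩ := RJ.inv h0
  obtain ⟨Cd3, hCd3, jd3⟩ := RJ.pow hCd 3
  obtain ⟨Ci, hCi, ji⟩ := RJ.inv h1
  obtain ⟨Ci6, hCi6, ji6⟩ := RJ.pow hCi 6
  obtain ⟨c1, hc1, m1⟩ := RJ.mul h0 hCy
  obtain ⟨c2, hc2, m2⟩ := RJ.mul hc1 hCa
  obtain ⟨c3, hc3, m3⟩ := RJ.mul hc2 hCa
  obtain ⟨c4, hc4, m4⟩ := RJ.mul hc3 hCd3
  obtain ⟨c5, hc5, m5⟩ := RJ.mul hc4 hCi6
  refine ⟨c5, hc5, ?_⟩
  intro M δ m η u u' cu y y' cy d d' cd p p' aA bA cA q q' aZ bZ cZ s s' aS bS cS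
    hM0 hδ hη hmM hδM jU jY jD hD2 hD16 jA jZ jS hS2 hS16
  have J1 := m1 hM0 hδ hη hmM hδM jU (jy hM0 hδ hη hmM hδM jY)
  have J2 := m2 hM0 hδ hη hmM hδM J1 (ja hM0 hδ hη hmM hδM jA)
  have J3 := m3 hM0 hδ hη hmM hδM J2 (ja hM0 hδ hη hmM hδM jZ)
  have J4 := m4 hM0 hδ hη hmM hδM J3 (jd3 hM0 hδ hη hmM hδM
    (jd hM0 hδ hη hmM hδM jD hD2 hD16))
  have J5 := m5 hM0 hδ hη hmM hδM J4 (ji6 hM0 hδ hη hmM hδM
    (ji hM0 hδ hη hmM hδM jS hS2 hS16))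
  refine pairStep_rj_congr ?_ ?_ ?_ ?_ ?_ J5
  · ring
  · ring
  · push_cast
    ring
  · push_cast
    ring
  · push_cast
    ring

theorem pairStep_kX {A Z : ℂ} (hA : 0 < ‖A‖) (hZ : 0 < ‖Z‖) :
    3 * (2 * A.re / ‖A‖ ^ 2) + 3 * (2 * Z.re / ‖Z‖ ^ 2) - 6 *
      ((‖A‖ ^ 2 * (2 * A.re / ‖A‖ ^ 2) + ‖Z‖ ^ 2 * (2 * Z.re / ‖Z‖ ^ 2)) /
        (‖A‖ ^ 2 + ‖Z‖ ^ 2)) = kX A Z := by
  unfold kX
  have hS : ‖A‖ ^ 2 + ‖Z‖ ^ 2 ≠ 0 := by positivity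
  have e1 : ‖A‖ ^ 2 * (2 * A.re / ‖A‖ ^ 2) + ‖Z‖ ^ 2 * (2 * Z.re / ‖Z‖ ^ 2) =
      2 * (A.re + Z.re) := by
    field_simp
  rw [e1]
  ring

theorem pairStep_kXX {A Z : ℂ} (hA : 0 < ‖A‖) (hZ : 0 < ‖Z‖) :
    3 * (2 / ‖A‖ ^ 2 - (2 * A.re / ‖A‖ ^ 2) ^ 2) + 3 * (2 / ‖Z‖ ^ 2 - (2 * Z.re / ‖Z‖ ^ 2) ^ 2) -
      6 * ((‖A‖ ^ 2 * (2 / ‖A‖ ^ 2) + ‖Z‖ ^ 2 * (2 / ‖Z‖ ^ 2)) / (‖A‖ ^ 2 + ‖Z‖ ^ 2) -
        ((‖A‖ ^ 2 * (2 * A.re / ‖A‖ ^ 2) + ‖Z‖ ^ 2 * (2 * Z.re / ‖Z‖ ^ 2)) /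
        (‖A‖ ^ 2 + ‖Z‖ ^ 2)) ^ 2) = kXX A Z := by
  unfold kXX
  have hS : ‖A‖ ^ 2 + ‖Z‖ ^ 2 ≠ 0 := by positivity
  have e1 : ‖A‖ ^ 2 * (2 * A.re / ‖A‖ ^ 2) + ‖Z‖ ^ 2 * (2 * Z.re / ‖Z‖ ^ 2) =
      2 * (A.re + Z.re) := by
    field_simp
  have e2 : ‖A‖ ^ 2 * (2 / ‖A‖ ^ 2) + ‖Z‖ ^ 2 * (2 / ‖Z‖ ^ 2) = 4 := by
    field_simp
    norm_num
  have key : ∀ {B : ℂ}, 0 < ‖B‖ →
      3 * (2 / ‖B‖ ^ 2 - (2 * B.re / ‖B‖ ^ 2) ^ 2) = 6 * (B.im ^ 2 - B.re ^ 2) / ‖B‖ ^ 4 := by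
    intro B hB
    have hr2 : B.im ^ 2 = ‖B‖ ^ 2 - B.re ^ 2 := by
      rw [Complex.sq_norm, Complex.normSq_apply]; ring
    rw [hr2]
    field_simp
    ring
  rw [e1, e2, key hA, key hZ]
  generalize ‖A‖ ^ 2 + ‖Z‖ ^ 2 = S at *
  field_simp
  ring

theorem pairStep_k3 {A Z : ℂ} (hA : 0 < ‖A‖) (hZ : 0 < ‖Z‖) (R : ℝ) :
    -R + 6 * (-(2 / ‖A‖ ^ 2)) + 3 * (4 * (A.re ^ 2 - A.im ^ 2) / ‖A‖ ^ 4) +
      3 * (4 * (Z.re ^ 2 - Z.im ^ 2) / ‖Z‖ ^ 4) -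
      3 * (-(4 * (A⁻¹ * (starRingEnd ℂ) Z⁻¹).re)) -
      6 * ((‖A‖ ^ 2 * (4 * (A.re ^ 2 - A.im ^ 2) / ‖A‖ ^ 4) +
        ‖Z‖ ^ 2 * (4 * (Z.re ^ 2 - Z.im ^ 2) / ‖Z‖ ^ 4)) / (‖A‖ ^ 2 + ‖Z‖ ^ 2)) =
    k3 A Z - R := by
  unfold k3
  have hS : ‖A‖ ^ 2 + ‖Z‖ ^ 2 ≠ 0 := by positivity
  have e1 : ∀ {B : ℂ}, 0 < ‖B‖ → ‖B‖ ^ 2 * (4 * (B.re ^ 2 - B.im ^ 2) / ‖B‖ ^ 4) =
      4 * ((B.re ^ 2 - B.im ^ 2) / ‖B‖ ^ 2) := by
    intro B hB
    (clear * - hB; field_simp)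
  have e2 : (A⁻¹ * (starRingEnd ℂ) Z⁻¹).re =
      (A.re * Z.re + A.im * Z.im) / (‖A‖ ^ 2 * ‖Z‖ ^ 2) := by
    rw [Complex.mul_re, Complex.conj_re, Complex.conj_im, Complex.inv_re, Complex.inv_re,
      Complex.inv_im, Complex.inv_im, ← Complex.sq_norm, ← Complex.sq_norm]
    field_simp
    ring
  rw [e1 hA, e1 hZ, e2]
  ring

/-- pair jet from the jets of the factors -/
theorem pairStep_core {Cz : ℝ} (hCz : 0 ≤ Cz) : ∃ C : ℝ, 0 ≤ C ∧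
    ∀ {A A' Z Z' : ℂ} {U U' δ m η M : ℝ} (_ : 0 < ‖A‖) (_ : 0 < ‖Z‖) (_ : A' ≠ 0) (_ : Z' ≠ 0)
      (_ : 0 < A.im) (_ : 0 < Z.im) (_ : ‖A‖⁻¹ ≤ M) (_ : ‖Z‖⁻¹ ≤ M) (_ : 0 ≤ δ) (_ : 0 ≤ m)
      (_ : |η| ≤ m) (_ : m * M ≤ 1) (_ : δ * M ^ 2 ≤ 1)
      (_ : ‖A' - A‖ ≤ ‖A‖ / 4) (_ : ‖Z' - Z‖ ≤ ‖Z‖ / 4)
      (_ : |‖A'‖ ^ 2 - (‖A‖ ^ 2 - 2 * η * A.re + η ^ 2 +
        4 * δ * (A.re ^ 2 - A.im ^ 2) / ‖A‖ ^ 2)| ≤ Cz * (δ * m / ‖A‖ + δ ^ 2 / ‖A‖ ^ 2))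
      (_ : |‖Z'‖ ^ 2 - (‖Z‖ ^ 2 - 2 * η * Z.re + η ^ 2 +
        4 * δ * (Z.re ^ 2 - Z.im ^ 2) / ‖Z‖ ^ 2)| ≤ Cz * (δ * m / ‖Z‖ + δ ^ 2 / ‖Z‖ ^ 2))
      (_ : RJ (8 + 8 ^ 2 + 64) M δ m η (Real.exp U) (Real.exp U') 0 0 (-(rate A)))
      (_ : RJ (8 + 8 ^ 2 + 64) M δ m η A.im A'.im 0 0 (-(2 / ‖A‖ ^ 2)))
      (_ : RJ (8 + 8 ^ 2 + 64) M δ m η (‖A - (starRingEnd ℂ) Z‖ ^ 2)
        (‖A' - (starRingEnd ℂ) Z'‖ ^ 2) 0 0 (-(4 * (A⁻¹ * (starRingEnd ℂ) Z⁻¹).re)))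
      (_ : ‖A - (starRingEnd ℂ) Z‖ ^ 2 / 16 ≤ ‖A' - (starRingEnd ℂ) Z'‖ ^ 2),
      RJ C M δ m η (Real.exp U * KK A Z) (Real.exp U' * KK A' Z') (kX A Z)
        (kX A Z ^ 2 + kXX A Z) (k3 A Z - rate A) := by
  have hs : (0 : ℝ) ≤ Cz + 4 := by positivity
  obtain ⟨C, hC, key⟩ := pairStep_abs (C₀ := 8 + 8 ^ 2 + 64) (by norm_num) hs
  refine ⟨C, hC, ?_⟩
  intro A A' Z Z' U U' δ m η M hr hρ hA0' hZ0' hAi hZi huM hvM hδ hm0 hη hmM hδM hmb hmz eA eZ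
    jU jY jD hD16
  have hA0 : A ≠ 0 := norm_pos_iff.1 hr
  have hZ0 : Z ≠ 0 := norm_pos_iff.1 hρ
  have hM0 : 0 ≤ M := (inv_nonneg.2 hr.le).trans huM
  have jA := pairStep_rj_sq hCz hr hδ huM eA hm0
  have jZ := pairStep_rj_sq hCz hρ hδ hvM eZ hm0
  have hA2 : 0 < ‖A‖ ^ 2 := by positivity
  have hZ2 : 0 < ‖Z‖ ^ 2 := by positivity
  have jS := pairStep_rj_add hA2 hZ2 jA jZ
  have hS2 : 0 < ‖A‖ ^ 2 + ‖Z‖ ^ 2 := add_pos hA2 hZ2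
  have low : ∀ {B B' : ℂ}, ‖B' - B‖ ≤ ‖B‖ / 4 → ‖B‖ ^ 2 / 16 ≤ ‖B'‖ ^ 2 := by
    intro B B' h
    have h1 := norm_sub_norm_le B B'
    rw [norm_sub_rev] at h1
    have h2 : 3 / 4 * ‖B‖ ≤ ‖B'‖ := by linarith only [h, h1]
    have h3 := sq_nonneg ‖B‖
    have h4 : (3 / 4 * ‖B‖) ^ 2 = 9 / 16 * ‖B‖ ^ 2 := by ring
    calc ‖B‖ ^ 2 / 16 ≤ (3 / 4 * ‖B‖) ^ 2 := by rw [h4]; linarith only [h3]
      _ ≤ ‖B'‖ ^ 2 := by (clear * - h2; gcongr)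
  have hS16 : (‖A‖ ^ 2 + ‖Z‖ ^ 2) / 16 ≤ ‖A'‖ ^ 2 + ‖Z'‖ ^ 2 := by
    have h1 := low hmb
    have h2 := low hmz
    linarith only [h1, h2]
  have hDne : A - (starRingEnd ℂ) Z ≠ 0 := by
    intro h
    have := congrArg Complex.im h
    rw [Complex.sub_im, Complex.conj_im, Complex.zero_im] at this
    linarith only [hAi, hZi, this]
  have hD2 : 0 < ‖A - (starRingEnd ℂ) Z‖ ^ 2 := by positivity
  have J := key hM0 hδ hη hmM hδM jU jY jD hD2 hD16 jA jZ jS hS2 hS16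
  rw [← pairStep_KK hA0 hZ0, ← pairStep_KK hA0' hZ0', pairStep_kX hr hρ, pairStep_kXX hr hρ,
    pairStep_k3 hr hρ] at J
  exact J

end Vale.Agent.P164
end

section

/-!
# X-B1. One step of the pair kernel

`A = Z_b(t)`, `Z = Z_Q(t)`, `A', Z'` the values at `t+δ`, `η = W(t+δ) - W(t)`,
`K = (Y_b |A||Z| / (|A - conj Z| S))⁶ = Y_b⁶ (|A|²)³ (|Z|²)³ (|A - conj Z|²)⁻³ S⁻⁶`,
`S = |A|²+|Z|²`: only even powers of norms occur.
-/

namespace Vale.Agent.P164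

open Set Metric Filter Topology MeasureTheory ProbabilityTheory
open scoped NNReal ENNReal

/-- A function `f` with `f f' ≤ 2` where it is positive grows at most like a square root. -/
theorem PairStep_growth {f f' : ℝ → ℝ} {a b : ℝ} (hab : a ≤ b)
    (hf : ∀ s ∈ Icc a b, HasDerivWithinAt f (f' s) (Icc a b) s)
    (hb : ∀ s ∈ Icc a b, 0 < f s → f s * f' s ≤ 2) :
    f b ≤ max (f a) 0 + 4 * √(b - a) := by
  refine le_of_forall_pos_le_add fun ε hε => ?_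
  have hP : 0 ≤ max (f a) 0 := le_max_right _ _
  obtain ⟨A, hA⟩ : ∃ A, A = (max (f a) 0 + ε) ^ 2 := ⟨_, rfl⟩
  have hA0 : 0 < A := by rw [hA]; positivity
  have hpos : ∀ s ∈ Icc a b, 0 < A + 16 * (s - a) := fun s hs => by
    have := hs.1
    linarith only [hA0, this]
  have key := image_le_of_deriv_right_lt_deriv_boundary' (f := f) (f' := f')
    (B := fun s => √(A + 16 * (s - a))) (B' := fun s => 16 / (2 * √(A + 16 * (s - a))))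
    (a := a) (b := b) (fun s hs => (hf s hs).continuousWithinAt)
    (fun s hs => ((hf s (Ico_subset_Icc_self hs)).mono_of_mem_nhdsWithin
      (Icc_mem_nhdsGE_of_mem hs))) ?_ ?_ ?_ ?_ (right_mem_Icc.2 hab)
  · refine key.trans ?_
    rw [Real.sqrt_le_left (by (clear * - hε; positivity))]
    have h1 : √(b - a) ^ 2 = b - a := Real.sq_sqrt (by linarith)
    have h2 : 0 ≤ √(b - a) := Real.sqrt_nonneg _
    rw [hA]
    nlinarith only [h1, hP, h2, hε]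
  · rw [sub_self, mul_zero, add_zero, hA, Real.sqrt_sq (by positivity)]
    linarith [le_max_left (f a) 0]
  · exact (Continuous.continuousOn (by fun_prop))
  · intro s hs
    have h0 := hpos s (Ico_subset_Icc_self hs)
    have h1 : HasDerivAt (fun s : ℝ => A + 16 * (s - a)) 16 s := by
      have := (((hasDerivAt_id s).sub_const a).const_mul 16).const_add A
      simpa using this
    exact (h1.sqrt h0.ne').hasDerivWithinAt
  · intro s hs hfs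
    have h0 := hpos s (Ico_subset_Icc_self hs)
    have h1 : 0 < √(A + 16 * (s - a)) := Real.sqrt_pos.2 h0
    have h2 := hb s (Ico_subset_Icc_self hs) (by rw [hfs]; exact h1)
    rw [hfs] at h2
    rw [lt_div_iff₀ (by (clear * - h0; positivity))]
    linarith only [h2]

/-- Growth of `|Z|` over a step, also for points which are close to the tip: as long as
`Re g_s - W_t > m`, `(Re g)' = 2X/|Z|² ≤ 2/X ≤ 2/(Re g_s - W_t - m)`; `Im g` decreases. -/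
theorem norm_step_le {W : ℝ → ℝ} (hW : Continuous W) {b : ℂ} {t δ m : ℝ} (ht : 0 ≤ t)
    (hδ : 0 ≤ δ) (hm : ∀ u ∈ Icc t (t + δ), |W u - W t| ≤ m)
    (hb : b ∈ loewnerDomain W (t + δ)) :
    ‖Zf W b (t + δ)‖ ≤ ‖Zf W b t‖ + 2 * m + 4 * √δ := by
  have hle : t ≤ t + δ := by linarith
  have hm0 : 0 ≤ m := (abs_nonneg _).trans (hm t (left_mem_Icc.2 hle))
  have hsub : Icc t (t + δ) ⊆ Icc 0 (t + δ) := Icc_subset_Icc_left ht
  have hre : ∀ s ∈ Icc t (t + δ), HasDerivWithinAt (fun u => (gf W b u).re)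
      (2 * (Zf W b s).re / ‖Zf W b s‖ ^ 2) (Icc t (t + δ)) s := by
    intro s hs
    have h1 := (gf_hasDeriv hb (hsub hs)).mono hsub
    have h2 : HasDerivWithinAt (fun u => (gf W b u).re) ((2 / Zf W b s).re)
      (Icc t (t + δ)) s := Complex.reCLM.hasFDerivAt.comp_hasDerivWithinAt s h1
    have h3 : (2 / Zf W b s).re = 2 * (Zf W b s).re / ‖Zf W b s‖ ^ 2 := by
      rw [Complex.div_re, Complex.sq_norm]
      simp only [Complex.re_ofNat, Complex.im_ofNat, zero_mul, zero_div, add_zero]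
    rwa [h3] at h2
  have hZre : ∀ s, (Zf W b s).re = (gf W b s).re - W s := fun s => by
    rw [Zf_eq, Complex.sub_re, Complex.ofReal_re]
  have hsq : ∀ s, (Zf W b s).re ^ 2 ≤ ‖Zf W b s‖ ^ 2 := fun s => by
    rw [← sq_abs]
    exact pow_le_pow_left₀ (abs_nonneg _) (Complex.abs_re_le_norm _) 2
  have key : ∀ σ : ℝ, σ ^ 2 = 1 → σ * ((gf W b (t + δ)).re - W t) ≤
      |(Zf W b t).re| + m + 4 * √δ := by
    intro σ hσ
    have hσ1 : |σ| = 1 := by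
      have h : |σ| ^ 2 = 1 := by rw [sq_abs, hσ]
      nlinarith only [h, abs_nonneg σ]
    have h1 := PairStep_growth (f := fun s => σ * ((gf W b s).re - W t) - m)
      (f' := fun s => σ * (2 * (Zf W b s).re / ‖Zf W b s‖ ^ 2)) hle
      (fun s hs => (((hre s hs).sub_const (W t)).const_mul σ).sub_const m) ?_
    · have h2 : σ * ((gf W b t).re - W t) - m ≤ |(Zf W b t).re| := by
        rw [← hZre]
        have h3 : σ * (Zf W b t).re ≤ |(Zf W b t).re| := by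
          refine (le_abs_self _).trans ?_
          rw [abs_mul, hσ1, one_mul]
        linarith
      have h4 : max (σ * ((gf W b t).re - W t) - m) 0 ≤ |(Zf W b t).re| :=
        max_le h2 (abs_nonneg _)
      have h5 : t + δ - t = δ := by ring
      rw [h5] at h1
      linarith only [h1, h4]
    · intro s hs hpos
      have hpos' : 0 < σ * ((gf W b s).re - W t) - m := hpos
      have hN : 0 < ‖Zf W b s‖ := Zf_norm_pos (ht.trans hs.1) (dom_mono hs.2 hb)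
      have h1 : σ * ((gf W b s).re - W t) - m ≤ σ * (Zf W b s).re := by
        have h2 : -(σ * (W s - W t)) ≥ -m := by
          have h3 : σ * (W s - W t) ≤ m := by
            refine (le_abs_self _).trans ?_
            rw [abs_mul, hσ1, one_mul]
            exact hm s hs
          linarith only [h3]
        rw [hZre]
        linarith only [h2]
      have h2 : (σ * ((gf W b s).re - W t) - m) * (σ * (Zf W b s).re) ≤ ‖Zf W b s‖ ^ 2 := by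
        refine le_trans ?_ (hsq s)
        have h3 : (σ * ((gf W b s).re - W t) - m) * (σ * (Zf W b s).re) ≤
            (σ * (Zf W b s).re) * (σ * (Zf W b s).re) :=
          mul_le_mul_of_nonneg_right h1 (hpos'.le.trans h1)
        have h4 : (σ * (Zf W b s).re) * (σ * (Zf W b s).re) = (Zf W b s).re ^ 2 := by
          rw [show (σ * (Zf W b s).re) * (σ * (Zf W b s).re) = σ ^ 2 * (Zf W b s).re ^ 2 by ring,
            hσ, one_mul]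
        linarith only [h3, h4]
      change (σ * ((gf W b s).re - W t) - m) * (σ * (2 * (Zf W b s).re / ‖Zf W b s‖ ^ 2)) ≤ 2
      rw [show (σ * ((gf W b s).re - W t) - m) * (σ * (2 * (Zf W b s).re / ‖Zf W b s‖ ^ 2)) =
        2 * ((σ * ((gf W b s).re - W t) - m) * (σ * (Zf W b s).re)) / ‖Zf W b s‖ ^ 2 by ring,
        div_le_iff₀ (by positivity)]
      linarith only [h2]
  have h1 := key 1 (by norm_num)
  have h2 := key (-1) (by norm_num)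
  have hmd := abs_le.1 (hm (t + δ) (right_mem_Icc.2 hle))
  have hX : |(Zf W b (t + δ)).re| ≤ |(Zf W b t).re| + (2 * m + 4 * √δ) := by
    rw [hZre, abs_le]
    constructor <;> linarith only [h1, hmd, h2]
  have hY : (Zf W b (t + δ)).im ≤ (Zf W b t).im := im_le_of_le ht hle hb
  have hY0 : 0 < (Zf W b (t + δ)).im := Zf_im_pos (by linarith) hb
  have hD : 0 ≤ 2 * m + 4 * √δ := by (clear * - hm0; positivity)
  have hn : ∀ Z : ℂ, ‖Z‖ ^ 2 = |Z.re| ^ 2 + Z.im ^ 2 := fun Z => by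
    rw [Complex.sq_norm, Complex.normSq_apply, sq_abs]
    ring
  have h3 : ‖Zf W b (t + δ)‖ ^ 2 ≤ (‖Zf W b t‖ + (2 * m + 4 * √δ)) ^ 2 := by
    have h4 := hn (Zf W b (t + δ))
    have h5 := hn (Zf W b t)
    have h6 : |(Zf W b (t + δ)).re| ^ 2 ≤ (|(Zf W b t).re| + (2 * m + 4 * √δ)) ^ 2 :=
      pow_le_pow_left₀ (abs_nonneg _) hX 2
    have h7 : (Zf W b (t + δ)).im ^ 2 ≤ (Zf W b t).im ^ 2 := pow_le_pow_left₀ hY0.le hY 2
    have h8 : |(Zf W b t).re| * (2 * m + 4 * √δ) ≤ ‖Zf W b t‖ * (2 * m + 4 * √δ) :=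
      mul_le_mul_of_nonneg_right (Complex.abs_re_le_norm _) hD
    linarith
  have h9 := abs_le_of_sq_le_sq h3 (by (clear * - hm0; positivity))
  rw [abs_of_nonneg (norm_nonneg _)] at h9
  linarith only [h9]

/-- Points with `|Z| ≥ 8(m+√δ)` survive the step, move by at most `|Z|/4`, and
`Z' = Z - η + 2δ/Z + O(δ(m + δ/|Z|)/|Z|²)` (cf. `one_step`, with scaling). -/
theorem z_step : ∃ C : ℝ, 0 < C ∧ ∀ {W : ℝ → ℝ} (_ : Continuous W) {b : ℂ} {t δ m : ℝ}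
    (_ : 0 ≤ t) (_ : 0 < δ) (_ : 0 ≤ m) (_ : ∀ u ∈ Icc t (t + δ), |W u - W t| ≤ m)
    (_ : b ∈ loewnerDomain W t) (_ : 8 * (m + √δ) ≤ ‖Zf W b t‖),
    b ∈ loewnerDomain W (t + δ) ∧
    (∀ s ∈ Icc t (t + δ), ‖Zf W b s - Zf W b t‖ ≤ ‖Zf W b t‖ / 4) ∧
    ‖Zf W b (t + δ) - (Zf W b t - ((W (t + δ) - W t : ℝ) : ℂ) + 2 * (δ : ℂ) / Zf W b t)‖ ≤
      C * (δ * m / ‖Zf W b t‖ ^ 2 + δ ^ 2 / ‖Zf W b t‖ ^ 3) := by
  refine ⟨16, by norm_num, ?_⟩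
  intro W hW b t δ m ht hδ hm hosc hb h8
  have hϰ : 0 < ‖Zf W b t‖ := Zf_norm_pos ht hb
  set ϰ : ℝ := ‖Zf W b t‖ with hϰdef
  have hsq : √δ * √δ = δ := Real.mul_self_sqrt hδ.le
  have hsq0 : 0 < √δ := Real.sqrt_pos.2 hδ
  have hsq1 : √δ ≤ ϰ / 8 := by linarith only [hm, h8]
  have hm8 : m ≤ ϰ / 8 := by linarith only [h8, hsq0]
  have htT : t ≤ t + δ := by linarith only [hδ]
  have hTt : t + δ - t ≤ ϰ ^ 2 / 64 := by nlinarith only [hsq, hm, hsq0, h8]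
  have hZ : ϰ ≤ ‖Zf W b t‖ := le_rfl
  have hdom := one_step_alive hϰ hW ht htT hb hZ hTt hm8 hosc
  have hmove := one_step_move hϰ hW ht htT hdom hZ hTt hm8 hosc
  have hsub : Icc t (t + δ) ⊆ Icc 0 (t + δ) := Icc_subset_Icc_left ht
  have hD : ∀ v ∈ Icc t (t + δ), ‖Zf W b v - Zf W b t‖ ≤ 4 / ϰ * δ + m := by
    intro v hv
    refine (hmove v hv).2.trans ?_
    have h1 : v - t ≤ δ := by linarith only [hv.2]
    have h2 : 4 / ϰ * (v - t) ≤ 4 / ϰ * δ := by (clear * - h1 hϰ; gcongr)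
    linarith only [h2]
  have h4 : 4 / ϰ * δ ≤ √δ / 2 := by
    rw [div_mul_eq_mul_div, div_le_iff₀ hϰ]
    nlinarith only [hsq, hm, hsq0, h8]
  refine ⟨hdom, fun s hs => ?_, ?_⟩
  · have := hD s hs
    linarith only [hm, h8, hsq0, h4, this]
  · have h1 : ‖(gf W b (t + δ) - (2 / Zf W b t) * ((t + δ : ℝ) : ℂ)) -
        (gf W b t - (2 / Zf W b t) * (t : ℂ))‖ ≤
        (4 / ϰ ^ 2 * (4 / ϰ * δ + m)) * ‖t + δ - t‖ := by
      refine (convex_Icc t (t + δ)).norm_image_sub_le_of_norm_hasDerivWithin_le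
        (f := fun v : ℝ => gf W b v - (2 / Zf W b t) * (v : ℂ))
        (f' := fun v => 2 / Zf W b v - 2 / Zf W b t) ?_ ?_ ⟨le_rfl, htT⟩ ⟨htT, le_rfl⟩
      · intro v hv
        have h2 := (gf_hasDeriv hdom (hsub hv)).mono hsub
        have h3 : HasDerivWithinAt (fun v : ℝ => (2 / Zf W b t) * (v : ℂ)) (2 / Zf W b t * 1)
            (Icc t (t + δ)) v := (Complex.ofRealCLM.hasDerivAt.hasDerivWithinAt).const_mul _
        rw [mul_one] at h3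
        exact h2.sub h3
      · intro v hv
        refine (norm_two_div_sub hϰ (hmove v hv).1.le hZ).trans ?_
        exact mul_le_mul_of_nonneg_left (hD v hv) (by positivity)
    have h2 : Zf W b (t + δ) - (Zf W b t - ((W (t + δ) - W t : ℝ) : ℂ) + 2 * (δ : ℂ) / Zf W b t) =
        (gf W b (t + δ) - (2 / Zf W b t) * ((t + δ : ℝ) : ℂ)) -
        (gf W b t - (2 / Zf W b t) * (t : ℂ)) := by
      rw [gf, gf]; push_cast; ring
    rw [h2]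
    refine h1.trans ?_
    rw [add_sub_cancel_left, Real.norm_eq_abs, abs_of_pos hδ]
    have h5 : 4 / ϰ ^ 2 * (4 / ϰ * δ + m) * δ = 16 * (δ ^ 2 / ϰ ^ 3) + 4 * (δ * m / ϰ ^ 2) := by
      field_simp
      ring
    rw [h5]
    have h6 : 0 ≤ δ * m / ϰ ^ 2 := by (clear * - hδ hm hϰ; positivity)
    linarith only [h6]

/-- (B1b) The step of `e^{U_b} K(b,Q)` for points with `|Z_b|, |Z_Q| ≥ 8(m+√δ)`:
relative jet with `M = ‖A‖⁻¹ + ‖Z‖⁻¹`. Build it with `RJ.mul`, `RJ.pow`, `RJ.inv` from the jets of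
`Y_b` (`log Y_b' - log Y_b = -∫ 2/|A_s|²`: `a=b=0`, `c = -2/|A|²`), `|A|²`
(`a = 2 Re(1/A)`, `b = 2/|A|²`, `c = 4(A.re²-A.im²)/|A|⁴`), `|Z|²` (same),
`|A - conj Z|²` (`d(A - conj Z) = -2(A - conj Z)/(A conj Z) dt`: `a=b=0`,
`c = -4 Re(1/(A conj Z))`), `S = |A|²+|Z|²` (`a = 2(A.re+Z.re)/S`, `b = 4/S`,
`c = 4((A.re²-A.im²)/|A|² + (Z.re²-Z.im²)/|Z|²)/S`), `e^{U_b}` (`a=b=0`, `c = -rate A`). -/
theorem pair_jet : ∃ C : ℝ, 0 < C ∧ ∀ {W : ℝ → ℝ} (_ : Continuous W) {b z : ℂ} {t δ m : ℝ}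
    (_ : 0 ≤ t) (_ : 0 < δ) (_ : 0 ≤ m) (_ : ∀ u ∈ Icc t (t + δ), |W u - W t| ≤ m)
    (_ : b ∈ loewnerDomain W t) (_ : 8 * (m + √δ) ≤ ‖Zf W b t‖)
    (_ : z ∈ loewnerDomain W t) (_ : 8 * (m + √δ) ≤ ‖Zf W z t‖),
    RJ C (‖Zf W b t‖⁻¹ + ‖Zf W z t‖⁻¹) δ m (W (t + δ) - W t)
      (Real.exp (Uf W b t) * KK (Zf W b t) (Zf W z t))
      (Real.exp (Uf W b (t + δ)) * KK (Zf W b (t + δ)) (Zf W z (t + δ)))
      (kX (Zf W b t) (Zf W z t))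
      (kX (Zf W b t) (Zf W z t) ^ 2 + kXX (Zf W b t) (Zf W z t))
      (k3 (Zf W b t) (Zf W z t) - rate (Zf W b t)) := by
  obtain ⟨Cz, hCz, hzs⟩ := z_step
  obtain ⟨C, hC, core⟩ := pairStep_core (Cz := 4 + 3 * Cz + Cz ^ 2) (by positivity)
  refine ⟨C + 1, by linarith, ?_⟩
  intro W hW b z t δ m ht hδ hm0 hm hb h8b hz h8z
  obtain ⟨hb', hbm, hbe⟩ := hzs hW ht hδ hm0 hm hb h8b
  obtain ⟨hz', hzm, hze⟩ := hzs hW ht hδ hm0 hm hz h8z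
  obtain ⟨hr, hρ, hmr, hδr, hmM, hδM, _, _⟩ := pairStep_small hδ hm0 h8b h8z
  obtain ⟨_, _, hmρ, hδρ, _⟩ := pairStep_small hδ hm0 h8z h8b
  obtain ⟨jU, jY, jD, hD16⟩ := pairStep_exps (η := W (t + δ) - W t) hW ht hδ hm0 hm hb' hz' hbm
    hzm h8b h8z rfl
  have htT : t + δ ∈ Icc t (t + δ) := ⟨by linarith only [hδ], le_rfl⟩
  have huM : ‖Zf W b t‖⁻¹ ≤ ‖Zf W b t‖⁻¹ + ‖Zf W z t‖⁻¹ :=
    le_add_of_nonneg_right (inv_nonneg.2 hρ.le)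
  have hvM : ‖Zf W z t‖⁻¹ ≤ ‖Zf W b t‖⁻¹ + ‖Zf W z t‖⁻¹ :=
    le_add_of_nonneg_left (inv_nonneg.2 hr.le)
  exact pairStep_rj_mono (by linarith only []) (by (clear * - hr hρ; positivity)) hδ.le hm0
    (core hr hρ (Zf_ne_zero (by linarith only [ht, hδ]) hb') (Zf_ne_zero (by linarith only [ht, hδ]) hz') (Zf_im_pos ht hb)
      (Zf_im_pos ht hz) huM hvM hδ.le hm0 (hm _ htT) hmM hδM (hbm _ htT) (hzm _ htT)
      (pairStep_sq hCz.le hr hδ.le (hm _ htT) hmr hδr hbe)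
      (pairStep_sq hCz.le hρ hδ.le (hm _ htT) hmρ hδρ hze) jU jY jD hD16)

/-- `K M^j ≤ (2/ϰ)^j`. -/
lemma PairStep_KK_M {A Z : ℂ} {ϰ : ℝ} (hϰ : 0 < ϰ) (hA : 0 < A.im) (hZ : 0 < Z.im)
    (h : ϰ ≤ ‖Z‖) {j : ℕ} (hj : j ≤ 12) :
    KK A Z * (‖A‖⁻¹ + ‖Z‖⁻¹) ^ j ≤ (2 / ϰ) ^ j := by
  have ha : 0 < ‖A‖ := norm_pos_iff.2 fun h0 => by simp [h0] at hA
  have hz : 0 < ‖Z‖ := hϰ.trans_le h
  have hM0 : 0 ≤ ‖A‖⁻¹ + ‖Z‖⁻¹ := by positivity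
  rcases le_total ‖Z‖ ‖A‖ with hc | hc
  · have h1 : ‖A‖⁻¹ + ‖Z‖⁻¹ ≤ 2 / ϰ := by
      have e1 : ‖A‖⁻¹ ≤ ϰ⁻¹ := inv_anti₀ hϰ (h.trans hc)
      have e2 : ‖Z‖⁻¹ ≤ ϰ⁻¹ := inv_anti₀ hϰ h
      have e3 : (2 : ℝ) / ϰ = ϰ⁻¹ + ϰ⁻¹ := by ring
      linarith only [e1, e2, e3]
    calc KK A Z * (‖A‖⁻¹ + ‖Z‖⁻¹) ^ j ≤ 1 * (2 / ϰ) ^ j :=
          mul_le_mul (KK_le_one hA hZ) (pow_le_pow_left₀ hM0 h1 j) (pow_nonneg hM0 j) zero_le_one
      _ = _ := one_mul _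
  · have h1 : ‖A‖⁻¹ + ‖Z‖⁻¹ ≤ 2 / ‖A‖ := by
      have e2 : ‖Z‖⁻¹ ≤ ‖A‖⁻¹ := inv_anti₀ ha hc
      have e3 : (2 : ℝ) / ‖A‖ = ‖A‖⁻¹ + ‖A‖⁻¹ := by ring
      linarith only [e2, e3]
    have h2 : KK A Z ≤ (‖A‖ / ‖Z‖) ^ j :=
      (KK_le hA hZ).trans (pow_le_pow_of_le_one (by positivity) ((div_le_one hz).2 hc) hj)
    calc KK A Z * (‖A‖⁻¹ + ‖Z‖⁻¹) ^ j ≤ (‖A‖ / ‖Z‖) ^ j * (2 / ‖A‖) ^ j :=
          mul_le_mul h2 (pow_le_pow_left₀ hM0 h1 j) (pow_nonneg hM0 j) (by positivity)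
      _ = (2 / ‖Z‖) ^ j := by
          rw [← mul_pow]
          congr 1
          field_simp
      _ ≤ (2 / ϰ) ^ j := by
          apply pow_le_pow_left₀ (by positivity)
          gcongr

/-- `K M^j ≤ (a/ϰ)^4 (2/ϰ)^j` for `a = ‖A‖ ≤ ‖Z‖`. -/
lemma PairStep_KK_M' {A Z : ℂ} {ϰ : ℝ} (hϰ : 0 < ϰ) (hA : 0 < A.im) (hZ : 0 < Z.im)
    (h : ϰ ≤ ‖Z‖) (hc : ‖A‖ ≤ ‖Z‖) {j : ℕ} (hj : j ≤ 8) :
    KK A Z * (‖A‖⁻¹ + ‖Z‖⁻¹) ^ j ≤ (‖A‖ / ϰ) ^ 4 * (2 / ϰ) ^ j := by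
  have ha : 0 < ‖A‖ := norm_pos_iff.2 fun h0 => by simp [h0] at hA
  have hz : 0 < ‖Z‖ := hϰ.trans_le h
  have hM0 : 0 ≤ ‖A‖⁻¹ + ‖Z‖⁻¹ := by positivity
  have h1 : ‖A‖⁻¹ + ‖Z‖⁻¹ ≤ 2 / ‖A‖ := by
    have e2 : ‖Z‖⁻¹ ≤ ‖A‖⁻¹ := inv_anti₀ ha hc
    have e3 : (2 : ℝ) / ‖A‖ = ‖A‖⁻¹ + ‖A‖⁻¹ := by ring
    linarith only [e2, e3]
  have h2 : KK A Z ≤ (‖A‖ / ‖Z‖) ^ (4 + j) :=
    (KK_le hA hZ).trans (pow_le_pow_of_le_one (by positivity) ((div_le_one hz).2 hc) (by omega))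
  calc KK A Z * (‖A‖⁻¹ + ‖Z‖⁻¹) ^ j ≤ (‖A‖ / ‖Z‖) ^ (4 + j) * (2 / ‖A‖) ^ j :=
        mul_le_mul h2 (pow_le_pow_left₀ hM0 h1 j) (pow_nonneg hM0 j) (by positivity)
    _ = (‖A‖ / ‖Z‖) ^ 4 * (2 / ‖Z‖) ^ j := by
        rw [pow_add, mul_assoc, ← mul_pow]
        congr 2
        field_simp
    _ ≤ (‖A‖ / ϰ) ^ 4 * (2 / ϰ) ^ j := by
        gcongr

lemma PairStep_rate_le {A : ℂ} {M : ℝ} (hA : 0 < ‖A‖) (hM : ‖A‖⁻¹ ≤ M) :
    rate A ≤ 4 * M ^ 2 := by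
  have h1 : sn A ^ 2 ≤ 1 := by
    unfold sn
    rw [div_pow, div_le_one (by positivity), sq_le_sq]
    rw [abs_of_pos hA]
    exact Complex.abs_im_le_norm A
  have h0 : 0 ≤ ‖A‖⁻¹ := by (clear * - hA; positivity)
  calc rate A = 4 * sn A ^ 2 * (‖A‖⁻¹) ^ 2 := by unfold rate; field_simp
    _ ≤ 4 * 1 * M ^ 2 := by gcongr
    _ = _ := by ring

/-- The Taylor polynomial times `K`, for `b` close to the tip. -/
lemma PairStep_poly {A Z : ℂ} {ϰ η m δ : ℝ} (hϰ : 0 < ϰ) (hA : 0 < A.im) (hZ : 0 < Z.im)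
    (h : ϰ ≤ ‖Z‖) (hc : ‖A‖ ≤ ‖Z‖) (hη : |η| ≤ m) (hm : m ≤ ϰ / 16) (hδ0 : 0 ≤ δ)
    (hδ : δ ≤ ϰ ^ 2 / 256) :
    KK A Z * |1 - η * kX A Z + η ^ 2 / 2 * (kX A Z ^ 2 + kXX A Z) +
      δ * (k3 A Z - rate A)| ≤ 100 * (‖A‖ / ϰ) ^ 4 := by
  have ha : 0 < ‖A‖ := norm_pos_iff.2 fun h0 => by simp [h0] at hA
  have hz : 0 < ‖Z‖ := hϰ.trans_le h
  set M := ‖A‖⁻¹ + ‖Z‖⁻¹ with hM
  have hM0 : 0 ≤ M := by (clear * - ha hz; positivity)
  obtain ⟨hk1, hk2, hk3⟩ := k_crude hA hZ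
  have hr : |rate A| ≤ 4 * M ^ 2 := by
    rw [abs_of_nonneg (rate_nonneg A)]
    exact PairStep_rate_le ha (by rw [hM]; have : 0 ≤ ‖Z‖⁻¹ := by positivity
                                  linarith only [this])
  have hm0 : 0 ≤ m := (abs_nonneg _).trans hη
  have hK := (KK_pos hA hZ).le
  have b0 := PairStep_KK_M' hϰ hA hZ h hc (j := 0) (by norm_num)
  have b1 := PairStep_KK_M' hϰ hA hZ h hc (j := 1) (by norm_num)
  have b2 := PairStep_KK_M' hϰ hA hZ h hc (j := 2) (by norm_num)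
  rw [← hM] at b0 b1 b2
  rw [pow_zero, mul_one, pow_zero, mul_one] at b0
  rw [pow_one, pow_one] at b1
  have hp : 0 ≤ (‖A‖ / ϰ) ^ 4 := by positivity
  have hkX2 : |kX A Z ^ 2 + kXX A Z| ≤ 10200 * M ^ 2 := by
    refine (abs_add_le _ _).trans ?_
    have e1 : |kX A Z ^ 2| ≤ (100 * M) ^ 2 := by
      rw [abs_pow]
      exact pow_le_pow_left₀ (abs_nonneg _) hk1 2
    nlinarith only [hk2, e1]
  have hk3r : |k3 A Z - rate A| ≤ 204 * M ^ 2 := by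
    refine (abs_sub _ _).trans ?_
    linarith only [hk3, hr]
  have t1 : |η * kX A Z| ≤ m * (100 * M) := by
    rw [abs_mul]; exact mul_le_mul hη hk1 (abs_nonneg _) hm0
  have t2 : |η ^ 2 / 2 * (kX A Z ^ 2 + kXX A Z)| ≤ m ^ 2 / 2 * (10200 * M ^ 2) := by
    rw [abs_mul]
    refine mul_le_mul ?_ hkX2 (abs_nonneg _) (by (clear * -; positivity))
    rw [abs_div, abs_pow, abs_two]
    (clear * - hη; gcongr)
  have t3 : |δ * (k3 A Z - rate A)| ≤ δ * (204 * M ^ 2) := by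
    rw [abs_mul, abs_of_nonneg hδ0]
    (clear * - hk3r hδ0; gcongr)
  have t4 : |1 - η * kX A Z + η ^ 2 / 2 * (kX A Z ^ 2 + kXX A Z) + δ * (k3 A Z - rate A)| ≤
      1 + m * (100 * M) + m ^ 2 / 2 * (10200 * M ^ 2) + δ * (204 * M ^ 2) := by
    refine (abs_add_le _ _).trans (add_le_add ?_ t3)
    refine (abs_add_le _ _).trans (add_le_add ?_ t2)
    refine (abs_sub _ _).trans (add_le_add ?_ t1)
    rw [abs_one]
  calc _ ≤ KK A Z * (1 + m * (100 * M) + m ^ 2 / 2 * (10200 * M ^ 2) + δ * (204 * M ^ 2)) :=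
        mul_le_mul_of_nonneg_left t4 hK
    _ = KK A Z + 100 * m * (KK A Z * M) + (5100 * m ^ 2 + 204 * δ) * (KK A Z * M ^ 2) := by ring
    _ ≤ (‖A‖ / ϰ) ^ 4 + 100 * (ϰ / 16) * ((‖A‖ / ϰ) ^ 4 * (2 / ϰ)) +
        (5100 * (ϰ / 16) ^ 2 + 204 * (ϰ ^ 2 / 256)) * ((‖A‖ / ϰ) ^ 4 * (2 / ϰ) ^ 2) := by
        have e1 : 0 ≤ KK A Z * M := by (clear * - hK ha hz; positivity)
        have e2 : 0 ≤ KK A Z * M ^ 2 := by (clear * - hK ha hz; positivity)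
        (clear * - b0 hm b1 hK ha hz hϰ hm0 hδ b2; gcongr)
    _ ≤ 100 * (‖A‖ / ϰ) ^ 4 := by
        have e : (‖A‖ / ϰ) ^ 4 + 100 * (ϰ / 16) * ((‖A‖ / ϰ) ^ 4 * (2 / ϰ)) +
          (5100 * (ϰ / 16) ^ 2 + 204 * (ϰ ^ 2 / 256)) * ((‖A‖ / ϰ) ^ 4 * (2 / ϰ) ^ 2) =
          (1 + 200 / 16 + (5304 / 256) * 4) * (‖A‖ / ϰ) ^ 4 := by
          field_simp
          ring
        rw [e]
        nlinarith only [hK, b0]

/-- (B1) The step of `e^{U_b} K(b,Q)` for all `b` alive at `t` and `|Z_Q| ≥ ϰ`.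
If `|Z_b| ≥ 8(m+√δ)`: `pair_jet` and `K (‖A‖⁻¹+‖Z‖⁻¹)^j ≤ C(ϰ)`, `j ≤ 4` (`KK_le`).
If `|Z_b| < 8(m+√δ)`: every term is `≤ C e^{U_b} (m+√δ)^4 ≤ C e^{U_b} (m³+δ²)`, because
`K ≤ (|Z_b|/|Z_Q|)^12` at both times (`norm_step_le`, `|Z_Q'| ≥ ϰ/2`, `U_b' ≤ U_b`). -/
theorem pair_step {ϰ : ℝ} (hϰ : 0 < ϰ) : ∃ C δ₀ : ℝ, 0 < C ∧ 0 < δ₀ ∧
    ∀ {W : ℝ → ℝ} (_ : Continuous W) {b z : ℂ} {t δ m : ℝ} (_ : 0 ≤ t) (_ : 0 < δ)
      (_ : δ ≤ δ₀) (_ : 0 ≤ m) (_ : m ≤ ϰ / 16)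
      (_ : ∀ u ∈ Icc t (t + δ), |W u - W t| ≤ m)
      (_ : b ∈ loewnerDomain W t) (_ : z ∈ loewnerDomain W t) (_ : ϰ ≤ ‖Zf W z t‖),
    |St (fun A U => Real.exp U * KK A (Zf W z (t + δ))) W b (t + δ) -
        Real.exp (Uf W b t) * KK (Zf W b t) (Zf W z t) *
          (1 - (W (t + δ) - W t) * kX (Zf W b t) (Zf W z t) +
            (W (t + δ) - W t) ^ 2 / 2 *
              (kX (Zf W b t) (Zf W z t) ^ 2 + kXX (Zf W b t) (Zf W z t)) +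
            δ * (k3 (Zf W b t) (Zf W z t) - rate (Zf W b t)))| ≤
      C * Real.exp (Uf W b t) * (δ ^ 2 + δ * m + m ^ 3) := by
  obtain ⟨C₁, hC₁, hjet⟩ := pair_jet
  set D : ℝ := 3 ^ 8 * 24 ^ 4 + 100 * 8 ^ 4 with hD
  have hDpos : 0 < D := by norm_num [hD]
  refine ⟨C₁ * ((2 / ϰ) ^ 3 + (2 / ϰ) ^ 4) + D / ϰ ^ 4 * (8 * (ϰ / 16 + 1)), ϰ ^ 2 / 256,
    by positivity, by positivity, ?_⟩
  intro W hW b z t δ m ht hδ hδ0 hm hmϰ hosc hb hz hZ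
  set A := Zf W b t with hAdef
  set Z := Zf W z t with hZdef
  set η := W (t + δ) - W t with hη
  have htT : t ≤ t + δ := by linarith only [hδ]
  have hηm : |η| ≤ m := hosc (t + δ) ⟨htT, le_rfl⟩
  have hAim : 0 < A.im := Zf_im_pos ht hb
  have hZim : 0 < Z.im := Zf_im_pos ht hz
  have hanorm : 0 < ‖A‖ := Zf_norm_pos ht hb
  have hznorm : 0 < ‖Z‖ := Zf_norm_pos ht hz
  have hE : 0 < Real.exp (Uf W b t) := Real.exp_pos _
  have hK : 0 ≤ KK A Z := (KK_pos hAim hZim).le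
  have hsq : √δ ≤ ϰ / 16 := by
    rw [Real.sqrt_le_left (by positivity)]
    calc δ ≤ ϰ ^ 2 / 256 := hδ0
      _ = (ϰ / 16) ^ 2 := by ring
  have hsq0 : 0 ≤ √δ := Real.sqrt_nonneg δ
  have hsqsq : √δ ^ 2 = δ := Real.sq_sqrt hδ.le
  have hTt : t + δ - t ≤ ϰ ^ 2 / 64 := by nlinarith only [hδ0]
  have hzdom : z ∈ loewnerDomain W (t + δ) :=
    one_step_alive hϰ hW ht htT hz hZ hTt (by linarith only [hϰ, hmϰ]) hosc
  have hZ'im : 0 < (Zf W z (t + δ)).im := Zf_im_pos (by linarith only [ht, hδ]) hzdom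
  have hZ'norm : ϰ / 2 < ‖Zf W z (t + δ)‖ :=
    (one_step_move hϰ hW ht htT hzdom hZ hTt (by linarith only [hϰ, hmϰ]) hosc (t + δ) ⟨htT, le_rfl⟩).1
  have hZbig : 8 * (m + √δ) ≤ ‖Z‖ := by linarith only [hmϰ, hZ, hsq]
  have herr : 0 ≤ δ ^ 2 + δ * m + m ^ 3 := by (clear * - hδ hm; positivity)
  rcases le_or_gt (8 * (m + √δ)) ‖A‖ with hbig | hsmall
  · -- far from the tip
    have hbdom : b ∈ loewnerDomain W (t + δ) := by
      refine one_step_alive hanorm hW ht htT hb le_rfl ?_ (by linarith only [hsq0, hbig]) hosc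
      have e1 : (8 * √δ) ^ 2 ≤ ‖A‖ ^ 2 := pow_le_pow_left₀ (by positivity) (by linarith only [hm, hbig]) 2
      nlinarith only [hsqsq, e1]
    have hR := (hjet hW ht hδ hm hosc hb hbig hz hZbig).he
    rw [← hAdef, ← hZdef, ← hη] at hR
    rw [St_of_mem hbdom]
    refine hR.trans ?_
    have k3' := PairStep_KK_M hϰ hAim hZim hZ (j := 3) (by norm_num)
    have k4' := PairStep_KK_M hϰ hAim hZim hZ (j := 4) (by norm_num)
    set M := ‖A‖⁻¹ + ‖Z‖⁻¹ with hM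
    have hM0 : 0 ≤ M := by (clear * - hanorm hznorm; positivity)
    rw [abs_of_nonneg (by (clear * - hK; positivity))]
    calc C₁ * (Real.exp (Uf W b t) * KK A Z) * (m ^ 3 * M ^ 3 + δ * m * M ^ 3 + δ ^ 2 * M ^ 4)
        = C₁ * Real.exp (Uf W b t) * ((m ^ 3 + δ * m) * (KK A Z * M ^ 3) +
            δ ^ 2 * (KK A Z * M ^ 4)) := by ring
      _ ≤ C₁ * Real.exp (Uf W b t) * ((m ^ 3 + δ * m) * (2 / ϰ) ^ 3 +
            δ ^ 2 * (2 / ϰ) ^ 4) := by (clear * - k3' hm hδ k4' hC₁; gcongr)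
      _ ≤ C₁ * Real.exp (Uf W b t) * (((2 / ϰ) ^ 3 + (2 / ϰ) ^ 4) *
            (δ ^ 2 + δ * m + m ^ 3)) := by
          apply mul_le_mul_of_nonneg_left _ (by positivity)
          have e1 : 0 ≤ δ ^ 2 * (2 / ϰ) ^ 3 := by positivity
          have e2 : 0 ≤ (m ^ 3 + δ * m) * (2 / ϰ) ^ 4 := by (clear * - hm hδ hϰ; positivity)
          linarith only [e1, e2]
      _ = (C₁ * ((2 / ϰ) ^ 3 + (2 / ϰ) ^ 4)) * Real.exp (Uf W b t) *
            (δ ^ 2 + δ * m + m ^ 3) := by ring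
      _ ≤ _ := by
          apply mul_le_mul_of_nonneg_right _ herr
          apply mul_le_mul_of_nonneg_right _ hE.le
          have : 0 ≤ D / ϰ ^ 4 * (8 * (ϰ / 16 + 1)) := by positivity
          linarith only [this]
  · -- close to the tip
    set r := m + √δ with hr
    have hr0 : 0 < r := by
      have := Real.sqrt_pos.2 hδ
      linarith only [hm, this]
    have hrϰ : r ≤ ϰ / 8 := by linarith only [hmϰ, hsq]
    have haz : ‖A‖ ≤ ‖Z‖ := by linarith only [hmϰ, hZ, hsq, hsmall]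
    have p1 := PairStep_poly hϰ hAim hZim hZ haz hηm hmϰ hδ.le hδ0
    have p2 : (‖A‖ / ϰ) ^ 4 ≤ (8 * r / ϰ) ^ 4 := by (clear * - hanorm hϰ hsmall; gcongr)
    have r4 : r ^ 4 ≤ 8 * (ϰ / 16 + 1) * (δ ^ 2 + δ * m + m ^ 3) := by
      have e1 : r ^ 4 ≤ 8 * (m ^ 4 + √δ ^ 4) := by
        have := add_pow_le hm hsq0 4
        norm_num at this
        exact this
      have e2 : √δ ^ 4 = δ ^ 2 := by
        rw [show √δ ^ 4 = (√δ ^ 2) ^ 2 by ring, hsqsq]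
      have e3 : m ^ 4 ≤ ϰ / 16 * m ^ 3 := by
        calc m ^ 4 = m * m ^ 3 := by ring
          _ ≤ _ := by (clear * - hmϰ hm; gcongr)
      have e4 : 0 ≤ ϰ / 16 * (δ ^ 2 + δ * m) + (δ * m + m ^ 3) := by (clear * - hϰ hδ hm; positivity)
      rw [e2] at e1
      linarith only [e1, e3, e4]
    have hS : |St (fun A U => Real.exp U * KK A (Zf W z (t + δ))) W b (t + δ)| ≤
        Real.exp (Uf W b t) * (3 ^ 8 * (24 * r / ϰ) ^ 4) := by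
      by_cases hbd : b ∈ loewnerDomain W (t + δ)
      · rw [St_of_mem hbd]
        have hA'im : 0 < (Zf W b (t + δ)).im := Zf_im_pos (by linarith only [ht, hδ]) hbd
        have hn := norm_step_le hW ht hδ.le hosc hbd
        rw [← hAdef] at hn
        have hn' : ‖Zf W b (t + δ)‖ ≤ 12 * r := by linarith only [hm, hsmall, hn]
        rw [abs_of_nonneg (mul_nonneg (Real.exp_pos _).le (KK_pos hA'im hZ'im).le)]
        refine mul_le_mul (Real.exp_le_exp.2 (Uf_le hW ht htT hbd)) ?_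
          (KK_pos hA'im hZ'im).le hE.le
        refine (KK_le hA'im hZ'im).trans ?_
        have q1 : ‖Zf W b (t + δ)‖ / ‖Zf W z (t + δ)‖ ≤ 24 * r / ϰ := by
          rw [div_le_div_iff₀ (by linarith only [hϰ, hZ'norm]) hϰ]
          nlinarith only [hϰ, hm, hsmall, hn, hZ'norm, hsq0]
        have q2 : 24 * r / ϰ ≤ 3 := by
          rw [div_le_iff₀ hϰ]; linarith only [hmϰ, hsq]
        have q3 : 0 ≤ 24 * r / ϰ := by (clear * - hm hδ hϰ; positivity)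
        calc (‖Zf W b (t + δ)‖ / ‖Zf W z (t + δ)‖) ^ 12 ≤ (24 * r / ϰ) ^ 12 := by (clear * - q1; gcongr)
          _ = (24 * r / ϰ) ^ 8 * (24 * r / ϰ) ^ 4 := by ring
          _ ≤ 3 ^ 8 * (24 * r / ϰ) ^ 4 := by (clear * - hm hδ hϰ q2; gcongr)
      · rw [St_of_not_mem hbd, abs_zero]
        positivity
    calc _ ≤ |St (fun A U => Real.exp U * KK A (Zf W z (t + δ))) W b (t + δ)| +
          |Real.exp (Uf W b t) * KK A Z * (1 - η * kX A Z + η ^ 2 / 2 *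
            (kX A Z ^ 2 + kXX A Z) + δ * (k3 A Z - rate A))| := abs_sub _ _
      _ ≤ Real.exp (Uf W b t) * (3 ^ 8 * (24 * r / ϰ) ^ 4) +
          Real.exp (Uf W b t) * (100 * (8 * r / ϰ) ^ 4) := by
          refine add_le_add hS ?_
          rw [abs_mul, abs_mul, abs_of_pos hE, abs_of_nonneg hK, mul_assoc]
          exact mul_le_mul_of_nonneg_left (p1.trans (by linarith only [p2])) hE.le
      _ = D / ϰ ^ 4 * Real.exp (Uf W b t) * r ^ 4 := by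
          rw [hD]; (clear * - hϰ hr0; field_simp)
      _ ≤ D / ϰ ^ 4 * Real.exp (Uf W b t) *
          (8 * (ϰ / 16 + 1) * (δ ^ 2 + δ * m + m ^ 3)) := by (clear * - r4 hϰ; gcongr)
      _ = (D / ϰ ^ 4 * (8 * (ϰ / 16 + 1))) * Real.exp (Uf W b t) *
            (δ ^ 2 + δ * m + m ^ 3) := by ring
      _ ≤ _ := by
          apply mul_le_mul_of_nonneg_right _ herr
          apply mul_le_mul_of_nonneg_right _ hE.le
          have : 0 ≤ C₁ * ((2 / ϰ) ^ 3 + (2 / ϰ) ^ 4) := by positivity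
          linarith only [this]

end Vale.Agent.P164
end
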