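import Vale.Agent.P164.MathlibUsed
import Vale.Agent.P164.Bdl.B1
import Vale.Agent.P164.Bdl.B6
import Vale.Agent.P164.Bdl.B8
import Vale.Agent.P164.Bdl.B9
import Vale.Agent.P164.Bdl.B3
import Vale.Agent.P164.Bdl.B5
import Vale.Agent.P164.Bdl.B7

set_option linter.all false

section

/-!
# The zigzag driving function (deterministic steering lemma)
-/

namespace Vale.Agent.P164

open Set Metric Filter Topology MeasureTheory

/-- Triangular wave of period `4`, with `zigTri 0 = 1`, `zigTri 2 = -1`. -/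
noncomputable def zigTri (x : ℝ) : ℝ := 1 - infDist x (range fun k : ℤ => 4 * (k : ℝ))

lemma zigTri_lip (x y : ℝ) : |zigTri x - zigTri y| ≤ |x - y| := by
  have h := (lipschitz_infDist_pt (range fun k : ℤ => 4 * (k : ℝ))).dist_le_mul y x
  rw [Real.dist_eq, Real.dist_eq, NNReal.coe_one, one_mul, abs_sub_comm y x] at h
  unfold zigTri
  rwa [sub_sub_sub_cancel_left]

lemma zigTri_eq (k : ℤ) {x : ℝ} (h : |x - 4 * k| ≤ 2) : zigTri x = 1 - |x - 4 * k| := by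
  unfold zigTri
  congr 1
  apply le_antisymm
  · have := infDist_le_dist_of_mem (x := x) (mem_range_self (f := fun k : ℤ => 4 * (k : ℝ)) k)
    rwa [Real.dist_eq] at this
  · refine (le_infDist (range_nonempty _)).2 ?_
    rintro _ ⟨j, rfl⟩
    rw [Real.dist_eq]
    rcases eq_or_ne j k with rfl | hne
    · exact le_rfl
    · have h1 : (1 : ℝ) ≤ |(k : ℝ) - j| := by
        have h2 : (1 : ℤ) ≤ |k - j| := Int.one_le_abs (sub_ne_zero.2 hne.symm)
        exact_mod_cast h2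
      have h2 : |4 * (k : ℝ) - 4 * j| ≤ |x - 4 * k| + |x - 4 * j| := by
        have := abs_sub_le (4 * (k : ℝ)) x (4 * j)
        rwa [abs_sub_comm (4 * (k : ℝ)) x] at this
      have h3 : |4 * (k : ℝ) - 4 * j| = 4 * |(k : ℝ) - j| := by
        rw [← mul_sub, abs_mul, abs_of_pos (by norm_num : (0:ℝ) < 4)]
      linarith

lemma zigTri_abs_le (x : ℝ) : |zigTri x| ≤ 1 := by
  have h1 : |x - 4 * (round (x / 4) : ℤ)| ≤ 2 := by
    have h2 := abs_sub_round (x / 4)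
    have h3 : x - 4 * ((round (x / 4) : ℤ) : ℝ) = 4 * (x / 4 - (round (x / 4) : ℤ)) := by ring
    rw [h3, abs_mul, abs_of_pos (by norm_num : (0:ℝ) < 4)]
    linarith only [h2]
  rw [zigTri_eq _ h1, abs_le]
  constructor
  · linarith only [h1]
  · linarith only [abs_nonneg (x - 4 * (round (x / 4) : ℤ))]

/-- The zigzag driver. -/
noncomputable def zigW (l R s : ℝ) : ℝ := l * zigTri (1 + R * s / l)

lemma zigW_abs_le {l : ℝ} (hl : 0 < l) (R s : ℝ) : |zigW l R s| ≤ l := by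
  unfold zigW
  rw [abs_mul, abs_of_pos hl]
  nlinarith only [hl, zigTri_abs_le (1 + R * s / l)]

lemma zigW_lip {l R : ℝ} (hl : 0 < l) (hR : 0 < R) (u v : ℝ) :
    |zigW l R u - zigW l R v| ≤ R * |u - v| := by
  unfold zigW
  rw [← mul_sub, abs_mul, abs_of_pos hl]
  have h := zigTri_lip (1 + R * u / l) (1 + R * v / l)
  have e : 1 + R * u / l - (1 + R * v / l) = R / l * (u - v) := by ring
  rw [e, abs_mul, abs_of_pos (show 0 < R / l by positivity)] at h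
  calc l * |zigTri (1 + R * u / l) - zigTri (1 + R * v / l)| ≤ l * (R / l * |u - v|) := by gcongr
    _ = R * |u - v| := by field_simp

lemma zigW_first {l R : ℝ} (hl : 0 < l) (hR : 0 < R) {s : ℝ} (hs : s ∈ Icc 0 (l / R)) :
    zigW l R s = -R * s := by
  have h1 : 0 ≤ R * s / l := by have := hs.1; positivity
  have h2 : R * s / l ≤ 1 := by
    rw [div_le_one hl]
    have := hs.2
    rw [le_div_iff₀ hR] at this
    linarith only [this]
  have h3 : |1 + R * s / l - 4 * ((0 : ℤ) : ℝ)| ≤ 2 := by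
    rw [abs_le]; push_cast; constructor <;> linarith only [h1, h2]
  unfold zigW
  rw [zigTri_eq 0 h3, Int.cast_zero, mul_zero, sub_zero, abs_of_nonneg (by linarith only [h1])]
  field_simp
  ring

/-- The turning times. -/
noncomputable def zigTm (l R : ℝ) (m : ℕ) : ℝ := l * (2 * m + 1) / R

lemma zigW_sweep {l R : ℝ} (hl : 0 < l) (hR : 0 < R) (m : ℕ) :
    ∃ σ : ℝ, σ ^ 2 = 1 ∧ zigW l R (zigTm l R m) = -(σ * l) ∧ zigW l R (zigTm l R (m + 1)) = σ * l ∧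
      ∀ s ∈ Icc (zigTm l R m) (zigTm l R (m + 1)),
        zigW l R s = zigW l R (zigTm l R m) + σ * R * (s - zigTm l R m) := by
  have hξ : ∀ s ∈ Icc (zigTm l R m) (zigTm l R (m + 1)),
      2 * (m : ℝ) + 2 ≤ 1 + R * s / l ∧ 1 + R * s / l ≤ 2 * m + 4 := by
    intro s hs
    obtain ⟨h1, h2⟩ := hs
    unfold zigTm at h1 h2
    push_cast at h2
    rw [div_le_iff₀ hR] at h1
    rw [le_div_iff₀ hR] at h2
    constructor
    · have : 2 * (m : ℝ) + 1 ≤ R * s / l := by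
        rw [le_div_iff₀ hl]; linarith only [h1]
      linarith only [this]
    · have : R * s / l ≤ 2 * (m : ℝ) + 3 := by
        rw [div_le_iff₀ hl]; linarith
      linarith only [this]
  have ha : zigTm l R m ∈ Icc (zigTm l R m) (zigTm l R (m + 1)) := by
    refine ⟨le_rfl, ?_⟩
    unfold zigTm
    push_cast
    gcongr
    linarith
  have hb : zigTm l R (m + 1) ∈ Icc (zigTm l R m) (zigTm l R (m + 1)) := ⟨ha.2, le_rfl⟩
  have ea : R * zigTm l R m / l = 2 * m + 1 := by unfold zigTm; field_simp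
  have eb : R * zigTm l R (m + 1) / l = 2 * m + 3 := by
    unfold zigTm; push_cast; field_simp; ring
  rcases m.even_or_odd' with ⟨k, hk | hk⟩
  · -- increasing sweep
    have hform : ∀ s ∈ Icc (zigTm l R m) (zigTm l R (m + 1)),
        zigW l R s = l * (R * s / l - 4 * k - 2) := by
      intro s hs
      obtain ⟨h1, h2⟩ := hξ s hs
      have hmk : (m : ℝ) = 2 * k := by rw [hk]; push_cast; ring
      rw [hmk] at h1 h2
      have e : 1 + R * s / l - 4 * (((k : ℤ) + 1 : ℤ) : ℝ) = -(4 * (k : ℝ) + 3 - R * s / l) := by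
        push_cast; ring
      have h3 : |1 + R * s / l - 4 * (((k : ℤ) + 1 : ℤ) : ℝ)| ≤ 2 := by
        rw [e, abs_neg, abs_le]; constructor <;> linarith only [h1, h2]
      unfold zigW
      rw [zigTri_eq _ h3, e, abs_neg, abs_of_nonneg (by linarith only [h2])]
      ring
    have hmk : (m : ℝ) = 2 * k := by rw [hk]; push_cast; ring
    refine ⟨1, by norm_num, ?_, ?_, ?_⟩
    · rw [hform _ ha, ea, hmk]; ring
    · rw [hform _ hb, eb, hmk]; ring
    · intro s hs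
      rw [hform _ ha, hform _ hs, ea]
      have : zigTm l R m = l * (2 * m + 1) / R := rfl
      rw [this]
      field_simp
      ring
  · have hform : ∀ s ∈ Icc (zigTm l R m) (zigTm l R (m + 1)),
        zigW l R s = l * (4 * k + 4 - R * s / l) := by
      intro s hs
      obtain ⟨h1, h2⟩ := hξ s hs
      have hmk : (m : ℝ) = 2 * k + 1 := by rw [hk]; push_cast; ring
      rw [hmk] at h1 h2
      have e : 1 + R * s / l - 4 * (((k : ℤ) + 1 : ℤ) : ℝ) = R * s / l - 4 * (k : ℝ) - 3 := by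
        push_cast; ring
      have h3 : |1 + R * s / l - 4 * (((k : ℤ) + 1 : ℤ) : ℝ)| ≤ 2 := by
        rw [e, abs_le]; constructor <;> linarith only [h1, h2]
      unfold zigW
      rw [zigTri_eq _ h3, e, abs_of_nonneg (by linarith only [h1])]
      ring
    have hmk : (m : ℝ) = 2 * k + 1 := by rw [hk]; push_cast; ring
    refine ⟨-1, by norm_num, ?_, ?_, ?_⟩
    · rw [hform _ ha, ea, hmk]; ring
    · rw [hform _ hb, eb, hmk]; ring
    · intro s hs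
      rw [hform _ ha, hform _ hs, ea]
      have : zigTm l R m = l * (2 * m + 1) / R := rfl
      rw [this]
      field_simp
      ring

/-- The state of a point at the turning time `zigTm l R m`. -/
structure ZigState (l R A h : ℝ) (V : ℝ → ℝ) (z : ℂ) (m : ℕ) : Prop where
  alive : z ∈ loewnerDomain V (zigTm l R m)
  re : |(gf V z (zigTm l R m)).re| ≤ A + l / 50 + 5 * m / R
  lo : h - 29 / R - 7 * m / R ≤ (gf V z (zigTm l R m)).im
  hi : (gf V z (zigTm l R m)).im ≤ h - 3 / 2 * m / R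
  der : |zigL V z (zigTm l R m)| ≤ 1 + 155 / (R * (gf V z (zigTm l R m)).im) + 12 * m / (R * l)

section

variable {l R A h : ℝ} {V : ℝ → ℝ} {z : ℂ}

lemma zigTm_nonneg (hl : 0 < l) (hR : 0 < R) (m : ℕ) : 0 ≤ zigTm l R m := by
  unfold zigTm; positivity

lemma zigTm_le_succ (hl : 0 < l) (hR : 0 < R) (m : ℕ) : zigTm l R m ≤ zigTm l R (m + 1) := by
  unfold zigTm
  push_cast
  gcongr
  linarith only []

lemma zigState_zero (hl : 20 ≤ l) (hR : 0 < R) (hV : Continuous V) {T : ℝ}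
    (hVw : ∀ u ∈ Icc 0 T, |V u - zigW l R u| ≤ 1 / R) (hT : l / R ≤ T) (hre : |z.re| ≤ A)
    (hz : z.im = h) (hh : 400 / R ≤ h) : ZigState l R A h V z 0 := by
  have hl0 : 0 < l := by linarith only [hl]
  have hh0 : 0 < h := lt_of_lt_of_le (by positivity) hh
  have hzim : 0 < z.im := by rw [hz]; exact hh0
  have e0 : zigTm l R 0 = l / R := by unfold zigTm; simp only [CharP.cast_eq_zero, mul_zero, zero_add, mul_one]
  have g0 : gf V z 0 = z := gf_zero hzim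
  have hlR : 0 ≤ l / R := by positivity
  obtain ⟨h1, S, h3⟩ := flow_sweep (z := z) (V := V) (w := zigW l R) (σ := -1) hV hR (by norm_num)
    le_rfl hlR (fun s hs => by
      rw [zigW_first hl0 hR hs, zigW_first hl0 hR ⟨le_rfl, hlR⟩]; ring)
    (fun s hs => hVw s ⟨hs.1, hs.2.trans hT⟩) (dom_zero.2 hzim) (by rw [g0, hz]; exact hh)
  have hb : l / R ∈ Icc 0 (l / R) := ⟨hlR, le_rfl⟩
  have h4 := h3 _ hb
  have h5 := S.re_slow
  have h6 := S.inside_der (L := zigL V z) fun s hs => zigL_hasDeriv hV h1 hs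
  rw [g0, hz] at h4
  rw [g0] at h5
  have h7 : R / 100 * (l / R - 0) = l / 100 := by field_simp; ring
  rw [h7] at h5
  have hpos : 0 < (gf V z (l / R)).im := by
    have : 29 / R = 29 / 400 * (400 / R) := by ring
    rw [this] at h4
    linarith only [hh, hh0, h4]
  refine ⟨by rw [e0]; exact h1, ?_, ?_, ?_, ?_⟩
  · rw [e0, Nat.cast_zero]
    have h8 : |(gf V z (l / R)).re| ≤ |(gf V z (l / R)).re - z.re| + |z.re| := by
      have := abs_add_le ((gf V z (l / R)).re - z.re) z.re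
      rwa [sub_add_cancel] at this
    have h9 : 5 * (0 : ℝ) / R = 0 := by simp
    rw [h9]
    linarith only [hl, hre, h5, h8]
  · rw [e0, Nat.cast_zero]
    have h9 : 7 * (0 : ℝ) / R = 0 := by simp
    rw [h9, sub_zero]
    exact h4.2
  · rw [e0, Nat.cast_zero]
    have h9 : 3 / 2 * (0 : ℝ) / R = 0 := by simp
    rw [h9, sub_zero]
    exact h4.1
  · rw [e0, Nat.cast_zero]
    have h9 : 12 * (0 : ℝ) / (R * l) = 0 := by simp
    rw [h9, add_zero]
    have h10 : zigL V z 0 = 0 := by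
      unfold zigL
      rw [Uf_zero, Zf_im_eq, g0, sub_self]
    rw [h10, sub_zero] at h6
    have : 0 ≤ 155 / (R * (gf V z (l / R)).im) := by (clear * - hR hpos; positivity)
    linarith only [h6, this]

lemma zigState_succ (hl : 20 ≤ l) (hR : 0 < R) (hV : Continuous V) {T : ℝ}
    (hVw : ∀ u ∈ Icc 0 T, |V u - zigW l R u| ≤ 1 / R) {m : ℕ} (hT : zigTm l R (m + 1) ≤ T)
    (hm : A + l / 50 + 5 * m / R ≤ l / 2) (hh2 : h ≤ 2)
    (hs : ZigState l R A h V z m) (hy : 400 / R ≤ (gf V z (zigTm l R m)).im) :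
    ZigState l R A h V z (m + 1) := by
  have hl0 : 0 < l := by linarith only [hl]
  have ht0 := zigTm_nonneg hl0 hR m
  have ht1 := zigTm_le_succ hl0 hR m
  obtain ⟨σ, hσ, hwa, hwb, hlin⟩ := zigW_sweep hl0 hR m
  obtain ⟨h1, S, h3⟩ := flow_sweep (z := z) (V := V) (w := zigW l R) hV hR hσ ht0 ht1 hlin
    (fun s hs => hVw s ⟨ht0.trans hs.1, hs.2.trans hT⟩) hs.alive hy
  set y := (gf V z (zigTm l R m)).im with hyd
  set y' := (gf V z (zigTm l R (m + 1))).im with hyd'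
  have hy0 : 0 < y := lt_of_lt_of_le (by positivity) hy
  have hb : zigTm l R (m + 1) ∈ Icc (zigTm l R m) (zigTm l R (m + 1)) := ⟨ht1, le_rfl⟩
  have hyy := h3 _ hb
  have hy2 : y ≤ 2 := by
    have h4 := hs.hi
    have : 0 ≤ 3 / 2 * (m : ℝ) / R := by (clear * - hR; positivity)
    linarith only [hh2, h4, this]
  have hy'0 : 0 < y' := by
    have : 29 / R = 29 / 400 * (400 / R) := by ring
    rw [this] at hyy
    linarith only [hy, hy0, hyy]
  obtain ⟨f1, f2, f3⟩ := S.full hl hwa hwb (hs.re.trans hm) hy2 (hyy.1.trans hy2)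
  have f4 := S.full_der hl hwa hwb (hs.re.trans hm) (L := zigL V z) fun s hs' =>
    (zigL_hasDeriv hV h1 ⟨ht0.trans hs'.1, hs'.2⟩).mono (Icc_subset_Icc_left ht0)
  refine ⟨h1, ?_, ?_, ?_, ?_⟩
  · have h8 : |(gf V z (zigTm l R (m + 1))).re| ≤ |(gf V z (zigTm l R (m + 1))).re -
        (gf V z (zigTm l R m)).re| + |(gf V z (zigTm l R m)).re| := by
      have := abs_add_le ((gf V z (zigTm l R (m + 1))).re - (gf V z (zigTm l R m)).re)
        (gf V z (zigTm l R m)).re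
      rwa [sub_add_cancel] at this
    have h9 := hs.re
    have e : 5 * ((m + 1 : ℕ) : ℝ) / R = 5 * m / R + 5 / R := by push_cast; ring
    rw [e]
    linarith only [f1, h8, h9]
  · have h9 := hs.lo
    have e : 7 * ((m + 1 : ℕ) : ℝ) / R = 7 * m / R + 7 / R := by push_cast; ring
    rw [e]
    linarith only [f3, h9]
  · have h9 := hs.hi
    have e : 3 / 2 * ((m + 1 : ℕ) : ℝ) / R = 3 / 2 * m / R + 3 / 2 / R := by push_cast; ring
    rw [e]
    linarith only [f2, h9]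
  · have h9 := hs.der
    have h8 : |zigL V z (zigTm l R (m + 1))| ≤ |zigL V z (zigTm l R (m + 1)) - zigL V z (zigTm l R m)| +
        |zigL V z (zigTm l R m)| := by
      have := abs_add_le (zigL V z (zigTm l R (m + 1)) - zigL V z (zigTm l R m)) (zigL V z (zigTm l R m))
      rwa [sub_add_cancel] at this
    have e : 12 * ((m + 1 : ℕ) : ℝ) / (R * l) = 12 * m / (R * l) + 12 / (R * l) := by
      push_cast; ring
    have key : 58 / (R ^ 2 * (y / 2) ^ 2) + 155 / (R * y) ≤ 155 / (R * y') := by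
      have hY : 400 ≤ R * y := by
        rw [div_le_iff₀ hR] at hy
        linarith only [hy]
      have hY' : R * y' ≤ R * y - 3 / 2 := by
        rw [div_le_iff₀ hR] at f2
        linarith only [f2]
      have hYp : 0 < R * y' := by (clear * - hR hy'0; positivity)
      have hYq : 0 < R * y := by (clear * - hR hy0; positivity)
      have e1 : 58 / (R ^ 2 * (y / 2) ^ 2) = 232 / (R * y) ^ 2 := by field_simp; norm_num
      rw [e1]
      set p := R * y with hp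
      set q := R * y' with hq
      have e2 : 155 / (p - 3 / 2) ≤ 155 / q := by (clear * - hR hy'0 hY'; gcongr)
      have hp2 : 0 < p - 3 / 2 := by linarith only [hY]
      refine le_trans ?_ e2
      rw [div_add_div _ _ (by (clear * - hR hy0; positivity)) (by (clear * - hR hy0; positivity)), div_le_div_iff₀ (by (clear * - hR hy0; positivity)) hp2]
      nlinarith only [hY]
    rw [e]
    linarith only [f4, h9, h8, key]

lemma zigState_iter (hl : 20 ≤ l) (hR : 0 < R) (hV : Continuous V) {T : ℝ}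
    (hVw : ∀ u ∈ Icc 0 T, |V u - zigW l R u| ≤ 1 / R) (hAl : A + l / 50 + 5 ≤ l / 2)
    (hre : |z.re| ≤ A) (hz : z.im = h) (hh : 400 / R ≤ h) (hh2 : h ≤ 2) (m : ℕ)
    (hT : zigTm l R m ≤ T) (hm : (m : ℝ) ≤ R)
    (hy : ∀ j < m, 400 / R ≤ (gf V z (zigTm l R j)).im) : ZigState l R A h V z m := by
  have hl0 : 0 < l := by linarith only [hl]
  induction m with
  | zero =>
    refine zigState_zero hl hR hV hVw ?_ hre hz hh
    have e0 : zigTm l R 0 = l / R := by unfold zigTm; simp only [CharP.cast_eq_zero, mul_zero, zero_add, mul_one]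
    rwa [← e0]
  | succ m ih =>
    have h1 := ih ((zigTm_le_succ hl0 hR m).trans hT) (by push_cast at hm; linarith only [hm])
      fun j hj => hy j (hj.trans m.lt_succ_self)
    refine zigState_succ hl hR hV hVw hT ?_ hh2 h1 (hy m m.lt_succ_self)
    have : 5 * (m : ℝ) / R ≤ 5 := by
      rw [div_le_iff₀ hR]
      push_cast at hm
      linarith only [hm]
    linarith

end

lemma zigzag_find {A l R : ℝ} {V : ℝ → ℝ} {z : ℂ} (hl20 : 20 ≤ l)
    (hAl : A + l / 50 + 5 ≤ l / 2) (hR : 100000 ≤ R)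
    (hV : Continuous V) (hVw : ∀ u ∈ Icc 0 (l / 9), |V u - zigW l R u| ≤ 1 / R)
    (hreA : |z.re| ≤ A) (him1 : -(1 / 64) ≤ z.im - 1 / 16) (him2 : z.im - 1 / 16 ≤ 1 / 64) :
    ∃ m : ℕ, (m : ℝ) ≤ R ∧ zigTm l R (m + 1) ≤ l / 9 ∧ ZigState l R A z.im V z m ∧
      771 / R ≤ (gf V z (zigTm l R m)).im ∧ (gf V z (zigTm l R m)).im < 800 / R := by
  have hl0 : 0 < l := by linarith only [hl20]
  have hR0 : 0 < R := by linarith only [hR]
  have hinv : 1 / R ≤ 1 / 100000 := by (clear * - hR; gcongr)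
  have hinv0 : 0 < 1 / R := by positivity
  set h := z.im with hh
  have h400 : 400 / R ≤ h := by
    have : 400 / R = 400 * (1 / R) := by ring
    rw [this]; linarith only [hinv, him1]
  have iter := fun m hT hm hy => zigState_iter (A := A) (h := h) (z := z) hl20 hR0 hV hVw hAl hreA
    rfl h400 (by linarith only [him2]) m hT hm hy
  -- times
  have htm : ∀ m : ℕ, (2 * (m : ℝ) + 1) ≤ R / 9 → zigTm l R m ≤ l / 9 := by
    intro m hm
    unfold zigTm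
    rw [div_le_iff₀ hR0]
    calc l * (2 * m + 1) ≤ l * (R / 9) := by (clear * - hm hl20; gcongr)
      _ = l / 9 * R := by ring
  -- the first time the height is below `800 / R`
  obtain ⟨M, hM1, hM2⟩ : ∃ M : ℕ, 5 / 96 * R ≤ M ∧ (M : ℝ) ≤ 5 / 96 * R + 1 := by
    refine ⟨⌈5 / 96 * R⌉₊, Nat.le_ceil _, (Nat.ceil_lt_add_one (by positivity)).le⟩
  have hex : ∃ m : ℕ, m ≤ M ∧ (gf V z (zigTm l R m)).im < 800 / R := by
    by_contra hcon
    push Not at hcon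
    have hs := iter M (htm M (by linarith only [hR, hM2])) (by linarith only [hR, hM2]) (fun j hj => by
      have := hcon j hj.le
      have h2 : 400 / R ≤ 800 / R := by gcongr; norm_num
      linarith only [this, h2])
    have h1 := hcon M le_rfl
    have h2 := hs.hi
    have h3 : 3 / 2 * (5 / 96 * R) / R ≤ 3 / 2 * (M : ℝ) / R := by (clear * - hM1 hR; gcongr)
    have h4 : 3 / 2 * (5 / 96 * R) / R = 5 / 64 := by field_simp; norm_num
    have h5 : 0 < 800 / R := by positivity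
    linarith only [him2, h1, h2, h3, h4, h5]
  classical
  set m := Nat.find hex with hm
  obtain ⟨hmM, hmlt⟩ := Nat.find_spec hex
  rw [← hm] at hmM hmlt
  have hmin : ∀ j < m, 800 / R ≤ (gf V z (zigTm l R j)).im := by
    intro j hj
    have h1 := Nat.find_min hex hj
    rw [not_and] at h1
    exact not_lt.1 (h1 (hj.le.trans hmM))
  have hmR : (m : ℝ) ≤ 5 / 96 * R + 1 := by
    have : (m : ℝ) ≤ M := by exact_mod_cast hmM
    linarith only [hM2, this]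
  have h48 : 400 / R ≤ 800 / R := by gcongr; norm_num
  have e29 : 29 / R = 29 * (1 / R) := by ring
  have e800 : 800 / R = 800 * (1 / R) := by ring
  have e400 : 400 / R = 400 * (1 / R) := by ring
  have hst := iter m (htm m (by linarith only [hR, hmR])) (by linarith only [hR, hmR]) fun j hj => h48.trans (hmin j hj)
  -- `m` is positive
  have hm0 : m ≠ 0 := by
    intro h0
    have h1 := hst.lo
    rw [h0] at h1 hmlt
    rw [Nat.cast_zero, mul_zero, zero_div, sub_zero, e29] at h1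
    rw [e800] at hmlt
    linarith only [hinv, him1, hmlt, h1]
  obtain ⟨m', hm'⟩ := Nat.exists_eq_succ_of_ne_zero hm0
  have hm'lt : m' < m := by (clear * - hex hm'; omega)
  have hm'R : (m' : ℝ) ≤ m := by exact_mod_cast hm'lt.le
  have hT1 : zigTm l R (m + 1) ≤ l / 9 := htm (m + 1) (by push_cast; linarith only [hR, hmR])
  have ht0 := zigTm_nonneg hl0 hR0
  have ht1 := zigTm_le_succ hl0 hR0
  -- lower bound for the height at time `m`
  have hlow : 771 / R ≤ (gf V z (zigTm l R m)).im := by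
    obtain ⟨σ, hσ, hwa, hwb, hlin⟩ := zigW_sweep hl0 hR0 m'
    have hst' := iter m' (htm m' (by linarith only [hR, hmR, hm'R])) (by linarith only [hR, hmR, hm'R]) fun j hj =>
      h48.trans (hmin j (hj.trans hm'lt))
    obtain ⟨-, -, h3⟩ := flow_sweep (z := z) (V := V) (w := zigW l R) hV hR0 hσ (ht0 m') (ht1 m')
      hlin (fun s hs => hVw s ⟨(ht0 m').trans hs.1, hs.2.trans (by
        have : zigTm l R (m' + 1) = zigTm l R m := by rw [hm']
        rw [this]; exact (ht1 m).trans hT1)⟩) hst'.alive (h48.trans (hmin m' hm'lt))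
    have h4 := (h3 (zigTm l R (m' + 1)) ⟨ht1 m', le_rfl⟩).2
    have h5 := hmin m' hm'lt
    have h6 : zigTm l R (m' + 1) = zigTm l R m := by rw [hm']
    rw [h6] at h4
    have : 771 / R = 800 / R - 29 / R := by ring
    rw [this]
    linarith only [h4, h5]
  exact ⟨m, by linarith only [hR, hmR], hT1, hst, hlow, hmlt⟩

lemma zigzag_last {A l R C h : ℝ} {V : ℝ → ℝ} {z : ℂ} {m : ℕ} (hA1 : 1 ≤ A) (hl20 : 20 ≤ l)
    (hAl : A + l / 50 + 5 ≤ l / 2) (hC : C = 1000 + A + 10 * l) (hR : 100000 ≤ R)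
    (hV : Continuous V) (hVw : ∀ u ∈ Icc 0 (l / 9), |V u - zigW l R u| ≤ 1 / R)
    (hmR : (m : ℝ) ≤ R) (hT1 : zigTm l R (m + 1) ≤ l / 9) (hst : ZigState l R A h V z m)
    (hlow : 771 / R ≤ (gf V z (zigTm l R m)).im) (hmlt : (gf V z (zigTm l R m)).im < 800 / R) :
    ∃ s ∈ Icc 0 (l / 9), z ∈ loewnerDomain V s ∧ |(Zf V z s).re| ≤ C / R ∧
      1 / (C * R) ≤ (Zf V z s).im ∧ (Zf V z s).im ≤ C / R ∧ |Uf V z s + Real.log R| ≤ C := by
  have hl0 : 0 < l := by linarith only [hl20]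
  have hR0 : 0 < R := by linarith only [hR]
  have hC0 : 0 < C := by linarith only [hA1, hl20, hC]
  have hinv : 1 / R ≤ 1 / 100000 := by (clear * - hR; gcongr)
  have ht0 := zigTm_nonneg hl0 hR0
  have ht1 := zigTm_le_succ hl0 hR0
  -- the last sweep
  obtain ⟨σ, hσ, hwa, hwb, hlin⟩ := zigW_sweep hl0 hR0 m
  have h7 : 400 / R ≤ (gf V z (zigTm l R m)).im := by
    refine le_trans ?_ hlow
    gcongr
    norm_num
  obtain ⟨h1, S, h3⟩ := flow_sweep (z := z) (V := V) (w := zigW l R) hV hR0 hσ (ht0 m) (ht1 m)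
    hlin (fun s hs => hVw s ⟨(ht0 m).trans hs.1, hs.2.trans hT1⟩) hst.alive h7
  have hxm : |(gf V z (zigTm l R m)).re| ≤ l / 2 := by
    refine hst.re.trans ?_
    have : 5 * (m : ℝ) / R ≤ 5 := by
      rw [div_le_iff₀ hR0]; linarith only [hmR]
    linarith only [hAl, this]
  obtain ⟨k1, k2, -, -⟩ := S.ends hl20 hwa hwb hxm
  -- zero of the real part
  have hcont : ContinuousOn (fun u => σ * (Zf V z u).re) (Icc (zigTm l R m) (zigTm l R (m + 1))) :=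
    (continuousOn_const.mul (Complex.continuous_re.comp_continuousOn
      (Zf_cont hV ((ht0 m).trans (ht1 m)) h1))).mono (Icc_subset_Icc_left (ht0 m))
  have hzero : (0 : ℝ) ∈ Icc (σ * (Zf V z (zigTm l R (m + 1))).re) (σ * (Zf V z (zigTm l R m)).re) := by
    have hσa := S.abs_σ
    have c1 : ∀ s ∈ Icc (zigTm l R m) (zigTm l R (m + 1)),
        |σ * (Zf V z s).re - σ * (gf V z s - (zigW l R s : ℂ)).re| ≤ 1 / R := by
      intro s hs
      rw [Zf_eq, ← mul_sub, abs_mul, hσa, one_mul]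
      have : (gf V z s - (V s : ℂ)).re - (gf V z s - (zigW l R s : ℂ)).re =
        -(V s - zigW l R s) := by simp only [Complex.sub_re, Complex.ofReal_re, sub_sub_sub_cancel_left, neg_sub]
      rw [this, abs_neg]
      exact hVw s ⟨(ht0 m).trans hs.1, hs.2.trans hT1⟩
    have c2 := c1 _ (left_mem_Icc.2 (ht1 m))
    have c3 := c1 _ (right_mem_Icc.2 (ht1 m))
    rw [abs_le] at c2 c3
    constructor <;> linarith only [hl20, hinv, k1, c2, k2, c3]
  obtain ⟨s, hs, hs0⟩ := intermediate_value_Icc' (ht1 m) hcont hzero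
  have hs0' : (Zf V z s).re = 0 := by
    rcases mul_eq_zero.1 hs0 with h0 | h0
    · exact absurd h0 S.σ_ne
    · exact h0
  have hsT : s ∈ Icc 0 (l / 9) := ⟨(ht0 m).trans hs.1, hs.2.trans hT1⟩
  have hzs := dom_mono hs.2 h1
  obtain ⟨y1, y2⟩ := h3 s hs
  rw [← Zf_im_eq (z := z) (t := s)] at y1 y2
  have yl : 742 / R ≤ (Zf V z s).im := by
    have : 742 / R = 771 / R - 29 / R := by ring
    rw [this]; linarith only [hlow, y2]
  have yu : (Zf V z s).im ≤ 800 / R := by linarith only [hmlt, y1]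
  have S' := S.restrict hs
  have hder := S'.inside_der (L := zigL V z) fun u hu =>
    (zigL_hasDeriv hV h1 ⟨(ht0 m).trans hu.1, hu.2.trans hs.2⟩).mono
      fun x hx => ⟨(ht0 m).trans hx.1, hx.2.trans hs.2⟩
  have hL : |zigL V z s| ≤ 4 := by
    have h8 : |zigL V z s| ≤ |zigL V z s - zigL V z (zigTm l R m)| + |zigL V z (zigTm l R m)| := by
      have := abs_add_le (zigL V z s - zigL V z (zigTm l R m)) (zigL V z (zigTm l R m))
      rwa [sub_add_cancel] at this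
    have h9 := hst.der
    have h10 : 155 / (R * (gf V z (zigTm l R m)).im) ≤ 1 := by
      have : 771 ≤ R * (gf V z (zigTm l R m)).im := by
        rw [div_le_iff₀ hR0] at hlow
        linarith only [hlow]
      rw [div_le_one (by linarith only [this])]
      linarith only [this]
    have h11 : 12 * (m : ℝ) / (R * l) ≤ 1 := by
      rw [div_le_one (by positivity)]
      nlinarith only [hl20, hmR]
    linarith only [hder, h8, h9, h10, h11]
  have hypos : 0 < (Zf V z s).im := lt_of_lt_of_le (by positivity) yl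
  refine ⟨s, hsT, hzs, ?_, ?_, ?_, ?_⟩
  · rw [hs0', abs_zero]; positivity
  · refine le_trans ?_ yl
    rw [div_le_div_iff₀ (by positivity) hR0]
    nlinarith only [hA1, hl20, hC, hR]
  · refine yu.trans ?_
    gcongr
    rw [hC]; linarith only [hA1, hl20]
  · have e : Uf V z s + Real.log R = Real.log (R * (Zf V z s).im) - zigL V z s := by
      unfold zigL
      rw [Real.log_mul hR0.ne' hypos.ne']
      ring
    rw [e]
    have hRy1 : 742 ≤ R * (Zf V z s).im := by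
      rw [div_le_iff₀ hR0] at yl
      linarith only [yl]
    have hRy2 : R * (Zf V z s).im ≤ 800 := by
      rw [le_div_iff₀ hR0] at yu
      linarith only [yu]
    have g1 : 0 ≤ Real.log (R * (Zf V z s).im) := Real.log_nonneg (by linarith only [hRy1])
    have g2 : Real.log (R * (Zf V z s).im) ≤ 800 := by
      have := Real.log_le_sub_one_of_pos (by linarith only [hRy1] : 0 < R * (Zf V z s).im)
      linarith only [hRy2, this]
    obtain ⟨L1, L2⟩ := abs_le.1 hL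
    rw [abs_le, hC]
    constructor <;> linarith only [hA1, hl20, g1, L2, g2, L1]

lemma zigzag_low {A l R C : ℝ} {V : ℝ → ℝ} {z : ℂ} (hA1 : 1 ≤ A) (hl20 : 20 ≤ l)
    (hAl : A + l / 50 + 5 ≤ l / 2) (hC : C = 1000 + A + 10 * l) (hR : 100000 ≤ R)
    (hV : Continuous V) (hVw : ∀ u ∈ Icc 0 (l / 9), |V u - zigW l R u| ≤ 1 / R)
    (hreA : |z.re| ≤ A) (him1 : -(1 / 64) ≤ z.im - 1 / 16) (him2 : z.im - 1 / 16 ≤ 1 / 64) :
    ∃ s ∈ Icc 0 (l / 9), z ∈ loewnerDomain V s ∧ |(Zf V z s).re| ≤ C / R ∧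
      1 / (C * R) ≤ (Zf V z s).im ∧ (Zf V z s).im ≤ C / R ∧ |Uf V z s + Real.log R| ≤ C := by
  obtain ⟨m, hmR, hT1, hst, hlow, hmlt⟩ := zigzag_find hl20 hAl hR hV hVw hreA him1 him2
  exact zigzag_last hA1 hl20 hAl hC hR hV hVw hmR hT1 hst hlow hmlt

lemma zigzag_high {A l R C : ℝ} {V : ℝ → ℝ} {z : ℂ} (hA1 : 1 ≤ A) (hl20 : 20 ≤ l)
    (hAl : A + l / 50 + 5 ≤ l / 2) (hC : C = 1000 + A + 10 * l) (hR : 100000 ≤ R)
    (hV : Continuous V) (hVw : ∀ u ∈ Icc 0 (l / 9), |V u - zigW l R u| ≤ 1 / R)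
    (hreA : |z.re| ≤ A) (him1 : -(1 / 16) ≤ z.im - 1) (him2 : z.im - 1 ≤ 1 / 16) :
    z ∈ loewnerDomain V (l / 9) ∧ |(Zf V z (l / 9)).re| ≤ C ∧ 1 / C ≤ (Zf V z (l / 9)).im ∧
      -C ≤ Uf V z (l / 9) := by
  have hl0 : 0 < l := by linarith only [hl20]
  have hR0 : 0 < R := by linarith only [hR]
  have hinv : 1 / R ≤ 1 / 100000 := by (clear * - hR; gcongr)
  have hinv0 : 0 < 1 / R := by positivity
  set h := z.im with hh
  have e400 : 400 / R = 400 * (1 / R) := by ring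
  have h400 : 400 / R ≤ h := by rw [e400]; linarith only [hinv, him1]
  have hzim : 0 < z.im := by rw [← hh]; linarith only [him1]
  -- extend the driver after time `l / 9` in order to have a full number of sweeps
  have hstep : ∀ m : ℕ, zigTm l R m ≤ l / 9 → (m : ℝ) ≤ R / 18 →
      (∀ j ≤ m, 1 / 2 + 40 / R ≤ (gf V z (zigTm l R j)).im) ∧ ZigState l R A h V z m := by
    intro m
    induction m with
    | zero =>
      intro hT hm
      have hs := zigState_iter (A := A) (h := h) (z := z) hl20 hR0 hV hVw hAl hreA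
        rfl h400 (by linarith only [him2]) 0 hT (by simpa only [CharP.cast_eq_zero] using hR0.le) (by simp only [not_lt_zero, IsEmpty.forall_iff, implies_true])
      refine ⟨fun j hj => ?_, hs⟩
      obtain rfl : j = 0 := Nat.le_zero.1 hj
      have h1 := hs.lo
      rw [Nat.cast_zero, mul_zero, zero_div, sub_zero] at h1
      refine le_trans ?_ h1
      have : 40 / R = 40 * (1 / R) := by ring
      have e29 : 29 / R = 29 * (1 / R) := by ring
      rw [this, e29]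
      linarith only [hinv, him1]
    | succ m ih =>
      intro hT hm
      push_cast at hm
      obtain ⟨i1, i2⟩ := ih ((zigTm_le_succ hl0 hR0 m).trans hT) (by linarith only [hm])
      have hs := zigState_iter (A := A) (h := h) (z := z) hl20 hR0 hV hVw hAl hreA
        rfl h400 (by linarith only [him2]) (m + 1) hT (by push_cast; linarith only [hm]) (fun j hj => by
          have := i1 j (Nat.lt_succ_iff.1 hj)
          have e40 : 40 / R = 40 * (1 / R) := by ring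
          rw [e40] at this
          rw [e400]
          linarith only [hinv, hinv0, this])
      refine ⟨fun j hj => ?_, hs⟩
      rcases Nat.lt_or_ge j (m + 1) with hj' | hj'
      · exact i1 j (Nat.lt_succ_iff.1 hj')
      · obtain rfl : j = m + 1 := le_antisymm hj hj'
        have h1 := hs.lo
        have h2 : 7 * ((m + 1 : ℕ) : ℝ) / R ≤ 7 / 18 := by
          rw [div_le_iff₀ hR0]
          push_cast
          linarith only [hm]
        have e40 : 40 / R = 40 * (1 / R) := by ring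
        have e29 : 29 / R = 29 * (1 / R) := by ring
        rw [e40]
        rw [e29] at h1
        linarith only [hinv, hinv0, him1, h1, h2]
  -- the last turning time before `l / 9`
  have hR9 : 0 ≤ (R / 9 - 1) / 2 := by linarith only [hR]
  set M : ℕ := ⌊(R / 9 - 1) / 2⌋₊ with hM
  have hM1 : (M : ℝ) ≤ (R / 9 - 1) / 2 := Nat.floor_le hR9
  have hM2 : (R / 9 - 1) / 2 < M + 1 := Nat.lt_floor_add_one _
  have hMt : zigTm l R M ≤ l / 9 := by
    unfold zigTm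
    rw [div_le_iff₀ hR0]
    calc l * (2 * M + 1) ≤ l * (R / 9) := by gcongr; linarith only [hM1]
      _ = l / 9 * R := by ring
  have hMt2 : l / 9 ≤ zigTm l R (M + 1) := by
    unfold zigTm
    rw [le_div_iff₀ hR0]
    push_cast
    calc l / 9 * R = l * (R / 9) := by ring
      _ ≤ l * (2 * (M + 1) + 1) := by gcongr; linarith only [hM2]
  obtain ⟨i1, i2⟩ := hstep M hMt (by linarith only [hM1])
  have hy := i1 M le_rfl
  have ht0 := zigTm_nonneg hl0 hR0 M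
  obtain ⟨σ, hσ, hwa, hwb, hlin⟩ := zigW_sweep hl0 hR0 M
  have e40 : 40 / R = 40 * (1 / R) := by ring
  obtain ⟨h1, -, h3⟩ := flow_sweep (z := z) (V := V) (w := zigW l R) hV hR0 hσ ht0 hMt
    (fun s hs => hlin s ⟨hs.1, hs.2.trans hMt2⟩) (fun s hs => hVw s ⟨ht0.trans hs.1, hs.2⟩)
    i2.alive (by rw [e40] at hy; rw [e400]; linarith only [hinv, hinv0, hy])
  have h4 := (h3 (l / 9) ⟨hMt, le_rfl⟩).2
  have hlast : 1 / 2 ≤ (gf V z (l / 9)).im := by
    have e29 : 29 / R = 29 * (1 / R) := by ring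
    rw [e29] at h4
    rw [e40] at hy
    linarith only [hinv0, hy, h4]
  have hl9 : 0 ≤ l / 9 := by positivity
  have him2 : ∀ s ∈ Icc 0 (l / 9), 1 / 2 ≤ (Zf V z s).im := by
    intro s hs
    have := im_le_of_le hs.1 hs.2 h1
    rw [Zf_im_eq] at this
    linarith only [hlast, this]
  refine ⟨h1, ?_, ?_, ?_⟩
  · -- real part
    have hb : ∀ s ∈ Icc 0 (l / 9), ‖2 / Zf V z s‖ ≤ 4 := by
      intro s hs
      have h5 := him2 s hs
      have h6 : 1 / 2 ≤ ‖Zf V z s‖ := h5.trans ((le_abs_self _).trans (Complex.abs_im_le_norm _))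
      rw [norm_div, RCLike.norm_ofNat, div_le_iff₀ (by linarith only [h6])]
      linarith only [h6]
    have h5 := (convex_Icc (0 : ℝ) (l / 9)).norm_image_sub_le_of_norm_hasDerivWithin_le
      (f := gf V z) (fun s hs => gf_hasDeriv h1 hs) hb (left_mem_Icc.2 hl9) (right_mem_Icc.2 hl9)
    rw [sub_zero, Real.norm_eq_abs, abs_of_nonneg hl9, gf_zero hzim] at h5
    have h6 := (Complex.abs_re_le_norm (gf V z (l / 9) - z)).trans h5
    rw [Complex.sub_re] at h6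
    have h7 := hVw (l / 9) ⟨hl9, le_rfl⟩
    have h8 := zigW_abs_le hl0 R (l / 9)
    have h9 : (Zf V z (l / 9)).re = (gf V z (l / 9)).re - V (l / 9) := by
      rw [Zf_eq]; simp
    rw [h9, hC]
    rw [abs_le] at h6 h7 h8 hreA ⊢
    constructor <;> linarith only [hl20, hreA, hinv, hinv0, h6, h7, h8]
  · rw [Zf_im_eq]
    refine le_trans ?_ hlast
    gcongr
    rw [hC]; linarith only [hA1, hl20]
  · -- `U`
    have hb : ∀ s ∈ Icc 0 (l / 9), ‖-rate (Zf V z s)‖ ≤ 16 := by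
      intro s hs
      rw [norm_neg, Real.norm_eq_abs, abs_of_nonneg (rate_nonneg _)]
      have := rate_le_of_im (by norm_num : (0:ℝ) < 1 / 2) (him2 s hs)
      linarith only [this]
    have h5 := (convex_Icc (0 : ℝ) (l / 9)).norm_image_sub_le_of_norm_hasDerivWithin_le
      (f := Uf V z) (fun s hs => Uf_hasDeriv hV h1 hs) hb (left_mem_Icc.2 hl9)
      (right_mem_Icc.2 hl9)
    rw [sub_zero, Real.norm_eq_abs, Real.norm_eq_abs, abs_of_nonneg hl9, Uf_zero] at h5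
    have h6 : -1 ≤ Real.log z.im := by
      have h7 : Real.log (Real.exp (-1)) ≤ Real.log z.im := by
        apply Real.log_le_log (Real.exp_pos _)
        have : Real.exp (-1) ≤ 1 / 2 := by
          have h8 := Real.add_one_le_exp 1
          rw [Real.exp_neg]
          rw [← one_div]
          gcongr
          linarith only [h8]
        linarith only [him1, this]
      rwa [Real.log_exp] at h7
    rw [hC]
    rw [abs_le] at h5
    linarith only [hA1, h5, h6]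


theorem zigzag (A₀ : ℝ) :
    ∃ τ₁ C R₀ : ℝ, 0 < τ₁ ∧ 1 ≤ C ∧ 1 ≤ R₀ ∧ ∀ X : ℝ, |X| ≤ A₀ → ∀ R : ℝ, R₀ ≤ R →
      ∃ w : ℝ → ℝ, w 0 = 0 ∧ (∀ u v, |w u - w v| ≤ R * |u - v|) ∧
        ∀ V : ℝ → ℝ, Continuous V → V 0 = 0 → (∀ u ∈ Icc 0 τ₁, |V u - w u| ≤ 1 / R) →
          (∀ z : ℂ, dist z (X + (1 / 16 : ℝ) * Complex.I) ≤ 1 / 64 → ∃ s ∈ Icc 0 τ₁,
            z ∈ loewnerDomain V s ∧ |(Zf V z s).re| ≤ C / R ∧ 1 / (C * R) ≤ (Zf V z s).im ∧
              (Zf V z s).im ≤ C / R ∧ |Uf V z s + Real.log R| ≤ C) ∧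
          (∀ z : ℂ, dist z (X + Complex.I) ≤ 1 / 16 → z ∈ loewnerDomain V τ₁ ∧
            |(Zf V z τ₁).re| ≤ C ∧ 1 / C ≤ (Zf V z τ₁).im ∧ -C ≤ Uf V z τ₁) := by
  set A : ℝ := |A₀| + 1 with hA
  have hA1 : 1 ≤ A := by rw [hA]; linarith only [abs_nonneg A₀]
  set l : ℝ := 20 * (A + 5) with hl
  have hl20 : 20 ≤ l := by rw [hl]; linarith only [hA1]
  have hl0 : 0 < l := by linarith only [hA1]
  set C : ℝ := 1000 + A + 10 * l with hC
  refine ⟨l / 9, C, 100000, by positivity, by linarith only [hA1], by norm_num, fun X hX R hR => ?_⟩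
  have hR0 : 0 < R := by linarith only [hR]
  have hinv : 1 / R ≤ 1 / 100000 := by (clear * - hR; gcongr)
  have hinv0 : 0 < 1 / R := by (clear * - hR; positivity)
  have hAl : A + l / 50 + 5 ≤ l / 2 := by rw [hl]; linarith only [hA1]
  refine ⟨zigW l R, ?_, zigW_lip hl0 hR0, fun V hV hV0 hVw => ⟨fun z hz => ?_, fun z hz => ?_⟩⟩
  · rw [zigW_first hl0 hR0 ⟨le_rfl, by positivity⟩]; ring
  · -- low points
    have hd := hz
    rw [dist_eq_norm] at hd
    have hre := (Complex.abs_re_le_norm _).trans hd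
    have him := (Complex.abs_im_le_norm _).trans hd
    have e1 : (z - (X + (1 / 16 : ℝ) * Complex.I)).re = z.re - X := by simp only [one_div, Complex.ofReal_inv, Complex.ofReal_ofNat, Complex.sub_re, Complex.add_re, Complex.ofReal_re, Complex.mul_re, Complex.inv_re, Complex.re_ofNat, Complex.normSq_ofNat, div_self_mul_self', Complex.I_re, mul_zero, Complex.inv_im, Complex.im_ofNat, neg_zero, zero_div, Complex.I_im, mul_one, sub_self, add_zero]
    have e2 : (z - (X + (1 / 16 : ℝ) * Complex.I)).im = z.im - 1 / 16 := by simp only [one_div, Complex.ofReal_inv, Complex.ofReal_ofNat, Complex.sub_im, Complex.add_im, Complex.ofReal_im, Complex.mul_im, Complex.inv_re, Complex.re_ofNat, Complex.normSq_ofNat, div_self_mul_self', Complex.I_im, mul_one, Complex.inv_im, Complex.im_ofNat, neg_zero, zero_div, Complex.I_re, mul_zero, add_zero, zero_add]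
    rw [e1] at hre
    rw [e2] at him
    obtain ⟨him1, him2⟩ := abs_le.1 him
    have hreA : |z.re| ≤ A := by
      have h1 : |z.re| ≤ |z.re - X| + |X| := by
        have := abs_add_le (z.re - X) X
        rwa [sub_add_cancel] at this
      have h2 := hX.trans (le_abs_self A₀)
      rw [hA]
      linarith only [hre, h1, h2]
    exact zigzag_low hA1 hl20 hAl hC hR hV hVw hreA him1 him2
  · -- high points
    have hd := hz
    rw [dist_eq_norm] at hd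
    have hre := (Complex.abs_re_le_norm _).trans hd
    have him := (Complex.abs_im_le_norm _).trans hd
    have e1 : (z - (X + Complex.I)).re = z.re - X := by simp
    have e2 : (z - (X + Complex.I)).im = z.im - 1 := by simp
    rw [e1] at hre
    rw [e2] at him
    obtain ⟨him1, him2⟩ := abs_le.1 him
    have hreA : |z.re| ≤ A := by
      have h1 : |z.re| ≤ |z.re - X| + |X| := by
        have := abs_add_le (z.re - X) X
        rwa [sub_add_cancel] at this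
      have h2 := hX.trans (le_abs_self A₀)
      rw [hA]
      linarith only [hre, h1, h2]
    exact zigzag_high hA1 hl20 hAl hC hR hV hVw hreA him1 him2

end Vale.Agent.P164
end

section

/-!
# X-B2. One step of `I_Q` and of the weight `ω_Q`
-/

namespace Vale.Agent.P164

open Set Metric Filter Topology MeasureTheory ProbabilityTheory
open scoped NNReal ENNReal

/-- Crude bound for `BI`. -/
lemma IStep_BI_abs_le {z₀ : ℂ} {R L t C : ℝ} {W : ℝ → ℝ} (hL : 0 < L) (hC : 0 ≤ C)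
    {G : ℂ → ℝ → ℝ}
    (h : ∀ b ∈ EE z₀ R L, b ∈ loewnerDomain W t → |G (Zf W b t) (Uf W b t)| ≤ C) :
    |BI L (EE z₀ R L) W t G| ≤ C * volume.real (EE z₀ R L) / L ^ 2 := by
  have hEv : volume (EE z₀ R L) < ⊤ := measure_ball_lt_top
  unfold BI
  rw [abs_div, abs_of_pos (by positivity : (0 : ℝ) < L ^ 2)]
  refine div_le_div_of_nonneg_right ?_ (by positivity)
  rw [← Real.norm_eq_abs]
  refine norm_setIntegral_le_of_norm_le_const hEv fun b hb => ?_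
  by_cases hal : b ∈ loewnerDomain W t
  · rw [St_of_mem hal]
    exact h b hb hal
  · rw [St_of_not_mem hal, norm_zero]
    exact hC

lemma IStep_int_comb {μ : Measure ℂ} {f g₀ g₁ g₂ g₃ : ℂ → ℝ} (hf : Integrable f μ)
    (h₀ : Integrable g₀ μ) (h₁ : Integrable g₁ μ) (h₂ : Integrable g₂ μ) (h₃ : Integrable g₃ μ)
    (a b c : ℝ) :
    ∫ x, (f x - (g₀ x - a * g₁ x + b * g₂ x + c * g₃ x)) ∂μ =
      (∫ x, f x ∂μ) - ((∫ x, g₀ x ∂μ) - a * (∫ x, g₁ x ∂μ) + b * (∫ x, g₂ x ∂μ) +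
        c * (∫ x, g₃ x ∂μ)) := by
  have e1 : Integrable (fun x => a * g₁ x) μ := h₁.const_mul a
  have e2 : Integrable (fun x => b * g₂ x) μ := h₂.const_mul b
  have e3 : Integrable (fun x => c * g₃ x) μ := h₃.const_mul c
  have e4 : Integrable (fun x => g₀ x - a * g₁ x) μ := h₀.sub e1
  have e5 : Integrable (fun x => g₀ x - a * g₁ x + b * g₂ x) μ := e4.add e2
  have e6 : Integrable (fun x => g₀ x - a * g₁ x + b * g₂ x + c * g₃ x) μ := e5.add e3
  rw [integral_sub hf e6, integral_add e5 e3, integral_add e4 e2, integral_sub h₀ e1,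
    integral_const_mul, integral_const_mul, integral_const_mul]

/-- Integrate `pair_step` over `b ∈ E = EE z₀ R L` alive at time `t` (dead points stay dead). -/
theorem i_step {z₀ : ℂ} {R L ϰ : ℝ} (hL : 0 < L) (hR : 1 ≤ R) (hz : 3 * (R * L) ≤ z₀.im)
    (hϰ : 0 < ϰ) : ∃ C δ₀ : ℝ, 0 < C ∧ 0 < δ₀ ∧
    ∀ {W : ℝ → ℝ} (_ : Continuous W) {z : ℂ} {t δ m : ℝ} (_ : 0 ≤ t) (_ : 0 < δ)
      (_ : δ ≤ δ₀) (_ : 0 ≤ m) (_ : m ≤ ϰ / 16)
      (_ : ∀ u ∈ Icc t (t + δ), |W u - W t| ≤ m)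
      (_ : z ∈ loewnerDomain W t) (_ : ϰ ≤ ‖Zf W z t‖),
    |IQ L (EE z₀ R L) W (t + δ) (Zf W z (t + δ)) -
        (IQ L (EE z₀ R L) W t (Zf W z t) -
          (W (t + δ) - W t) * IX1 L (EE z₀ R L) W t (Zf W z t) +
          (W (t + δ) - W t) ^ 2 / 2 * IX2 L (EE z₀ R L) W t (Zf W z t) +
          δ * IX3 L (EE z₀ R L) W t (Zf W z t))| ≤ C * (δ ^ 2 + δ * m + m ^ 3) ∧
    |IX1 L (EE z₀ R L) W t (Zf W z t)| ≤ C ∧ |IX2 L (EE z₀ R L) W t (Zf W z t)| ≤ C ∧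
    |IX3 L (EE z₀ R L) W t (Zf W z t)| ≤ C := by
  obtain ⟨C₁, δ₁, hC₁, hδ₁, H⟩ := pair_step hϰ
  obtain ⟨C₂, hC₂, HB⟩ := IQ_bounds hL hR hϰ z₀
  obtain ⟨C₃, hC₃, HZ⟩ := z_step
  have hEv : volume (EE z₀ R L) < ⊤ := measure_ball_lt_top
  have hE : MeasurableSet (EE z₀ R L) := measurableSet_ball
  have hV : 0 ≤ volume.real (EE z₀ R L) := measureReal_nonneg
  have hz0 : 0 ≤ z₀.im := le_trans (by positivity) hz
  have hK1 : 0 ≤ C₁ * (2 * z₀.im) / L * volume.real (EE z₀ R L) / L ^ 2 := by (clear * - hC₁ hz0 hL; positivity)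
  have hK2 : 0 ≤ C₂ * volume.real (EE z₀ R L) / L ^ 2 := by positivity
  refine ⟨C₁ * (2 * z₀.im) / L * volume.real (EE z₀ R L) / L ^ 2 +
    C₂ * volume.real (EE z₀ R L) / L ^ 2 + 1, min δ₁ ((ϰ / 16) ^ 2), by linarith,
    lt_min hδ₁ (by (clear * - hϰ; positivity)), ?_⟩
  intro W hW z t δ m ht hδ hδ0 hm hmϰ hosc hzt hzϰ
  have S : SA W t z₀ R L := ⟨hW, ht, hL, hR, hz⟩
  have S' : SA W (t + δ) z₀ R L := ⟨hW, by linarith only [ht, hδ], hL, hR, hz⟩
  have hZ : 0 < (Zf W z t).im := Zf_im_pos ht hzt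
  have hsq : √δ ≤ ϰ / 16 := by
    rw [Real.sqrt_le_left (by (clear * - hϰ; positivity))]
    exact hδ0.trans (min_le_right _ _)
  have h8 : 8 * (m + √δ) ≤ ‖Zf W z t‖ := by linarith only [hmϰ, hzϰ, hsq]
  have hzt' : z ∈ loewnerDomain W (t + δ) := (HZ hW ht hδ hm hosc hzt h8).1
  have hZ' : 0 < (Zf W z (t + δ)).im := Zf_im_pos (by linarith only [ht, hδ]) hzt'
  have hb1 : |IX1 L (EE z₀ R L) W t (Zf W z t)| ≤ C₂ * volume.real (EE z₀ R L) / L ^ 2 :=
    IStep_BI_abs_le hL hC₂.le fun b hb hal => (HB S hZ hzϰ hb hal).2.2.1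
  have hb2 : |IX2 L (EE z₀ R L) W t (Zf W z t)| ≤ C₂ * volume.real (EE z₀ R L) / L ^ 2 :=
    IStep_BI_abs_le hL hC₂.le fun b hb hal => (HB S hZ hzϰ hb hal).2.2.2.1
  have hb3 : |IX3 L (EE z₀ R L) W t (Zf W z t)| ≤ C₂ * volume.real (EE z₀ R L) / L ^ 2 :=
    IStep_BI_abs_le hL hC₂.le fun b hb hal => (HB S hZ hzϰ hb hal).2.2.2.2
  refine ⟨?_, by linarith only [hK1, hb1], by linarith only [hK1, hb2], by linarith only [hK1, hb3]⟩
  set η := W (t + δ) - W t with hη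
  have herr : 0 ≤ δ ^ 2 + δ * m + m ^ 3 := by (clear * - hδ hm; positivity)
  have i0 := IQ_int S' hZ'
  have j0 := IQ_int S hZ
  have j1 := IX1_int S hZ
  have j2 := IX2_int S hZ
  have j3 := IX3_int S hZ
  have key : |(∫ b in EE z₀ R L,
      (St (fun A U => Real.exp (U - Real.log L) * KK A (Zf W z (t + δ))) W b (t + δ) -
        (St (fun A U => Real.exp (U - Real.log L) * KK A (Zf W z t)) W b t -
          η * St (fun A U => Real.exp (U - Real.log L) *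
            (KK A (Zf W z t) * kX A (Zf W z t))) W b t +
          η ^ 2 / 2 * St (fun A U => Real.exp (U - Real.log L) *
            (KK A (Zf W z t) * (kX A (Zf W z t) ^ 2 + kXX A (Zf W z t)))) W b t +
          δ * St (fun A U => Real.exp (U - Real.log L) *
            (KK A (Zf W z t) * (k3 A (Zf W z t) - rate A))) W b t)))| ≤
      C₁ * (2 * z₀.im) / L * (δ ^ 2 + δ * m + m ^ 3) * volume.real (EE z₀ R L) := by
    rw [← Real.norm_eq_abs]
    refine norm_setIntegral_le_of_norm_le_const hEv fun b hb => ?_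
    by_cases hal : b ∈ loewnerDomain W t
    · have h1 := H hW ht hδ (hδ0.trans (min_le_left _ _)) hm hmϰ hosc hal hzt hzϰ
      have h2 : St (fun A U => Real.exp (U - Real.log L) * KK A (Zf W z (t + δ))) W b (t + δ) =
          L⁻¹ * St (fun A U => Real.exp U * KK A (Zf W z (t + δ))) W b (t + δ) := by
        by_cases hal' : b ∈ loewnerDomain W (t + δ)
        · rw [St_of_mem hal', St_of_mem hal', Real.exp_sub, Real.exp_log hL]
          ring
        · rw [St_of_not_mem hal', St_of_not_mem hal', mul_zero]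
      rw [h2, St_of_mem hal, St_of_mem hal, St_of_mem hal, St_of_mem hal, Real.exp_sub,
        Real.exp_log hL]
      have h3 : L⁻¹ * St (fun A U => Real.exp U * KK A (Zf W z (t + δ))) W b (t + δ) -
          (Real.exp (Uf W b t) / L * KK (Zf W b t) (Zf W z t) -
            η * (Real.exp (Uf W b t) / L *
              (KK (Zf W b t) (Zf W z t) * kX (Zf W b t) (Zf W z t))) +
            η ^ 2 / 2 * (Real.exp (Uf W b t) / L * (KK (Zf W b t) (Zf W z t) *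
              (kX (Zf W b t) (Zf W z t) ^ 2 + kXX (Zf W b t) (Zf W z t)))) +
            δ * (Real.exp (Uf W b t) / L * (KK (Zf W b t) (Zf W z t) *
              (k3 (Zf W b t) (Zf W z t) - rate (Zf W b t))))) =
          L⁻¹ * (St (fun A U => Real.exp U * KK A (Zf W z (t + δ))) W b (t + δ) -
            Real.exp (Uf W b t) * KK (Zf W b t) (Zf W z t) *
            (1 - η * kX (Zf W b t) (Zf W z t) + η ^ 2 / 2 *
              (kX (Zf W b t) (Zf W z t) ^ 2 + kXX (Zf W b t) (Zf W z t)) +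
            δ * (k3 (Zf W b t) (Zf W z t) - rate (Zf W b t)))) := by
        ring
      rw [h3, norm_mul, Real.norm_eq_abs, Real.norm_eq_abs, abs_of_pos (inv_pos.2 hL)]
      calc L⁻¹ * _ ≤ L⁻¹ * (C₁ * Real.exp (Uf W b t) * (δ ^ 2 + δ * m + m ^ 3)) :=
            mul_le_mul_of_nonneg_left h1 (inv_pos.2 hL).le
        _ ≤ L⁻¹ * (C₁ * (2 * z₀.im) * (δ ^ 2 + δ * m + m ^ 3)) := by
            refine mul_le_mul_of_nonneg_left (mul_le_mul_of_nonneg_right
              (mul_le_mul_of_nonneg_left (S.exp_Uf_le hb hal) hC₁.le) herr) (inv_pos.2 hL).le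
        _ = C₁ * (2 * z₀.im) / L * (δ ^ 2 + δ * m + m ^ 3) := by
            (clear * - hδ hm hC₁ hL; field_simp)
    · have hal' : b ∉ loewnerDomain W (t + δ) := fun h => hal (dom_mono (by linarith only [hδ]) h)
      rw [St_of_not_mem hal', St_of_not_mem hal, St_of_not_mem hal, St_of_not_mem hal,
        St_of_not_mem hal]
      simp only [mul_zero, sub_zero, add_zero, norm_zero]
      (clear * - hC₁ hz0 hL hδ hm; positivity)
  have hint : (∫ b in EE z₀ R L,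
      (St (fun A U => Real.exp (U - Real.log L) * KK A (Zf W z (t + δ))) W b (t + δ) -
        (St (fun A U => Real.exp (U - Real.log L) * KK A (Zf W z t)) W b t -
          η * St (fun A U => Real.exp (U - Real.log L) *
            (KK A (Zf W z t) * kX A (Zf W z t))) W b t +
          η ^ 2 / 2 * St (fun A U => Real.exp (U - Real.log L) *
            (KK A (Zf W z t) * (kX A (Zf W z t) ^ 2 + kXX A (Zf W z t)))) W b t +
          δ * St (fun A U => Real.exp (U - Real.log L) *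
            (KK A (Zf W z t) * (k3 A (Zf W z t) - rate A))) W b t))) =
      (∫ b in EE z₀ R L,
        St (fun A U => Real.exp (U - Real.log L) * KK A (Zf W z (t + δ))) W b (t + δ)) -
      ((∫ b in EE z₀ R L, St (fun A U => Real.exp (U - Real.log L) * KK A (Zf W z t)) W b t) -
        η * (∫ b in EE z₀ R L, St (fun A U => Real.exp (U - Real.log L) *
            (KK A (Zf W z t) * kX A (Zf W z t))) W b t) +
        η ^ 2 / 2 * (∫ b in EE z₀ R L, St (fun A U => Real.exp (U - Real.log L) *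
            (KK A (Zf W z t) * (kX A (Zf W z t) ^ 2 + kXX A (Zf W z t)))) W b t) +
        δ * (∫ b in EE z₀ R L, St (fun A U => Real.exp (U - Real.log L) *
            (KK A (Zf W z t) * (k3 A (Zf W z t) - rate A))) W b t)) := by
    exact IStep_int_comb i0 j0 j1 j2 j3 _ _ _
  have hfin : IQ L (EE z₀ R L) W (t + δ) (Zf W z (t + δ)) -
        (IQ L (EE z₀ R L) W t (Zf W z t) - η * IX1 L (EE z₀ R L) W t (Zf W z t) +
          η ^ 2 / 2 * IX2 L (EE z₀ R L) W t (Zf W z t) +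
          δ * IX3 L (EE z₀ R L) W t (Zf W z t)) =
      (∫ b in EE z₀ R L,
      (St (fun A U => Real.exp (U - Real.log L) * KK A (Zf W z (t + δ))) W b (t + δ) -
        (St (fun A U => Real.exp (U - Real.log L) * KK A (Zf W z t)) W b t -
          η * St (fun A U => Real.exp (U - Real.log L) *
            (KK A (Zf W z t) * kX A (Zf W z t))) W b t +
          η ^ 2 / 2 * St (fun A U => Real.exp (U - Real.log L) *
            (KK A (Zf W z t) * (kX A (Zf W z t) ^ 2 + kXX A (Zf W z t)))) W b t +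
          δ * St (fun A U => Real.exp (U - Real.log L) *
            (KK A (Zf W z t) * (k3 A (Zf W z t) - rate A))) W b t))) / L ^ 2 := by
    rw [hint]
    simp only [IQ, BI, IX1, IX2, IX3]
    ring
  rw [hfin, abs_div, abs_of_pos (by positivity : (0 : ℝ) < L ^ 2)]
  calc _ ≤ C₁ * (2 * z₀.im) / L * (δ ^ 2 + δ * m + m ^ 3) * volume.real (EE z₀ R L) / L ^ 2 :=
        div_le_div_of_nonneg_right key (by positivity)
    _ = C₁ * (2 * z₀.im) / L * volume.real (EE z₀ R L) / L ^ 2 * (δ ^ 2 + δ * m + m ^ 3) := by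
        ring
    _ ≤ _ := mul_le_mul_of_nonneg_right (by linarith only [hK2]) herr

/-- The step of `ω = 1/(1+I)`. -/
theorem om_step {z₀ : ℂ} {R L ϰ : ℝ} (hL : 0 < L) (hR : 1 ≤ R) (hz : 3 * (R * L) ≤ z₀.im)
    (hϰ : 0 < ϰ) : ∃ C δ₀ : ℝ, 0 < C ∧ 0 < δ₀ ∧
    ∀ {W : ℝ → ℝ} (_ : Continuous W) {z : ℂ} {t δ m : ℝ} (_ : 0 ≤ t) (_ : 0 < δ)
      (_ : δ ≤ δ₀) (_ : 0 ≤ m) (_ : m ≤ ϰ / 16)
      (_ : ∀ u ∈ Icc t (t + δ), |W u - W t| ≤ m)
      (_ : z ∈ loewnerDomain W t) (_ : ϰ ≤ ‖Zf W z t‖),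
    |om L (EE z₀ R L) W (t + δ) (Zf W z (t + δ)) -
        (om L (EE z₀ R L) W t (Zf W z t) +
          (W (t + δ) - W t) *
            (om L (EE z₀ R L) W t (Zf W z t) ^ 2 * IX1 L (EE z₀ R L) W t (Zf W z t)) +
          (W (t + δ) - W t) ^ 2 / 2 *
            (2 * om L (EE z₀ R L) W t (Zf W z t) ^ 3 * IX1 L (EE z₀ R L) W t (Zf W z t) ^ 2 -
              om L (EE z₀ R L) W t (Zf W z t) ^ 2 * IX2 L (EE z₀ R L) W t (Zf W z t)) -
          δ * (om L (EE z₀ R L) W t (Zf W z t) ^ 2 * IX3 L (EE z₀ R L) W t (Zf W z t)))| ≤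
      C * (δ ^ 2 + δ * m + m ^ 3) := by
  obtain ⟨C₀, δ₀, hC₀, hδ₀, hstep⟩ := i_step hL hR hz hϰ
  obtain ⟨C, hC, habs⟩ := omStep_abs hC₀ (q := ϰ / 16) (by (clear * - hϰ; positivity))
  refine ⟨C, min δ₀ 1, hC, lt_min hδ₀ one_pos, ?_⟩
  intro W hW z t δ m ht hδ hδ' hm hmϰ hWm hz' hZ
  obtain ⟨h0, h1, h2, h3⟩ := hstep hW ht hδ (hδ'.trans (min_le_left _ _)) hm hmϰ hWm hz' hZ
  exact habs (omStep_IQ_nonneg _ _ _ _ _) (omStep_IQ_nonneg _ _ _ _ _) hδ
    (hδ'.trans (min_le_right _ _)) hm hmϰ (hWm (t + δ) ⟨by linarith only [hδ], le_refl _⟩) h1 h2 h3 h0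

end Vale.Agent.P164
end

section

/-!
# X-B3. Auxiliary lemmas for the step of the functional
-/

namespace Vale.Agent.P164

open Set Metric Filter Topology MeasureTheory ProbabilityTheory
open scoped NNReal ENNReal

lemma phiStep_quad {x y η δ m B : ℝ} (hδ : 0 ≤ δ) (hη2 : η ^ 2 ≤ m ^ 2)
    (hx : |x| ≤ B) (hy : |y| ≤ B) : |η ^ 2 / 2 * x + δ * y| ≤ B * (m ^ 2 + δ) := by
  have hη20 : 0 ≤ η ^ 2 := sq_nonneg _
  refine (abs_add_le _ _).trans ?_
  rw [abs_mul, abs_mul, abs_of_nonneg hδ, abs_of_nonneg (by (clear * -; positivity) : 0 ≤ η ^ 2 / 2)]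
  have h1 : η ^ 2 / 2 * |x| ≤ m ^ 2 * B :=
    mul_le_mul (by linarith only [hη2, hη20]) hx (abs_nonneg _) (sq_nonneg _)
  have h2 : δ * |y| ≤ δ * B := mul_le_mul_of_nonneg_left hy hδ
  calc _ ≤ m ^ 2 * B + δ * B := add_le_add h1 h2
    _ = _ := by ring

lemma phiStep_lin {x y η δ m B M : ℝ} (hB : 0 ≤ B) (hM : 0 ≤ M) (hδ : 0 ≤ δ)
    (hm : 0 ≤ m) (hmM : m ≤ M) (hη : |η| ≤ m)
    (hx : |x| ≤ B) (hy : |y| ≤ B * (m ^ 2 + δ)) : |η * x + y| ≤ B * (1 + M) * (m + δ) := by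
  refine (abs_add_le _ _).trans ?_
  rw [abs_mul]
  have h1 : |η| * |x| ≤ m * B := mul_le_mul hη hx (abs_nonneg _) hm
  have h2 : m ^ 2 ≤ M * m := by rw [sq]; exact mul_le_mul_of_nonneg_right hmM hm
  have h3 : B * (m ^ 2 + δ) ≤ B * (M * m + δ) :=
    mul_le_mul_of_nonneg_left (by linarith only [h2]) hB
  have h4 : 0 ≤ B * (M * δ) := by (clear * - hB hM hδ; positivity)
  calc |η| * |x| + |y| ≤ m * B + B * (M * m + δ) := add_le_add h1 (hy.trans h3)
    _ ≤ m * B + B * (M * m + δ) + B * (M * δ) := by linarith only [h4]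
    _ = B * (1 + M) * (m + δ) := by ring

lemma phiStep_e {δ m M e : ℝ} (hM : 0 ≤ M) (hδ : 0 ≤ δ) (hm : 0 ≤ m) (hmM : m ≤ M)
    (he : e = δ ^ 2 + δ * m + m ^ 3) :
    (m ^ 2 + δ) * (m + δ) ≤ (1 + M) * e ∧ m * (m ^ 2 + δ) ≤ e := by
  have h1 : m * (δ * m) ≤ M * (δ * m) := mul_le_mul_of_nonneg_right hmM (by positivity)
  have h3 : 0 ≤ M * (δ ^ 2 + m ^ 3) := by (clear * - hM hm; positivity)
  have h4 : 0 ≤ δ ^ 2 := sq_nonneg _
  constructor
  · calc (m ^ 2 + δ) * (m + δ) = δ ^ 2 + δ * m + m ^ 3 + m * (δ * m) := by ring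
      _ ≤ δ ^ 2 + δ * m + m ^ 3 + M * (δ * m) + M * (δ ^ 2 + m ^ 3) := by linarith only [h1, h3]
      _ = (1 + M) * e := by rw [he]; ring
  · calc m * (m ^ 2 + δ) = δ * m + m ^ 3 := by ring
      _ ≤ e := by rw [he]; linarith only [h4]

lemma phiStep_id (f fx fxx g w a1 a2 a3 η δ f' w' : ℝ) :
    f' * w' - (f * w - η * (fx * w - f * a1) +
      η ^ 2 / 2 * (fxx * w - 2 * fx * a1 + f * a2) + δ * (g * w - f * a3)) =
      (f' - (f - η * fx + η ^ 2 / 2 * fxx + δ * g)) * w' +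
      (f + (-η * fx + (η ^ 2 / 2 * fxx + δ * g))) *
        (w' - (w + η * a1 + η ^ 2 / 2 * a2 - δ * a3)) +
      ((η ^ 2 / 2 * fxx + δ * g) * (η * a1 + (η ^ 2 / 2 * a2 + δ * (-a3))) -
        η * fx * (η ^ 2 / 2 * a2 + δ * (-a3))) := by
  ring

/-- Product of two second order expansions. -/
lemma phiStep_prod {f fx fxx g w a1 a2 a3 η δ m B M D C e f' w' : ℝ}
    (hB : 0 ≤ B) (hM : 0 ≤ M) (hC : 0 ≤ C) (hδ : 0 ≤ δ) (hδD : δ ≤ D)
    (hm : 0 ≤ m) (hmM : m ≤ M) (hη : |η| ≤ m) (he : e = δ ^ 2 + δ * m + m ^ 3)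
    (hf : |f| ≤ B) (hfx : |fx| ≤ B) (hfxx : |fxx| ≤ B) (hg : |g| ≤ B)
    (hw' : |w'| ≤ 1) (ha1 : |a1| ≤ B) (ha2 : |a2| ≤ B) (ha3 : |a3| ≤ B)
    (h1 : |f' - (f - η * fx + η ^ 2 / 2 * fxx + δ * g)| ≤ C * e)
    (h2 : |w' - (w + η * a1 + η ^ 2 / 2 * a2 - δ * a3)| ≤ C * e) :
    |f' * w' - (f * w - η * (fx * w - f * a1) +
      η ^ 2 / 2 * (fxx * w - 2 * fx * a1 + f * a2) + δ * (g * w - f * a3))| ≤
      (C + (B + B * (1 + M) * (M + D)) * C + B ^ 2 * (1 + M) ^ 2 + B ^ 2) * e := by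
  have he0 : 0 ≤ e := by rw [he]; (clear * - hδ hm; positivity)
  obtain ⟨hp1, hp2⟩ := phiStep_e hM hδ hm hmM he
  have hη2 : η ^ 2 ≤ m ^ 2 := by
    rw [← sq_abs]; exact pow_le_pow_left₀ (abs_nonneg _) hη 2
  have ha3' : |-a3| ≤ B := by rwa [abs_neg]
  have bP1 := phiStep_quad hδ hη2 hfxx hg
  have bQ1 := phiStep_quad hδ hη2 ha2 ha3'
  have bQ := phiStep_lin hB hM hδ hm hmM hη ha1 bQ1
  have bP := phiStep_lin hB hM hδ hm hmM (by rwa [abs_neg] : |-η| ≤ m) hfx bP1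
  rw [phiStep_id]
  generalize η ^ 2 / 2 * fxx + δ * g = P1 at *
  generalize η ^ 2 / 2 * a2 + δ * (-a3) = Q1 at *
  generalize η * a1 + Q1 = Q at *
  generalize -η * fx + P1 = P at *
  generalize f' - (f - η * fx + η ^ 2 / 2 * fxx + δ * g) = r1 at *
  generalize w' - (w + η * a1 + η ^ 2 / 2 * a2 - δ * a3) = r2 at *
  have hCe : 0 ≤ C * e := mul_nonneg hC he0
  have hBM : 0 ≤ B * (1 + M) := by (clear * - hB hM; positivity)
  have t1 : |r1 * w'| ≤ C * e := by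
    rw [abs_mul]
    calc |r1| * |w'| ≤ C * e * 1 := mul_le_mul h1 hw' (abs_nonneg _) hCe
      _ = C * e := by ring
  have t2 : |(f + P) * r2| ≤ (B + B * (1 + M) * (M + D)) * C * e := by
    rw [abs_mul]
    have h3 : B * (1 + M) * (m + δ) ≤ B * (1 + M) * (M + D) :=
      mul_le_mul_of_nonneg_left (add_le_add hmM hδD) hBM
    have h4 : |f + P| ≤ B + B * (1 + M) * (M + D) :=
      (abs_add_le _ _).trans (add_le_add hf (bP.trans h3))
    calc |f + P| * |r2| ≤ (B + B * (1 + M) * (M + D)) * (C * e) :=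
          mul_le_mul h4 h2 (abs_nonneg _) ((abs_nonneg _).trans h4)
      _ = _ := by ring
  have t3 : |P1 * Q| ≤ B ^ 2 * (1 + M) ^ 2 * e := by
    rw [abs_mul]
    calc |P1| * |Q| ≤ (B * (m ^ 2 + δ)) * (B * (1 + M) * (m + δ)) :=
          mul_le_mul bP1 bQ (abs_nonneg _) (by (clear * - hB hδ; positivity))
      _ = B ^ 2 * (1 + M) * ((m ^ 2 + δ) * (m + δ)) := by ring
      _ ≤ B ^ 2 * (1 + M) * ((1 + M) * e) := mul_le_mul_of_nonneg_left hp1 (by (clear * - hM; positivity))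
      _ = _ := by ring
  have t4 : |η * fx * Q1| ≤ B ^ 2 * e := by
    rw [abs_mul, abs_mul]
    calc |η| * |fx| * |Q1| ≤ m * B * (B * (m ^ 2 + δ)) :=
          mul_le_mul (mul_le_mul hη hfx (abs_nonneg _) hm) bQ1 (abs_nonneg _) (by (clear * - hm hB; positivity))
      _ = B ^ 2 * (m * (m ^ 2 + δ)) := by ring
      _ ≤ B ^ 2 * e := mul_le_mul_of_nonneg_left hp2 (sq_nonneg _)
  calc |r1 * w' + (f + P) * r2 + (P1 * Q - η * fx * Q1)|
      ≤ |r1 * w'| + |(f + P) * r2| + (|P1 * Q| + |η * fx * Q1|) :=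
        (abs_add_le _ _).trans (add_le_add (abs_add_le _ _) (abs_sub _ _))
    _ ≤ C * e + (B + B * (1 + M) * (M + D)) * C * e +
        (B ^ 2 * (1 + M) ^ 2 * e + B ^ 2 * e) := add_le_add (add_le_add t1 t2) (add_le_add t3 t4)
    _ = _ := by ring

lemma SA.phiStep_shift {W : ℝ → ℝ} {t δ R L : ℝ} {z₀ : ℂ} (S : SA W t z₀ R L) (hδ : 0 ≤ δ) :
    SA W (t + δ) z₀ R L :=
  ⟨S.hW, add_nonneg S.ht hδ, S.hL, S.hR, S.hz⟩

/-- The algebraic part of the pointwise expansion. -/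
lemma phiStep_core {κ C₁ C₂ C₃ C₄ B ϰ D η δ m f fx fxx fl a w i1 i2 i3 f' w' : ℝ}
    (h0 : 0 < κ) (hC₁ : 0 < C₁) (hC₂ : 0 < C₂) (hC₃ : 0 < C₃) (hC₄ : 0 < C₄)
    (hB : B = C₄ * (1 + κ / 2) + 2 * C₁ ^ 2 + C₁) (hϰ : 0 < ϰ)
    (hδ : 0 ≤ δ) (hδD : δ ≤ D) (hm : 0 ≤ m) (hmM : m ≤ ϰ) (hη : |η| ≤ m)
    (f1 : |f| ≤ C₄) (f2 : |fx| ≤ C₄) (f3 : |fxx| ≤ C₄) (f4 : |fl| ≤ C₄)
    (ho0 : 0 < w) (ho1 : w ≤ 1) (ho0' : 0 < w') (ho1' : w' ≤ 1)
    (b1 : |i1| ≤ C₁) (b2 : |i2| ≤ C₁) (b3 : |i3| ≤ C₁)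
    (g2 : |w' - (w + η * (w ^ 2 * i1) + η ^ 2 / 2 * (2 * w ^ 3 * i1 ^ 2 - w ^ 2 * i2) -
      δ * (w ^ 2 * i3))| ≤ C₂ * (δ ^ 2 + δ * m + m ^ 3))
    (g3 : |f' - f + η * fx - η ^ 2 / 2 * fxx - δ * (fl - κ / 2 * fxx)| ≤
      C₃ * (δ ^ 2 + δ * m + m ^ 3)) :
    |f' * w' - (f * w - η * (fx * w - f * (w ^ 2 * i1)) +
        η ^ 2 / 2 * (fxx * w - 2 * fx * (w ^ 2 * i1) +
          f * (2 * w ^ 3 * i1 ^ 2 - w ^ 2 * i2)) +
        δ * (w * (fl + a) + f * (κ * w ^ 3 * i1 ^ 2 - w ^ 2 * (κ / 2 * i2 + i3)) -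
          κ * fx * (w ^ 2 * i1) - a * w -
          κ / 2 * (fxx * w - 2 * fx * (w ^ 2 * i1) +
            f * (2 * w ^ 3 * i1 ^ 2 - w ^ 2 * i2))))| ≤
      ((C₂ + C₃) + (B + B * (1 + ϰ) * (ϰ + D)) * (C₂ + C₃) + B ^ 2 * (1 + ϰ) ^ 2 + B ^ 2) *
        (δ ^ 2 + δ * m + m ^ 3) := by
  have he0 : 0 ≤ δ ^ 2 + δ * m + m ^ 3 := by (clear * - hδ hm; positivity)
  have p1 : 0 ≤ C₄ * (κ / 2) := by positivity
  have p2 : 0 ≤ C₁ ^ 2 := by positivity
  have hB' : B = C₄ + C₄ * (κ / 2) + 2 * C₁ ^ 2 + C₁ := by rw [hB]; ring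
  have hBC4 : C₄ ≤ B := by rw [hB']; linarith only [hC₁, p1, p2]
  have hBC1 : C₁ ≤ B := by rw [hB']; linarith only [hC₄, p1, p2]
  have hB0 : 0 ≤ B := hC₁.le.trans hBC1
  have hw2 : w ^ 2 ≤ 1 := pow_le_one₀ ho0.le ho1
  have hw3 : w ^ 3 ≤ 1 := pow_le_one₀ ho0.le ho1
  have k1 : |fl - κ / 2 * fxx| ≤ B := by
    refine (abs_sub _ _).trans ?_
    rw [abs_mul, abs_of_pos (half_pos h0)]
    have : κ / 2 * |fxx| ≤ κ / 2 * C₄ := mul_le_mul_of_nonneg_left f3 (half_pos h0).le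
    rw [hB']; linarith only [hC₁, f4, p2, this]
  have k2 : |w ^ 2 * i1| ≤ B := by
    rw [abs_mul, abs_of_nonneg (sq_nonneg w)]
    have : w ^ 2 * |i1| ≤ 1 * C₁ := mul_le_mul hw2 b1 (abs_nonneg _) zero_le_one
    linarith only [hC₄, hB, p1, p2, this]
  have k3 : |2 * w ^ 3 * i1 ^ 2 - w ^ 2 * i2| ≤ B := by
    refine (abs_sub _ _).trans ?_
    rw [abs_mul, abs_mul, abs_mul, abs_of_nonneg (sq_nonneg w),
      abs_of_nonneg (pow_nonneg ho0.le 3), abs_pow, abs_two]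
    have hi : |i1| ^ 2 ≤ C₁ ^ 2 := pow_le_pow_left₀ (abs_nonneg _) b1 2
    have h5 : 2 * w ^ 3 * |i1| ^ 2 ≤ 2 * 1 * C₁ ^ 2 :=
      mul_le_mul (by linarith only [hw3]) hi (by (clear * -; positivity)) (by norm_num)
    have h6 : w ^ 2 * |i2| ≤ 1 * C₁ := mul_le_mul hw2 b2 (abs_nonneg _) zero_le_one
    rw [hB']; linarith only [hC₄, p1, h5, h6]
  have k4 : |w ^ 2 * i3| ≤ B := by
    rw [abs_mul, abs_of_nonneg (sq_nonneg w)]
    have : w ^ 2 * |i3| ≤ 1 * C₁ := mul_le_mul hw2 b3 (abs_nonneg _) zero_le_one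
    linarith only [hC₄, hB, p1, p2, this]
  have k5 : |f' - (f - η * fx + η ^ 2 / 2 * fxx + δ * (fl - κ / 2 * fxx))| ≤
      (C₂ + C₃) * (δ ^ 2 + δ * m + m ^ 3) := by
    have e1 : f' - (f - η * fx + η ^ 2 / 2 * fxx + δ * (fl - κ / 2 * fxx)) =
      f' - f + η * fx - η ^ 2 / 2 * fxx - δ * (fl - κ / 2 * fxx) := by ring
    rw [e1]
    exact g3.trans (mul_le_mul_of_nonneg_right (by linarith only [hC₂]) he0)
  have k6 := g2.trans (mul_le_mul_of_nonneg_right (by linarith only [hC₃] : C₂ ≤ C₂ + C₃) he0)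
  have key := phiStep_prod (w := w) hB0 hϰ.le (by positivity : 0 ≤ C₂ + C₃) hδ hδD hm hmM hη rfl
    (f1.trans hBC4) (f2.trans hBC4) (f3.trans hBC4) k1
    (by rw [abs_of_pos ho0']; exact ho1') k2 k3 k4 k5 k6
  refine le_trans (le_of_eq ?_) key
  congr 1
  ring

/-- Pointwise expansion of `f ω`. -/
theorem phiStep_pt {κ c ε : ℝ} (h0 : 0 < κ) (h8 : κ < 8) {z₀ : ℂ} {R L ϰ : ℝ}
    (hL : 0 < L) (hR : 1 ≤ R) (hz : 3 * (R * L) ≤ z₀.im) (hϰ : 0 < ϰ) :
    ∃ C δ₀ : ℝ, 0 < C ∧ 0 < δ₀ ∧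
    ∀ {W : ℝ → ℝ} {t δ m : ℝ} {z : ℂ} (_ : SA W t z₀ R L) (_ : z ∈ loewnerDomain W t)
      (_ : ϰ ≤ ‖Zf W z t‖)
      (_ : 0 < δ) (_ : δ ≤ δ₀) (_ : 0 ≤ m) (_ : m ≤ ϰ / 16)
      (_ : ∀ u ∈ Icc t (t + δ), |W u - W t| ≤ m),
    z ∈ loewnerDomain W (t + δ) ∧ ϰ / 2 ≤ ‖Zf W z (t + δ)‖ ∧
    |fX κ c L ε (Zf W z (t + δ)) (Uf W z (t + δ)) *
        om L (EE z₀ R L) W (t + δ) (Zf W z (t + δ)) -
        (fX κ c L ε (Zf W z t) (Uf W z t) * om L (EE z₀ R L) W t (Zf W z t) -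
          (W (t + δ) - W t) * derX κ c L ε (EE z₀ R L) W t (Zf W z t) (Uf W z t) +
          (W (t + δ) - W t) ^ 2 / 2 * der2X κ c L ε (EE z₀ R L) W t (Zf W z t) (Uf W z t) +
          δ * (genX κ c L ε (EE z₀ R L) W t (Zf W z t) (Uf W z t) -
            aX κ c L ε (Zf W z t) (Uf W z t) * om L (EE z₀ R L) W t (Zf W z t) -
            κ / 2 * der2X κ c L ε (EE z₀ R L) W t (Zf W z t) (Uf W z t)))| ≤
      C * (δ ^ 2 + δ * m + m ^ 3) := by
  obtain ⟨C₁, d₁, hC₁, hd₁, H₁⟩ := i_step hL hR hz hϰ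
  obtain ⟨C₂, d₂, hC₂, hd₂, H₂⟩ := om_step hL hR hz hϰ
  obtain ⟨C₃, d₃, hC₃, hd₃, H₃⟩ := field_pt_step κ (c := cX κ c L ε) (c' := cX' κ c L ε)
    (p := pv κ) (fun i => pv_nonneg h0 h8 i) (fun i => bandX h0 h8 i) hϰ
  obtain ⟨C₄, hC₄, H₄⟩ := field_bounds κ (c := cX κ c L ε) (c' := cX' κ c L ε)
    (p := pv κ) (fun i => pv_nonneg h0 h8 i) (fun i => bandX (ε := ε) h0 h8 i) hϰ
  obtain ⟨C₅, d₅, hC₅, hd₅, H₅⟩ := one_step hϰ
  obtain ⟨B, hB⟩ : ∃ B, B = C₄ * (1 + κ / 2) + 2 * C₁ ^ 2 + C₁ := ⟨_, rfl⟩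
  have hB0 : 0 < B := by rw [hB]; positivity
  refine ⟨(C₂ + C₃) + (B + B * (1 + ϰ) * (ϰ + d₁)) * (C₂ + C₃) + B ^ 2 * (1 + ϰ) ^ 2 + B ^ 2,
    min (min d₁ d₂) (min d₃ d₅), by (clear * - hC₂ hC₃ hB0 hϰ hd₁; positivity), by (clear * - hd₁ hd₂ hd₃ hd₅; positivity), ?_⟩
  intro W t δ m z S hzt hZ hδ hδd hm hmϰ hosc
  have e1 : δ ≤ d₁ := hδd.trans ((min_le_left _ _).trans (min_le_left _ _))
  have e2 : δ ≤ d₂ := hδd.trans ((min_le_left _ _).trans (min_le_right _ _))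
  have e3 : δ ≤ d₃ := hδd.trans ((min_le_right _ _).trans (min_le_left _ _))
  have e5 : δ ≤ d₅ := hδd.trans ((min_le_right _ _).trans (min_le_right _ _))
  have hm8 : m ≤ ϰ / 8 := by linarith only [hϰ, hmϰ]
  have hlast : t + δ ∈ Icc t (t + δ) := ⟨by linarith only [hδ], le_rfl⟩
  obtain ⟨hzt', hst⟩ := H₅ S.hW S.ht hzt hZ hδ.le e5 hm8 hosc
  have hZ' := (hst (t + δ) hlast).1
  refine ⟨hzt', hZ', ?_⟩
  have hη : |W (t + δ) - W t| ≤ m := hosc _ hlast
  obtain ⟨-, b1, b2, b3⟩ := H₁ S.hW S.ht hδ e1 hm hmϰ hosc hzt hZ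
  have g2 := H₂ S.hW S.ht hδ e2 hm hmϰ hosc hzt hZ
  have g3 := H₃ S.hW S.ht (z := z) (fun _ _ => hZ) hδ.le e3 hm8 hosc
  rw [St_of_mem hzt', St_of_mem hzt, St_of_mem hzt, St_of_mem hzt, St_of_mem hzt] at g3
  have hZim : 0 < (Zf W z t).im := Zf_im_pos S.ht hzt
  have hZ'im : 0 < (Zf W z (t + δ)).im := Zf_im_pos (add_nonneg S.ht hδ.le) hzt'
  obtain ⟨f1, f2'⟩ := H₄ (Zf W z t) (Uf W z t) hZim
  obtain ⟨f2, f3, f4⟩ := f2' fun _ => hZ
  have S' := S.phiStep_shift hδ.le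
  unfold genX derX der2X fX fDX fDXX fXL aX
  exact phiStep_core h0 hC₁ hC₂ hC₃ hC₄ hB hϰ hδ.le e1 hm (by linarith only [hϰ, hmϰ]) hη f1 f2 f3 f4
    (om_pos S hZim) (om_le_one S hZim) (om_pos S' hZ'im) (om_le_one S' hZ'im) b1 b2 b3 g2 g3

lemma phiStep_integral {μ : Measure ℂ} {f0 f1 f2 f3 f4 f5 : ℂ → ℝ} (η q δ k : ℝ)
    (h0 : Integrable f0 μ) (h1 : Integrable f1 μ) (h2 : Integrable f2 μ) (h3 : Integrable f3 μ)
    (h4 : Integrable f4 μ) (h5 : Integrable f5 μ) :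
    ∫ z, (f0 z - (f1 z - η * f2 z + q * f3 z + δ * (f4 z - f5 z - k * f3 z))) ∂μ =
      (∫ z, f0 z ∂μ) - ((∫ z, f1 z ∂μ) - η * (∫ z, f2 z ∂μ) + q * (∫ z, f3 z ∂μ) +
        δ * ((∫ z, f4 z ∂μ) - (∫ z, f5 z ∂μ) - k * (∫ z, f3 z ∂μ))) := by
  have a1 : Integrable (fun z => η * f2 z) μ := h2.const_mul _
  have a2 : Integrable (fun z => q * f3 z) μ := h3.const_mul _
  have a3 : Integrable (fun z => k * f3 z) μ := h3.const_mul _
  have a4 : Integrable (fun z => f4 z - f5 z) μ := h4.sub h5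
  have a5 : Integrable (fun z => f4 z - f5 z - k * f3 z) μ := a4.sub a3
  have a6 : Integrable (fun z => δ * (f4 z - f5 z - k * f3 z)) μ := a5.const_mul _
  have a7 : Integrable (fun z => f1 z - η * f2 z) μ := h1.sub a1
  have a8 : Integrable (fun z => f1 z - η * f2 z + q * f3 z) μ := a7.add a2
  have a9 : Integrable (fun z => f1 z - η * f2 z + q * f3 z +
    δ * (f4 z - f5 z - k * f3 z)) μ := a8.add a6
  rw [integral_sub h0 a9, integral_add a8 a6, integral_add a7 a2, integral_sub h1 a1,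
    integral_const_mul, integral_const_mul, integral_const_mul, integral_sub a4 a3,
    integral_sub h4 h5, integral_const_mul]

lemma phiStep_timeint_meas {W : ℝ → ℝ} (hW : Continuous W) {G : ℂ → ℝ → ℝ}
    (hG : Measurable (Function.uncurry G)) {s t : ℝ} (hs : 0 ≤ s) (hst : s ≤ t) :
    Measurable (fun z => ∫ u in s..t, St G W z u) := by
  have h1 : (fun z => ∫ u in s..t, St G W z u)
      = fun z => ∫ u in Ioc s t, if 0 ≤ u then St G W z u else 0 := by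
    funext z
    rw [intervalIntegral.integral_of_le hst]
    refine setIntegral_congr_fun measurableSet_Ioc fun u hu => ?_
    exact (if_pos (hs.trans hu.1.le)).symm
  rw [h1]
  have h2 : StronglyMeasurable (Function.uncurry fun (z : ℂ) (u : ℝ) =>
      if 0 ≤ u then St G W z u else 0) :=
    ((St_measurable hW hG).comp measurable_swap).stronglyMeasurable
  exact h2.integral_prod_right.measurable

lemma phiStep_path_int {W : ℝ → ℝ} (hW : Continuous W) {G : ℂ → ℝ → ℝ}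
    (hG : Measurable (Function.uncurry G)) {z : ℂ} {s t C : ℝ} (hs : 0 ≤ s) (hst : s ≤ t)
    (hC : ∀ u ∈ Icc s t, |St G W z u| ≤ C) :
    IntervalIntegrable (fun u => St G W z u) volume s t := by
  rw [intervalIntegrable_iff_integrableOn_Ioc_of_le hst]
  have h2 : AEStronglyMeasurable (fun u => St G W z u) (volume.restrict (Ioc s t)) := by
    have h3 : Measurable fun u : ℝ => if 0 ≤ u then St G W z u else 0 :=
      (St_measurable hW hG).comp (measurable_id.prodMk measurable_const)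
    refine h3.aestronglyMeasurable.congr ?_
    filter_upwards [ae_restrict_mem measurableSet_Ioc] with u hu
    rw [if_pos (hs.trans hu.1.le)]
  refine IntegrableOn.of_bound (by simp only [Real.volume_Ioc, ENNReal.ofReal_lt_top]) h2 C ?_
  filter_upwards [ae_restrict_mem measurableSet_Ioc] with u hu
  exact hC u ⟨hu.1.le, hu.2⟩

/-- Time integral versus frozen value. -/
lemma phiStep_path_sub {W : ℝ → ℝ} (hW : Continuous W) {G : ℂ → ℝ → ℝ}
    (hG : Measurable (Function.uncurry G)) {z : ℂ} {t δ C m : ℝ} (ht : 0 ≤ t) (hδ : 0 ≤ δ)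
    (hC : ∀ u ∈ Icc t (t + δ), |St G W z u| ≤ C ∧ |St G W z u - St G W z t| ≤ C * (δ + m)) :
    |(∫ u in t..(t + δ), St G W z u) - δ * St G W z t| ≤ C * (δ + m) * δ := by
  have hle : t ≤ t + δ := by linarith only [hδ]
  have hI := phiStep_path_int hW hG ht hle fun u hu => (hC u hu).1
  have hid : (∫ u in t..(t + δ), St G W z u) - δ * St G W z t =
      ∫ u in t..(t + δ), (St G W z u - St G W z t) := by
    rw [intervalIntegral.integral_sub hI intervalIntegrable_const,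
      intervalIntegral.integral_const, add_sub_cancel_left, smul_eq_mul]
  rw [hid]
  have hb : ∀ u ∈ uIoc t (t + δ), ‖St G W z u - St G W z t‖ ≤ C * (δ + m) := by
    intro u hu
    rw [uIoc_of_le hle] at hu
    exact (hC u ⟨hu.1.le, hu.2⟩).2
  have := intervalIntegral.norm_integral_le_of_norm_le_const hb
  rwa [add_sub_cancel_left, abs_of_nonneg hδ, Real.norm_eq_abs] at this

lemma phiStep_vol (z₀ : ℂ) (R L : ℝ) : volume (DD z₀ R L) ≠ ⊤ := measure_ball_lt_top.ne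

lemma Adm.phiStep_vol {W : ℝ → ℝ} {t R L ϰ : ℝ} {z₀ : ℂ} {𝒬 : Set ℂ}
    (A : Adm W t z₀ R L ϰ 𝒬) :
    volume 𝒬 ≠ ⊤ ∧ (volume 𝒬).toReal ≤ (volume (DD z₀ R L)).toReal := by
  have h1 := measure_mono (μ := volume) A.sub
  have h2 := Vale.Agent.P164.phiStep_vol z₀ R L
  exact ⟨ne_top_of_le_ne_top h2 h1, ENNReal.toReal_mono h2 h1⟩

/-- The reward of one step. -/
lemma phiStep_reward {κ c ε : ℝ} (h0 : 0 < κ) (h8 : κ < 8) (hc : 0 ≤ c) {z₀ : ℂ} {R L ϰ : ℝ}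
    (hL : 0 < L) (hR : 1 ≤ R) (hϰ : 0 < ϰ) :
    ∃ C δ₀ : ℝ, 0 < C ∧ 0 < δ₀ ∧
    ∀ {W : ℝ → ℝ} {t δ m : ℝ} {𝒬 : Set ℂ} (_ : SA W t z₀ R L) (_ : Adm W t z₀ R L ϰ 𝒬)
      (_ : 0 < δ) (_ : δ ≤ δ₀) (_ : 0 ≤ m) (_ : m ≤ ϰ / 16)
      (_ : ∀ u ∈ Icc t (t + δ), |W u - W t| ≤ m),
    |(∫ z in 𝒬, om L (EE z₀ R L) W t (Zf W z t) * ∫ s in t..(t + δ), St (aX κ c L ε) W z s) -
      δ * ∫ z in 𝒬, St (fun Z U => aX κ c L ε Z U * om L (EE z₀ R L) W t Z) W z t| ≤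
      C * (δ ^ 2 + δ * m) := by
  obtain ⟨C₁, d₁, hC₁, hd₁, H₁⟩ := reward_pt_step (d := dX κ c L ε) (q := qv κ)
    (fun i => qv_nonneg h0 h8 i) (fun i => bandRewX h0 h8 i) hϰ
  obtain ⟨C₂, hC₂, H₂⟩ := gen_bounds h0 h8 hc hL hR hϰ z₀ ε
  obtain ⟨V, hV⟩ : ∃ V, V = (volume (DD z₀ R L)).toReal := ⟨_, rfl⟩
  have hV0 : 0 ≤ V := by rw [hV]; exact ENNReal.toReal_nonneg
  refine ⟨C₁ * V + 1, d₁, by (clear * - hC₁ hV0; positivity), hd₁, ?_⟩
  intro W t δ m 𝒬 S A hδ hδd hm hmϰ hosc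
  have hm8 : m ≤ ϰ / 8 := by linarith only [hϰ, hmϰ]
  obtain ⟨hQv, hQV⟩ := A.phiStep_vol
  rw [← hV] at hQV
  have mA : Measurable (Function.uncurry (aX κ c L ε)) :=
    measurable_EA fun i => (bandRewX (c := c) (L := L) (ε := ε) h0 h8 i).continuous.measurable
  have mAo := (gen_meas (c := c) (L := L) (ε := ε) h0 h8 S.hW S.ht (EE z₀ R L)).2.1
  have mo : Measurable (Function.uncurry (fun (Z : ℂ) (_ : ℝ) => om L (EE z₀ R L) W t Z)) :=
    (measurable_om S.hW S.ht (EE z₀ R L)).comp measurable_fst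
  have hpt : ∀ z ∈ 𝒬, ∀ u ∈ Icc t (t + δ), |St (aX κ c L ε) W z u| ≤ C₁ ∧
      |St (aX κ c L ε) W z u - St (aX κ c L ε) W z t| ≤ C₁ * (δ + m) := fun z hz u hu =>
    H₁ S.hW S.ht (fun _ _ => A.far z hz) hδ.le hδd hm8 hosc u hu
  have hsub : ∀ z ∈ 𝒬, |(∫ s in t..(t + δ), St (aX κ c L ε) W z s) -
      δ * St (aX κ c L ε) W z t| ≤ C₁ * (δ + m) * δ := fun z hz =>
    phiStep_path_sub S.hW mA S.ht hδ.le (hpt z hz)
  have htt : t ∈ Icc t (t + δ) := ⟨le_rfl, by linarith only [hδ]⟩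
  have ho : ∀ z ∈ 𝒬, |om L (EE z₀ R L) W t (Zf W z t)| ≤ 1 := fun z hz => by
    have him := Zf_im_pos S.ht (A.alive z hz)
    rw [abs_of_pos (om_pos S him)]
    exact om_le_one S him
  have hI1 : IntegrableOn (fun z => St (fun Z U => aX κ c L ε Z U *
      om L (EE z₀ R L) W t Z) W z t) 𝒬 := by
    refine St_integrableOn S.hW S.ht mAo A.meas hQv (C := C₁) fun z hz => ?_
    rw [St_of_mem (A.alive z hz), abs_mul]
    have h3 := (hpt z hz t htt).1
    rw [St_of_mem (A.alive z hz)] at h3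
    calc _ ≤ C₁ * 1 := mul_le_mul h3 (ho z hz) (abs_nonneg _) hC₁.le
      _ = C₁ := mul_one _
  have hmeas : AEStronglyMeasurable (fun z => om L (EE z₀ R L) W t (Zf W z t) *
      ∫ s in t..(t + δ), St (aX κ c L ε) W z s) (volume.restrict 𝒬) := by
    have h3 : Measurable (fun z => St (fun Z _ => om L (EE z₀ R L) W t Z) W z t *
        ∫ s in t..(t + δ), St (aX κ c L ε) W z s) :=
      (St_measurable_z S.hW mo S.ht).mul
        (phiStep_timeint_meas S.hW mA S.ht (by linarith only [hδ] : t ≤ t + δ))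
    refine h3.aestronglyMeasurable.congr ?_
    filter_upwards [ae_restrict_mem A.meas] with z hz
    rw [St_of_mem (A.alive z hz)]
  have hI2 : IntegrableOn (fun z => om L (EE z₀ R L) W t (Zf W z t) *
      ∫ s in t..(t + δ), St (aX κ c L ε) W z s) 𝒬 := by
    refine IntegrableOn.of_bound (lt_top_iff_ne_top.2 hQv) hmeas (C₁ * (δ + m) * δ + δ * C₁) ?_
    filter_upwards [ae_restrict_mem A.meas] with z hz
    rw [Real.norm_eq_abs, abs_mul]
    have h3 := hsub z hz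
    have h4 := (hpt z hz t htt).1
    have h5 : |∫ s in t..(t + δ), St (aX κ c L ε) W z s| ≤ C₁ * (δ + m) * δ + δ * C₁ := by
      have e1 : (∫ s in t..(t + δ), St (aX κ c L ε) W z s) =
        ((∫ s in t..(t + δ), St (aX κ c L ε) W z s) - δ * St (aX κ c L ε) W z t) +
          δ * St (aX κ c L ε) W z t := by ring
      rw [e1]
      refine (abs_add_le _ _).trans (add_le_add h3 ?_)
      rw [abs_mul, abs_of_pos hδ]
      exact mul_le_mul_of_nonneg_left h4 hδ.le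
    calc _ ≤ 1 * (C₁ * (δ + m) * δ + δ * C₁) :=
          mul_le_mul (ho z hz) h5 (abs_nonneg _) zero_le_one
      _ = _ := one_mul _
  have hI3 : IntegrableOn (fun z => δ * St (fun Z U => aX κ c L ε Z U *
      om L (EE z₀ R L) W t Z) W z t) 𝒬 := hI1.const_mul _
  rw [← integral_const_mul, ← integral_sub hI2 hI3]
  refine (abs_setIntegral_le hQv (C := C₁ * (δ + m) * δ) fun z hz => ?_).trans ?_
  · rw [St_of_mem (A.alive z hz)]
    have h3 := hsub z hz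
    rw [St_of_mem (A.alive z hz)] at h3
    have e1 : om L (EE z₀ R L) W t (Zf W z t) * (∫ s in t..(t + δ), St (aX κ c L ε) W z s) -
        δ * (aX κ c L ε (Zf W z t) (Uf W z t) * om L (EE z₀ R L) W t (Zf W z t)) =
      om L (EE z₀ R L) W t (Zf W z t) * ((∫ s in t..(t + δ), St (aX κ c L ε) W z s) -
        δ * aX κ c L ε (Zf W z t) (Uf W z t)) := by ring
    rw [e1, abs_mul]
    calc _ ≤ 1 * (C₁ * (δ + m) * δ) := mul_le_mul (ho z hz) h3 (abs_nonneg _) zero_le_one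
      _ = _ := one_mul _
  · calc C₁ * (δ + m) * δ * (volume 𝒬).toReal ≤ C₁ * (δ + m) * δ * V :=
          mul_le_mul_of_nonneg_left hQV (by (clear * - hC₁ hδ hm; positivity))
      _ = C₁ * V * (δ ^ 2 + δ * m) := by ring
      _ ≤ (C₁ * V + 1) * (δ ^ 2 + δ * m) :=
          mul_le_mul_of_nonneg_right (by linarith only []) (by (clear * - hδ hm; positivity))


/-- Bounds of the integrals of state functions over `𝒬`. -/
lemma phiStep_BI_le {W : ℝ → ℝ} {t L C V : ℝ} {𝒬 : Set ℂ} {G : ℂ → ℝ → ℝ}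
    (hQv : volume 𝒬 ≠ ⊤) (hQV : (volume 𝒬).toReal ≤ V) (hC0 : 0 ≤ C)
    (hC : ∀ z ∈ 𝒬, |St G W z t| ≤ C) : |BI L 𝒬 W t G| ≤ C * V / L ^ 2 := by
  unfold BI
  rw [abs_div, abs_of_nonneg (sq_nonneg L)]
  exact div_le_div_of_nonneg_right ((abs_setIntegral_le hQv hC).trans
    (mul_le_mul_of_nonneg_left hQV hC0)) (sq_nonneg L)

theorem phiStep_main {κ c ε : ℝ} (h0 : 0 < κ) (h8 : κ < 8) (hc : 0 ≤ c) {z₀ : ℂ} {R L ϰ : ℝ}
    (hL : 0 < L) (hR : 1 ≤ R) (hz : 3 * (R * L) ≤ z₀.im) (hϰ : 0 < ϰ) :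
    ∃ C δ₀ : ℝ, 0 < C ∧ 0 < δ₀ ∧
    ∀ {W : ℝ → ℝ} {t δ m : ℝ} {𝒬 : Set ℂ} (_ : SA W t z₀ R L) (_ : Adm W t z₀ R L ϰ 𝒬)
      (_ : 0 < δ) (_ : δ ≤ δ₀) (_ : 0 ≤ m) (_ : m ≤ ϰ / 16)
      (_ : ∀ u ∈ Icc t (t + δ), |W u - W t| ≤ m),
    |BI L 𝒬 W (t + δ) (fun Z U => fX κ c L ε Z U * om L (EE z₀ R L) W (t + δ) Z) +
        RwX κ c L ε (EE z₀ R L) 𝒬 W t δ -
        (BI L 𝒬 W t (fun Z U => fX κ c L ε Z U * om L (EE z₀ R L) W t Z) -
          (W (t + δ) - W t) * BI L 𝒬 W t (derX κ c L ε (EE z₀ R L) W t) +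
          (W (t + δ) - W t) ^ 2 / 2 * BI L 𝒬 W t (der2X κ c L ε (EE z₀ R L) W t) +
          δ * (BI L 𝒬 W t (genX κ c L ε (EE z₀ R L) W t) -
            κ / 2 * BI L 𝒬 W t (der2X κ c L ε (EE z₀ R L) W t)))| ≤
      C * (δ ^ 2 + δ * m + m ^ 3) ∧
    |BI L 𝒬 W t (derX κ c L ε (EE z₀ R L) W t)| ≤ C ∧
    |BI L 𝒬 W t (der2X κ c L ε (EE z₀ R L) W t)| ≤ C ∧
    |BI L 𝒬 W t (genX κ c L ε (EE z₀ R L) W t)| ≤ C := by
  obtain ⟨C₁, d₁, hC₁, hd₁, H₁⟩ := phiStep_pt (κ := κ) (c := c) (ε := ε) h0 h8 hL hR hz hϰ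
  obtain ⟨C₂, hC₂, H₂⟩ := gen_bounds h0 h8 hc hL hR hϰ z₀ ε
  obtain ⟨C₃, hC₃, H₃⟩ := gen_bounds h0 h8 hc hL hR (half_pos hϰ) z₀ ε
  obtain ⟨C₄, d₄, hC₄, hd₄, H₄⟩ := phiStep_reward (c := c) (ε := ε) h0 h8 hc (z₀ := z₀) hL hR hϰ
  obtain ⟨V, hV⟩ : ∃ V, V = (volume (DD z₀ R L)).toReal := ⟨_, rfl⟩
  have hV0 : 0 ≤ V := by rw [hV]; exact ENNReal.toReal_nonneg
  refine ⟨(C₁ * V + C₂ * V + C₄) / L ^ 2, min d₁ d₄, by (clear * - hC₁ hV0 hC₂ hC₄ hL; positivity), lt_min hd₁ hd₄, ?_⟩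
  intro W t δ m 𝒬 S A hδ hδd hm hmϰ hosc
  have e1 : δ ≤ d₁ := hδd.trans (min_le_left _ _)
  have e4 : δ ≤ d₄ := hδd.trans (min_le_right _ _)
  obtain ⟨hQv, hQV⟩ := A.phiStep_vol
  rw [← hV] at hQV
  have hL2 : 0 < L ^ 2 := by positivity
  have hpt := fun z (hz : z ∈ 𝒬) => H₁ S (A.alive z hz) (A.far z hz) hδ e1 hm hmϰ hosc
  have hb := fun z (hz : z ∈ 𝒬) => H₂ S (Zf_im_pos S.ht (A.alive z hz)) (A.far z hz) (Uf W z t)
  have S' := S.phiStep_shift hδ.le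
  have hb' := fun z (hz : z ∈ 𝒬) => H₃ S' (Zf_im_pos S'.ht (hpt z hz).1) (hpt z hz).2.1
    (Uf W z (t + δ))
  obtain ⟨mf, ma, -, mg, md, md2⟩ :=
    gen_meas (c := c) (L := L) (ε := ε) h0 h8 S.hW S.ht (EE z₀ R L)
  obtain ⟨mf', -⟩ := gen_meas (c := c) (L := L) (ε := ε) h0 h8 S'.hW S'.ht (EE z₀ R L)
  have hle : C₂ * V / L ^ 2 ≤ (C₁ * V + C₂ * V + C₄) / L ^ 2 :=
    div_le_div_of_nonneg_right (by nlinarith only [hC₄, hC₁, hV0]) hL2.le
  have bf : ∀ z ∈ 𝒬, |St (fun Z U => fX κ c L ε Z U * om L (EE z₀ R L) W t Z) W z t| ≤ C₂ :=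
    fun z hz => by rw [St_of_mem (A.alive z hz)]; exact (hb z hz).1
  have ba : ∀ z ∈ 𝒬, |St (fun Z U => aX κ c L ε Z U * om L (EE z₀ R L) W t Z) W z t| ≤ C₂ :=
    fun z hz => by rw [St_of_mem (A.alive z hz)]; exact (hb z hz).2.1
  have bg : ∀ z ∈ 𝒬, |St (genX κ c L ε (EE z₀ R L) W t) W z t| ≤ C₂ :=
    fun z hz => by rw [St_of_mem (A.alive z hz)]; exact (hb z hz).2.2.2.1
  have bd : ∀ z ∈ 𝒬, |St (derX κ c L ε (EE z₀ R L) W t) W z t| ≤ C₂ :=
    fun z hz => by rw [St_of_mem (A.alive z hz)]; exact (hb z hz).2.2.2.2.1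
  have bd2 : ∀ z ∈ 𝒬, |St (der2X κ c L ε (EE z₀ R L) W t) W z t| ≤ C₂ :=
    fun z hz => by rw [St_of_mem (A.alive z hz)]; exact (hb z hz).2.2.2.2.2
  have bf' : ∀ z ∈ 𝒬, |St (fun Z U => fX κ c L ε Z U * om L (EE z₀ R L) W (t + δ) Z)
      W z (t + δ)| ≤ C₃ :=
    fun z hz => by rw [St_of_mem (hpt z hz).1]; exact (hb' z hz).1
  refine ⟨?_, (phiStep_BI_le hQv hQV hC₂.le bd).trans hle,
    (phiStep_BI_le hQv hQV hC₂.le bd2).trans hle, (phiStep_BI_le hQv hQV hC₂.le bg).trans hle⟩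
  have if' := St_integrableOn S'.hW S'.ht mf' A.meas hQv bf'
  have if0 := St_integrableOn S.hW S.ht mf A.meas hQv bf
  have ia := St_integrableOn S.hW S.ht ma A.meas hQv ba
  have ig := St_integrableOn S.hW S.ht mg A.meas hQv bg
  have id1 := St_integrableOn S.hW S.ht md A.meas hQv bd
  have id2 := St_integrableOn S.hW S.ht md2 A.meas hQv bd2
  have hlin := phiStep_integral (W (t + δ) - W t) ((W (t + δ) - W t) ^ 2 / 2) δ (κ / 2)
    if' if0 id1 id2 ig ia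
  have hrew := H₄ S A hδ e4 hm hmϰ hosc
  have hint : |∫ z in 𝒬, (St (fun Z U => fX κ c L ε Z U * om L (EE z₀ R L) W (t + δ) Z)
      W z (t + δ) - (St (fun Z U => fX κ c L ε Z U * om L (EE z₀ R L) W t Z) W z t -
        (W (t + δ) - W t) * St (derX κ c L ε (EE z₀ R L) W t) W z t +
        (W (t + δ) - W t) ^ 2 / 2 * St (der2X κ c L ε (EE z₀ R L) W t) W z t +
        δ * (St (genX κ c L ε (EE z₀ R L) W t) W z t -
          St (fun Z U => aX κ c L ε Z U * om L (EE z₀ R L) W t Z) W z t -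
          κ / 2 * St (der2X κ c L ε (EE z₀ R L) W t) W z t)))| ≤
      C₁ * (δ ^ 2 + δ * m + m ^ 3) * V := by
    refine (abs_setIntegral_le hQv (C := C₁ * (δ ^ 2 + δ * m + m ^ 3)) fun z hz => ?_).trans
      (mul_le_mul_of_nonneg_left hQV (by (clear * - hC₁ hδ hm; positivity)))
    rw [St_of_mem (hpt z hz).1, St_of_mem (A.alive z hz), St_of_mem (A.alive z hz),
      St_of_mem (A.alive z hz), St_of_mem (A.alive z hz), St_of_mem (A.alive z hz)]
    exact (hpt z hz).2.2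
  rw [hlin] at hint
  unfold BI RwX
  generalize (∫ z in 𝒬, St (fun Z U => fX κ c L ε Z U * om L (EE z₀ R L) W (t + δ) Z)
    W z (t + δ)) = I0 at *
  generalize (∫ z in 𝒬, St (fun Z U => fX κ c L ε Z U * om L (EE z₀ R L) W t Z) W z t)
    = I1 at *
  generalize (∫ z in 𝒬, St (derX κ c L ε (EE z₀ R L) W t) W z t) = I2 at *
  generalize (∫ z in 𝒬, St (der2X κ c L ε (EE z₀ R L) W t) W z t) = I3 at *
  generalize (∫ z in 𝒬, St (genX κ c L ε (EE z₀ R L) W t) W z t) = I4 at *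
  generalize (∫ z in 𝒬, St (fun Z U => aX κ c L ε Z U * om L (EE z₀ R L) W t Z) W z t)
    = I5 at *
  generalize (∫ z in 𝒬, om L (EE z₀ R L) W t (Zf W z t) *
    ∫ s in t..(t + δ), St (aX κ c L ε) W z s) = I6 at *
  generalize W (t + δ) - W t = η at *
  have e2 : I0 / L ^ 2 + I6 / L ^ 2 - (I1 / L ^ 2 - η * (I2 / L ^ 2) +
      η ^ 2 / 2 * (I3 / L ^ 2) + δ * (I4 / L ^ 2 - κ / 2 * (I3 / L ^ 2))) =
      ((I0 - (I1 - η * I2 + η ^ 2 / 2 * I3 + δ * (I4 - I5 - κ / 2 * I3))) +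
        (I6 - δ * I5)) / L ^ 2 := by ring
  rw [e2, abs_div, abs_of_pos hL2, div_le_iff₀ hL2]
  have e3 : (C₁ * V + C₂ * V + C₄) / L ^ 2 * (δ ^ 2 + δ * m + m ^ 3) * L ^ 2 =
      (C₁ * V + C₂ * V + C₄) * (δ ^ 2 + δ * m + m ^ 3) := by
    (clear * - hL hδ hm hV0 hC₁ hC₂ hC₄; field_simp)
  rw [e3]
  refine (abs_add_le _ _).trans ((add_le_add hint hrew).trans ?_)
  have p1 : 0 ≤ C₂ * V * (δ ^ 2 + δ * m + m ^ 3) := by (clear * - hC₂ hV0 hδ hm; positivity)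
  have p2 : 0 ≤ C₄ * m ^ 3 := by (clear * - hC₄ hm; positivity)
  nlinarith only [p1, p2]

end Vale.Agent.P164
end

section

/-!
# X-B4 (auxiliary). One step of the budget
-/

namespace Vale.Agent.P164

open Set Metric Filter Topology MeasureTheory ProbabilityTheory
open scoped NNReal ENNReal

/-- Bounds for `u - u'` over a step for a point which is far from the tip. -/
lemma budStepAux_far {W : ℝ → ℝ} (hW : Continuous W) {b : ℂ} {t δ m : ℝ} (ht : 0 ≤ t)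
    (hδ : 0 < δ) (hm0 : 0 ≤ m) (hb : b ∈ loewnerDomain W (t + δ))
    (hA : 8 * (m + √δ) ≤ ‖Zf W b t‖)
    (hs : ∀ s ∈ Icc t (t + δ), ‖Zf W b s - Zf W b t‖ ≤ ‖Zf W b t‖ / 4) :
    3 / 5 * δ * (rate (Zf W b t) / 4) ≤ Uf W b t - Uf W b (t + δ) ∧
      Uf W b t - Uf W b (t + δ) ≤ 1 := by
  have htδ : t ≤ t + δ := by linarith only [hδ]
  have htδ0 : 0 ≤ t + δ := by linarith only [ht, hδ]
  have hbt : b ∈ loewnerDomain W t := dom_mono htδ hb
  set A := Zf W b t with hAdef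
  have hApos : 0 < ‖A‖ := Zf_norm_pos ht hbt
  have hAim : 0 < A.im := Zf_im_pos ht hbt
  have hδA : 64 * δ ≤ ‖A‖ ^ 2 := by
    have h1 : 8 * √δ ≤ ‖A‖ := by linarith only [hm0, hA]
    have h2 : (8 * √δ) ^ 2 ≤ ‖A‖ ^ 2 := by
      apply pow_le_pow_left₀ (by positivity) h1
    rw [mul_pow, Real.sq_sqrt hδ.le] at h2
    linarith only [h2]
  have hlow : ∀ s ∈ Icc t (t + δ), 3 / 4 * ‖A‖ ≤ ‖Zf W b s‖ := by
    intro s h
    have h1 := hs s h
    have h2 : ‖A‖ - ‖Zf W b s - A‖ ≤ ‖Zf W b s‖ := by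
      have := norm_sub_norm_le A (A - Zf W b s)
      have h3 : A - (A - Zf W b s) = Zf W b s := by ring
      rw [h3, norm_sub_rev] at this
      linarith only [this]
    linarith only [h1, h2]
  have hup : ∀ s ∈ Icc t (t + δ), ‖Zf W b s‖ ≤ 5 / 4 * ‖A‖ := by
    intro s h
    have h1 := hs s h
    have h2 := norm_le_norm_add_norm_sub' (Zf W b s) A
    linarith
  have hsub : Icc t (t + δ) ⊆ Icc 0 (t + δ) := Icc_subset_Icc_left ht
  have himle : ∀ s ∈ Icc t (t + δ), (Zf W b s).im ≤ A.im := fun s h =>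
    im_le_of_le ht h.1 (dom_mono h.2 hb)
  have himpos : ∀ s ∈ Icc t (t + δ), 0 < (Zf W b s).im := fun s h =>
    Zf_im_pos (ht.trans h.1) (dom_mono h.2 hb)
  -- lower bound for the imaginary part
  have him : ∀ s ∈ Icc t (t + δ), 17 / 18 * A.im ≤ (Zf W b s).im := by
    intro s h
    have hd : ∀ u ∈ Icc t (t + δ), HasDerivWithinAt (fun u => (Zf W b u).im)
        (-(2 * (Zf W b u).im / ‖Zf W b u‖ ^ 2)) (Icc t (t + δ)) u := fun u hu =>
      (Y_hasDeriv hb (hsub hu)).mono hsub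
    have hbd : ∀ u ∈ Icc t (t + δ), ‖-(2 * (Zf W b u).im / ‖Zf W b u‖ ^ 2)‖ ≤
        32 / 9 * A.im / ‖A‖ ^ 2 := by
      intro u hu
      have h1 := hlow u hu
      have h2 := himpos u hu
      have h3 := himle u hu
      have hZ : 0 < ‖Zf W b u‖ := by linarith only [hApos, h1]
      rw [norm_neg, Real.norm_of_nonneg (by (clear * - h2 hZ; positivity)),
        div_le_div_iff₀ (by (clear * - hZ; positivity)) (by positivity)]
      have h4 : (3 / 4 * ‖A‖) ^ 2 ≤ ‖Zf W b u‖ ^ 2 := pow_le_pow_left₀ (by (clear * - hApos; positivity)) h1 2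
      have h5 : (Zf W b u).im * ‖A‖ ^ 2 ≤ A.im * ‖A‖ ^ 2 :=
        mul_le_mul_of_nonneg_right h3 (by positivity)
      have h6 : A.im * (9 / 16 * ‖A‖ ^ 2) ≤ A.im * ‖Zf W b u‖ ^ 2 :=
        mul_le_mul_of_nonneg_left (by linarith only [h4])
          hAim.le
      linarith only [h5, h6]
    have h1 := (convex_Icc t (t + δ)).norm_image_sub_le_of_norm_hasDerivWithin_le hd hbd
      (left_mem_Icc.2 htδ) h
    rw [Real.norm_eq_abs, Real.norm_of_nonneg (sub_nonneg.2 h.1)] at h1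
    have h2 : 32 / 9 * A.im / ‖A‖ ^ 2 * (s - t) ≤ 1 / 18 * A.im := by
      have h3 : s - t ≤ ‖A‖ ^ 2 / 64 := by
        have := h.2
        linarith only [hδA, this]
      calc 32 / 9 * A.im / ‖A‖ ^ 2 * (s - t)
          ≤ 32 / 9 * A.im / ‖A‖ ^ 2 * (‖A‖ ^ 2 / 64) :=
            mul_le_mul_of_nonneg_left h3 (by (clear * - hAim hApos; positivity))
        _ = 1 / 18 * A.im := by
            field_simp
            ring
    have h3 := (abs_le.1 (h1.trans h2)).1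
    change -(1 / 18 * A.im) ≤ (Zf W b s).im - A.im at h3
    linarith only [h3]
  have hrc : IntervalIntegrable (fun u => rate (Zf W b u)) volume t (t + δ) := by
    apply ContinuousOn.intervalIntegrable
    rw [uIcc_of_le htδ]
    exact (rate_cont hW htδ0 hb).mono hsub
  rw [Uf_sub hW ht htδ hb]
  constructor
  · have h1 : ∫ _u in t..(t + δ), 3 / 5 * (rate A / 4) ≤ ∫ u in t..(t + δ), rate (Zf W b u) := by
      apply intervalIntegral.integral_mono_on htδ _root_.intervalIntegrable_const hrc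
      intro s h
      rw [rate_eq, rate_eq]
      have hZ : 0 < ‖Zf W b s‖ := by linarith only [hApos, hlow s h]
      have h2 : (17 / 18 * A.im) ^ 2 ≤ (Zf W b s).im ^ 2 := pow_le_pow_left₀ (by positivity) (him s h) 2
      have h3 : ‖Zf W b s‖ ^ 4 ≤ (5 / 4 * ‖A‖) ^ 4 := pow_le_pow_left₀ (by (clear * - hZ; positivity)) (hup s h) 4
      have h4 : 4 * (17 / 18 * A.im) ^ 2 / (5 / 4 * ‖A‖) ^ 4 ≤
          4 * (Zf W b s).im ^ 2 / ‖Zf W b s‖ ^ 4 :=
        div_le_div₀ (by (clear * -; positivity)) (by linarith) (by (clear * - hZ; positivity)) h3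
      refine le_trans ?_ h4
      have h5 : 4 * (17 / 18 * A.im) ^ 2 / (5 / 4 * ‖A‖) ^ 4 =
          (17 / 18) ^ 2 * (4 / 5) ^ 4 * (4 * A.im ^ 2 / ‖A‖ ^ 4) := by
        field_simp
      rw [h5]
      have h6 : 0 ≤ 4 * A.im ^ 2 / ‖A‖ ^ 4 := by (clear * - hAim hApos; positivity)
      nlinarith only [h6]
    rw [intervalIntegral.integral_const, smul_eq_mul] at h1
    have h2 : (t + δ - t) * (3 / 5 * (rate A / 4)) = 3 / 5 * δ * (rate A / 4) := by ring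
    linarith only [h1]
  · have h1 : ∫ u in t..(t + δ), rate (Zf W b u) ≤ ∫ _u in t..(t + δ), 64 / 9 / ‖A‖ ^ 2 := by
      apply intervalIntegral.integral_mono_on htδ hrc _root_.intervalIntegrable_const
      intro s h
      have hZ : 0 < ‖Zf W b s‖ := by linarith only [hApos, hlow s h]
      have h4 : (3 / 4 * ‖A‖) ^ 2 ≤ ‖Zf W b s‖ ^ 2 := pow_le_pow_left₀ (by positivity) (hlow s h) 2
      have h5 : sn (Zf W b s) ^ 2 ≤ 1 := by
        have := sn_le_one (Zf W b s)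
        have h0 := (sn_pos (himpos s h)).le
        exact pow_le_one₀ h0 this
      unfold rate
      rw [div_div, div_le_div_iff₀ (by (clear * - hZ; positivity)) (by positivity)]
      have h6 : sn (Zf W b s) ^ 2 * ‖A‖ ^ 2 ≤ 1 * ‖A‖ ^ 2 :=
        mul_le_mul_of_nonneg_right h5 (by positivity)
      linarith
    rw [intervalIntegral.integral_const, smul_eq_mul] at h1
    have h2 : (t + δ - t) * (64 / 9 / ‖A‖ ^ 2) ≤ 1 := by
      have h3 : t + δ - t ≤ ‖A‖ ^ 2 / 64 := by linarith only [hδA]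
      calc (t + δ - t) * (64 / 9 / ‖A‖ ^ 2) ≤ ‖A‖ ^ 2 / 64 * (64 / 9 / ‖A‖ ^ 2) :=
            mul_le_mul_of_nonneg_right h3 (by positivity)
        _ = 1 / 9 := by field_simp
        _ ≤ 1 := by norm_num
    linarith only [h1, h2]

/-- The pointwise form of the budget step. -/
lemma budStepAux_pt {ϰ L : ℝ} (hϰ : 0 < ϰ) : ∃ C : ℝ, 0 < C ∧
    ∀ {W : ℝ → ℝ} (_ : Continuous W) {b : ℂ} {t δ m : ℝ} (_ : 0 ≤ t) (_ : 0 < δ)
      (_ : 0 ≤ m) (_ : m ≤ ϰ / 16) (_ : ∀ u ∈ Icc t (t + δ), |W u - W t| ≤ m),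
    St (fun _ U => GG (U - Real.log L)) W b (t + δ) ≤
      St (fun _ U => GG (U - Real.log L)) W b t -
        δ / 5 * St (fun A U => Gp (U - Real.log L) * (rate A / 4) * min 1 (‖A‖ / ϰ) ^ 4) W b t +
        C * (δ ^ 2 + δ * m) := by
  obtain ⟨C₁, hC₁, hz⟩ := z_step
  refine ⟨128 / ϰ ^ 4 + 8 / ϰ ^ 3, by positivity, ?_⟩
  intro W hW b t δ m ht hδ hm0 hm hWm
  have htδ : t ≤ t + δ := by linarith only [hδ]
  by_cases hbt : b ∈ loewnerDomain W t
  swap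
  · have hbt' : b ∉ loewnerDomain W (t + δ) := fun h => hbt (dom_mono htδ h)
    rw [St_of_not_mem hbt, St_of_not_mem hbt', St_of_not_mem hbt]
    have : 0 ≤ (128 / ϰ ^ 4 + 8 / ϰ ^ 3) * (δ ^ 2 + δ * m) := by (clear * - hϰ hδ hm0; positivity)
    linarith only [this]
  rw [St_of_mem hbt, St_of_mem hbt]
  set A := Zf W b t with hAdef
  have hApos : 0 < ‖A‖ := Zf_norm_pos ht hbt
  have hr0 := rate_nonneg A
  have hGp := Gp_pos (Uf W b t - Real.log L)
  have hGp1 := Gp_le_one (Uf W b t - Real.log L)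
  have hmin0 : 0 ≤ min 1 (‖A‖ / ϰ) := le_min zero_le_one (by (clear * - hApos hϰ; positivity))
  by_cases hA : 8 * (m + √δ) ≤ ‖A‖
  · obtain ⟨hb, hs, -⟩ := hz hW ht hδ hm0 hWm hbt hA
    rw [St_of_mem hb]
    obtain ⟨h1, h2⟩ := budStepAux_far hW ht hδ hm0 hb hA hs
    have h3 : Uf W b (t + δ) ≤ Uf W b t := Uf_le hW ht htδ hb
    have h4 := GG_sub (u := Uf W b t - Real.log L) (u' := Uf W b (t + δ) - Real.log L)
      (by linarith only [h3]) (by linarith only [h2])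
    have h5 : Uf W b t - Real.log L - (Uf W b (t + δ) - Real.log L) =
      Uf W b t - Uf W b (t + δ) := by ring
    rw [h5] at h4
    have h6 : 1 / 3 * Gp (Uf W b t - Real.log L) * (3 / 5 * δ * (rate A / 4)) ≤
        1 / 3 * Gp (Uf W b t - Real.log L) * (Uf W b t - Uf W b (t + δ)) :=
      mul_le_mul_of_nonneg_left h1 (by positivity)
    have h7 : min 1 (‖A‖ / ϰ) ^ 4 ≤ 1 := pow_le_one₀ hmin0 (min_le_left _ _)
    have h8 : δ / 5 * (Gp (Uf W b t - Real.log L) * (rate A / 4) * min 1 (‖A‖ / ϰ) ^ 4) ≤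
        δ / 5 * (Gp (Uf W b t - Real.log L) * (rate A / 4) * 1) := by
      apply mul_le_mul_of_nonneg_left _ (by positivity)
      exact mul_le_mul_of_nonneg_left h7 (by (clear * - hGp hr0; positivity))
    have h9 : 0 ≤ (128 / ϰ ^ 4 + 8 / ϰ ^ 3) * (δ ^ 2 + δ * m) := by positivity
    have h10 : 1 / 3 * Gp (Uf W b t - Real.log L) * (3 / 5 * δ * (rate A / 4)) =
        δ / 5 * (Gp (Uf W b t - Real.log L) * (rate A / 4) * 1) := by ring
    linarith only [h4, h6, h8, h9]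
  · push Not at hA
    have h1 : St (fun _ U => GG (U - Real.log L)) W b (t + δ) ≤ GG (Uf W b t - Real.log L) := by
      by_cases hb : b ∈ loewnerDomain W (t + δ)
      · rw [St_of_mem hb]
        apply GG_mono
        have h3 : Uf W b (t + δ) ≤ Uf W b t := Uf_le hW ht htδ hb
        linarith only [h3]
      · rw [St_of_not_mem hb]
        exact GG_nonneg _
    have h2 : Gp (Uf W b t - Real.log L) * (rate A / 4) * min 1 (‖A‖ / ϰ) ^ 4 ≤
        128 / ϰ ^ 4 * (m ^ 2 + δ) := by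
      have h3 : rate A / 4 ≤ 1 / ‖A‖ ^ 2 := by
        unfold rate
        have h5 : sn A ^ 2 ≤ 1 := pow_le_one₀ (sn_pos (Zf_im_pos ht hbt)).le (sn_le_one _)
        rw [div_div, div_le_div_iff₀ (by (clear * - hApos; positivity)) (by positivity)]
        have h6 : sn A ^ 2 * ‖A‖ ^ 2 ≤ 1 * ‖A‖ ^ 2 :=
          mul_le_mul_of_nonneg_right h5 (by positivity)
        linarith
      have h4 : min 1 (‖A‖ / ϰ) ^ 4 ≤ (‖A‖ / ϰ) ^ 4 := pow_le_pow_left₀ hmin0 (min_le_right _ _) 4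
      have h5 : ‖A‖ ^ 2 ≤ 128 * (m ^ 2 + δ) := by
        have h6 : ‖A‖ ^ 2 ≤ (8 * (m + √δ)) ^ 2 := pow_le_pow_left₀ (norm_nonneg _) hA.le 2
        have h7 : √δ ^ 2 = δ := Real.sq_sqrt hδ.le
        nlinarith only [h6, h7, sq_nonneg (m - √δ)]
      calc Gp (Uf W b t - Real.log L) * (rate A / 4) * min 1 (‖A‖ / ϰ) ^ 4
          ≤ 1 * (1 / ‖A‖ ^ 2) * (‖A‖ / ϰ) ^ 4 := by
            apply mul_le_mul _ h4 (by positivity) (by positivity)
            exact mul_le_mul hGp1 h3 (by (clear * - hr0; positivity)) zero_le_one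
        _ = ‖A‖ ^ 2 / ϰ ^ 4 := by
            field_simp
        _ ≤ 128 * (m ^ 2 + δ) / ϰ ^ 4 := by (clear * - h5 hϰ; gcongr)
        _ = 128 / ϰ ^ 4 * (m ^ 2 + δ) := by ring
    have h3 : 128 / ϰ ^ 4 * (m ^ 2 + δ) ≤ 5 * ((128 / ϰ ^ 4 + 8 / ϰ ^ 3) * (δ + m)) := by
      have h4 : m ^ 2 ≤ ϰ / 16 * m := by nlinarith only [hm0, hm]
      have h5 : 128 / ϰ ^ 4 * (ϰ / 16 * m) = 8 / ϰ ^ 3 * m := by
        field_simp
        ring
      have h6 : 128 / ϰ ^ 4 * m ^ 2 ≤ 128 / ϰ ^ 4 * (ϰ / 16 * m) :=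
        mul_le_mul_of_nonneg_left h4 (by positivity)
      have h7 : 0 ≤ 128 / ϰ ^ 4 * m := by (clear * - hϰ hm0; positivity)
      have h8 : 0 ≤ 8 / ϰ ^ 3 * δ := by positivity
      have h9 : 0 ≤ 128 / ϰ ^ 4 * δ := by positivity
      have h10 : 0 ≤ 8 / ϰ ^ 3 * m := by (clear * - hϰ hm0; positivity)
      linarith
    have h4 : δ / 5 * (Gp (Uf W b t - Real.log L) * (rate A / 4) * min 1 (‖A‖ / ϰ) ^ 4) ≤
        (128 / ϰ ^ 4 + 8 / ϰ ^ 3) * (δ ^ 2 + δ * m) := by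
      calc δ / 5 * (Gp (Uf W b t - Real.log L) * (rate A / 4) * min 1 (‖A‖ / ϰ) ^ 4)
          ≤ δ / 5 * (5 * ((128 / ϰ ^ 4 + 8 / ϰ ^ 3) * (δ + m))) :=
            mul_le_mul_of_nonneg_left (h2.trans h3) (by positivity)
        _ = (128 / ϰ ^ 4 + 8 / ϰ ^ 3) * (δ ^ 2 + δ * m) := by ring
    linarith only [h1, h4]

/-- (B4) Decrease of the budget. -/
theorem budStepAux_main {z₀ : ℂ} {R L ϰ : ℝ} (hL : 0 < L) (_hR : 1 ≤ R)
    (_hz : 3 * (R * L) ≤ z₀.im) (hϰ : 0 < ϰ) : ∃ C δ₀ : ℝ, 0 < C ∧ 0 < δ₀ ∧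
    ∀ {W : ℝ → ℝ} {t δ m : ℝ} (_ : SA W t z₀ R L) (_ : 0 < δ) (_ : δ ≤ δ₀) (_ : 0 ≤ m)
      (_ : m ≤ ϰ / 16) (_ : ∀ u ∈ Icc t (t + δ), |W u - W t| ≤ m),
    BI L (EE z₀ R L) W (t + δ) (fun _ U => GG (U - Real.log L)) ≤
      BI L (EE z₀ R L) W t (fun _ U => GG (U - Real.log L)) -
        δ / 5 * N2 L ϰ (EE z₀ R L) W t + C * (δ ^ 2 + δ * m + m ^ 3) := by
  obtain ⟨C, hC, hpt⟩ := budStepAux_pt (L := L) hϰ
  refine ⟨C * (volume (EE z₀ R L)).toReal / L ^ 2 + 1, 1, by (clear * - hC hL; positivity), one_pos, ?_⟩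
  intro W t δ m S hδ _ hm0 hm hWm
  have htδ : 0 ≤ t + δ := by linarith only [hδ, S.ht]
  have hE : MeasurableSet (EE z₀ R L) := measurableSet_ball
  have hEv : volume (EE z₀ R L) ≠ ⊤ := measure_ball_lt_top.ne
  have hG : Measurable (Function.uncurry (fun (_ : ℂ) U => GG (U - Real.log L))) :=
    measurable_GG.comp (measurable_snd.sub_const _)
  have hGb : ∀ u, |GG u| ≤ 3 := fun u => by
    rw [abs_of_nonneg (GG_nonneg u)]
    exact GG_le u
  have i1 : IntegrableOn (fun z => St (fun _ U => GG (U - Real.log L)) W z t) (EE z₀ R L) :=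
    St_int S.hW S.ht hG hE hEv (C := 3) fun z _ _ => hGb _
  have i2 : IntegrableOn (fun z => St (fun _ U => GG (U - Real.log L)) W z (t + δ))
      (EE z₀ R L) :=
    St_int S.hW htδ hG hE hEv (C := 3) fun z _ _ => hGb _
  have i3 := N2_int S hϰ
  have i4 : IntegrableOn (fun _ : ℂ => C * (δ ^ 2 + δ * m)) (EE z₀ R L) :=
    integrableOn_const hEv
  have h1 : ∫ z in EE z₀ R L, St (fun _ U => GG (U - Real.log L)) W z (t + δ) ≤
      ∫ z in EE z₀ R L, (St (fun _ U => GG (U - Real.log L)) W z t -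
        δ / 5 * St (fun A U => Gp (U - Real.log L) * (rate A / 4) * min 1 (‖A‖ / ϰ) ^ 4) W z t +
        C * (δ ^ 2 + δ * m)) := by
    apply setIntegral_mono_on i2 ((i1.sub (i3.const_mul _)).add i4) hE
    intro z _
    exact hpt S.hW S.ht hδ hm0 hm hWm
  have h0 : ∫ z in EE z₀ R L, (St (fun _ U => GG (U - Real.log L)) W z t -
        δ / 5 * St (fun A U => Gp (U - Real.log L) * (rate A / 4) * min 1 (‖A‖ / ϰ) ^ 4) W z t +
        C * (δ ^ 2 + δ * m)) =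
      (∫ z in EE z₀ R L, St (fun _ U => GG (U - Real.log L)) W z t) -
        δ / 5 * (∫ z in EE z₀ R L,
          St (fun A U => Gp (U - Real.log L) * (rate A / 4) * min 1 (‖A‖ / ϰ) ^ 4) W z t) +
        volume.real (EE z₀ R L) * (C * (δ ^ 2 + δ * m)) := by
    have e1 := integral_add (i1.sub (i3.const_mul (δ / 5))) i4
    have e2 := integral_sub i1 (i3.const_mul (δ / 5))
    rw [setIntegral_const, smul_eq_mul] at e1
    rw [integral_const_mul] at e2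
    simp only [Pi.sub_apply] at e1
    rw [e1, e2]
  rw [h0] at h1
  have hL2 : 0 < L ^ 2 := by positivity
  unfold N2 BI
  rw [← sub_nonneg] at h1 ⊢
  have h2 : (∫ z in EE z₀ R L, St (fun _ U => GG (U - Real.log L)) W z t) / L ^ 2 -
        δ / 5 * ((∫ z in EE z₀ R L,
          St (fun A U => Gp (U - Real.log L) * (rate A / 4) * min 1 (‖A‖ / ϰ) ^ 4) W z t) /
            L ^ 2) + (C * (volume (EE z₀ R L)).toReal / L ^ 2 + 1) *
              (δ ^ 2 + δ * m + m ^ 3) -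
      (∫ z in EE z₀ R L, St (fun _ U => GG (U - Real.log L)) W z (t + δ)) / L ^ 2 =
      ((∫ z in EE z₀ R L, St (fun _ U => GG (U - Real.log L)) W z t) -
        δ / 5 * (∫ z in EE z₀ R L,
          St (fun A U => Gp (U - Real.log L) * (rate A / 4) * min 1 (‖A‖ / ϰ) ^ 4) W z t) +
        volume.real (EE z₀ R L) * (C * (δ ^ 2 + δ * m)) -
        ∫ z in EE z₀ R L, St (fun _ U => GG (U - Real.log L)) W z (t + δ)) / L ^ 2 +
      (C * (volume (EE z₀ R L)).toReal / L ^ 2 * m ^ 3 + (δ ^ 2 + δ * m + m ^ 3)) := by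
    simp only [Measure.real]
    field_simp
    ring
  rw [h2]
  have h3 : 0 ≤ C * (volume (EE z₀ R L)).toReal / L ^ 2 * m ^ 3 +
      (δ ^ 2 + δ * m + m ^ 3) := by (clear * - hC hL hm0 hδ; positivity)
  have h4 := div_nonneg h1 hL2.le
  linarith only [h3, h4]

end Vale.Agent.P164
end

section

/-!
# X-B3, B4. One step of the functional (deterministic)
-/

namespace Vale.Agent.P164

open Set Metric Filter Topology MeasureTheory ProbabilityTheory
open scoped NNReal ENNReal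

/-- (B3) Product of `field_pt_step` (for `fX`, with `bandX`) and `om_step`, plus
`reward_pt_step` (for `aX`), integrated over `𝒬`. Note
`genX = om(fXL + aX) + f(κ om³IX1² - om²(κ/2 IX2 + IX3)) - κ fDX om²IX1` and the expansion is
`f'ω' = fω - η derX + η²/2 der2X + δ (genX - ω aX - κ/2 der2X) + O(err)`. -/
theorem phi_step {κ c ε : ℝ} (h0 : 0 < κ) (h8 : κ < 8) (hc : 0 ≤ c) {z₀ : ℂ} {R L ϰ : ℝ}
    (hL : 0 < L) (hR : 1 ≤ R) (hz : 3 * (R * L) ≤ z₀.im) (hϰ : 0 < ϰ) :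
    ∃ C δ₀ : ℝ, 0 < C ∧ 0 < δ₀ ∧
    ∀ {W : ℝ → ℝ} {t δ m : ℝ} {𝒬 : Set ℂ} (_ : SA W t z₀ R L) (_ : Adm W t z₀ R L ϰ 𝒬)
      (_ : 0 < δ) (_ : δ ≤ δ₀) (_ : 0 ≤ m) (_ : m ≤ ϰ / 16)
      (_ : ∀ u ∈ Icc t (t + δ), |W u - W t| ≤ m),
    |BI L 𝒬 W (t + δ) (fun Z U => fX κ c L ε Z U * om L (EE z₀ R L) W (t + δ) Z) +
        RwX κ c L ε (EE z₀ R L) 𝒬 W t δ -
        (BI L 𝒬 W t (fun Z U => fX κ c L ε Z U * om L (EE z₀ R L) W t Z) -
          (W (t + δ) - W t) * BI L 𝒬 W t (derX κ c L ε (EE z₀ R L) W t) +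
          (W (t + δ) - W t) ^ 2 / 2 * BI L 𝒬 W t (der2X κ c L ε (EE z₀ R L) W t) +
          δ * (BI L 𝒬 W t (genX κ c L ε (EE z₀ R L) W t) -
            κ / 2 * BI L 𝒬 W t (der2X κ c L ε (EE z₀ R L) W t)))| ≤
      C * (δ ^ 2 + δ * m + m ^ 3) ∧
    |BI L 𝒬 W t (derX κ c L ε (EE z₀ R L) W t)| ≤ C ∧
    |BI L 𝒬 W t (der2X κ c L ε (EE z₀ R L) W t)| ≤ C ∧
    |BI L 𝒬 W t (genX κ c L ε (EE z₀ R L) W t)| ≤ C :=
  phiStep_main h0 h8 hc hL hR hz hϰ

/-- (B4) Decrease of the budget. If `|Z_b| ≥ 8(m+√δ)` then `u - u' = ∫ rate ≥ δ rate/4·2` and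
`u - u' ≤ 1`, use `GG_sub`; otherwise `G` does not increase (dead: `0 ≤ G`) and
`δ Gp η² min(1,|A|/ϰ)⁴ ≤ C δ (m+√δ)² ≤ C(δ m² + δ²)`. -/
theorem bud_step {z₀ : ℂ} {R L ϰ : ℝ} (hL : 0 < L) (hR : 1 ≤ R) (hz : 3 * (R * L) ≤ z₀.im)
    (hϰ : 0 < ϰ) : ∃ C δ₀ : ℝ, 0 < C ∧ 0 < δ₀ ∧
    ∀ {W : ℝ → ℝ} {t δ m : ℝ} (_ : SA W t z₀ R L) (_ : 0 < δ) (_ : δ ≤ δ₀) (_ : 0 ≤ m)
      (_ : m ≤ ϰ / 16) (_ : ∀ u ∈ Icc t (t + δ), |W u - W t| ≤ m),
    BI L (EE z₀ R L) W (t + δ) (fun _ U => GG (U - Real.log L)) ≤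
      BI L (EE z₀ R L) W t (fun _ U => GG (U - Real.log L)) -
        δ / 5 * N2 L ϰ (EE z₀ R L) W t + C * (δ ^ 2 + δ * m + m ^ 3) :=
  budStepAux_main hL hR hz hϰ

end Vale.Agent.P164
end

section

/-!
# Auxiliary lemmas for joint measurability of the generator
-/

namespace Vale.Agent.P164

open Set Metric Filter Topology MeasureTheory ProbabilityTheory
open scoped NNReal ENNReal

set_option linter.all false

section General

variable {Ω : Type*} [MeasurableSpace Ω] {W : ℝ → Ω → ℝ} {t : ℝ}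

/-- Joint measurability of a static state function. -/
theorem MeasX_St_gen (hc : ∀ ω, Continuous fun t => W t ω)
    (hm : ∀ s ∈ Icc 0 t, Measurable (W s)) (ht : 0 ≤ t)
    {G : ℂ → ℝ → ℝ} (hG : Measurable (Function.uncurry G)) :
    Measurable (fun p : ℂ × Ω => St G (fun u => W u p.2) p.1 t) := by
  have h := (adapt_joint hc hm hG).comp
    ((measurable_const.prodMk measurable_fst).prodMk measurable_snd : Measurable
      (fun q : ℂ × Ω => (((t, q.1) : ℝ × ℂ), q.2)))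
  have e : (fun p : ℂ × Ω => St G (fun u => W u p.2) p.1 t) =
      (fun p : (ℝ × ℂ) × Ω =>
        if 0 ≤ p.1.1 ∧ p.1.1 ≤ t then St G (fun u => W u p.2) p.1.2 p.1.1 else 0) ∘
      (fun q : ℂ × Ω => (((t, q.1) : ℝ × ℂ), q.2)) := by
    funext p
    change _ = if 0 ≤ t ∧ t ≤ t then St G (fun u => W u p.2) p.1 t else 0
    rw [if_pos ⟨ht, le_rfl⟩]
  rw [e]
  exact h

end General

section Alg

variable {X : Type*} [MeasurableSpace X]

theorem MeasX_inv {i : X → ℝ} (hi : Measurable i) : Measurable fun p => 1 / (1 + i p) :=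
  measurable_const.div (measurable_const.add hi)

theorem MeasX_gen_alg {κ : ℝ} {i i1 i2 i3 sL sF sD : X → ℝ} (hi : Measurable i)
    (h1 : Measurable i1) (h2 : Measurable i2) (h3 : Measurable i3) (hL : Measurable sL)
    (hF : Measurable sF) (hD : Measurable sD) :
    Measurable fun p => 1 / (1 + i p) * sL p +
      sF p * (κ * (1 / (1 + i p)) ^ 3 * i1 p ^ 2 -
        (1 / (1 + i p)) ^ 2 * (κ / 2 * i2 p + i3 p)) -
      κ * sD p * ((1 / (1 + i p)) ^ 2 * i1 p) := by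
  have ho := MeasX_inv hi
  exact ((ho.mul hL).add (hF.mul (((measurable_const.mul (ho.pow_const 3)).mul
    (h1.pow_const 2)).sub ((ho.pow_const 2).mul ((measurable_const.mul h2).add h3))))).sub
    ((measurable_const.mul hD).mul ((ho.pow_const 2).mul h1))

theorem MeasX_der_alg {i i1 sF sD : X → ℝ} (hi : Measurable i)
    (h1 : Measurable i1) (hF : Measurable sF) (hD : Measurable sD) :
    Measurable fun p => sD p * (1 / (1 + i p)) - sF p * ((1 / (1 + i p)) ^ 2 * i1 p) := by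
  have ho := MeasX_inv hi
  exact (hD.mul ho).sub (hF.mul ((ho.pow_const 2).mul h1))

theorem MeasX_der2_alg {i i1 i2 sF sD sDD : X → ℝ} (hi : Measurable i)
    (h1 : Measurable i1) (h2 : Measurable i2) (hF : Measurable sF) (hD : Measurable sD)
    (hDD : Measurable sDD) :
    Measurable fun p => sDD p * (1 / (1 + i p)) -
      2 * sD p * ((1 / (1 + i p)) ^ 2 * i1 p) +
      sF p * (2 * (1 / (1 + i p)) ^ 3 * i1 p ^ 2 - (1 / (1 + i p)) ^ 2 * i2 p) := by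
  have ho := MeasX_inv hi
  exact ((hDD.mul ho).sub ((measurable_const.mul hD).mul ((ho.pow_const 2).mul h1))).add
    (hF.mul (((measurable_const.mul (ho.pow_const 3)).mul (h1.pow_const 2)).sub
      ((ho.pow_const 2).mul h2)))

theorem MeasX_fom_alg {i sF : X → ℝ} (hi : Measurable i) (hF : Measurable sF) :
    Measurable fun p => sF p * (1 / (1 + i p)) := hF.mul (MeasX_inv hi)

end Alg

variable {κ c L ε : ℝ}

theorem MeasX_fX (h0 : 0 < κ) (h8 : κ < 8) :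
    Measurable (Function.uncurry (fX κ c L ε)) :=
  measurable_EF fun i => (bandX h0 h8 i).continuous.measurable

theorem MeasX_fDX (h0 : 0 < κ) (h8 : κ < 8) :
    Measurable (Function.uncurry (fDX κ c L ε)) :=
  measurable_EX fun i => (bandX h0 h8 i).continuous.measurable

theorem MeasX_fDXX (h0 : 0 < κ) (h8 : κ < 8) :
    Measurable (Function.uncurry (fDXX κ c L ε)) :=
  measurable_EXX fun i => (bandX h0 h8 i).continuous.measurable

theorem MeasX_fXL (h0 : 0 < κ) (h8 : κ < 8) :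
    Measurable (Function.uncurry (fXL κ c L ε)) :=
  measurable_EL (fun i => (bandX h0 h8 i).continuous.measurable)
    fun i => (bandX h0 h8 i).continuous_deriv.measurable

theorem MeasX_aX (h0 : 0 < κ) (h8 : κ < 8) :
    Measurable (Function.uncurry (aX κ c L ε)) :=
  measurable_EA fun i => (bandRewX h0 h8 i).continuous.measurable

theorem MeasX_fL_aX (h0 : 0 < κ) (h8 : κ < 8) :
    Measurable (Function.uncurry (fun Z U => fXL κ c L ε Z U + aX κ c L ε Z U)) :=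
  (MeasX_fXL h0 h8).add (MeasX_aX h0 h8)

/-- measurable integrands of `IQ`, `IX1`, `IX2`, `IX3` -/
theorem MeasX_exp : Measurable (fun q : ℂ × ℝ × ℂ => Real.exp (q.2.1 - Real.log L)) := by
  (clear * -; fun_prop)

theorem MeasX_pair : Measurable (fun q : ℂ × ℝ × ℂ => ((q.1, q.2.2) : ℂ × ℂ)) := by
  fun_prop

theorem MeasX_KK3 : Measurable (fun q : ℂ × ℝ × ℂ => KK q.1 q.2.2) := by
  have h := Measurable.comp (g := fun p : ℂ × ℂ => KK p.1 p.2) measurable_KK MeasX_pair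
  exact h

theorem MeasX_kX3 : Measurable (fun q : ℂ × ℝ × ℂ => kX q.1 q.2.2) := by
  have h := Measurable.comp (g := fun p : ℂ × ℂ => kX p.1 p.2) measurable_kX MeasX_pair
  exact h

theorem MeasX_kXX3 : Measurable (fun q : ℂ × ℝ × ℂ => kXX q.1 q.2.2) := by
  have h := Measurable.comp (g := fun p : ℂ × ℂ => kXX p.1 p.2) measurable_kXX MeasX_pair
  exact h

theorem MeasX_k33 : Measurable (fun q : ℂ × ℝ × ℂ => k3 q.1 q.2.2) := by
  have h := Measurable.comp (g := fun p : ℂ × ℂ => k3 p.1 p.2) measurable_k3 MeasX_pair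
  exact h

theorem MeasX_rate : Measurable rate := by
  unfold rate
  exact (measurable_const.mul (measurable_sn.pow_const 2)).div (measurable_norm.pow_const 2)

theorem MeasX_rate3 : Measurable (fun q : ℂ × ℝ × ℂ => rate q.1) :=
  MeasX_rate.comp measurable_fst

theorem MeasX_F0 : Measurable (fun q : ℂ × ℝ × ℂ =>
    Real.exp (q.2.1 - Real.log L) * KK q.1 q.2.2) :=
  MeasX_exp.mul MeasX_KK3

theorem MeasX_F1 : Measurable (fun q : ℂ × ℝ × ℂ =>
    Real.exp (q.2.1 - Real.log L) * (KK q.1 q.2.2 * kX q.1 q.2.2)) :=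
  MeasX_exp.mul (MeasX_KK3.mul MeasX_kX3)

theorem MeasX_F2 : Measurable (fun q : ℂ × ℝ × ℂ =>
    Real.exp (q.2.1 - Real.log L) * (KK q.1 q.2.2 * (kX q.1 q.2.2 ^ 2 + kXX q.1 q.2.2))) :=
  MeasX_exp.mul (MeasX_KK3.mul ((MeasX_kX3.pow_const 2).add MeasX_kXX3))

theorem MeasX_F3 : Measurable (fun q : ℂ × ℝ × ℂ =>
    Real.exp (q.2.1 - Real.log L) * (KK q.1 q.2.2 * (k3 q.1 q.2.2 - rate q.1))) :=
  MeasX_exp.mul (MeasX_KK3.mul (MeasX_k33.sub MeasX_rate3))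

end Vale.Agent.P164
end

section

/-!
# X-B0. Joint measurability (adapted to the past)
-/

namespace Vale.Agent.P164

open Set Metric Filter Topology MeasureTheory ProbabilityTheory
open scoped NNReal ENNReal

section
variable {Ω : Type*} [mΩ : MeasurableSpace Ω] {W : ℝ → Ω → ℝ} {t L : ℝ}

lemma MeasXb_St (hc : ∀ ω, Continuous fun t => W t ω) (hm : ∀ s ∈ Icc 0 t, Measurable (W s))
    (ht : 0 ≤ t) {G : ℂ → ℝ → ℝ} (hG : Measurable (Function.uncurry G)) :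
    Measurable (fun p : ℂ × Ω => St G (fun u => W u p.2) p.1 t) := by
  have h := adapt_joint (T := t) hc hm hG
  have h2 : Measurable (fun p : ℂ × Ω => (((t, p.1), p.2) : (ℝ × ℂ) × Ω)) := by fun_prop
  have h3 := h.comp h2
  have e : (fun p : ℂ × Ω => St G (fun u => W u p.2) p.1 t) =
      (fun p : (ℝ × ℂ) × Ω => if 0 ≤ p.1.1 ∧ p.1.1 ≤ t then
        St G (fun u => W u p.2) p.1.2 p.1.1 else 0) ∘
        (fun p : ℂ × Ω => (((t, p.1), p.2) : (ℝ × ℂ) × Ω)) := by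
    funext p
    simp only [Function.comp_apply]
    rw [if_pos ⟨ht, le_rfl⟩]
  rw [e]
  exact h3

lemma MeasXb_alive (hc : ∀ ω, Continuous fun t => W t ω)
    (hm : ∀ s ∈ Icc 0 t, Measurable (W s)) (ht : 0 ≤ t) :
    MeasurableSet {p : ℂ × Ω | p.1 ∈ loewnerDomain (fun u => W u p.2) t} := by
  have h := MeasXb_St (G := fun _ _ => 1) hc hm ht measurable_const
  have h2 := h (measurableSet_singleton (1 : ℝ))
  convert h2 using 1
  ext p
  rw [mem_preimage, mem_singleton_iff, mem_ofPred_eq]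
  constructor
  · intro hz
    exact St_of_mem hz
  · intro hz
    by_contra hn
    rw [St_of_not_mem hn] at hz
    exact zero_ne_one hz

lemma MeasXb_Z (hc : ∀ ω, Continuous fun t => W t ω)
    (hm : ∀ s ∈ Icc 0 t, Measurable (W s)) (ht : 0 ≤ t) :
    Measurable (fun p : ℂ × Ω => Zf (fun u => W u p.2) p.1 t) := by
  have h1 := MeasXb_St (G := fun Z _ => Z.re) hc hm ht (Complex.measurable_re.comp measurable_fst)
  have h2 := MeasXb_St (G := fun Z _ => Z.im) hc hm ht (Complex.measurable_im.comp measurable_fst)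
  have e : (fun p : ℂ × Ω => Zf (fun u => W u p.2) p.1 t) = fun p =>
      ((St (fun Z _ => Z.re) (fun u => W u p.2) p.1 t : ℝ) : ℂ) +
        ((St (fun Z _ => Z.im) (fun u => W u p.2) p.1 t : ℝ) : ℂ) * Complex.I := by
    funext p
    by_cases hz : p.1 ∈ loewnerDomain (fun u => W u p.2) t
    · rw [St_of_mem hz, St_of_mem hz, Complex.re_add_im]
    · rw [St_of_not_mem hz, St_of_not_mem hz, Zf_of_not_mem hz]
      simp
  rw [e]
  exact (Complex.measurable_ofReal.comp h1).add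
    ((Complex.measurable_ofReal.comp h2).mul_const _)

lemma MeasXb_BI (hc : ∀ ω, Continuous fun t => W t ω)
    (hm : ∀ s ∈ Icc 0 t, Measurable (W s)) (ht : 0 ≤ t) (E : Set ℂ) {F : ℂ → ℝ → ℂ → ℝ}
    (hF : Measurable (fun q : ℂ × ℝ × ℂ => F q.1 q.2.1 q.2.2)) :
    Measurable (fun p : ℂ × Ω => BI L E (fun u => W u p.2) t
        (fun A U => F A U (Zf (fun u => W u p.2) p.1 t))) := by
  unfold BI
  refine Measurable.div_const ?_ _
  have hZ := MeasXb_Z hc hm ht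
  have hU := MeasXb_St (G := fun _ U => U) hc hm ht measurable_snd
  have hA := MeasXb_alive hc hm ht
  have hq : Measurable (fun q : (ℂ × Ω) × ℂ => ((q.2, q.1.2) : ℂ × Ω)) := by fun_prop
  have hq1 : Measurable (fun q : (ℂ × Ω) × ℂ => q.1) := measurable_fst
  have hm1 : Measurable (fun q : (ℂ × Ω) × ℂ =>
      F (Zf (fun u => W u q.1.2) q.2 t) (St (fun _ U => U) (fun u => W u q.1.2) q.2 t)
        (Zf (fun u => W u q.1.2) q.1.1 t)) :=
    hF.comp ((hZ.comp hq).prodMk ((hU.comp hq).prodMk (hZ.comp hq1)))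
  have hm2 : Measurable ({q : (ℂ × Ω) × ℂ | q.2 ∈ loewnerDomain (fun u => W u q.1.2) t}.indicator
      (fun q : (ℂ × Ω) × ℂ =>
      F (Zf (fun u => W u q.1.2) q.2 t) (St (fun _ U => U) (fun u => W u q.1.2) q.2 t)
        (Zf (fun u => W u q.1.2) q.1.1 t))) := hm1.indicator (hq hA)
  have e : (fun (p : ℂ × Ω) (z : ℂ) => St (fun A U => F A U (Zf (fun u => W u p.2) p.1 t))
      (fun u => W u p.2) z t) = fun p z =>
      {q : (ℂ × Ω) × ℂ | q.2 ∈ loewnerDomain (fun u => W u q.1.2) t}.indicator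
      (fun q : (ℂ × Ω) × ℂ =>
      F (Zf (fun u => W u q.1.2) q.2 t) (St (fun _ U => U) (fun u => W u q.1.2) q.2 t)
        (Zf (fun u => W u q.1.2) q.1.1 t)) (p, z) := by
    funext p z
    by_cases hz : z ∈ loewnerDomain (fun u => W u p.2) t
    · rw [St_of_mem hz, indicator_of_mem (by exact hz)]
      simp only [St_of_mem hz]
    · rw [St_of_not_mem hz, indicator_of_notMem (by exact hz)]
  have h3 : StronglyMeasurable (Function.uncurry (fun (p : ℂ × Ω) (z : ℂ) =>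
      St (fun A U => F A U (Zf (fun u => W u p.2) p.1 t)) (fun u => W u p.2) z t)) := by
    rw [e]
    exact hm2.stronglyMeasurable
  exact (h3.integral_prod_right (ν := volume.restrict E)).measurable

lemma MeasXb_setint {S : Set (ℂ × Ω)} (hS : MeasurableSet S)
    {H : ℂ × Ω → ℝ} (hH : Measurable H) :
    Measurable (fun ω => ∫ z in {z | (z, ω) ∈ S}, H (z, ω)) := by
  have h1 : Measurable (S.indicator H) := hH.indicator hS
  have h2 : StronglyMeasurable (Function.uncurry (fun (ω : Ω) (z : ℂ) => S.indicator H (z, ω))) :=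
    (h1.comp measurable_swap).stronglyMeasurable
  have h3 := (h2.integral_prod_right (ν := (volume : Measure ℂ))).measurable
  have e : (fun ω => ∫ z in {z | (z, ω) ∈ S}, H (z, ω)) =
      fun ω => ∫ z, S.indicator H (z, ω) := by
    funext ω
    have hS' : MeasurableSet {z : ℂ | (z, ω) ∈ S} := measurable_prodMk_right hS
    rw [← integral_indicator hS']
    rfl
  rw [e]
  exact h3

lemma MeasXb_aliveB (hc : ∀ ω, Continuous fun t => W t ω)
    (hm : ∀ s ∈ Icc 0 t, Measurable (W s)) (ht : 0 ≤ t) {B : Set (ℂ × ℝ)}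
    (hB : MeasurableSet B) :
    MeasurableSet {p : ℂ × Ω | p.1 ∈ loewnerDomain (fun u => W u p.2) t ∧
        (Zf (fun u => W u p.2) p.1 t, Uf (fun u => W u p.2) p.1 t) ∈ B} := by
  have hZ := MeasXb_Z hc hm ht
  have hU := MeasXb_St (G := fun _ U => U) hc hm ht measurable_snd
  have hA := MeasXb_alive hc hm ht
  have h2 := (hZ.prodMk hU) hB
  convert hA.inter h2 using 1
  ext p
  simp only [mem_ofPred_eq, mem_inter_iff, mem_preimage]
  refine and_congr_right fun hz => ?_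
  rw [St_of_mem hz]

end

variable {Ω : Type*} [mΩ : MeasurableSpace Ω] {W : ℝ → Ω → ℝ} {t κ c L ε : ℝ}

/-- `(z, ω) ↦ BI (F (·, Z_z))`. (Use `St_adapted` at time `t` for the integrand, a function of
`(b, z, ω)`, and `StronglyMeasurable.integral_prod_left/right`.) -/
theorem BI_joint (hc : ∀ ω, Continuous fun t => W t ω) (hm : ∀ t, Measurable (W t))
    (ht : 0 ≤ t) (E : Set ℂ) {F : ℂ → ℝ → ℂ → ℝ}
    (hF : Measurable (fun q : ℂ × ℝ × ℂ => F q.1 q.2.1 q.2.2)) :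
    @Measurable (ℂ × Ω) ℝ (@Prod.instMeasurableSpace ℂ Ω _ (past W t)) _
      (fun p => BI L E (fun u => W u p.2) t
        (fun A U => F A U (Zf (fun u => W u p.2) p.1 t))) :=
  @MeasXb_BI Ω (past W t) W t L hc (fun _ hs => adapt_le_past hs) ht E F hF

/-- Integral over a random set. -/
theorem setint_past {S : Set (ℂ × Ω)}
    (hS : @MeasurableSet (ℂ × Ω) (@Prod.instMeasurableSpace ℂ Ω _ (past W t)) S)
    {H : ℂ × Ω → ℝ} (hH : @Measurable (ℂ × Ω) ℝ (@Prod.instMeasurableSpace ℂ Ω _ (past W t)) _ H) :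
    Measurable[past W t] (fun ω => ∫ z in {z | (z, ω) ∈ S}, H (z, ω)) :=
  @MeasXb_setint Ω (past W t) S hS H hH

/-- The alive set with a constraint on `(Z, U)`. -/
theorem alive_joint (hc : ∀ ω, Continuous fun t => W t ω) (hm : ∀ t, Measurable (W t))
    (ht : 0 ≤ t) {B : Set (ℂ × ℝ)} (hB : MeasurableSet B) :
    @MeasurableSet (ℂ × Ω) (@Prod.instMeasurableSpace ℂ Ω _ (past W t))
      {p | p.1 ∈ loewnerDomain (fun u => W u p.2) t ∧
        (Zf (fun u => W u p.2) p.1 t, Uf (fun u => W u p.2) p.1 t) ∈ B} :=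
  @MeasXb_aliveB Ω (past W t) W t hc (fun _ hs => adapt_le_past hs) ht B hB

/-- The four functionals along the flow. -/
theorem MeasX_IQ (hc : ∀ ω, Continuous fun t => W t ω) (hm : ∀ t, Measurable (W t))
    (ht : 0 ≤ t) (E : Set ℂ) :
    @Measurable (ℂ × Ω) ℝ (@Prod.instMeasurableSpace ℂ Ω _ (past W t)) _
      (fun p => IQ L E (fun u => W u p.2) t (Zf (fun u => W u p.2) p.1 t)) :=
  BI_joint (F := fun A U Z => Real.exp (U - Real.log L) * KK A Z) hc hm ht E MeasX_F0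

theorem MeasX_IX1 (hc : ∀ ω, Continuous fun t => W t ω) (hm : ∀ t, Measurable (W t))
    (ht : 0 ≤ t) (E : Set ℂ) :
    @Measurable (ℂ × Ω) ℝ (@Prod.instMeasurableSpace ℂ Ω _ (past W t)) _
      (fun p => IX1 L E (fun u => W u p.2) t (Zf (fun u => W u p.2) p.1 t)) :=
  BI_joint (F := fun A U Z => Real.exp (U - Real.log L) * (KK A Z * kX A Z)) hc hm ht E MeasX_F1

theorem MeasX_IX2 (hc : ∀ ω, Continuous fun t => W t ω) (hm : ∀ t, Measurable (W t))
    (ht : 0 ≤ t) (E : Set ℂ) :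
    @Measurable (ℂ × Ω) ℝ (@Prod.instMeasurableSpace ℂ Ω _ (past W t)) _
      (fun p => IX2 L E (fun u => W u p.2) t (Zf (fun u => W u p.2) p.1 t)) :=
  BI_joint (F := fun A U Z => Real.exp (U - Real.log L) * (KK A Z * (kX A Z ^ 2 + kXX A Z)))
    hc hm ht E MeasX_F2

theorem MeasX_IX3 (hc : ∀ ω, Continuous fun t => W t ω) (hm : ∀ t, Measurable (W t))
    (ht : 0 ≤ t) (E : Set ℂ) :
    @Measurable (ℂ × Ω) ℝ (@Prod.instMeasurableSpace ℂ Ω _ (past W t)) _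
      (fun p => IX3 L E (fun u => W u p.2) t (Zf (fun u => W u p.2) p.1 t)) :=
  BI_joint (F := fun A U Z => Real.exp (U - Real.log L) * (KK A Z * (k3 A Z - rate A)))
    hc hm ht E MeasX_F3

theorem MeasX_St (hc : ∀ ω, Continuous fun t => W t ω) (hm : ∀ t, Measurable (W t))
    (ht : 0 ≤ t) {G : ℂ → ℝ → ℝ} (hG : Measurable (Function.uncurry G)) :
    @Measurable (ℂ × Ω) ℝ (@Prod.instMeasurableSpace ℂ Ω _ (past W t)) _
      (fun p => St G (fun u => W u p.2) p.1 t) :=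
  @MeasX_St_gen Ω (past W t) W t hc (fun _ hs => adapt_le_past hs) ht G hG

theorem genX_joint (h0 : 0 < κ) (h8 : κ < 8) (hc : ∀ ω, Continuous fun t => W t ω)
    (hm : ∀ t, Measurable (W t)) (ht : 0 ≤ t) (E : Set ℂ) :
    @Measurable (ℂ × Ω) ℝ (@Prod.instMeasurableSpace ℂ Ω _ (past W t)) _
      (fun p => St (genX κ c L ε E (fun u => W u p.2) t) (fun u => W u p.2) p.1 t) := by
  have h := @MeasX_gen_alg (ℂ × Ω) (@Prod.instMeasurableSpace ℂ Ω _ (past W t)) κ _ _ _ _ _ _ _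
    (MeasX_IQ (L := L) hc hm ht E) (MeasX_IX1 (L := L) hc hm ht E) (MeasX_IX2 (L := L) hc hm ht E)
    (MeasX_IX3 (L := L) hc hm ht E) (MeasX_St hc hm ht (MeasX_fL_aX (c := c) (L := L) (ε := ε) h0 h8))
    (MeasX_St hc hm ht (MeasX_fX (c := c) (L := L) (ε := ε) h0 h8))
    (MeasX_St hc hm ht (MeasX_fDX (c := c) (L := L) (ε := ε) h0 h8))
  refine (iff_of_eq (congrArg _ (funext fun p => ?_))).2 h
  by_cases hp : p.1 ∈ loewnerDomain (fun u => W u p.2) t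
  · simp only [St_of_mem hp, genX, om]
  · simp only [St_of_not_mem hp]
    ring

theorem derX_joint (h0 : 0 < κ) (h8 : κ < 8) (hc : ∀ ω, Continuous fun t => W t ω)
    (hm : ∀ t, Measurable (W t)) (ht : 0 ≤ t) (E : Set ℂ) :
    @Measurable (ℂ × Ω) ℝ (@Prod.instMeasurableSpace ℂ Ω _ (past W t)) _
      (fun p => St (derX κ c L ε E (fun u => W u p.2) t) (fun u => W u p.2) p.1 t) := by
  have h := @MeasX_der_alg (ℂ × Ω) (@Prod.instMeasurableSpace ℂ Ω _ (past W t)) _ _ _ _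
    (MeasX_IQ (L := L) hc hm ht E) (MeasX_IX1 (L := L) hc hm ht E)
    (MeasX_St hc hm ht (MeasX_fX (c := c) (L := L) (ε := ε) h0 h8))
    (MeasX_St hc hm ht (MeasX_fDX (c := c) (L := L) (ε := ε) h0 h8))
  refine (iff_of_eq (congrArg _ (funext fun p => ?_))).2 h
  by_cases hp : p.1 ∈ loewnerDomain (fun u => W u p.2) t
  · simp only [St_of_mem hp, derX, om]
  · simp only [St_of_not_mem hp]
    ring

theorem der2X_joint (h0 : 0 < κ) (h8 : κ < 8) (hc : ∀ ω, Continuous fun t => W t ω)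
    (hm : ∀ t, Measurable (W t)) (ht : 0 ≤ t) (E : Set ℂ) :
    @Measurable (ℂ × Ω) ℝ (@Prod.instMeasurableSpace ℂ Ω _ (past W t)) _
      (fun p => St (der2X κ c L ε E (fun u => W u p.2) t) (fun u => W u p.2) p.1 t) := by
  have h := @MeasX_der2_alg (ℂ × Ω) (@Prod.instMeasurableSpace ℂ Ω _ (past W t)) _ _ _ _ _ _
    (MeasX_IQ (L := L) hc hm ht E) (MeasX_IX1 (L := L) hc hm ht E) (MeasX_IX2 (L := L) hc hm ht E)
    (MeasX_St hc hm ht (MeasX_fX (c := c) (L := L) (ε := ε) h0 h8))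
    (MeasX_St hc hm ht (MeasX_fDX (c := c) (L := L) (ε := ε) h0 h8))
    (MeasX_St hc hm ht (MeasX_fDXX (c := c) (L := L) (ε := ε) h0 h8))
  refine (iff_of_eq (congrArg _ (funext fun p => ?_))).2 h
  by_cases hp : p.1 ∈ loewnerDomain (fun u => W u p.2) t
  · simp only [St_of_mem hp, der2X, om]
  · simp only [St_of_not_mem hp]
    ring

theorem fom_joint (h0 : 0 < κ) (h8 : κ < 8) (hc : ∀ ω, Continuous fun t => W t ω)
    (hm : ∀ t, Measurable (W t)) (ht : 0 ≤ t) (E : Set ℂ) :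
    @Measurable (ℂ × Ω) ℝ (@Prod.instMeasurableSpace ℂ Ω _ (past W t)) _
      (fun p => St (fun Z U => fX κ c L ε Z U * om L E (fun u => W u p.2) t Z)
        (fun u => W u p.2) p.1 t) := by
  have h := @MeasX_fom_alg (ℂ × Ω) (@Prod.instMeasurableSpace ℂ Ω _ (past W t)) _ _
    (MeasX_IQ (L := L) hc hm ht E)
    (MeasX_St hc hm ht (MeasX_fX (c := c) (L := L) (ε := ε) h0 h8))
  refine (iff_of_eq (congrArg _ (funext fun p => ?_))).2 h
  by_cases hp : p.1 ∈ loewnerDomain (fun u => W u p.2) t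
  · simp only [St_of_mem hp, om]
  · simp only [St_of_not_mem hp]
    ring

theorem measXr_KK : Measurable (fun q : ℂ × ℂ => KK q.1 q.2) := by
  unfold KK K1 K2
  (clear * -; fun_prop)

theorem measXr_GG : Measurable GG := by
  unfold GG
  refine Measurable.ite measurableSet_Iic (by fun_prop) (by fun_prop)

theorem measXr_Gp : Measurable Gp := by
  unfold Gp
  (clear * -; fun_prop)

theorem measXr_sn_rpow (p : ℝ) : Measurable (fun q : ℂ × ℝ => sn q.1 ^ p) :=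
  (measurable_sn.comp measurable_fst).pow_const p

theorem measXr_phi : Measurable phi := by
  unfold phi
  fun_prop

theorem measXr_rate : Measurable rate := by
  unfold rate
  exact ((measurable_sn.pow_const 2).const_mul 4).div (measurable_norm.pow_const 2)

theorem measXr_aX : Measurable (Function.uncurry (aX κ c L ε)) := by
  unfold aX EA dX qv
  have h : Measurable fun q : ℂ × ℝ => c * (4 * (Real.exp (-xx κ * (q.2 - Real.log L)) * phi (q.2 - Real.log ε))) * sn q.1 ^ (be κ + 2) / ‖q.1‖ ^ 2 := by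
    have h1 : Measurable fun q : ℂ × ℝ => phi (q.2 - Real.log ε) := measXr_phi.comp (by fun_prop)
    have h2 := measXr_sn_rpow (be κ + 2)
    (clear * - h1 h2; fun_prop)
  have e : (Function.uncurry fun Z U => ∑ j : Fin 1,
      (![fun U => c * (4 * (Real.exp (-xx κ * (U - Real.log L)) * phi (U - Real.log ε)))] :
        Fin 1 → ℝ → ℝ) j U * sn Z ^ (![be κ + 2] : Fin 1 → ℝ) j / ‖Z‖ ^ 2) = fun q : ℂ × ℝ =>
      c * (4 * (Real.exp (-xx κ * (q.2 - Real.log L)) * phi (q.2 - Real.log ε))) *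
        sn q.1 ^ (be κ + 2) / ‖q.1‖ ^ 2 := by
    funext q
    obtain ⟨Z, U⟩ := q
    simp only [Function.uncurry, Finset.univ_unique, Fin.default_eq_zero, Fin.isValue, neg_mul, Matrix.cons_val', Matrix.cons_val_fin_one, Finset.sum_const, Finset.card_singleton, one_smul]
  rw [e]
  exact h

theorem measXr_F : Measurable (fun q : ℂ × ℝ × ℂ =>
    Real.exp (q.2.1 - Real.log L) * KK q.1 q.2.2) := by
  have h5 : Measurable (fun q : ℂ × ℝ × ℂ => (q.1, q.2.2)) := by fun_prop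
  have h3 := measXr_KK.comp h5
  have h4 : Measurable (fun q : ℂ × ℝ × ℂ => Real.exp (q.2.1 - Real.log L)) := by (clear * -; fun_prop)
  have h6 := h4.mul h3
  exact h6

omit mΩ in
theorem measXr_prod_le {m m' : MeasurableSpace Ω} (h : m ≤ m') :
    @Prod.instMeasurableSpace ℂ Ω _ m ≤ @Prod.instMeasurableSpace ℂ Ω _ m' :=
  sup_le_sup le_rfl (MeasurableSpace.comap_mono h)

/-- The reward of one step is measurable at the end of the step. -/
theorem RwX_past (h0 : 0 < κ) (h8 : κ < 8) (hc : ∀ ω, Continuous fun t => W t ω)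
    (hm : ∀ t, Measurable (W t)) (ht : 0 ≤ t) {δ : ℝ} (hδ : 0 ≤ δ) (E : Set ℂ) {S : Set (ℂ × Ω)}
    (hS : @MeasurableSet (ℂ × Ω) (@Prod.instMeasurableSpace ℂ Ω _ (past W t)) S) :
    Measurable[past W (t + δ)]
      (fun ω => RwX κ c L ε E {z | (z, ω) ∈ S} (fun u => W u ω) t δ) := by
  have hle : past W t ≤ past W (t + δ) := past_mono (by linarith only [hδ])
  have hle2 := measXr_prod_le (Ω := Ω) hle
  have hS2 : @MeasurableSet (ℂ × Ω) (@Prod.instMeasurableSpace ℂ Ω _ (past W (t + δ))) S :=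
    hle2 S hS
  have h1 : @Measurable (ℂ × Ω) ℝ (@Prod.instMeasurableSpace ℂ Ω _ (past W t)) _
      (fun p => om L E (fun u => W u p.2) t (Zf (fun u => W u p.2) p.1 t)) := by
    have h2 := BI_joint (L := L) hc hm ht E
      (F := fun A U Z => Real.exp (U - Real.log L) * KK A Z) (measXr_F (L := L))
    unfold om IQ
    exact (h2.const_add 1).const_div 1
  have h4 : @Measurable (ℂ × Ω) ℝ (@Prod.instMeasurableSpace ℂ Ω _ (past W (t + δ))) _
      (fun p => ∫ s in t..(t + δ), St (aX κ c L ε) (fun u => W u p.2) p.1 s) :=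
    @adapt_timeint Ω (past W (t + δ)) W t (t + δ) hc (fun _ hs => adapt_le_past hs) _ measXr_aX
      ht (by linarith only [hδ])
  have h5 := setint_past (W := W) (t := t + δ) hS2 ((h1.mono hle2 le_rfl).mul h4)
  unfold RwX
  exact h5.div_const _

/-- The functional is measurable at its time. -/
theorem PhiX_past (h0 : 0 < κ) (h8 : κ < 8) (hc : ∀ ω, Continuous fun t => W t ω)
    (hm : ∀ t, Measurable (W t)) (ht : 0 ≤ t) (K₀ : ℝ) (E : Set ℂ) {S : Set (ℂ × Ω)}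
    (hS : @MeasurableSet (ℂ × Ω) (@Prod.instMeasurableSpace ℂ Ω _ (past W t)) S) :
    Measurable[past W t]
      (fun ω => PhiX κ c K₀ L ε E {z | (z, ω) ∈ S} (fun u => W u ω) t) := by
  unfold PhiX
  have h1 := setint_past (W := W) (t := t) hS (fom_joint (κ := κ) (c := c) (L := L) (ε := ε) h0 h8 hc hm ht E)
  have h2 : Measurable[past W t] (fun ω => ∫ z in E, St (fun _ U => GG (U - Real.log L)) (fun u => W u ω) z t) := by
    refine field_past hc hm (G := fun _ U => GG (U - Real.log L)) ?_ ht E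
    exact measXr_GG.comp (by fun_prop : Measurable fun q : ℂ × ℝ => q.2 - Real.log L)
  unfold BI
  exact (h1.div_const _).add ((h2.div_const _).const_mul _)

theorem N2_past (hc : ∀ ω, Continuous fun t => W t ω) (hm : ∀ t, Measurable (W t))
    (ht : 0 ≤ t) (ϰ : ℝ) (E : Set ℂ) :
    Measurable[past W t] (fun ω => N2 L ϰ E (fun u => W u ω) t) := by
  unfold N2 BI
  refine Measurable.div_const ?_ _
  refine field_past hc hm (G := fun A U => Gp (U - Real.log L) * (rate A / 4) * min 1 (‖A‖ / ϰ) ^ 4) ?_ ht E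
  have h1 : Measurable fun q : ℂ × ℝ => Gp (q.2 - Real.log L) := measXr_Gp.comp (by fun_prop)
  have h2 : Measurable fun q : ℂ × ℝ => rate q.1 := measXr_rate.comp measurable_fst
  show Measurable fun q : ℂ × ℝ => Gp (q.2 - Real.log L) * (rate q.1 / 4) * min 1 (‖q.1‖ / ϰ) ^ 4
  fun_prop

end Vale.Agent.P164
end

section

/-!
# X-B5. One-step expectation of the weighted exponential functional
-/

namespace Vale.Agent.P164

open Set Metric Filter Topology MeasureTheory ProbabilityTheory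
open scoped NNReal ENNReal

lemma EStepX_BI_abs {W : ℝ → ℝ} {t L C : ℝ} {E : Set ℂ} {G : ℂ → ℝ → ℝ} (hC : 0 ≤ C)
    (hEv : volume E ≠ ⊤)
    (h : ∀ z ∈ E, z ∈ loewnerDomain W t → |G (Zf W z t) (Uf W z t)| ≤ C) :
    |BI L E W t G| ≤ C * volume.real E / L ^ 2 := by
  unfold BI
  rw [abs_div, abs_of_nonneg (sq_nonneg L)]
  refine div_le_div_of_nonneg_right ?_ (sq_nonneg L)
  rw [← Real.norm_eq_abs]
  refine norm_setIntegral_le_of_norm_le_const hEv.lt_top fun z hz => ?_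
  rw [Real.norm_eq_abs]
  by_cases hal : z ∈ loewnerDomain W t
  · rw [St_of_mem hal]
    exact h z hz hal
  · rw [St_of_not_mem hal, abs_zero]
    exact hC

/-- The functional is bounded. -/
lemma EStepX_Phi_abs {κ c K₀ ε : ℝ} (h0 : 0 < κ) (h8 : κ < 8) (hc : 0 ≤ c) (hK : 0 ≤ K₀) {z₀ : ℂ}
    {R L ϰ : ℝ} (hL : 0 < L) (hR : 1 ≤ R) (hϰ : 0 < ϰ) :
    ∃ C : ℝ, 0 ≤ C ∧ ∀ {W : ℝ → ℝ} {t : ℝ} {𝒬 : Set ℂ} (_ : SA W t z₀ R L)
      (_ : Adm W t z₀ R L ϰ 𝒬), |PhiX κ c K₀ L ε (EE z₀ R L) 𝒬 W t| ≤ C := by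
  obtain ⟨C₃, hC₃, H₃⟩ := gen_bounds (c := c) h0 h8 hc hL hR hϰ z₀ ε
  have hDv : volume (DD z₀ R L) ≠ ⊤ := measure_ball_lt_top.ne
  have hEv : volume (EE z₀ R L) ≠ ⊤ := measure_ball_lt_top.ne
  refine ⟨C₃ * volume.real (DD z₀ R L) / L ^ 2 + K₀ * (3 * volume.real (EE z₀ R L) / L ^ 2),
    by (clear * - hC₃ hL hK; positivity), ?_⟩
  intro W t 𝒬 hS hA
  have h1 : |BI L 𝒬 W t (fun Z U => fX κ c L ε Z U * om L (EE z₀ R L) W t Z)| ≤
      C₃ * volume.real 𝒬 / L ^ 2 := by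
    refine EStepX_BI_abs hC₃.le (measure_ne_top_of_subset hA.sub hDv) fun z hz hal => ?_
    exact (H₃ hS (Zf_im_pos hS.ht hal) (hA.far z hz) (Uf W z t)).1
  have h2 : |BI L (EE z₀ R L) W t (fun _ U => GG (U - Real.log L))| ≤
      3 * volume.real (EE z₀ R L) / L ^ 2 := by
    refine EStepX_BI_abs (by norm_num) hEv fun z hz hal => ?_
    rw [abs_of_nonneg (GG_nonneg _)]
    exact GG_le _
  have h3 : C₃ * volume.real 𝒬 / L ^ 2 ≤ C₃ * volume.real (DD z₀ R L) / L ^ 2 := by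
    have := measureReal_mono hA.sub hDv
    (clear * - this hC₃ hL; gcongr)
  unfold PhiX
  refine (abs_add_le _ _).trans (add_le_add (h1.trans h3) ?_)
  rw [abs_mul, abs_of_nonneg hK]
  (clear * - h2 hK; gcongr)

/-- (B5) Same proof as `E_step` (G/EStep.lean). For `ω ∈ A`, on `{osc ≤ ϰ/16}` put
`y = Φ(t+δ) + Rw - Φ(t)`; `phi_step`, `bud_step` give
`y ≤ -η b1 + η²/2 b2 + δ (b3 - κ/2 b2) + C err - K₀ δ/5 N2`, with
`b1 = BI derX`, `b2 = BI der2X`, `b3 = BI genX` bounded by `C`. Let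
`h = min (K₀/10 N2) (C + κ/2 C²) ≥ 0` (bounded, past-measurable), `b3' = b3 - h`, `b4 = 0`;
then `b3' + κ/2 b1² ≤ 0` (static inequality `H`) and `y ≤ -η b1 + η²/2 b2 + δ(b3' - κ/2 b2) + C err`
because `h ≤ K₀/5 N2`. Apply `estep_poly`, `estep_expect` with `g = Ξ exp Φ(t)` on `A`
(extended by `0` outside `A`). -/
theorem e_stepX {κ c K₀ ε : ℝ} (h0 : 0 < κ) (h8 : κ < 8) (hc : 0 ≤ c) (hK : 0 ≤ K₀) {z₀ : ℂ}
    {R L ϰ : ℝ} (hL : 0 < L) (hR : 1 ≤ R) (hz : 3 * (R * L) ≤ z₀.im) (hϰ : 0 < ϰ)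
    (H : ∀ {W : ℝ → ℝ} {t : ℝ} {𝒬 : Set ℂ}, SA W t z₀ R L → Adm W t z₀ R L ϰ 𝒬 →
      BI L 𝒬 W t (genX κ c L ε (EE z₀ R L) W t) +
        κ / 2 * BI L 𝒬 W t (derX κ c L ε (EE z₀ R L) W t) ^ 2 ≤
          K₀ / 10 * N2 L ϰ (EE z₀ R L) W t) :
    ∃ C δ₀ : ℝ, 0 < C ∧ 0 < δ₀ ∧ ∀ {Ω : Type*} [MeasurableSpace Ω] {P : Measure Ω}
      {W : ℝ → Ω → ℝ} (_ : IsDrv κ P W) {t δ : ℝ} (_ : 0 ≤ t) (_ : 0 < δ) (_ : δ ≤ δ₀)
      {A : Set Ω} (_ : MeasurableSet[past W t] A) {Ξ : Ω → ℝ} (_ : Measurable[past W t] Ξ)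
      (_ : ∀ ω, 0 ≤ Ξ ω) (_ : ∃ B, ∀ ω ∈ A, Ξ ω ≤ B) {S : Set (ℂ × Ω)}
      (_ : @MeasurableSet (ℂ × Ω) (@Prod.instMeasurableSpace ℂ Ω _ (past W t)) S)
      (_ : ∀ ω ∈ A, Adm (fun u => W u ω) t z₀ R L ϰ {z | (z, ω) ∈ S}),
      ∫⁻ ω in A ∩ {ω | osc W t δ ω ≤ ϰ / 16}, ENNReal.ofReal (Ξ ω * Real.exp
          (PhiX κ c K₀ L ε (EE z₀ R L) {z | (z, ω) ∈ S} (fun u => W u ω) (t + δ) +
            RwX κ c L ε (EE z₀ R L) {z | (z, ω) ∈ S} (fun u => W u ω) t δ)) ∂P ≤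
        ENNReal.ofReal (1 + C * δ * √δ) *
          ∫⁻ ω in A, ENNReal.ofReal (Ξ ω * Real.exp
            (PhiX κ c K₀ L ε (EE z₀ R L) {z | (z, ω) ∈ S} (fun u => W u ω) t)) ∂P := by
  obtain ⟨C₁, d₁, hC₁, hd₁, H₁⟩ := phi_step (κ := κ) (c := c) (ε := ε) h0 h8 hc hL hR hz hϰ
  obtain ⟨C₂, d₂, hC₂, hd₂, H₂⟩ := bud_step (z₀ := z₀) hL hR hz hϰ
  obtain ⟨CΦ, hCΦ, H₃⟩ := EStepX_Phi_abs (κ := κ) (c := c) (K₀ := K₀) (ε := ε) (z₀ := z₀)
    h0 h8 hc hK hL hR hϰ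
  obtain ⟨M, hM⟩ : ∃ M, M = C₁ + κ / 2 * C₁ ^ 2 := ⟨_, rfl⟩
  have hM0 : 0 < M := by rw [hM]; positivity
  obtain ⟨C, hCdef⟩ : ∃ C, C = C₁ + M + K₀ * C₂ := ⟨_, rfl⟩
  have hKC : 0 ≤ K₀ * C₂ := by (clear * - hK hC₂; positivity)
  have hC : 0 < C := by rw [hCdef]; (clear * - hC₁ hM0 hK hC₂; positivity)
  have hC₁C : C₁ ≤ C := by rw [hCdef]; linarith only [hM0, hKC]
  obtain ⟨C', hC', HQ⟩ := estep_poly hC h0 hϰ
  obtain ⟨c₁, hc₁, O₁⟩ := osc_moment κ h0 1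
  obtain ⟨c₃, hc₃, O₃⟩ := osc_moment κ h0 3
  refine ⟨C' * (1 + c₁ + c₃), min (min d₁ d₂) 1, by (clear * - hC' hc₁ hc₃; positivity),
    lt_min (lt_min hd₁ hd₂) one_pos, ?_⟩
  intro Ω _ P W hW t δ ht hδ hδd A hA Ξ hΞ hΞ0 hΞB S hSm hAdm
  have hδd₁ : δ ≤ d₁ := hδd.trans ((min_le_left _ _).trans (min_le_left _ _))
  have hδd₂ : δ ≤ d₂ := hδd.trans ((min_le_left _ _).trans (min_le_right _ _))
  have hδ1 : δ ≤ 1 := hδd.trans (min_le_right _ _)
  have hcW := hW.cont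
  have hmW := hW.meas
  have hple : past W t ≤ _ := hW.past_le (t := t)
  have hSA : ∀ ω, SA (fun u => W u ω) t z₀ R L := fun ω => ⟨hcW ω, ht, hL, hR, hz⟩
  obtain ⟨B, hB⟩ := hΞB
  -- the random variables
  obtain ⟨Φ, hΦ⟩ : ∃ Φ : Ω → ℝ, Φ = fun ω =>
    PhiX κ c K₀ L ε (EE z₀ R L) {z | (z, ω) ∈ S} (fun u => W u ω) t := ⟨_, rfl⟩
  obtain ⟨Y, hY⟩ : ∃ Y : Ω → ℝ, Y = fun ω =>
    PhiX κ c K₀ L ε (EE z₀ R L) {z | (z, ω) ∈ S} (fun u => W u ω) (t + δ) +
      RwX κ c L ε (EE z₀ R L) {z | (z, ω) ∈ S} (fun u => W u ω) t δ := ⟨_, rfl⟩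
  obtain ⟨β₁, hβ₁⟩ : ∃ b : Ω → ℝ, b = fun ω =>
    BI L {z | (z, ω) ∈ S} (fun u => W u ω) t (derX κ c L ε (EE z₀ R L) (fun u => W u ω) t) :=
    ⟨_, rfl⟩
  obtain ⟨β₂, hβ₂⟩ : ∃ b : Ω → ℝ, b = fun ω =>
    BI L {z | (z, ω) ∈ S} (fun u => W u ω) t (der2X κ c L ε (EE z₀ R L) (fun u => W u ω) t) :=
    ⟨_, rfl⟩
  obtain ⟨γ₃, hγ₃⟩ : ∃ b : Ω → ℝ, b = fun ω =>
    BI L {z | (z, ω) ∈ S} (fun u => W u ω) t (genX κ c L ε (EE z₀ R L) (fun u => W u ω) t) :=
    ⟨_, rfl⟩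
  obtain ⟨ν, hν⟩ : ∃ b : Ω → ℝ, b = fun ω => N2 L ϰ (EE z₀ R L) (fun u => W u ω) t :=
    ⟨_, rfl⟩
  obtain ⟨β₃, hβ₃⟩ : ∃ b : Ω → ℝ, b = fun ω => γ₃ ω - min (K₀ / 10 * ν ω) M := ⟨_, rfl⟩
  have pΦ : Measurable[past W t] Φ := by
    rw [hΦ]; exact PhiX_past h0 h8 hcW hmW ht K₀ (EE z₀ R L) hSm
  have p₁ : Measurable[past W t] β₁ := by
    rw [hβ₁]
    exact (setint_past hSm (derX_joint h0 h8 hcW hmW ht (EE z₀ R L))).div_const _
  have p₂ : Measurable[past W t] β₂ := by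
    rw [hβ₂]
    exact (setint_past hSm (der2X_joint h0 h8 hcW hmW ht (EE z₀ R L))).div_const _
  have pγ : Measurable[past W t] γ₃ := by
    rw [hγ₃]
    exact (setint_past hSm (genX_joint h0 h8 hcW hmW ht (EE z₀ R L))).div_const _
  have pν : Measurable[past W t] ν := by
    rw [hν]; exact N2_past hcW hmW ht ϰ (EE z₀ R L)
  have p₃ : Measurable[past W t] β₃ := by
    rw [hβ₃]
    exact pγ.sub ((pν.const_mul _).min measurable_const)
  have hν0 : ∀ ω, 0 ≤ ν ω := fun ω => by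
    rw [hν]; exact N2_nonneg (hSA ω) hϰ
  -- the bounds at time `t` on `A`
  have hbd : ∀ ω ∈ A, |Φ ω| ≤ CΦ ∧ |β₁ ω| ≤ C ∧ |β₂ ω| ≤ C ∧ |β₃ ω| ≤ C ∧
      β₃ ω + κ / 2 * β₁ ω ^ 2 ≤ 0 := by
    intro ω hω
    have hd0 : 0 < min d₁ (ϰ / 16) := lt_min hd₁ (by positivity)
    have hH := H (hSA ω) (hAdm ω hω)
    obtain ⟨δ', hδ'0, hδ'1, hδ'⟩ : ∃ δ' : ℝ, 0 < δ' ∧ δ' ≤ d₁ ∧
        ∀ u ∈ Icc t (t + δ'), |W u ω - W t ω| ≤ ϰ / 16 := by
      have hcont : Tendsto (fun u => |W u ω - W t ω|) (𝓝 t) (𝓝 0) := by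
        have : Continuous fun u => |W u ω - W t ω| := ((hcW ω).sub continuous_const).abs
        have h5 := this.tendsto t
        simpa only [sub_self, abs_zero] using h5
      have hev : ∀ᶠ u in 𝓝 t, |W u ω - W t ω| < ϰ / 16 :=
        hcont.eventually (gt_mem_nhds (by positivity))
      obtain ⟨r, hr, hr'⟩ := Metric.eventually_nhds_iff.1 hev
      refine ⟨min (r / 2) d₁, lt_min (by (clear * - hr; positivity)) hd₁, min_le_right _ _, fun u hu => ?_⟩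
      refine (hr' ?_).le
      rw [Real.dist_eq, abs_of_nonneg (by linarith only [hu.1])]
      have := min_le_left (r / 2) d₁
      linarith only [hr, this, hu.2]
    obtain ⟨-, f1, f2, f3⟩ := H₁ (hSA ω) (hAdm ω hω) hδ'0 hδ'1 (by positivity) le_rfl hδ'
    have e1 : β₁ ω = BI L {z | (z, ω) ∈ S} (fun u => W u ω) t
        (derX κ c L ε (EE z₀ R L) (fun u => W u ω) t) := by rw [hβ₁]
    have e2 : β₂ ω = BI L {z | (z, ω) ∈ S} (fun u => W u ω) t
        (der2X κ c L ε (EE z₀ R L) (fun u => W u ω) t) := by rw [hβ₂]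
    have e3 : γ₃ ω = BI L {z | (z, ω) ∈ S} (fun u => W u ω) t
        (genX κ c L ε (EE z₀ R L) (fun u => W u ω) t) := by rw [hγ₃]
    have e4 : ν ω = N2 L ϰ (EE z₀ R L) (fun u => W u ω) t := by rw [hν]
    have e5 : β₃ ω = γ₃ ω - min (K₀ / 10 * ν ω) M := by rw [hβ₃]
    rw [← e1] at f1 hH
    rw [← e2] at f2
    rw [← e3] at f3 hH
    rw [← e4] at hH
    have g1 : β₁ ω ^ 2 ≤ C₁ ^ 2 := by
      rw [← sq_abs]
      (clear * - f1; gcongr)
    have g2 : γ₃ ω + κ / 2 * β₁ ω ^ 2 ≤ M := by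
      have := (abs_le.1 f3).2
      have : κ / 2 * β₁ ω ^ 2 ≤ κ / 2 * C₁ ^ 2 := by (clear * - g1 h0; gcongr)
      rw [hM]
      (clear c K₀ ε h8 hc hK z₀ R L ϰ hL hR hz hϰ H d₁ hC₁ hd₁ H₁ C₂ d₂ hC₂ hd₂ H₂ CΦ hCΦ H₃ M hM hM0 C hCdef hKC hC hC₁C C' hC' HQ c₁ hc₁ O₁ c₃ hc₃ O₃ P W hW t δ ht hδ hδd A hA Ξ hΞ hΞ0 S hSm hAdm hδd₁ hδd₂ hδ1 hcW hmW hple hSA B hB Φ hΦ Y hY hβ₁ β₂ hβ₂ hγ₃ ν hν β₃ hβ₃ pΦ p₁ p₂ pγ pν p₃ hν0 hω hd0 hH δ' hδ'0 hδ'1 hδ' f2 e1 e2 e3 e4 e5; linarith)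
    have g3 : γ₃ ω + κ / 2 * β₁ ω ^ 2 ≤ min (K₀ / 10 * ν ω) M := le_min hH g2
    have g4 : 0 ≤ min (K₀ / 10 * ν ω) M := by
      have := hν0 ω
      exact le_min (by (clear * - hK this; positivity)) hM0.le
    refine ⟨?_, f1.trans hC₁C, f2.trans hC₁C, ?_, ?_⟩
    · rw [hΦ]; exact H₃ (hSA ω) (hAdm ω hω)
    · rw [e5]
      refine (abs_sub _ _).trans ?_
      rw [abs_of_nonneg g4, hCdef]
      have := min_le_right (K₀ / 10 * ν ω) M
      linarith only [hKC, f3, this]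
    · rw [e5]; linarith only [g3]
  -- the one-step bound on `A ∩ {osc ≤ ϰ/16}`
  have hstep : ∀ ω ∈ A, osc W t δ ω ≤ ϰ / 16 → Y ω - Φ ω ≤
      -(W (t + δ) ω - W t ω) * β₁ ω + ((W (t + δ) ω - W t ω) ^ 2 / 2 * β₂ ω +
        δ * (β₃ ω - κ / 2 * β₂ ω + 0) +
        2 * C * (δ ^ 2 + δ * osc W t δ ω + osc W t δ ω ^ 3)) := by
    intro ω hω ho
    have ho0 : 0 ≤ osc W t δ ω := hW.osc_nonneg hδ.le ω
    obtain ⟨f1, -, -, -⟩ := H₁ (hSA ω) (hAdm ω hω) hδ hδd₁ ho0 ho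
      (fun u hu => hW.le_osc ω hu)
    have f2 := H₂ (hSA ω) hδ hδd₂ ho0 ho (fun u hu => hW.le_osc ω hu)
    have e1 : β₁ ω = BI L {z | (z, ω) ∈ S} (fun u => W u ω) t
        (derX κ c L ε (EE z₀ R L) (fun u => W u ω) t) := by rw [hβ₁]
    have e2 : β₂ ω = BI L {z | (z, ω) ∈ S} (fun u => W u ω) t
        (der2X κ c L ε (EE z₀ R L) (fun u => W u ω) t) := by rw [hβ₂]
    have e3 : γ₃ ω = BI L {z | (z, ω) ∈ S} (fun u => W u ω) t
        (genX κ c L ε (EE z₀ R L) (fun u => W u ω) t) := by rw [hγ₃]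
    have e4 : ν ω = N2 L ϰ (EE z₀ R L) (fun u => W u ω) t := by rw [hν]
    have e5 : β₃ ω = γ₃ ω - min (K₀ / 10 * ν ω) M := by rw [hβ₃]
    rw [← e1, ← e2, ← e3] at f1
    rw [← e4] at f2
    have g1 := (abs_le.1 f1).2
    have e6 : Φ ω = PhiX κ c K₀ L ε (EE z₀ R L) {z | (z, ω) ∈ S} (fun u => W u ω) t := by
      rw [hΦ]
    have e7 : Y ω = PhiX κ c K₀ L ε (EE z₀ R L) {z | (z, ω) ∈ S} (fun u => W u ω) (t + δ) +
      RwX κ c L ε (EE z₀ R L) {z | (z, ω) ∈ S} (fun u => W u ω) t δ := by rw [hY]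
    unfold PhiX at e6 e7
    have g2 := mul_le_mul_of_nonneg_left f2 hK
    have g3 : min (K₀ / 10 * ν ω) M ≤ K₀ / 5 * ν ω := by
      refine (min_le_left _ _).trans ?_
      have := hν0 ω
      have h5 : 0 ≤ K₀ / 10 * ν ω := by (clear * - hK this; positivity)
      linarith only [h5]
    have g4 := mul_le_mul_of_nonneg_left g3 hδ.le
    have herr : 0 ≤ δ ^ 2 + δ * osc W t δ ω + osc W t δ ω ^ 3 := by (clear * - hδ ho0; positivity)
    have g5 : (C₁ + K₀ * C₂) * (δ ^ 2 + δ * osc W t δ ω + osc W t δ ω ^ 3) ≤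
        2 * C * (δ ^ 2 + δ * osc W t δ ω + osc W t δ ω ^ 3) := by
      refine mul_le_mul_of_nonneg_right ?_ herr
      rw [hCdef]
      linarith only [hC₁, hM0, hKC]
    rw [e6, e7, e5]
    linarith only [g1, g2, g4, g5]
  -- the truncated variables
  have hA' : MeasurableSet A := hple _ hA
  obtain ⟨g, hg⟩ : ∃ g : Ω → ℝ, g = A.indicator fun ω => Ξ ω * Real.exp (Φ ω) := ⟨_, rfl⟩
  obtain ⟨b1, hb1⟩ : ∃ b : Ω → ℝ, b = A.indicator β₁ := ⟨_, rfl⟩
  obtain ⟨b2, hb2⟩ : ∃ b : Ω → ℝ, b = A.indicator β₂ := ⟨_, rfl⟩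
  obtain ⟨b3, hb3⟩ : ∃ b : Ω → ℝ, b = A.indicator β₃ := ⟨_, rfl⟩
  have mg : Measurable[past W t] g := by
    rw [hg]
    exact (hΞ.mul (Real.measurable_exp.comp pΦ)).indicator hA
  have m1 : Measurable[past W t] b1 := by rw [hb1]; exact p₁.indicator hA
  have m2 : Measurable[past W t] b2 := by rw [hb2]; exact p₂.indicator hA
  have m3 : Measurable[past W t] b3 := by rw [hb3]; exact p₃.indicator hA
  have m4 : Measurable[past W t] (fun _ : Ω => (0 : ℝ)) := measurable_const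
  have hg0 : ∀ ω, 0 ≤ g ω := by
    intro ω
    rw [hg]
    exact indicator_nonneg (fun ω _ => mul_nonneg (hΞ0 ω) (Real.exp_pos _).le) ω
  have hgB : ∀ ω, g ω ≤ |B| * Real.exp CΦ := by
    intro ω
    rw [hg]
    by_cases hω : ω ∈ A
    · rw [indicator_of_mem hω]
      have h5 := (abs_le.1 (hbd ω hω).1).2
      exact mul_le_mul ((hB ω hω).trans (le_abs_self _)) (Real.exp_le_exp.2 h5)
        (Real.exp_pos _).le (abs_nonneg _)
    · rw [indicator_of_notMem hω]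
      (clear * -; positivity)
  have hbi : ∀ {b β : Ω → ℝ}, b = A.indicator β → (∀ ω ∈ A, |β ω| ≤ C) → ∀ ω, |b ω| ≤ C := by
    intro b β hb hβ ω
    rw [hb]
    by_cases hω : ω ∈ A
    · rw [indicator_of_mem hω]; exact hβ ω hω
    · rw [indicator_of_notMem hω, abs_zero]; exact hC.le
  have h1 := hbi hb1 fun ω hω => (hbd ω hω).2.1
  have h2 := hbi hb2 fun ω hω => (hbd ω hω).2.2.1
  have h3 := hbi hb3 fun ω hω => (hbd ω hω).2.2.2.1
  have h4 : ∀ _ : Ω, |(0 : ℝ)| ≤ C := fun _ => by rw [abs_zero]; exact hC.le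
  have hdr : ∀ ω, b3 ω + 0 + κ / 2 * b1 ω ^ 2 ≤ 0 := by
    intro ω
    rw [hb1, hb3]
    by_cases hω : ω ∈ A
    · rw [indicator_of_mem hω, indicator_of_mem hω, add_zero]
      exact (hbd ω hω).2.2.2.2
    · rw [indicator_of_notMem hω, indicator_of_notMem hω]
      simp
  -- expectation of the majorant
  obtain ⟨io1, eo1⟩ := O₁ hW t δ ht hδ.le
  obtain ⟨io3, eo3⟩ := O₃ hW t δ ht hδ.le
  simp only [pow_one] at io1 eo1
  obtain ⟨iQ, eQ⟩ := estep_expect h0 hC' hW ht hδ hδ1 io1 eo1 io3 eo3 hg0 hgB mg m1 m2 m3 m4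
    h1 h2 h3 h4 hdr
  obtain ⟨Q, hQ⟩ : ∃ Q : Ω → ℝ, Q = fun ω => 1 - (W (t + δ) ω - W t ω) * b1 ω +
      (W (t + δ) ω - W t ω) ^ 2 / 2 * (b2 ω + b1 ω ^ 2) + δ * (b3 ω - κ / 2 * b2 ω + 0) +
        C' * (δ ^ 2 + δ * osc W t δ ω + osc W t δ ω ^ 3) := ⟨_, rfl⟩
  have hηo : ∀ ω, |W (t + δ) ω - W t ω| ≤ osc W t δ ω := fun ω =>
    hW.le_osc ω ⟨by linarith only [hδ], le_rfl⟩
  have hQ0 : ∀ ω, 0 ≤ Q ω := by
    intro ω
    rw [hQ]
    exact (HQ _ _ _ _ _ _ _ (h1 ω) (h2 ω) (h3 ω) (h4 ω) (hηo ω) hδ.le hδ1).1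
  have hmaj : ∀ ω ∈ A ∩ {ω | osc W t δ ω ≤ ϰ / 16}, Ξ ω * Real.exp (Y ω) ≤ g ω * Q ω := by
    intro ω hω
    obtain ⟨hωA, hωo⟩ := hω
    have hωo8 : osc W t δ ω ≤ ϰ / 8 := by
      have : osc W t δ ω ≤ ϰ / 16 := hωo
      linarith only [hϰ, this]
    have h5 := (HQ _ _ _ _ _ _ _ (h1 ω) (h2 ω) (h3 ω) (h4 ω) (hηo ω) hδ.le hδ1).2
      (Y ω - Φ ω) hωo8 (by
        have h6 := hstep ω hωA hωo
        rw [hb1, hb2, hb3, indicator_of_mem hωA, indicator_of_mem hωA, indicator_of_mem hωA]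
        exact h6)
    have h6 : Ξ ω * Real.exp (Y ω) = g ω * Real.exp (Y ω - Φ ω) := by
      rw [hg, indicator_of_mem hωA, mul_assoc, ← Real.exp_add]
      congr 2
      ring
    rw [h6, hQ]
    exact mul_le_mul_of_nonneg_left h5 (hg0 ω)
  have hmS : MeasurableSet {ω | osc W t δ ω ≤ ϰ / 16} :=
    measurableSet_le ((hW.meas_osc hδ.le).mono hW.fut_le le_rfl) measurable_const
  have hgi : Integrable g P := by
    have := hW.prob
    refine Integrable.of_bound (mg.mono hple le_rfl).aestronglyMeasurable (|B| * Real.exp CΦ)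
      (Eventually.of_forall fun ω => ?_)
    rw [Real.norm_eq_abs, abs_of_nonneg (hg0 ω)]
    exact hgB ω
  have iQ' : Integrable (fun ω => g ω * Q ω) P := by rw [hQ]; exact iQ
  have eQ' : ∫ ω, g ω * Q ω ∂P ≤ (1 + C' * (1 + c₁ + c₃) * δ * √δ) * ∫ ω, g ω ∂P := by
    rw [hQ]; exact eQ
  have hfin : ∫⁻ ω in A ∩ {ω | osc W t δ ω ≤ ϰ / 16}, ENNReal.ofReal (Ξ ω * Real.exp (Y ω)) ∂P ≤
      ENNReal.ofReal (1 + C' * (1 + c₁ + c₃) * δ * √δ) *
          ∫⁻ ω in A, ENNReal.ofReal (Ξ ω * Real.exp (Φ ω)) ∂P := by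
    calc ∫⁻ ω in A ∩ {ω | osc W t δ ω ≤ ϰ / 16}, ENNReal.ofReal (Ξ ω * Real.exp (Y ω)) ∂P
        ≤ ∫⁻ ω in A ∩ {ω | osc W t δ ω ≤ ϰ / 16}, ENNReal.ofReal (g ω * Q ω) ∂P := by
          refine setLIntegral_mono' (hA'.inter hmS) fun ω hω => ?_
          exact ENNReal.ofReal_le_ofReal (hmaj ω hω)
      _ ≤ ∫⁻ ω, ENNReal.ofReal (g ω * Q ω) ∂P := setLIntegral_le_lintegral _ _
      _ = ENNReal.ofReal (∫ ω, g ω * Q ω ∂P) :=
          (ofReal_integral_eq_lintegral_ofReal iQ'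
            (Eventually.of_forall fun ω => mul_nonneg (hg0 ω) (hQ0 ω))).symm
      _ ≤ ENNReal.ofReal ((1 + C' * (1 + c₁ + c₃) * δ * √δ) * ∫ ω, g ω ∂P) :=
          ENNReal.ofReal_le_ofReal eQ'
      _ = ENNReal.ofReal (1 + C' * (1 + c₁ + c₃) * δ * √δ) * ENNReal.ofReal (∫ ω, g ω ∂P) :=
          ENNReal.ofReal_mul (by (clear * - hC' hc₁ hc₃ hδ; positivity))
      _ = ENNReal.ofReal (1 + C' * (1 + c₁ + c₃) * δ * √δ) * ∫⁻ ω, ENNReal.ofReal (g ω) ∂P := by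
          rw [ofReal_integral_eq_lintegral_ofReal hgi (Eventually.of_forall hg0)]
      _ = _ := by
          congr 1
          rw [← lintegral_indicator hA']
          refine lintegral_congr fun ω => ?_
          rw [hg]
          by_cases hω : ω ∈ A
          · rw [indicator_of_mem hω, indicator_of_mem hω]
          · rw [indicator_of_notMem hω, indicator_of_notMem hω, ENNReal.ofReal_zero]
  rw [hY, hΦ] at hfin
  exact hfin

end Vale.Agent.P164
end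

section

/-!
# X-B6. Iteration over a grid
-/

namespace Vale.Agent.P164

open Set Metric Filter Topology MeasureTheory ProbabilityTheory
open scoped NNReal ENNReal

/-- The points of `D` which are alive with `|Z| ≥ ϰ` at the grid times `t₀ + i δ`, `i ≤ j`. -/
def alvX {Ω : Type*} (W : ℝ → Ω → ℝ) (D : Set ℂ) (ϰ t₀ δ : ℝ) : ℕ → Set (ℂ × Ω)
  | 0 => {p | p.1 ∈ D ∧ p.1 ∈ loewnerDomain (fun u => W u p.2) t₀ ∧
      ϰ ≤ ‖Zf (fun u => W u p.2) p.1 t₀‖}
  | j + 1 => alvX W D ϰ t₀ δ j ∩ {p | p.1 ∈ loewnerDomain (fun u => W u p.2) (t₀ + j * δ + δ) ∧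
      ϰ ≤ ‖Zf (fun u => W u p.2) p.1 (t₀ + j * δ + δ)‖}

/-- The event that the oscillations of the steps `i < j` are small. -/
def oscX {Ω : Type*} (W : ℝ → Ω → ℝ) (ϰ t₀ δ : ℝ) (A : Set Ω) : ℕ → Set Ω
  | 0 => A
  | j + 1 => oscX W ϰ t₀ δ A j ∩ {ω | osc W (t₀ + j * δ) δ ω ≤ ϰ / 16}

/-- The accumulated reward. -/
noncomputable def sX {Ω : Type*} (κ c L ε : ℝ) (E D : Set ℂ) (W : ℝ → Ω → ℝ) (ϰ t₀ δ : ℝ) :
    ℕ → Ω → ℝ
  | 0 => fun _ => 0
  | j + 1 => fun ω => sX κ c L ε E D W ϰ t₀ δ j ω +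
      RwX κ c L ε E {z | (z, ω) ∈ alvX W D ϰ t₀ δ j} (fun u => W u ω) (t₀ + j * δ) δ

section

variable {Ω : Type*} {κ c L ε : ℝ} {E D : Set ℂ} {W : ℝ → Ω → ℝ} {ϰ t₀ δ : ℝ} {A : Set Ω}

lemma eiterx_cast (t₀ δ : ℝ) (j : ℕ) : t₀ + ((j + 1 : ℕ) : ℝ) * δ = t₀ + j * δ + δ := by
  push_cast
  ring

lemma eiterx_prod_mono {m m' : MeasurableSpace Ω} (h : m ≤ m') {S : Set (ℂ × Ω)}
    (hS : @MeasurableSet (ℂ × Ω) (@Prod.instMeasurableSpace ℂ Ω _ m) S) :
    @MeasurableSet (ℂ × Ω) (@Prod.instMeasurableSpace ℂ Ω _ m') S := by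
  have h1 : @Prod.instMeasurableSpace ℂ Ω _ m ≤ @Prod.instMeasurableSpace ℂ Ω _ m' :=
    sup_le_sup le_rfl (MeasurableSpace.comap_mono h)
  exact h1 _ hS

lemma eiterx_fst {m : MeasurableSpace Ω} (hD : MeasurableSet D) :
    @MeasurableSet (ℂ × Ω) (@Prod.instMeasurableSpace ℂ Ω _ m) {p | p.1 ∈ D} :=
  measurable_fst hD

lemma eiterx_inter {m : MeasurableSpace Ω} {S T : Set (ℂ × Ω)}
    (hS : @MeasurableSet (ℂ × Ω) (@Prod.instMeasurableSpace ℂ Ω _ m) S)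
    (hT : @MeasurableSet (ℂ × Ω) (@Prod.instMeasurableSpace ℂ Ω _ m) T) :
    @MeasurableSet (ℂ × Ω) (@Prod.instMeasurableSpace ℂ Ω _ m) (S ∩ T) := hS.inter hT

lemma eiterx_slice {m : MeasurableSpace Ω} {S : Set (ℂ × Ω)}
    (hS : @MeasurableSet (ℂ × Ω) (@Prod.instMeasurableSpace ℂ Ω _ m) S) (ω : Ω) :
    MeasurableSet {z | (z, ω) ∈ S} :=
  measurable_prodMk_right hS

lemma eiterx_far [MeasurableSpace Ω] (hcW : ∀ ω, Continuous fun t => W t ω)
    (hmW : ∀ t, Measurable (W t)) {t : ℝ} (ht : 0 ≤ t) :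
    @MeasurableSet (ℂ × Ω) (@Prod.instMeasurableSpace ℂ Ω _ (past W t))
      {p | p.1 ∈ loewnerDomain (fun u => W u p.2) t ∧ ϰ ≤ ‖Zf (fun u => W u p.2) p.1 t‖} := by
  have hB : MeasurableSet {x : ℂ × ℝ | ϰ ≤ ‖x.1‖} :=
    measurableSet_le measurable_const measurable_fst.norm
  exact alive_joint hcW hmW ht hB

lemma eiterx_alv_meas [MeasurableSpace Ω] (hcW : ∀ ω, Continuous fun t => W t ω)
    (hmW : ∀ t, Measurable (W t)) (hD : MeasurableSet D) (ht₀ : 0 ≤ t₀) (hδ : 0 ≤ δ) (j : ℕ) :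
    @MeasurableSet (ℂ × Ω) (@Prod.instMeasurableSpace ℂ Ω _ (past W (t₀ + j * δ)))
      (alvX W D ϰ t₀ δ j) := by
  induction j with
  | zero =>
    have h2 : (t₀ + ((0 : ℕ) : ℝ) * δ) = t₀ := by simp
    rw [h2]
    exact eiterx_inter (eiterx_fst hD) (eiterx_far hcW hmW ht₀)
  | succ j ih =>
    have h0 : 0 ≤ t₀ + j * δ := by (clear * - ht₀ hδ; positivity)
    rw [eiterx_cast]
    exact eiterx_inter (eiterx_prod_mono (past_mono (by linarith only [hδ])) ih)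
      (eiterx_far hcW hmW (by linarith))

lemma eiterx_alv_anti (j : ℕ) : alvX W D ϰ t₀ δ (j + 1) ⊆ alvX W D ϰ t₀ δ j := inter_subset_left

lemma eiterx_alv_sub (j : ℕ) {z : ℂ} {ω : Ω} (h : (z, ω) ∈ alvX W D ϰ t₀ δ j) : z ∈ D := by
  induction j with
  | zero => exact h.1
  | succ j ih => exact ih h.1

lemma eiterx_alv_at (j : ℕ) {z : ℂ} {ω : Ω} (h : (z, ω) ∈ alvX W D ϰ t₀ δ j) :
    z ∈ loewnerDomain (fun u => W u ω) (t₀ + j * δ) ∧
      ϰ ≤ ‖Zf (fun u => W u ω) z (t₀ + j * δ)‖ := by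
  cases j with
  | zero =>
    have h2 : (t₀ + ((0 : ℕ) : ℝ) * δ) = t₀ := by simp
    rw [h2]
    exact h.2
  | succ j =>
    rw [eiterx_cast]
    exact h.2

lemma eiterx_adm [MeasurableSpace Ω] (hcW : ∀ ω, Continuous fun t => W t ω)
    (hmW : ∀ t, Measurable (W t)) {z₀ : ℂ} {R : ℝ} (ht₀ : 0 ≤ t₀) (hδ : 0 ≤ δ) (j : ℕ) (ω : Ω) :
    Adm (fun u => W u ω) (t₀ + j * δ) z₀ R L ϰ {z | (z, ω) ∈ alvX W (DD z₀ R L) ϰ t₀ δ j} where
  meas := eiterx_slice (eiterx_alv_meas hcW hmW measurableSet_ball ht₀ hδ j) ω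
  sub := fun _ hz => eiterx_alv_sub j hz
  alive := fun _ hz => (eiterx_alv_at j hz).1
  far := fun _ hz => (eiterx_alv_at j hz).2

lemma eiterx_osc_meas [MeasurableSpace Ω] (hcW : ∀ ω, Continuous fun t => W t ω)
    (ht₀ : 0 ≤ t₀) (hδ : 0 ≤ δ) (hA : MeasurableSet[past W t₀] A) (j : ℕ) :
    MeasurableSet[past W (t₀ + j * δ)] (oscX W ϰ t₀ δ A j) := by
  induction j with
  | zero =>
    have h2 : (t₀ + ((0 : ℕ) : ℝ) * δ) = t₀ := by simp
    rw [h2]
    exact hA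
  | succ j ih =>
    have h0 : 0 ≤ t₀ + j * δ := by (clear * - ht₀ hδ; positivity)
    rw [eiterx_cast]
    have h3 := past_mono (W := W) (show t₀ + j * δ ≤ t₀ + j * δ + δ by linarith) _ ih
    have h4 := ethm_meas_osc hcW h0 hδ (ϰ / 16)
    exact @MeasurableSet.inter Ω (past W (t₀ + j * δ + δ)) _ _ h3 h4

lemma eiterx_sX_meas [MeasurableSpace Ω] (h0 : 0 < κ) (h8 : κ < 8)
    (hcW : ∀ ω, Continuous fun t => W t ω) (hmW : ∀ t, Measurable (W t)) (hD : MeasurableSet D)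
    (ht₀ : 0 ≤ t₀) (hδ : 0 ≤ δ) (j : ℕ) :
    Measurable[past W (t₀ + j * δ)] (sX κ c L ε E D W ϰ t₀ δ j) := by
  induction j with
  | zero => exact @measurable_const _ _ _ (past W (t₀ + (0 : ℕ) * δ)) 0
  | succ j ih =>
    have h1 : 0 ≤ t₀ + j * δ := by (clear * - ht₀ hδ; positivity)
    rw [eiterx_cast]
    have h3 : Measurable[past W (t₀ + j * δ + δ)] (sX κ c L ε E D W ϰ t₀ δ j) :=
      ih.mono (past_mono (W := W) (show t₀ + j * δ ≤ t₀ + j * δ + δ by linarith only [hδ])) le_rfl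
    have h4 := RwX_past (c := c) (L := L) (ε := ε) h0 h8 hcW hmW h1 hδ E
      (eiterx_alv_meas (ϰ := ϰ) hcW hmW hD ht₀ hδ j)
    exact @ethm_meas_add Ω (past W (t₀ + j * δ + δ)) _ _ h3 h4

end

section

variable {κ c L ε R : ℝ} {z₀ : ℂ}

lemma eiterx_fX_bdd (h0 : 0 < κ) (h8 : κ < 8) (c L ε : ℝ) : ∃ C : ℝ, 0 ≤ C ∧
    ∀ (Z : ℂ), 0 < Z.im → ∀ U : ℝ, |fX κ c L ε Z U| ≤ C := by
  choose B hB using fun i => (bandX (c := c) (L := L) (ε := ε) h0 h8 i).bdd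
  refine ⟨∑ i, |B i|, Finset.sum_nonneg fun i _ => abs_nonneg _, fun Z hZ U => ?_⟩
  unfold fX EF
  refine (Finset.abs_sum_le_sum_abs _ _).trans (Finset.sum_le_sum fun i _ => ?_)
  have hs0 : 0 < sn Z := sn_pos hZ
  have hs1 : sn Z ^ pv κ i ≤ 1 := Real.rpow_le_one hs0.le (sn_le_one _) (pv_nonneg h0 h8 i)
  have hs2 : 0 ≤ sn Z ^ pv κ i := Real.rpow_nonneg hs0.le _
  rw [abs_mul, abs_of_nonneg hs2]
  calc |cX κ c L ε i U| * sn Z ^ pv κ i ≤ |B i| * 1 :=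
        mul_le_mul ((hB i U).1.trans (le_abs_self _)) hs1 hs2 (abs_nonneg _)
    _ = |B i| := mul_one _

lemma eiterx_fX_nonneg (hc : 0 ≤ c) {Z : ℂ} (hZ : 0 < Z.im) (U : ℝ) : 0 ≤ fX κ c L ε Z U := by
  rw [fX_eq]
  exact add_nonneg (f1X_nonneg hc hZ U) (f2X_nonneg hc hZ U)

lemma eiterx_fom_bd {W : ℝ → ℝ} {t : ℝ} (S : SA W t z₀ R L) {C : ℝ} (hC : 0 ≤ C)
    (h : ∀ (Z : ℂ), 0 < Z.im → ∀ U : ℝ, |fX κ c L ε Z U| ≤ C) {z : ℂ}
    (hz : z ∈ loewnerDomain W t) :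
    |fX κ c L ε (Zf W z t) (Uf W z t) * om L (EE z₀ R L) W t (Zf W z t)| ≤ C := by
  have hZ : 0 < (Zf W z t).im := Zf_im_pos S.ht hz
  have h1 := om_pos S hZ
  have h2 := om_le_one S hZ
  rw [abs_mul, abs_of_pos h1]
  calc |fX κ c L ε (Zf W z t) (Uf W z t)| * om L (EE z₀ R L) W t (Zf W z t) ≤ C * 1 :=
        mul_le_mul (h _ hZ _) h2 h1.le hC
    _ = C := mul_one _

lemma eiterx_BI_nonneg {W : ℝ → ℝ} {t : ℝ} (S : SA W t z₀ R L) (hc : 0 ≤ c) {𝒬 : Set ℂ}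
    (hm : MeasurableSet 𝒬) :
    0 ≤ BI L 𝒬 W t (fun Z U => fX κ c L ε Z U * om L (EE z₀ R L) W t Z) := by
  refine BI_nonneg hm fun z _ hal => ?_
  have hZ : 0 < (Zf W z t).im := Zf_im_pos S.ht hal
  exact mul_nonneg (eiterx_fX_nonneg hc hZ _) (om_pos S hZ).le

lemma eiterx_BI_le {W : ℝ → ℝ} {t : ℝ} (S : SA W t z₀ R L) {C : ℝ} (hC : 0 ≤ C)
    (h : ∀ (Z : ℂ), 0 < Z.im → ∀ U : ℝ, |fX κ c L ε Z U| ≤ C) {𝒬 : Set ℂ}
    (hs : 𝒬 ⊆ DD z₀ R L) :
    BI L 𝒬 W t (fun Z U => fX κ c L ε Z U * om L (EE z₀ R L) W t Z) ≤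
      C * (volume (DD z₀ R L)).toReal / L ^ 2 := by
  have hv : volume (DD z₀ R L) < ⊤ := measure_ball_lt_top
  have h1 := norm_setIntegral_le_of_norm_le_const (μ := volume) (s := 𝒬) (C := C)
    (f := fun z => St (fun Z U => fX κ c L ε Z U * om L (EE z₀ R L) W t Z) W z t)
    ((measure_mono hs).trans_lt hv) (fun z _ => by
      by_cases hal : z ∈ loewnerDomain W t
      · rw [St_of_mem hal, Real.norm_eq_abs]
        exact eiterx_fom_bd S hC h hal
      · rw [St_of_not_mem hal, norm_zero]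
        exact hC)
  have h2 : volume.real 𝒬 ≤ (volume (DD z₀ R L)).toReal :=
    ENNReal.toReal_mono hv.ne (measure_mono hs)
  unfold BI
  refine div_le_div_of_nonneg_right ?_ (sq_nonneg L)
  refine (le_abs_self _).trans (h1.trans (mul_le_mul_of_nonneg_left h2 hC))

lemma eiterx_Phi_mono {W : ℝ → ℝ} {t : ℝ} (S : SA W t z₀ R L) (h0 : 0 < κ) (h8 : κ < 8)
    (hc : 0 ≤ c) (K₀ : ℝ) {𝒬 𝒬' : Set ℂ} (hm : MeasurableSet 𝒬) (hs : 𝒬 ⊆ DD z₀ R L)
    (hsub : 𝒬' ⊆ 𝒬) :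
    PhiX κ c K₀ L ε (EE z₀ R L) 𝒬' W t ≤ PhiX κ c K₀ L ε (EE z₀ R L) 𝒬 W t := by
  obtain ⟨C, hC, hb⟩ := eiterx_fX_bdd h0 h8 c L ε
  have hv : volume (DD z₀ R L) < ⊤ := measure_ball_lt_top
  have hi : IntegrableOn (fun z =>
      St (fun Z U => fX κ c L ε Z U * om L (EE z₀ R L) W t Z) W z t) 𝒬 :=
    St_int (E := 𝒬) S.hW S.ht (gen_meas h0 h8 S.hW S.ht (EE z₀ R L)).1 hm
      ((measure_mono hs).trans_lt hv).ne (C := C) fun z _ hal => eiterx_fom_bd S hC hb hal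
  have h1 : BI L 𝒬' W t (fun Z U => fX κ c L ε Z U * om L (EE z₀ R L) W t Z) ≤
      BI L 𝒬 W t (fun Z U => fX κ c L ε Z U * om L (EE z₀ R L) W t Z) := by
    unfold BI
    refine div_le_div_of_nonneg_right ?_ (sq_nonneg L)
    refine setIntegral_mono_set hi ?_ hsub.eventuallyLE
    refine Eventually.of_forall fun z => ?_
    by_cases hal : z ∈ loewnerDomain W t
    · simp only [Pi.zero_apply]
      rw [St_of_mem hal]
      have hZ : 0 < (Zf W z t).im := Zf_im_pos S.ht hal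
      exact mul_nonneg (eiterx_fX_nonneg hc hZ _) (om_pos S hZ).le
    · simp only [Pi.zero_apply]
      rw [St_of_not_mem hal]
  unfold PhiX
  linarith only [h1]

lemma eiterx_Phi_nonneg {W : ℝ → ℝ} {t : ℝ} (S : SA W t z₀ R L) (hc : 0 ≤ c) {K₀ : ℝ}
    (hK : 0 ≤ K₀) {𝒬 : Set ℂ} (hm : MeasurableSet 𝒬) :
    0 ≤ PhiX κ c K₀ L ε (EE z₀ R L) 𝒬 W t := by
  have h1 : 0 ≤ BI L (EE z₀ R L) W t (fun _ U => GG (U - Real.log L)) :=
    BI_nonneg measurableSet_ball fun z _ _ => GG_nonneg _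
  exact add_nonneg (eiterx_BI_nonneg S hc hm) (mul_nonneg hK h1)

end

/-- (B6) Induction on `N` with `e_stepX` (`Ξ = exp (sX j)` on `oscX j`, bounded there). -/
theorem e_iterX {κ c K₀ ε : ℝ} (h0 : 0 < κ) (h8 : κ < 8) (hc : 0 ≤ c) (hK : 0 ≤ K₀) {z₀ : ℂ}
    {R L ϰ : ℝ} (hL : 0 < L) (hR : 1 ≤ R) (hz : 3 * (R * L) ≤ z₀.im) (hϰ : 0 < ϰ)
    (H : ∀ {W : ℝ → ℝ} {t : ℝ} {𝒬 : Set ℂ}, SA W t z₀ R L → Adm W t z₀ R L ϰ 𝒬 →
      BI L 𝒬 W t (genX κ c L ε (EE z₀ R L) W t) +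
        κ / 2 * BI L 𝒬 W t (derX κ c L ε (EE z₀ R L) W t) ^ 2 ≤
          K₀ / 10 * N2 L ϰ (EE z₀ R L) W t) :
    ∃ C δ₀ : ℝ, 0 < C ∧ 0 < δ₀ ∧ ∀ {Ω : Type*} [MeasurableSpace Ω] {P : Measure Ω}
      {W : ℝ → Ω → ℝ} (_ : IsDrv κ P W) {t₀ δ : ℝ} (_ : 0 ≤ t₀) (_ : 0 < δ) (_ : δ ≤ δ₀)
      {A : Set Ω} (_ : MeasurableSet[past W t₀] A) (N : ℕ),
      ∫⁻ ω in oscX W ϰ t₀ δ A N, ENNReal.ofReal (Real.exp
          (sX κ c L ε (EE z₀ R L) (DD z₀ R L) W ϰ t₀ δ N ω)) ∂P ≤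
        ENNReal.ofReal (Real.exp (N * (C * δ * √δ))) *
          ∫⁻ ω in A, ENNReal.ofReal (Real.exp
            (PhiX κ c K₀ L ε (EE z₀ R L) {z | (z, ω) ∈ alvX W (DD z₀ R L) ϰ t₀ δ 0}
              (fun u => W u ω) t₀)) ∂P := by
  obtain ⟨C, δ₀, hC, hδ₀, hstep⟩ := e_stepX (ε := ε) h0 h8 hc hK hL hR hz hϰ H
  obtain ⟨C₂, δ₂, hC₂, hδ₂, hphi⟩ := phi_step (ε := ε) h0 h8 hc hL hR hz hϰ
  obtain ⟨C₃, hC₃, hfb⟩ := eiterx_fX_bdd h0 h8 c L ε
  refine ⟨C, min δ₀ δ₂, hC, lt_min hδ₀ hδ₂, ?_⟩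
  intro Ω _ P W hW t₀ δ ht₀ hδ hδle A hA N
  have hδ1 : δ ≤ δ₀ := hδle.trans (min_le_left _ _)
  have hδ2 : δ ≤ δ₂ := hδle.trans (min_le_right _ _)
  have hcW := hW.cont
  have hmW := hW.meas
  have hSA : ∀ (ω : Ω) {t : ℝ}, 0 ≤ t → SA (fun u => W u ω) t z₀ R L := fun ω t ht =>
    ⟨hcW ω, ht, hL, hR, hz⟩
  have hadm : ∀ (j : ℕ) (ω : Ω), Adm (fun u => W u ω) (t₀ + j * δ) z₀ R L ϰ
      {z | (z, ω) ∈ alvX W (DD z₀ R L) ϰ t₀ δ j} := fun j ω =>
    eiterx_adm hcW hmW ht₀ hδ.le j ω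
  -- bound of the accumulated reward
  set B : ℝ := C₂ * (δ ^ 2 + δ * (ϰ / 16) + (ϰ / 16) ^ 3) +
    (C₃ * (volume (DD z₀ R L)).toReal / L ^ 2 + ϰ / 16 * C₂ + (ϰ / 16) ^ 2 / 2 * C₂ +
      δ * (C₂ + κ / 2 * C₂)) with hB
  have hS : ∀ j : ℕ, ∀ ω ∈ oscX W ϰ t₀ δ A j,
      sX κ c L ε (EE z₀ R L) (DD z₀ R L) W ϰ t₀ δ j ω ≤ j * B := by
    intro j
    induction j with
    | zero => intro ω _; simp only [sX, CharP.cast_eq_zero, zero_mul, Std.le_refl]
    | succ j ih =>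
      intro ω hω
      have h1 := ih ω hω.1
      have ht : 0 ≤ t₀ + j * δ := by (clear * - ht₀ hδ; positivity)
      have hosc : ∀ u ∈ Icc (t₀ + j * δ) (t₀ + j * δ + δ),
          |W u ω - W (t₀ + j * δ) ω| ≤ ϰ / 16 := fun u hu => (hW.le_osc ω hu).trans hω.2
      obtain ⟨g1, g2, g3, g4⟩ := hphi (hSA ω ht) (hadm j ω) hδ hδ2
        (by positivity : (0 : ℝ) ≤ ϰ / 16) le_rfl hosc
      have g5 := eiterx_BI_nonneg (κ := κ) (c := c) (ε := ε)
        (hSA ω (show 0 ≤ t₀ + j * δ + δ by linarith only [hδ, ht])) hc (hadm j ω).meas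
      have g6 := eiterx_BI_le (κ := κ) (c := c) (ε := ε) (hSA ω ht) hC₃ hfb (hadm j ω).sub
      have g7 := hosc (t₀ + j * δ + δ) ⟨by linarith only [hδ], le_rfl⟩
      set b0 := BI L {z | (z, ω) ∈ alvX W (DD z₀ R L) ϰ t₀ δ j} (fun u => W u ω) (t₀ + j * δ)
        (fun Z U => fX κ c L ε Z U * om L (EE z₀ R L) (fun u => W u ω) (t₀ + j * δ) Z)
      set b1 := BI L {z | (z, ω) ∈ alvX W (DD z₀ R L) ϰ t₀ δ j} (fun u => W u ω) (t₀ + j * δ)
        (derX κ c L ε (EE z₀ R L) (fun u => W u ω) (t₀ + j * δ))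
      set b2 := BI L {z | (z, ω) ∈ alvX W (DD z₀ R L) ϰ t₀ δ j} (fun u => W u ω) (t₀ + j * δ)
        (der2X κ c L ε (EE z₀ R L) (fun u => W u ω) (t₀ + j * δ))
      set b3 := BI L {z | (z, ω) ∈ alvX W (DD z₀ R L) ϰ t₀ δ j} (fun u => W u ω) (t₀ + j * δ)
        (genX κ c L ε (EE z₀ R L) (fun u => W u ω) (t₀ + j * δ))
      set w := W (t₀ + j * δ + δ) ω - W (t₀ + j * δ) ω
      have g8 : |w * b1| ≤ ϰ / 16 * C₂ := by
        rw [abs_mul]
        exact mul_le_mul g7 g2 (abs_nonneg _) (by positivity)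
      have g9 : |w ^ 2 / 2 * b2| ≤ (ϰ / 16) ^ 2 / 2 * C₂ := by
        rw [abs_mul, abs_of_nonneg (by (clear * -; positivity) : (0 : ℝ) ≤ w ^ 2 / 2)]
        refine mul_le_mul ?_ g3 (abs_nonneg _) (by positivity)
        have : w ^ 2 ≤ (ϰ / 16) ^ 2 := by
          rw [← sq_abs w]
          exact pow_le_pow_left₀ (abs_nonneg _) g7 2
        linarith only [this]
      have g10 : δ * (b3 - κ / 2 * b2) ≤ δ * (C₂ + κ / 2 * C₂) := by
        refine mul_le_mul_of_nonneg_left ?_ hδ.le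
        have h4 := (abs_le.1 g4).2
        have h5 := (abs_le.1 g3).1
        have h6 : -(κ / 2 * b2) ≤ κ / 2 * C₂ := by
          have := mul_le_mul_of_nonneg_left (show -b2 ≤ C₂ by linarith only [h5])
            (show (0 : ℝ) ≤ κ / 2 by positivity)
          linarith only [this]
        linarith only [h4, h6]
      have g11 := (abs_le.1 g1).2
      have g12 := (abs_le.1 g8).1
      have g13 := (abs_le.1 g9).2
      change sX κ c L ε (EE z₀ R L) (DD z₀ R L) W ϰ t₀ δ j ω +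
        RwX κ c L ε (EE z₀ R L) {z | (z, ω) ∈ alvX W (DD z₀ R L) ϰ t₀ δ j} (fun u => W u ω)
          (t₀ + j * δ) δ ≤ _
      push_cast
      linarith only [hB, h1, g5, g6, g10, g11, g12, g13]
  have key : ∀ j : ℕ,
      ∫⁻ ω in oscX W ϰ t₀ δ A j, ENNReal.ofReal
        (Real.exp (sX κ c L ε (EE z₀ R L) (DD z₀ R L) W ϰ t₀ δ j ω) *
          Real.exp (PhiX κ c K₀ L ε (EE z₀ R L) {z | (z, ω) ∈ alvX W (DD z₀ R L) ϰ t₀ δ j}
            (fun u => W u ω) (t₀ + j * δ))) ∂P ≤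
      ENNReal.ofReal ((1 + C * δ * √δ) ^ j) * ∫⁻ ω in A, ENNReal.ofReal (Real.exp
            (PhiX κ c K₀ L ε (EE z₀ R L) {z | (z, ω) ∈ alvX W (DD z₀ R L) ϰ t₀ δ 0}
              (fun u => W u ω) t₀)) ∂P := by
    intro j
    induction j with
    | zero =>
      have h2 : (t₀ + ((0 : ℕ) : ℝ) * δ) = t₀ := by simp
      rw [h2, pow_zero, ENNReal.ofReal_one, one_mul]
      simp only [sX, Real.exp_zero, one_mul]
      exact le_rfl
    | succ j ih =>
      have ht : 0 ≤ t₀ + j * δ := by (clear * - ht₀ hδ; positivity)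
      rw [eiterx_cast]
      have h3 := hstep hW ht hδ hδ1 (A := oscX W ϰ t₀ δ A j)
        (eiterx_osc_meas hcW ht₀ hδ.le hA j)
        (Ξ := fun ω => Real.exp (sX κ c L ε (EE z₀ R L) (DD z₀ R L) W ϰ t₀ δ j ω))
        (@ethm_meas_exp Ω (past W (t₀ + j * δ)) _
          (eiterx_sX_meas h0 h8 hcW hmW measurableSet_ball ht₀ hδ.le j))
        (fun ω => (Real.exp_pos _).le)
        ⟨_, fun ω hω => Real.exp_le_exp.2 (hS j ω hω)⟩
        (S := alvX W (DD z₀ R L) ϰ t₀ δ j)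
        (eiterx_alv_meas hcW hmW measurableSet_ball ht₀ hδ.le j)
        (fun ω _ => hadm j ω)
      calc _ ≤ ∫⁻ ω in oscX W ϰ t₀ δ A j ∩ {ω | osc W (t₀ + j * δ) δ ω ≤ ϰ / 16},
            ENNReal.ofReal (Real.exp (sX κ c L ε (EE z₀ R L) (DD z₀ R L) W ϰ t₀ δ j ω) *
              Real.exp (PhiX κ c K₀ L ε (EE z₀ R L)
                {z | (z, ω) ∈ alvX W (DD z₀ R L) ϰ t₀ δ j} (fun u => W u ω) (t₀ + j * δ + δ) +
                RwX κ c L ε (EE z₀ R L) {z | (z, ω) ∈ alvX W (DD z₀ R L) ϰ t₀ δ j}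
                  (fun u => W u ω) (t₀ + j * δ) δ)) ∂P := by
            refine lintegral_mono fun ω => ?_
            refine ENNReal.ofReal_le_ofReal ?_
            rw [← Real.exp_add, ← Real.exp_add, Real.exp_le_exp]
            have h4 := eiterx_Phi_mono (ε := ε) (hSA ω (show 0 ≤ t₀ + j * δ + δ by linarith only [hδ, ht]))
              h0 h8 hc K₀ (hadm j ω).meas (hadm j ω).sub
              (𝒬' := {z | (z, ω) ∈ alvX W (DD z₀ R L) ϰ t₀ δ (j + 1)})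
              (fun z hz' => eiterx_alv_anti j hz')
            change sX κ c L ε (EE z₀ R L) (DD z₀ R L) W ϰ t₀ δ j ω +
              RwX κ c L ε (EE z₀ R L) {z | (z, ω) ∈ alvX W (DD z₀ R L) ϰ t₀ δ j}
                (fun u => W u ω) (t₀ + j * δ) δ + _ ≤ _
            linarith only [h4]
        _ ≤ ENNReal.ofReal (1 + C * δ * √δ) * ∫⁻ ω in oscX W ϰ t₀ δ A j, ENNReal.ofReal
            (Real.exp (sX κ c L ε (EE z₀ R L) (DD z₀ R L) W ϰ t₀ δ j ω) *
              Real.exp (PhiX κ c K₀ L ε (EE z₀ R L)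
                {z | (z, ω) ∈ alvX W (DD z₀ R L) ϰ t₀ δ j} (fun u => W u ω) (t₀ + j * δ))) ∂P :=
            h3
        _ ≤ ENNReal.ofReal (1 + C * δ * √δ) * (ENNReal.ofReal ((1 + C * δ * √δ) ^ j) *
              ∫⁻ ω in A, ENNReal.ofReal (Real.exp
            (PhiX κ c K₀ L ε (EE z₀ R L) {z | (z, ω) ∈ alvX W (DD z₀ R L) ϰ t₀ δ 0}
              (fun u => W u ω) t₀)) ∂P) := by
            (clear * - ih; gcongr)
        _ = _ := by
            rw [← mul_assoc, ← ENNReal.ofReal_mul (by positivity), pow_succ']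
  have hfin : ENNReal.ofReal ((1 + C * δ * √δ) ^ N) ≤
      ENNReal.ofReal (Real.exp (N * (C * δ * √δ))) := by
    refine ENNReal.ofReal_le_ofReal ?_
    have h1 : 1 + C * δ * √δ ≤ Real.exp (C * δ * √δ) := by
      have := Real.add_one_le_exp (C * δ * √δ)
      linarith only [this]
    calc (1 + C * δ * √δ) ^ N ≤ (Real.exp (C * δ * √δ)) ^ N := by (clear * - hC hδ h1; gcongr)
      _ = Real.exp (N * (C * δ * √δ)) := by rw [← Real.exp_nat_mul]
  refine le_trans ?_ ((key N).trans (mul_le_mul_left hfin _))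
  refine lintegral_mono fun ω => ENNReal.ofReal_le_ofReal ?_
  have h4 := eiterx_Phi_nonneg (κ := κ) (c := c) (ε := ε)
    (hSA ω (show 0 ≤ t₀ + N * δ by (clear * - ht₀ hδ; positivity))) hc hK (hadm N ω).meas
  exact le_mul_of_one_le_right (Real.exp_pos _).le (Real.one_le_exp h4)

end Vale.Agent.P164
end
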