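import Vale.Agent.P164.MathlibUsed
import Vale.Agent.P164.Bdl.B10
import Vale.Agent.P164.Bdl.B5
import Vale.Agent.P164.Bdl.B1
import Vale.Agent.P164.Bdl.B3
import Vale.Agent.P164.X.Defs8
import Vale.Agent.P164.Bdl.B4
import Vale.Agent.P164.Bdl.B8

set_option linter.all false

section

/-!
# Discrete optional stopping for nonnegative supermartingales
-/

namespace Vale.Agent.P164

open Set MeasureTheory
open scoped ENNReal

variable {Ω : Type*} [MeasurableSpace Ω] {P : Measure Ω}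

/-- Discrete optional stopping for a family of nonnegative functions. `V i` is the value at time `i`; the events
`E i` are disjoint, `E i` is known at time `i`. -/
theorem optional_stopping {A : Set Ω} {N : ℕ} {V : ℕ → Ω → ℝ≥0∞} {E : ℕ → Set Ω}
    {m : ℕ → MeasurableSpace Ω} (hA : MeasurableSet[m 0] A)
    (hm : Monotone m) (hle : ∀ i, m i ≤ ‹MeasurableSpace Ω›)
    (hE : ∀ i, MeasurableSet[m i] (E i)) (hdisj : Pairwise (fun i j => Disjoint (E i) (E j)))
    (hV : ∀ i, ∀ S, MeasurableSet[m i] S → ∫⁻ ω in S, V (i + 1) ω ∂P ≤ ∫⁻ ω in S, V i ω ∂P) :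
    ∑ i ∈ Finset.range (N + 1), ∫⁻ ω in A ∩ E i, V i ω ∂P ≤ ∫⁻ ω in A, V 0 ω ∂P := by
  set R : ℕ → Set Ω := fun n => A \ ⋃ i ∈ Finset.range n, E i with hR
  have hR0 : R 0 = A := by simp only [hR, Finset.mem_range, not_lt_zero, iUnion_of_empty, iUnion_empty, sdiff_empty]
  have hRmeas : ∀ n, MeasurableSet[m n] (R n) := by
    intro n
    refine @MeasurableSet.diff Ω (m n) _ _ (hm (Nat.zero_le n) _ hA) ?_
    refine @Finset.measurableSet_biUnion Ω ℕ (m n) _ _ ?_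
    intro i hi
    exact hm (Finset.mem_range.1 hi).le _ (hE i)
  have hRsucc : ∀ n, R (n + 1) = R n \ E n := by
    intro n
    simp only [hR]
    ext x
    simp only [mem_sdiff, mem_iUnion, Finset.mem_range, not_exists]
    constructor
    · rintro ⟨hx, h⟩
      exact ⟨⟨hx, fun i hi => h i (hi.trans n.lt_succ_self)⟩, h n n.lt_succ_self⟩
    · rintro ⟨⟨hx, h⟩, h'⟩
      refine ⟨hx, fun i hi => ?_⟩
      rcases Nat.lt_succ_iff_lt_or_eq.1 hi with h1 | rfl
      · exact h i h1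
      · exact h'
  have hRE : ∀ n, R n ∩ E n = A ∩ E n := by
    intro n
    simp only [hR]
    ext x
    simp only [mem_inter_iff, mem_sdiff, mem_iUnion, Finset.mem_range, not_exists]
    constructor
    · rintro ⟨⟨hx, _⟩, h⟩
      exact ⟨hx, h⟩
    · rintro ⟨hx, h⟩
      refine ⟨⟨hx, fun i hi hi' => ?_⟩, h⟩
      exact (Set.disjoint_left.1 (hdisj hi.ne)) hi' h
  have key : ∀ n, ∑ i ∈ Finset.range n, ∫⁻ ω in A ∩ E i, V i ω ∂P + ∫⁻ ω in R n, V n ω ∂P ≤
      ∫⁻ ω in A, V 0 ω ∂P := by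
    intro n
    induction n with
    | zero => simp only [Finset.range_zero, Finset.sum_empty, hR0, zero_add, Std.le_refl]
    | succ n ih =>
      refine le_trans ?_ ih
      rw [Finset.sum_range_succ, add_assoc]
      refine add_le_add le_rfl ?_
      have h1 : ∫⁻ ω in R n ∩ E n, V n ω ∂P + ∫⁻ ω in R n \ E n, V n ω ∂P =
          ∫⁻ ω in R n, V n ω ∂P :=
        lintegral_inter_add_sdiff _ _ (hle n _ (hE n))
      rw [← h1, hRE, hRsucc]
      refine add_le_add le_rfl ?_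
      have h2 := hRmeas n
      exact hV n _ (@MeasurableSet.diff Ω (m n) _ _ h2 (hE n))
  exact le_trans (le_add_of_nonneg_right (zero_le)) (key (N + 1))

end Vale.Agent.P164
end

section

/-!
# The functional used for the recovery of the angle
-/

namespace Vale.Agent.P164

open Set Metric Filter Topology MeasureTheory ProbabilityTheory
open scoped NNReal ENNReal

/-- The recovery functional. -/
noncomputable def FR (κ u : ℝ) (Z : ℂ) (U : ℝ) : ℝ :=
  MM κ Z U * (Real.log (1 + Real.exp (u - U)) + 4 / κ * cs Z ^ 2)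

/-- Regularity only depends on the values in the upper half plane. -/
theorem Recover_congr {F G FX FXX FY FU : ℂ → ℝ → ℝ} (h : Reg G FX FXX FY FU)
    (hFG : ∀ (Z : ℂ) (U : ℝ), 0 < Z.im → F Z U = G Z U) : Reg F FX FXX FY FU := by
  refine ⟨fun Z U hZ => ?_, h.dXX, fun Z U hZ => ?_, fun Z U hZ => ?_, ?_, h.cX, h.cXX, h.cY,
    h.cU⟩
  · have e : (fun x : ℝ => F ⟨x, Z.im⟩ U) = fun x : ℝ => G ⟨x, Z.im⟩ U := by
      funext x
      exact hFG _ _ hZ
    rw [e]
    exact h.dX Z U hZ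
  · refine (h.dY Z U hZ).congr_of_eventuallyEq ?_
    filter_upwards [lt_mem_nhds hZ] with y hy
    exact hFG _ _ hy
  · have e : (fun u : ℝ => F Z u) = fun u : ℝ => G Z u := by
      funext x
      exact hFG _ _ hZ
    rw [e]
    exact h.dU Z U hZ
  · refine h.cF.congr fun x hx => ?_
    exact hFG _ _ hx.1

end Vale.Agent.P164
end

section

/-!
# The mass which drops before the angle is recovered
-/

namespace Vale.Agent.P164

open Set Metric Filter Topology MeasureTheory ProbabilityTheory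
open scoped NNReal ENNReal

/-- `l` is the first grid index `≥ i` at which the angle is recovered or `U ≤ v`. -/
def Rho {Ω : Type*} (δ v : ℝ) (W : ℝ → Ω → ℝ) (z : ℂ) (i l : ℕ) : Set Ω :=
  {ω | i ≤ l ∧ (1 / 2 ≤ sn (Zf (fun u => W u ω) z (l * δ)) ^ 2 ∨
      Uf (fun u => W u ω) z (l * δ) ≤ v) ∧
    ∀ j, i ≤ j → j < l → sn (Zf (fun u => W u ω) z (j * δ)) ^ 2 < 1 / 2 ∧
      v < Uf (fun u => W u ω) z (j * δ)}

/-- The compact set of states. -/
def Drop_K (ϰ : ℝ) (z : ℂ) : Set (ℂ × ℝ) :=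
  {x | ϰ ≤ x.1.im ∧ ‖x.1‖ ≤ 1 / ϰ ∧ -(1 / ϰ) ≤ x.2 ∧ x.2 ≤ Real.log z.im}

lemma Drop_K_compact (ϰ : ℝ) (z : ℂ) : IsCompact (Drop_K ϰ z) := by
  refine ((isCompact_closedBall (0 : ℂ) (1 / ϰ)).prod
    (isCompact_Icc (a := -(1 / ϰ)) (b := Real.log z.im))).of_isClosed_subset ?_ ?_
  · have c1 : Continuous fun x : ℂ × ℝ => x.1.im := Complex.continuous_im.comp continuous_fst
    have c2 : Continuous fun x : ℂ × ℝ => ‖x.1‖ := continuous_fst.norm
    exact (isClosed_le continuous_const c1).inter ((isClosed_le c2 continuous_const).inter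
      ((isClosed_le continuous_const continuous_snd).inter
        (isClosed_le continuous_snd continuous_const)))
  · rintro ⟨Z, U⟩ ⟨_, h2, h3, h4⟩
    exact ⟨by simpa only [one_div, mem_closedBall, dist_zero_right] using h2, h3, h4⟩

/-- The states before the recovery. -/
def Drop_S (v : ℝ) : Set (ℂ × ℝ) := {x | sn x.1 ^ 2 < 1 / 2 ∧ v < x.2}

lemma Drop_S_meas (v : ℝ) : MeasurableSet (Drop_S v) := by
  have h1 : Measurable fun p : ℂ × ℝ => sn p.1 := by
    unfold sn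
    exact (Complex.measurable_im.comp measurable_fst).div measurable_fst.norm
  exact (measurableSet_lt (h1.pow_const 2) measurable_const).inter
    (measurableSet_lt measurable_const measurable_snd)

lemma Drop_MM_nonneg (κ : ℝ) {Z : ℂ} (hZ : 0 < Z.im) (U : ℝ) : 0 ≤ MM κ Z U := by
  unfold MM
  have := sn_pos hZ
  (clear * - this; positivity)

/-- Membership in the grid event. -/
lemma Drop_mem {Ω : Type*} {W : ℝ → Ω → ℝ} {z : ℂ} {K : Set (ℂ × ℝ)} {s δ c : ℝ} {A : Set Ω}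
    {ω : Ω} (hω : ω ∈ A) : ∀ k : ℕ, (∀ j ≤ k, ω ∈ inK W z K (s + j * δ)) →
    (∀ j < k, osc W (s + j * δ) δ ω ≤ c) → ω ∈ Hset W z K s δ c A k
  | 0, h1, _ => ⟨hω, by simpa using h1 0 le_rfl⟩
  | k + 1, h1, h2 => ⟨⟨Drop_mem hω k (fun j hj => h1 j (by omega)) (fun j hj => h2 j (by omega)),
      h2 k (by omega)⟩, h1 (k + 1) le_rfl⟩

/-- The states of a living path at the grid times are in the compact set. -/
lemma Drop_inK {Ω : Type*} {W : ℝ → Ω → ℝ} (hW : ∀ ω, Continuous fun t => W t ω) {z : ℂ}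
    {ϰ c δ : ℝ} (hδ : 0 < δ) {l : ℕ} {ω : Ω} (h : ω ∈ NK ϰ c δ W z l) {j : ℕ} (hj : j ≤ l) :
    z ∈ loewnerDomain (fun u => W u ω) (j * δ) ∧
      (Zf (fun u => W u ω) z (j * δ), Uf (fun u => W u ω) z (j * δ)) ∈ Drop_K ϰ z := by
  obtain ⟨h1, h2, h3, h4⟩ := h.1 j hj
  refine ⟨h1, h2, h3, h4, ?_⟩
  have h5 := Uf_le (hW ω) (s := 0) le_rfl (by (clear * - hδ; positivity) : (0 : ℝ) ≤ j * δ) h1
  rwa [Uf_zero] at h5

end Vale.Agent.P164
end

section

/-!
# Restarting and rescaling the flow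
-/

namespace Vale.Agent.P164

open Set Metric Filter Topology MeasureTheory

variable {W : ℝ → ℝ} {z : ℂ} {s t r : ℝ}

lemma Zf_eq_of_sol {g : ℝ → ℂ} (ht : 0 ≤ t) (hg : IsLoewnerSol W z t g) :
    Zf W z t = g t - (W t : ℂ) := by
  rw [Zf_eq, gf_eq hg ⟨ht, le_rfl⟩]

/-- Restart at time `s`. -/
theorem dom_shift (hW : Continuous W) (hs : 0 ≤ s) (ht : 0 ≤ t) (h : z ∈ loewnerDomain W s) :
    z ∈ loewnerDomain W (s + t) ↔ Zf W z s ∈ loewnerDomain (shiftW s W) t := by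
  constructor
  · rintro ⟨g, hg⟩
    have h1 := hg.shift hs
    rw [add_sub_cancel_left, ← Zf_eq_of_sol hs (hg.restrict (by linarith only [ht]))] at h1
    exact ⟨_, h1⟩
  · rintro ⟨g', hg'⟩
    obtain ⟨g, hg⟩ := h
    rw [Zf_eq_of_sol hs hg] at hg'
    exact ⟨_, hg.concat hs ht hg'⟩

theorem Zf_shift (hW : Continuous W) (hs : 0 ≤ s) (ht : 0 ≤ t)
    (h : z ∈ loewnerDomain W (s + t)) :
    Zf W z (s + t) = Zf (shiftW s W) (Zf W z s) t := by
  obtain ⟨g, hg⟩ := h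
  have h1 := hg.shift hs
  rw [add_sub_cancel_left, ← Zf_eq_of_sol hs (hg.restrict (by linarith only [ht]))] at h1
  have h2 : Zf (shiftW s W) (Zf W z s) t = g (s + t) - (W s : ℂ) - (shiftW s W t : ℂ) :=
    Zf_eq_of_sol ht h1
  rw [h2, Zf_eq_of_sol (by linarith only [hs, ht]) hg, shiftW]
  push_cast
  ring

theorem Uf_shift (hW : Continuous W) (hs : 0 ≤ s) (ht : 0 ≤ t)
    (h : z ∈ loewnerDomain W (s + t)) :
    Uf W z (s + t) = Uf W z s +
      (Uf (shiftW s W) (Zf W z s) t - Real.log (Zf W z s).im) := by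
  have h1 := Uf_sub hW hs (by linarith only [ht] : s ≤ s + t) h
  have h2 : Uf (shiftW s W) (Zf W z s) t = Real.log (Zf W z s).im -
      ∫ u in (0 : ℝ)..t, rate (Zf W z (s + u)) := by
    rw [Uf_eq]
    congr 1
    refine intervalIntegral.integral_congr fun u hu => ?_
    rw [uIcc_of_le ht] at hu
    change rate (Zf (shiftW s W) (Zf W z s) u) = rate (Zf W z (s + u))
    rw [← Zf_shift hW hs hu.1 (dom_mono (by linarith only [hu.2]) h)]
  have h3 : ∫ u in (0 : ℝ)..t, rate (Zf W z (s + u)) = ∫ u in s..(s + t), rate (Zf W z u) := by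
    rw [intervalIntegral.integral_comp_add_left (fun u => rate (Zf W z u)) s, add_zero]
  rw [h2, h3, ← h1]
  ring

/-- Brownian scaling. -/
theorem dom_scale (hr : 0 < r) (ht : 0 ≤ t) :
    z ∈ loewnerDomain (scaleW r W) t ↔ (r : ℂ) * z ∈ loewnerDomain W (r ^ 2 * t) :=
  mem_domain_scaleW hr

theorem Zf_scale (hW : Continuous W) (hr : 0 < r) (ht : 0 ≤ t)
    (h : z ∈ loewnerDomain (scaleW r W) t) :
    Zf W ((r : ℂ) * z) (r ^ 2 * t) = (r : ℂ) * Zf (scaleW r W) z t := by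
  obtain ⟨g, hg⟩ := (dom_scale hr ht).1 h
  have hrc : (r : ℂ) ≠ 0 := by exact_mod_cast hr.ne'
  have h1 := hg.scale hr
  have e : ((r⁻¹ : ℝ) : ℂ) * ((r : ℂ) * z) = z := by
    push_cast
    (clear * - hrc; field_simp)
  rw [e] at h1
  have h2 : Zf (scaleW r W) z t =
      ((r⁻¹ : ℝ) : ℂ) * g (r ^ 2 * t) - ((r⁻¹ * W (r ^ 2 * t) : ℝ) : ℂ) := Zf_eq_of_sol ht h1
  rw [h2, Zf_eq_of_sol (by (clear * - hr ht; positivity)) hg]
  push_cast
  (clear * - hrc; field_simp)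

lemma rate_smul (hr : 0 < r) (Z : ℂ) : r ^ 2 * rate ((r : ℂ) * Z) = rate Z := by
  rw [rate_eq, rate_eq, Complex.im_ofReal_mul, norm_mul, Complex.norm_real, Real.norm_eq_abs,
    abs_of_pos hr]
  rcases eq_or_ne Z 0 with h | h
  · simp only [h, Complex.zero_im, mul_zero, ne_eq, OfNat.ofNat_ne_zero, not_false_eq_true, zero_pow, norm_zero, div_zero]
  · have : ‖Z‖ ≠ 0 := norm_ne_zero_iff.2 h
    field_simp

theorem Uf_scale (hW : Continuous W) (hr : 0 < r) (ht : 0 ≤ t)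
    (h : z ∈ loewnerDomain (scaleW r W) t) :
    Uf W ((r : ℂ) * z) (r ^ 2 * t) = Real.log r + Uf (scaleW r W) z t := by
  have hz : 0 < z.im := im_pos_of_dom ht h
  rw [Uf_eq, Uf_eq, Complex.im_ofReal_mul, Real.log_mul hr.ne' hz.ne']
  have h1 : ∫ u in (0 : ℝ)..t, rate (Zf (scaleW r W) z u) =
      ∫ u in (0 : ℝ)..t, r ^ 2 * rate (Zf W ((r : ℂ) * z) (r ^ 2 * u)) := by
    refine intervalIntegral.integral_congr fun u hu => ?_
    rw [uIcc_of_le ht] at hu
    change rate (Zf (scaleW r W) z u) = r ^ 2 * rate (Zf W ((r : ℂ) * z) (r ^ 2 * u))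
    rw [Zf_scale hW hr hu.1 (dom_mono hu.2 h), rate_smul hr]
  rw [h1, intervalIntegral.integral_const_mul,
    intervalIntegral.integral_comp_mul_left (fun u => rate (Zf W ((r : ℂ) * z) u))
      (by (clear * - hr; positivity) : r ^ 2 ≠ 0), mul_zero, smul_eq_mul, ← mul_assoc,
    mul_inv_cancel₀ (by positivity : r ^ 2 ≠ 0), one_mul]
  ring

end Vale.Agent.P164
end

section

/-!
# Choice of the parameters
-/

namespace Vale.Agent.P164

open Set Metric Filter Topology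

/-- an exponential beats a linear function -/
theorem param_atBot {A r C : ℝ} (hr : 1 < r) (hC : 0 < C) :
    Tendsto (fun n : ℕ => A * n - r ^ n / C) atTop atBot := by
  have h1 : Tendsto (fun n : ℕ => r ^ n) atTop atTop := tendsto_pow_atTop_atTop_of_one_lt hr
  have h2 : Tendsto (fun n : ℕ => A * ((n : ℝ) ^ 1 / r ^ n) - 1 / C) atTop (𝓝 (A * 0 - 1 / C)) :=
    ((tendsto_pow_const_div_const_pow_of_one_lt 1 hr).const_mul A).sub_const _
  have h3 : A * 0 - 1 / C < 0 := by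
    have : 0 < 1 / C := by positivity
    (clear * - this; linarith)
  refine (h1.atTop_mul_neg h3 h2).congr fun n => ?_
  have hrn : r ^ n ≠ 0 := by positivity
  field_simp

theorem param_first {a C : ℝ} (hC : 1 ≤ C) :
    Tendsto (fun n : ℕ => ((n : ℝ) + 1) *
      (C * ((1 / 4 : ℝ) ^ n) ^ (-a) *
        (1 - Real.exp (-C * √(Real.log 2 / (2 * C) * n) ^ 2) / C) ^ (2 ^ n))) atTop (𝓝 0) := by
  have hC0 : 0 < C := by linarith only [hC]
  have hl2 : 0 < Real.log 2 := Real.log_pos (by norm_num)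
  set s : ℝ := Real.exp (-(Real.log 2 / 2)) with hs
  have hs0 : 0 < s := Real.exp_pos _
  have hs1 : s < 1 := by rw [hs, Real.exp_lt_one_iff]; linarith only [hl2]
  have h2s : 1 < 2 * s := by
    have : 2 * s = Real.exp (Real.log 2 / 2) := by
      rw [hs]
      nth_rewrite 1 [← Real.exp_log (by norm_num : (0:ℝ) < 2)]
      rw [← Real.exp_add]
      congr 1; ring
    rw [this, Real.one_lt_exp_iff]
    linarith only [hl2]
  have hq : ∀ n : ℕ, Real.exp (-C * √(Real.log 2 / (2 * C) * n) ^ 2) = s ^ n := by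
    intro n
    rw [Real.sq_sqrt (by (clear * - hC; positivity)), hs, ← Real.exp_nat_mul]
    congr 1
    field_simp
  have h4 : ∀ n : ℕ, ((1 / 4 : ℝ) ^ n) ^ (-a) = Real.exp (a * Real.log 4 * n) := by
    intro n
    rw [Real.rpow_def_of_pos (by positivity), Real.log_pow, one_div, Real.log_inv]
    congr 1; ring
  have hqle : ∀ n : ℕ, s ^ n / C ≤ 1 := by
    intro n
    rw [div_le_one hC0]
    exact (pow_le_one₀ hs0.le hs1.le).trans hC
  have hb := param_atBot (A := a * Real.log 4 + 1) h2s hC0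
  have hb2 : Tendsto (fun n : ℕ => C * Real.exp ((a * Real.log 4 + 1) * n - (2 * s) ^ n / C))
      atTop (𝓝 (C * 0)) := (Real.tendsto_exp_atBot.comp hb).const_mul C
  rw [mul_zero] at hb2
  refine squeeze_zero (fun n => ?_) (fun n => ?_) hb2
  · rw [hq, h4]
    have : 0 ≤ 1 - s ^ n / C := by linarith only [hqle n]
    (clear * - hC this; positivity)
  · rw [hq, h4]
    have e1 : (1 - s ^ n / C) ^ (2 ^ n) ≤ Real.exp (-((2 * s) ^ n / C)) := by
      have h5 : 1 - s ^ n / C ≤ Real.exp (-(s ^ n / C)) := by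
        have := Real.add_one_le_exp (-(s ^ n / C))
        linarith only [this]
      have h6 := pow_le_pow_left₀ (by linarith only [hqle n] : 0 ≤ 1 - s ^ n / C) h5 (2 ^ n)
      refine h6.trans (le_of_eq ?_)
      rw [← Real.exp_nat_mul]
      congr 1
      push_cast
      rw [mul_pow]
      ring
    have e2 : (n : ℝ) + 1 ≤ Real.exp n := Real.add_one_le_exp _
    have e3 : Real.exp ((a * Real.log 4 + 1) * n - (2 * s) ^ n / C) =
        Real.exp n * Real.exp (a * Real.log 4 * n) * Real.exp (-((2 * s) ^ n / C)) := by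
      rw [← Real.exp_add, ← Real.exp_add]
      congr 1; ring
    rw [e3]
    calc ((n : ℝ) + 1) * (C * Real.exp (a * Real.log 4 * n) * (1 - s ^ n / C) ^ (2 ^ n))
        ≤ Real.exp n * (C * Real.exp (a * Real.log 4 * n) *
          Real.exp (-((2 * s) ^ n / C))) := by
          apply mul_le_mul e2 _ _ (Real.exp_pos _).le
          · exact mul_le_mul_of_nonneg_left e1 (by positivity)
          · have : 0 ≤ 1 - s ^ n / C := by linarith only [hqle n]
            (clear * - hC this; positivity)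
      _ = _ := by ring

theorem param_second {b C : ℝ} :
    Tendsto (fun n : ℕ => ((n : ℝ) + 1) *
      (C * (1 / 4 : ℝ) ^ n * (b * 2 ^ n + b * 2 ^ n + 1))) atTop (𝓝 0) := by
  have h1 := tendsto_self_mul_const_pow_of_lt_one (r := (1 / 2 : ℝ)) (by norm_num) (by norm_num)
  have h2 := tendsto_self_mul_const_pow_of_lt_one (r := (1 / 4 : ℝ)) (by norm_num) (by norm_num)
  have h3 := tendsto_pow_atTop_nhds_zero_of_lt_one (r := (1 / 2 : ℝ)) (by norm_num) (by norm_num)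
  have h4 := tendsto_pow_atTop_nhds_zero_of_lt_one (r := (1 / 4 : ℝ)) (by norm_num) (by norm_num)
  have h5 := (((h1.add h3).const_mul (2 * b * C)).add ((h2.add h4).const_mul C))
  have h6 : 2 * b * C * (0 + 0) + C * (0 + 0) = 0 := by ring
  rw [h6] at h5
  refine h5.congr fun n => ?_
  have e1 : (1 / 4 : ℝ) ^ n * 2 ^ n = (1 / 2) ^ n := by
    rw [← mul_pow]; norm_num
  have e2 : (1 / 4 : ℝ) ^ n * (b * 2 ^ n + b * 2 ^ n + 1) =
      2 * b * (1 / 2) ^ n + (1 / 4) ^ n := by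
    rw [← e1]; ring
  rw [mul_assoc C, e2]
  ring

theorem param_hh_aux {b c₃ : ℝ} (hb : 1 ≤ b) {n : ℕ} (hn : 1 ≤ n) {L : ℝ}
    (hL1 : 1 ≤ L) (hL2 : L ≤ b * 2 ^ n + b * 2 ^ n) :
    0 ≤ Real.log L ∧ Real.log L ≤ (Real.log (2 * b) + Real.log 2) * n := by
  refine ⟨Real.log_nonneg hL1, ?_⟩
  have hn' : (1 : ℝ) ≤ n := by exact_mod_cast hn
  have h1 : Real.log L ≤ Real.log (2 * b * 2 ^ n) := by
    apply Real.log_le_log (by linarith only [hL1])
    linarith only [hL2]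
  have h2 : Real.log (2 * b * 2 ^ n) = Real.log (2 * b) + n * Real.log 2 := by
    rw [Real.log_mul (by positivity) (by positivity), Real.log_pow]
  have h3 : 0 ≤ Real.log (2 * b) := Real.log_nonneg (by linarith only [hb])
  nlinarith only [hn', h1, h2, h3]

end Vale.Agent.P164
end

section

/-!
# First moment of the content, upper bound (`0 < κ < 8`)
-/

namespace Vale.Agent.P164.E8

open Set Metric Filter Topology MeasureTheory ProbabilityTheory
open scoped NNReal ENNReal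

/-- First moment, upper bound, no trace hypothesis. Proof: copy `first_moment_upper`
(G/FirstMoment.lean): `T_dead` (X/SmallCont.lean) with `F = f1(U) sn^β = (1 - E_r) M`, `a = aR κ r`
(`FM.reg_pow`, `FM.gen_pow`: the generator is `-aR`), `F(t₀) ≤ M(t₀)`, and
`ofReal (yc) ≤ ∫⁻_{Ioc t₀ T} ofReal (St aR)` (`yc_eq`, `ofReal_integral_eq_lintegral_ofReal` with
`yc_integrable`, which holds for all `κ < 8`). If `z.im ≤ 0` nothing changes: `hz` is given. -/
theorem first_moment_upper {κ : ℝ} (h0 : 0 < κ) (h8 : κ < 8) {Ω : Type*} [MeasurableSpace Ω]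
    {P : Measure Ω} {W : ℝ → Ω → ℝ} (hW : IsDrv κ P W) {z : ℂ} (hz : 0 < z.im)
    {r t₀ T : ℝ} (hr : 0 < r) (ht₀ : 0 ≤ t₀) (hT : t₀ ≤ T) {A : Set Ω}
    (hA : MeasurableSet[past W t₀] A) :
    ∫⁻ ω in A, ENNReal.ofReal (yc κ r (fun u => W u ω) z t₀ T) ∂P ≤
      ∫⁻ ω in A, ENNReal.ofReal (St (MM κ) (fun u => W u ω) z t₀) ∂P := by
  have h := T_dead h0 (FM.reg_pow (FM.f1_hasDeriv κ r) (fun U => hasDerivAt_const U (0 : ℝ))
    (FM.f1'_cont κ r) continuous_const (be κ)) (a := aR κ r) (FM.aR_cont κ r)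
    (fun Z U hZ => by
      simpa only [add_zero] using mul_nonneg (FM.f1_nonneg κ r U) (FM.snp_nonneg κ hZ))
    (fun Z U hZ => by
      rw [FM.aR_eq κ r hZ]
      exact mul_nonneg (mul_nonneg (Real.exp_pos _).le (phi_nonneg _))
        (mul_nonneg (rate_nonneg Z) (FM.snp_nonneg κ hZ)))
    (fun Z U hZ => by
      rw [FM.gen_pow h0 (FM.f1 κ r) (FM.f1' κ r) (fun _ => 0) hZ, FM.aR_eq κ r hZ]
      apply le_of_eq
      unfold FM.f1 FM.f1'
      ring) hW z ht₀ hT hA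
  refine le_trans (lintegral_mono fun ω => ?_) (h.trans (lintegral_mono fun ω => ?_))
  · have hc := hW.cont ω
    have hi := (intervalIntegrable_iff_integrableOn_Ioc_of_le hT).1
      (yc_integrable h0 h8 hr hc hz ht₀ hT)
    unfold yc
    rw [intervalIntegral.integral_of_le hT]
    refine le_of_eq (ofReal_integral_eq_lintegral_ofReal hi ?_)
    filter_upwards [ae_restrict_mem measurableSet_Ioc] with u hu
    exact aR_nonneg (ht₀.trans hu.1.le)
  · apply ENNReal.ofReal_le_ofReal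
    by_cases hω : z ∈ loewnerDomain (fun u => W u ω) t₀
    · rw [St_of_mem hω, St_of_mem hω]
      have h1 := FM.snp_nonneg κ (Zf_im_pos ht₀ hω)
      unfold FM.f1 MM
      have h2 : (1 - ee (Uf (fun u => W u ω) z t₀ - Real.log r)) ≤ 1 := by
        linarith only [ee_nonneg (Uf (fun u => W u ω) z t₀ - Real.log r)]
      have h3 := (Real.exp_pos (-xx κ * Uf (fun u => W u ω) z t₀)).le
      have h4 := mul_le_mul_of_nonneg_right h2 h3
      rw [one_mul] at h4
      have h5 := mul_le_mul_of_nonneg_right h4 h1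
      linarith
    · rw [St_of_not_mem hω, St_of_not_mem hω]

end Vale.Agent.P164.E8
end

section

/-!
# Auxiliary lemmas for the stopped supermartingale theorem
-/

namespace Vale.Agent.P164

open Set Metric Filter Topology MeasureTheory ProbabilityTheory
open scoped NNReal ENNReal

variable {Ω : Type*} [mΩ : MeasurableSpace Ω] {κ : ℝ} {P : Measure Ω} {W : ℝ → Ω → ℝ}

/-- The value of the process at time `u` plus the reward collected since time `s`. -/
noncomputable def TStopAuxV (F a : ℂ → ℝ → ℝ) (W : ℝ → Ω → ℝ) (z : ℂ) (s u : ℝ) (ω : Ω) : ℝ≥0∞ :=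
  ENNReal.ofReal (St F (fun v => W v ω) z u + ∫ v in s..u, St a (fun v => W v ω) z v)

/-- One step, with the reward collected before. -/
lemma TStopAux_step (hκ : 0 < κ) {F FX FXX FY FU a : ℂ → ℝ → ℝ} (hr : Reg F FX FXX FY FU)
    (ha : ContinuousOn (Function.uncurry a) ({Z : ℂ | 0 < Z.im} ×ˢ univ))
    (hF0 : ∀ Z U, 0 < Z.im → 0 ≤ F Z U) (ha0 : ∀ Z U, 0 < Z.im → 0 ≤ a Z U)
    (hgen : ∀ Z U, 0 < Z.im → gen κ FX FXX FY FU Z U + a Z U ≤ 0)
    (hW : IsDrv κ P W) (z : ℂ) {s p q : ℝ} (hs : 0 ≤ s) (hsp : s ≤ p) (hpq : p ≤ q)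
    {B : Set Ω} (hB : MeasurableSet[past W p] B) :
    ∫⁻ ω in B ∩ {ω | z ∈ loewnerDomain (fun u => W u ω) q}, TStopAuxV F a W z s q ω ∂P ≤
      ∫⁻ ω in B, TStopAuxV F a W z s p ω ∂P := by
  have hp : 0 ≤ p := hs.trans hsp
  have hq : 0 ≤ q := hp.trans hpq
  have hBm : MeasurableSet B := hW.past_le _ hB
  have hDm : MeasurableSet (B ∩ {ω | z ∈ loewnerDomain (fun u => W u ω) q}) :=
    hBm.inter (hW.past_le _ (alive_past hW.cont hW.meas hq z))
  have hXm : Measurable (fun ω => St F (fun u => W u ω) z q +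
      ∫ u in p..q, St a (fun u => W u ω) z u) :=
    ((St_past' hW hr.cF hq z).mono hW.past_le le_rfl).add
      ((timeint_past1 hW ha hp hpq z).mono hW.past_le le_rfl)
  have hFm : Measurable (fun ω => St F (fun u => W u ω) z p) :=
    (St_past' hW hr.cF hp z).mono hW.past_le le_rfl
  have hX0 : ∀ ω, 0 ≤ St F (fun u => W u ω) z q + ∫ u in p..q, St a (fun u => W u ω) z u :=
    fun ω => add_nonneg (St_nonneg' hF0 hq) (timeint_nonneg ha0 hp hpq)
  calc ∫⁻ ω in B ∩ {ω | z ∈ loewnerDomain (fun u => W u ω) q}, TStopAuxV F a W z s q ω ∂P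
      = ∫⁻ ω in B ∩ {ω | z ∈ loewnerDomain (fun u => W u ω) q},
          (ENNReal.ofReal (St F (fun u => W u ω) z q + ∫ u in p..q, St a (fun u => W u ω) z u) +
          ENNReal.ofReal (∫ u in s..p, St a (fun u => W u ω) z u)) ∂P := by
        refine setLIntegral_congr_fun hDm fun ω hω => ?_
        have hc := St_continuousOn ha (hW.cont ω) hq hω.2
        have i1 : IntervalIntegrable (fun u => St a (fun u => W u ω) z u) volume s p := by
          apply ContinuousOn.intervalIntegrable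
          rw [uIcc_of_le hsp]
          exact hc.mono (Icc_subset_Icc hs hpq)
        have i2 : IntervalIntegrable (fun u => St a (fun u => W u ω) z u) volume p q := by
          apply ContinuousOn.intervalIntegrable
          rw [uIcc_of_le hpq]
          exact hc.mono (Icc_subset_Icc_left hp)
        change ENNReal.ofReal (St F (fun v => W v ω) z q +
          ∫ v in s..q, St a (fun v => W v ω) z v) = _
        rw [← ENNReal.ofReal_add (hX0 ω) (timeint_nonneg ha0 hs hsp),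
          ← intervalIntegral.integral_add_adjacent_intervals i1 i2]
        congr 1
        ring
    _ = ∫⁻ ω in B ∩ {ω | z ∈ loewnerDomain (fun u => W u ω) q},
          ENNReal.ofReal (St F (fun u => W u ω) z q + ∫ u in p..q, St a (fun u => W u ω) z u) ∂P +
        ∫⁻ ω in B ∩ {ω | z ∈ loewnerDomain (fun u => W u ω) q},
          ENNReal.ofReal (∫ u in s..p, St a (fun u => W u ω) z u) ∂P :=
        lintegral_add_left hXm.ennreal_ofReal _
    _ ≤ ∫⁻ ω in B, ENNReal.ofReal (St F (fun u => W u ω) z p) ∂P +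
        ∫⁻ ω in B, ENNReal.ofReal (∫ u in s..p, St a (fun u => W u ω) z u) ∂P :=
        add_le_add (T_thm hκ hr ha hF0 ha0 hgen hW z hp hpq hB)
          (lintegral_mono_set inter_subset_left)
    _ = ∫⁻ ω in B, TStopAuxV F a W z s p ω ∂P := by
        rw [← lintegral_add_left hFm.ennreal_ofReal]
        refine lintegral_congr fun ω => ?_
        rw [TStopAuxV, ENNReal.ofReal_add (St_nonneg' hF0 hp) (timeint_nonneg ha0 hs hsp)]

/-- Alive at the `j`-th grid time with height above `y₀`. -/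
def TStopAuxB (W : ℝ → Ω → ℝ) (z : ℂ) (s δ y₀ : ℝ) (A : Set Ω) (j : ℕ) : Set Ω :=
  A ∩ {ω | z ∈ loewnerDomain (fun u => W u ω) (s + j * δ) ∧
    y₀ < (Zf (fun u => W u ω) z (s + j * δ)).im}

/-- Alive at the `j`-th grid time with height at most `y₀`. -/
def TStopAuxY (W : ℝ → Ω → ℝ) (z : ℂ) (s δ y₀ : ℝ) (j : ℕ) : Set Ω :=
  {ω | z ∈ loewnerDomain (fun u => W u ω) (s + j * δ) ∧
    (Zf (fun u => W u ω) z (s + j * δ)).im ≤ y₀}

lemma TStopAuxB_meas (hW : IsDrv κ P W) (z : ℂ) {s δ y₀ : ℝ} (hs : 0 ≤ s) (hδ : 0 ≤ δ)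
    {A : Set Ω} (hA : MeasurableSet[past W s] A) (j : ℕ) :
    MeasurableSet[past W (s + j * δ)] (TStopAuxB W z s δ y₀ A j) := by
  have h0 : s ≤ s + j * δ := by
    have : 0 ≤ (j : ℝ) * δ := by positivity
    linarith
  have h1 : MeasurableSet {x : ℂ × ℝ | y₀ < x.1.im} :=
    measurableSet_lt measurable_const (Complex.measurable_im.comp measurable_fst)
  exact MeasurableSet.inter (past_mono h0 _ hA)
    (Z_past hW.cont hW.meas (hs.trans h0) z h1)

lemma TStopAuxY_meas (hW : IsDrv κ P W) (z : ℂ) {s δ y₀ : ℝ} (hs : 0 ≤ s) (hδ : 0 ≤ δ) (j : ℕ) :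
    MeasurableSet[past W (s + j * δ)] (TStopAuxY W z s δ y₀ j) := by
  have h0 : s ≤ s + j * δ := by
    have : 0 ≤ (j : ℝ) * δ := by (clear * - hδ; positivity)
    linarith
  have h1 : MeasurableSet {x : ℂ × ℝ | x.1.im ≤ y₀} :=
    measurableSet_le (Complex.measurable_im.comp measurable_fst) measurable_const
  exact Z_past hW.cont hW.meas (hs.trans h0) z h1

/-- The inequality along the grid. -/
lemma TStopAux_grid (hκ : 0 < κ) {F FX FXX FY FU a : ℂ → ℝ → ℝ} (hr : Reg F FX FXX FY FU)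
    (ha : ContinuousOn (Function.uncurry a) ({Z : ℂ | 0 < Z.im} ×ˢ univ))
    (hF0 : ∀ Z U, 0 < Z.im → 0 ≤ F Z U) (ha0 : ∀ Z U, 0 < Z.im → 0 ≤ a Z U)
    (hgen : ∀ Z U, 0 < Z.im → gen κ FX FXX FY FU Z U + a Z U ≤ 0)
    (hW : IsDrv κ P W) (z : ℂ) {s δ y₀ : ℝ} (hs : 0 ≤ s) (hδ : 0 ≤ δ)
    {A : Set Ω} (hA : MeasurableSet[past W s] A) (n : ℕ) :
    ∫⁻ ω in TStopAuxB W z s δ y₀ A n, TStopAuxV F a W z s (s + n * δ) ω ∂P +
      ∑ j ∈ Finset.range n, ∫⁻ ω in TStopAuxB W z s δ y₀ A j ∩ TStopAuxY W z s δ y₀ (j + 1),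
        TStopAuxV F a W z s (s + (j + 1 : ℕ) * δ) ω ∂P ≤
      ∫⁻ ω in TStopAuxB W z s δ y₀ A 0, TStopAuxV F a W z s s ω ∂P := by
  induction n with
  | zero => simp only [CharP.cast_eq_zero, zero_mul, add_zero, Finset.range_zero, Nat.cast_add, Nat.cast_one, Finset.sum_empty, Std.le_refl]
  | succ n ih =>
    rw [Finset.sum_range_succ]
    have h0 : s ≤ s + n * δ := by
      have : 0 ≤ (n : ℝ) * δ := by (clear * - hδ; positivity)
      linarith only [this]
    have h1 : s + n * δ ≤ s + (n + 1 : ℕ) * δ := by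
      push_cast
      linarith only [hδ]
    have hBn := TStopAuxB_meas (y₀ := y₀) hW z hs hδ hA n
    have hYn := TStopAuxY_meas (y₀ := y₀) hW z hs hδ (n + 1)
    have hm : MeasurableSet (TStopAuxB W z s δ y₀ A n ∩ TStopAuxY W z s δ y₀ (n + 1)) :=
      (hW.past_le _ hBn).inter (hW.past_le _ hYn)
    have hdis : Disjoint (TStopAuxB W z s δ y₀ A (n + 1))
        (TStopAuxB W z s δ y₀ A n ∩ TStopAuxY W z s δ y₀ (n + 1)) := by
      rw [Set.disjoint_left]
      rintro ω ⟨_, _, h3⟩ ⟨_, _, h4⟩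
      exact absurd h3 (not_lt.2 h4)
    have hsub : TStopAuxB W z s δ y₀ A (n + 1) ∪
        (TStopAuxB W z s δ y₀ A n ∩ TStopAuxY W z s δ y₀ (n + 1)) ⊆
        TStopAuxB W z s δ y₀ A n ∩
          {ω | z ∈ loewnerDomain (fun u => W u ω) (s + (n + 1 : ℕ) * δ)} := by
      rintro ω (⟨h2, h3, h4⟩ | ⟨h2, h3, _⟩)
      · refine ⟨⟨h2, dom_mono h1 h3, h4.trans_le ?_⟩, h3⟩
        exact im_le_of_le (hs.trans h0) h1 h3
      · exact ⟨h2, h3⟩
    have hstep := TStopAux_step hκ hr ha hF0 ha0 hgen hW z hs h0 h1 hBn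
    have hu := lintegral_union (μ := P) (f := TStopAuxV F a W z s (s + (n + 1 : ℕ) * δ)) hm hdis
    calc ∫⁻ ω in TStopAuxB W z s δ y₀ A (n + 1), TStopAuxV F a W z s (s + (n + 1 : ℕ) * δ) ω ∂P +
          (∑ j ∈ Finset.range n, ∫⁻ ω in TStopAuxB W z s δ y₀ A j ∩ TStopAuxY W z s δ y₀ (j + 1),
            TStopAuxV F a W z s (s + (j + 1 : ℕ) * δ) ω ∂P +
          ∫⁻ ω in TStopAuxB W z s δ y₀ A n ∩ TStopAuxY W z s δ y₀ (n + 1),
            TStopAuxV F a W z s (s + (n + 1 : ℕ) * δ) ω ∂P)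
        = (∫⁻ ω in TStopAuxB W z s δ y₀ A (n + 1),
            TStopAuxV F a W z s (s + (n + 1 : ℕ) * δ) ω ∂P +
          ∫⁻ ω in TStopAuxB W z s δ y₀ A n ∩ TStopAuxY W z s δ y₀ (n + 1),
            TStopAuxV F a W z s (s + (n + 1 : ℕ) * δ) ω ∂P) +
          ∑ j ∈ Finset.range n, ∫⁻ ω in TStopAuxB W z s δ y₀ A j ∩ TStopAuxY W z s δ y₀ (j + 1),
            TStopAuxV F a W z s (s + (j + 1 : ℕ) * δ) ω ∂P := by
          rw [add_assoc, add_comm (∑ j ∈ Finset.range n, _)]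
      _ ≤ ∫⁻ ω in TStopAuxB W z s δ y₀ A n, TStopAuxV F a W z s (s + n * δ) ω ∂P +
          ∑ j ∈ Finset.range n, ∫⁻ ω in TStopAuxB W z s δ y₀ A j ∩ TStopAuxY W z s δ y₀ (j + 1),
            TStopAuxV F a W z s (s + (j + 1 : ℕ) * δ) ω ∂P := by
          refine add_le_add ?_ le_rfl
          rw [← hu]
          exact (lintegral_mono_set hsub).trans hstep
      _ ≤ _ := ih

lemma TStopAux_biUnion_le {f : Ω → ℝ≥0∞} (S : ℕ → Set Ω) (n : ℕ) :
    ∫⁻ ω in ⋃ j ∈ Finset.range n, S j, f ω ∂P ≤ ∑ j ∈ Finset.range n, ∫⁻ ω in S j, f ω ∂P := by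
  induction n with
  | zero => simp only [Finset.range_zero, Finset.notMem_empty, isEmpty_Prop, not_false_eq_true, iUnion_of_empty, iUnion_empty, Measure.restrict_empty, lintegral_zero_measure, Finset.sum_empty, Std.le_refl]
  | succ n ih =>
    rw [Finset.sum_range_succ, Finset.range_add_one, Finset.set_biUnion_insert, Set.union_comm]
    exact (lintegral_union_le _ _ _).trans (add_le_add ih le_rfl)

/-- The stopped theorem, given the behaviour of the height before death. -/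
lemma TStopAux_main (hdeath : ∀ {W : ℝ → ℝ}, Continuous W → ∀ {z : ℂ}, 0 < z.im → ∀ {t : ℝ},
      0 ≤ t → z ∉ loewnerDomain W t → ∀ {y₀ : ℝ}, 0 < y₀ →
      ∃ u v : ℝ, 0 ≤ u ∧ u < v ∧ v ≤ t ∧ z ∉ loewnerDomain W v ∧
      ∀ x ∈ Ico u v, z ∈ loewnerDomain W x ∧ (Zf W z x).im ≤ y₀)
    (hκ : 0 < κ) {F FX FXX FY FU a : ℂ → ℝ → ℝ} (hr : Reg F FX FXX FY FU)
    (ha : ContinuousOn (Function.uncurry a) ({Z : ℂ | 0 < Z.im} ×ˢ univ))
    (hF0 : ∀ Z U, 0 < Z.im → 0 ≤ F Z U) (ha0 : ∀ Z U, 0 < Z.im → 0 ≤ a Z U)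
    (hgen : ∀ Z U, 0 < Z.im → gen κ FX FXX FY FU Z U + a Z U ≤ 0)
    (hW : IsDrv κ P W) (z : ℂ) {s t : ℝ} (hs : 0 ≤ s) (hst : s ≤ t) {A : Set Ω}
    (hA : MeasurableSet[past W s] A)
    (hAz : ∀ ω ∈ A, z ∈ loewnerDomain (fun u => W u ω) s)
    {y₀ : ℝ} (hy₀ : 0 < y₀) {φ : Ω → ℝ≥0∞} (hφ : Measurable φ)
    (h : ∀ ω ∈ A, ∀ u ∈ Icc s t, z ∈ loewnerDomain (fun v => W v ω) u →
      ((Zf (fun v => W v ω) z u).im ≤ y₀ ∨ u = t) →
      φ ω ≤ ENNReal.ofReal (St F (fun v => W v ω) z u +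
        ∫ v in s..u, St a (fun v => W v ω) z v)) :
    ∫⁻ ω in A, φ ω ∂P ≤ ∫⁻ ω in A, ENNReal.ofReal (St F (fun u => W u ω) z s) ∂P := by
  have ht : 0 ≤ t := hs.trans hst
  have hAm : MeasurableSet A := hW.past_le _ hA
  -- mesh
  have hmesh : ∀ N : ℕ, 0 < N → s + (N : ℝ) * ((t - s) / N) = t := by
    intro N hN
    have : (N : ℝ) ≠ 0 := by (clear * - hN; positivity)
    field_simp
    ring
  have hmesh0 : Tendsto (fun N : ℕ => (t - s) / (N : ℝ)) atTop (𝓝 0) :=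
    tendsto_const_div_atTop_nhds_zero_nat _
  have hδ0 : ∀ N : ℕ, 0 ≤ (t - s) / (N : ℝ) := fun N => div_nonneg (by linarith) (Nat.cast_nonneg _)
  set G : ℕ → Set Ω := fun N =>
    (A ∩ TStopAuxY W z s ((t - s) / N) y₀ 0 ∪
      ⋃ j ∈ Finset.range N, TStopAuxB W z s ((t - s) / N) y₀ A j ∩
        TStopAuxY W z s ((t - s) / N) y₀ (j + 1)) ∪
      TStopAuxB W z s ((t - s) / N) y₀ A N with hG
  have hBm : ∀ N j : ℕ, MeasurableSet (TStopAuxB W z s ((t - s) / N) y₀ A j) := fun N j =>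
    hW.past_le _ (TStopAuxB_meas hW z hs (hδ0 N) hA j)
  have hYm : ∀ N j : ℕ, MeasurableSet (TStopAuxY W z s ((t - s) / N) y₀ j) := fun N j =>
    hW.past_le _ (TStopAuxY_meas hW z hs (hδ0 N) j)
  have hGm : ∀ N, MeasurableSet (G N) := by
    intro N
    refine (((hAm.inter (hYm N 0)).union ?_)).union (hBm N N)
    exact Finset.measurableSet_biUnion _ fun j _ => (hBm N j).inter (hYm N (j + 1))
  refine fatou_exhaust (r := fun _ _ => 0) hφ hAm (H := fun _ N => G N) (fun _ N => hGm N) ?_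
    (fun _ => tendsto_const_nhds) ?_
  · intro _
    filter_upwards [eventually_gt_atTop 0] with N hN
    rw [add_zero]
    have hgrid := TStopAux_grid (y₀ := y₀) hκ hr ha hF0 ha0 hgen hW z hs (hδ0 N) hA N
    have hu : ∀ j ≤ N, s + (j : ℝ) * ((t - s) / N) ∈ Icc s t := by
      intro j hj
      have h1 : (j : ℝ) * ((t - s) / N) ≤ N * ((t - s) / N) :=
        mul_le_mul_of_nonneg_right (by exact_mod_cast hj) (hδ0 N)
      have h2 : 0 ≤ (j : ℝ) * ((t - s) / N) := mul_nonneg (Nat.cast_nonneg _) (hδ0 N)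
      have h3 := hmesh N hN
      exact ⟨by linarith only [h2], by linarith only [h1, h3]⟩
    have b1 : ∫⁻ ω in A ∩ TStopAuxY W z s ((t - s) / N) y₀ 0, φ ω ∂P ≤
        ∫⁻ ω in A ∩ TStopAuxY W z s ((t - s) / N) y₀ 0, TStopAuxV F a W z s s ω ∂P := by
      refine setLIntegral_mono' (hAm.inter (hYm N 0)) fun ω hω => ?_
      have h1 := hω.2
      simp only [TStopAuxY, Nat.cast_zero, zero_mul, add_zero, mem_ofPred_eq] at h1
      exact h ω hω.1 s ⟨le_rfl, hst⟩ h1.1 (Or.inl h1.2)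
    have b2 : ∀ j ∈ Finset.range N,
        ∫⁻ ω in TStopAuxB W z s ((t - s) / N) y₀ A j ∩ TStopAuxY W z s ((t - s) / N) y₀ (j + 1),
          φ ω ∂P ≤
        ∫⁻ ω in TStopAuxB W z s ((t - s) / N) y₀ A j ∩ TStopAuxY W z s ((t - s) / N) y₀ (j + 1),
          TStopAuxV F a W z s (s + (j + 1 : ℕ) * ((t - s) / N)) ω ∂P := by
      intro j hj
      rw [Finset.mem_range] at hj
      refine setLIntegral_mono' ((hBm N j).inter (hYm N (j + 1))) fun ω hω => ?_
      exact h ω hω.1.1 _ (hu (j + 1) hj) hω.2.1 (Or.inl hω.2.2)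
    have b3 : ∫⁻ ω in TStopAuxB W z s ((t - s) / N) y₀ A N, φ ω ∂P ≤
        ∫⁻ ω in TStopAuxB W z s ((t - s) / N) y₀ A N,
          TStopAuxV F a W z s (s + N * ((t - s) / N)) ω ∂P := by
      refine setLIntegral_mono' (hBm N N) fun ω hω => ?_
      exact h ω hω.1 _ (hu N le_rfl) hω.2.1 (Or.inr (hmesh N hN))
    have hA0 : A = A ∩ TStopAuxY W z s ((t - s) / N) y₀ 0 ∪
        TStopAuxB W z s ((t - s) / N) y₀ A 0 := by
      ext ω
      constructor
      · intro hω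
        have h1 := hAz ω hω
        rcases le_or_gt (Zf (fun u => W u ω) z s).im y₀ with h2 | h2
        · left
          refine ⟨hω, ?_⟩
          simp only [TStopAuxY, Nat.cast_zero, zero_mul, add_zero, mem_ofPred_eq]
          exact ⟨h1, h2⟩
        · right
          refine ⟨hω, ?_⟩
          simp only [Nat.cast_zero, zero_mul, add_zero, mem_ofPred_eq]
          exact ⟨h1, h2⟩
      · rintro (h1 | h1) <;> exact h1.1
    have hdis : Disjoint (A ∩ TStopAuxY W z s ((t - s) / N) y₀ 0)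
        (TStopAuxB W z s ((t - s) / N) y₀ A 0) := by
      rw [Set.disjoint_left]
      rintro ω ⟨_, _, h3⟩ ⟨_, _, h4⟩
      exact absurd h4 (not_lt.2 h3)
    have hV : ∀ ω, TStopAuxV F a W z s s ω = ENNReal.ofReal (St F (fun u => W u ω) z s) := by
      intro ω
      rw [TStopAuxV, intervalIntegral.integral_same, add_zero]
    have hsum : ∫⁻ ω in A, ENNReal.ofReal (St F (fun u => W u ω) z s) ∂P =
        ∫⁻ ω in A ∩ TStopAuxY W z s ((t - s) / N) y₀ 0, TStopAuxV F a W z s s ω ∂P +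
        ∫⁻ ω in TStopAuxB W z s ((t - s) / N) y₀ A 0, TStopAuxV F a W z s s ω ∂P := by
      rw [← lintegral_union (hBm N 0) hdis, ← hA0]
      exact lintegral_congr fun ω => (hV ω).symm
    rw [hsum]
    calc ∫⁻ ω in G N, φ ω ∂P
        ≤ (∫⁻ ω in A ∩ TStopAuxY W z s ((t - s) / N) y₀ 0, φ ω ∂P +
            ∑ j ∈ Finset.range N, ∫⁻ ω in TStopAuxB W z s ((t - s) / N) y₀ A j ∩
              TStopAuxY W z s ((t - s) / N) y₀ (j + 1), φ ω ∂P) +
          ∫⁻ ω in TStopAuxB W z s ((t - s) / N) y₀ A N, φ ω ∂P := by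
          refine (lintegral_union_le _ _ _).trans (add_le_add ?_ le_rfl)
          exact (lintegral_union_le _ _ _).trans (add_le_add le_rfl (TStopAux_biUnion_le _ _))
      _ ≤ (∫⁻ ω in A ∩ TStopAuxY W z s ((t - s) / N) y₀ 0, TStopAuxV F a W z s s ω ∂P +
            ∑ j ∈ Finset.range N, ∫⁻ ω in TStopAuxB W z s ((t - s) / N) y₀ A j ∩
              TStopAuxY W z s ((t - s) / N) y₀ (j + 1),
              TStopAuxV F a W z s (s + (j + 1 : ℕ) * ((t - s) / N)) ω ∂P) +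
          ∫⁻ ω in TStopAuxB W z s ((t - s) / N) y₀ A N,
            TStopAuxV F a W z s (s + N * ((t - s) / N)) ω ∂P :=
          add_le_add (add_le_add b1 (Finset.sum_le_sum b2)) b3
      _ = ∫⁻ ω in A ∩ TStopAuxY W z s ((t - s) / N) y₀ 0, TStopAuxV F a W z s s ω ∂P +
          (∫⁻ ω in TStopAuxB W z s ((t - s) / N) y₀ A N,
            TStopAuxV F a W z s (s + N * ((t - s) / N)) ω ∂P +
            ∑ j ∈ Finset.range N, ∫⁻ ω in TStopAuxB W z s ((t - s) / N) y₀ A j ∩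
              TStopAuxY W z s ((t - s) / N) y₀ (j + 1),
              TStopAuxV F a W z s (s + (j + 1 : ℕ) * ((t - s) / N)) ω ∂P) := by
          rw [add_assoc, add_comm (∑ j ∈ Finset.range N, _)]
      _ ≤ _ := add_le_add le_rfl hgrid
  · intro ω hω
    refine Eventually.of_forall fun _ => ?_
    have hcov : ∀ N : ℕ, 0 < N → (∀ j < N, ω ∈ TStopAuxB W z s ((t - s) / N) y₀ A j →
        z ∈ loewnerDomain (fun u => W u ω) (s + (j + 1 : ℕ) * ((t - s) / N))) → ω ∈ G N := by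
      intro N hN hbad
      by_cases hAY : ω ∈ A ∩ TStopAuxY W z s ((t - s) / N) y₀ 0
      · exact Or.inl (Or.inl hAY)
      · have hB0 : ω ∈ TStopAuxB W z s ((t - s) / N) y₀ A 0 := by
          refine ⟨hω, ?_⟩
          simp only [Nat.cast_zero, zero_mul, add_zero, mem_ofPred_eq]
          refine ⟨hAz ω hω, ?_⟩
          by_contra hc
          apply hAY
          refine ⟨hω, ?_⟩
          simp only [TStopAuxY, Nat.cast_zero, zero_mul, add_zero, mem_ofPred_eq]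
          exact ⟨hAz ω hω, not_lt.1 hc⟩
        by_cases hall : ∀ j ≤ N, ω ∈ TStopAuxB W z s ((t - s) / N) y₀ A j
        · exact Or.inr (hall N le_rfl)
        · push Not at hall
          classical
          obtain ⟨j, hj, hjn⟩ := hall
          have hex : ∃ j, ω ∉ TStopAuxB W z s ((t - s) / N) y₀ A j := ⟨j, hjn⟩
          set m := Nat.find hex with hm
          have hm1 : ω ∉ TStopAuxB W z s ((t - s) / N) y₀ A m := Nat.find_spec hex
          have hm2 : m ≤ j := Nat.find_min' hex hjn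
          have hm0 : m ≠ 0 := by
            intro h0
            rw [h0] at hm1
            exact hm1 hB0
          obtain ⟨k, hk⟩ := Nat.exists_eq_succ_of_ne_zero hm0
          have hkB : ω ∈ TStopAuxB W z s ((t - s) / N) y₀ A k := by
            by_contra hc
            have := Nat.find_min' hex hc
            omega
          have hal := hbad k (by omega) hkB
          rw [hk] at hm1
          left; right
          rw [mem_iUnion₂]
          refine ⟨k, Finset.mem_range.2 (by (clear * - hj hex hm2 hk; omega)), hkB, hal, ?_⟩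
          by_contra hc
          exact hm1 ⟨hω, hal, not_le.1 hc⟩
    by_cases hal : z ∈ loewnerDomain (fun u => W u ω) t
    · filter_upwards [eventually_gt_atTop 0] with N hN
      refine hcov N hN fun j hj _ => dom_mono ?_ hal
      have h1 : ((j + 1 : ℕ) : ℝ) * ((t - s) / N) ≤ N * ((t - s) / N) :=
        mul_le_mul_of_nonneg_right (by exact_mod_cast hj) (hδ0 N)
      have h3 := hmesh N hN
      linarith only [h1, h3]
    · have hzi : 0 < z.im := im_pos_of_dom hs (hAz ω hω)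
      obtain ⟨u, v, hu0, huv, hvt, hv, hx⟩ := hdeath (hW.cont ω) hzi ht hal hy₀
      have hsv : s < v := by
        by_contra hc
        exact hv (dom_mono (not_lt.1 hc) (hAz ω hω))
      have hgap : 0 < v - max u s := by
        have : max u s < v := max_lt huv hsv
        linarith only [this]
      filter_upwards [eventually_gt_atTop 0, hmesh0.eventually (gt_mem_nhds hgap)] with N hN hN2
      have hst' : s < t := hsv.trans_le hvt
      have hδp : 0 < (t - s) / (N : ℝ) := by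
        have : (0 : ℝ) < N := by exact_mod_cast hN
        have : 0 < t - s := by linarith only [hvt, hsv]
        (clear * - hst' hN; positivity)
      -- a grid point in the window
      obtain ⟨k, hk1, hk2⟩ : ∃ k : ℕ, max u s ≤ s + k * ((t - s) / N) ∧
          s + k * ((t - s) / N) < v := by
        refine ⟨⌈(max u s - s) / ((t - s) / N)⌉₊, ?_, ?_⟩
        · have h1 := Nat.le_ceil ((max u s - s) / ((t - s) / N))
          rw [div_le_iff₀ hδp] at h1
          linarith only [h1]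
        · have h1 := Nat.ceil_lt_add_one (a := (max u s - s) / ((t - s) / N))
            (div_nonneg (by linarith only [le_max_right u s]) hδp.le)
          have h2 : (⌈(max u s - s) / ((t - s) / N)⌉₊ : ℝ) * ((t - s) / N) <
              ((max u s - s) / ((t - s) / N) + 1) * ((t - s) / N) :=
            mul_lt_mul_of_pos_right h1 hδp
          rw [add_mul, one_mul, div_mul_cancel₀ _ hδp.ne'] at h2
          linarith only [hN2, h2]
      obtain ⟨hk3, hk4⟩ := hx _ ⟨(le_max_left u s).trans hk1, hk2⟩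
      refine hcov N hN fun j hj hjB => ?_
      have hmono : ∀ i i' : ℕ, i ≤ i' → s + (i : ℝ) * ((t - s) / N) ≤ s + i' * ((t - s) / N) := by
        intro i i' hii
        have : (i : ℝ) * ((t - s) / N) ≤ i' * ((t - s) / N) :=
          mul_le_mul_of_nonneg_right (by exact_mod_cast hii) (hδ0 N)
        linarith only [this]
      rcases Nat.lt_or_ge j k with hjk | hjk
      · exact dom_mono (hmono (j + 1) k hjk) hk3
      · exfalso
        obtain ⟨_, hj2, hj3⟩ := hjB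
        have h1 : (Zf (fun u => W u ω) z (s + j * ((t - s) / N))).im ≤
            (Zf (fun u => W u ω) z (s + k * ((t - s) / N))).im :=
          im_le_of_le (by
            have : 0 ≤ (k : ℝ) * ((t - s) / N) := mul_nonneg (Nat.cast_nonneg _) (hδ0 N)
            linarith only [hs, this]) (hmono k j hjk) hj2
        linarith only [hk4, hj3, h1]

end Vale.Agent.P164
end

section

/-!
# Supermartingale theorem, stopped at small heights
-/

namespace Vale.Agent.P164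

open Set Metric Filter Topology MeasureTheory ProbabilityTheory
open scoped NNReal ENNReal

/-- If `z` dies then its height tends to `0` before: there is a left neighbourhood of the death
time on which the height is `≤ y₀`, in the following form. Proof: let `τ` be the supremum of the
times `≤ t` at which `z` is alive; if the height stayed `> y₀` at all alive times, then
`2/(g - W)` is bounded by `2/y₀` on `[0,τ)`, `g` extends continuously to `τ` with
`Im g(τ) ≥ y₀ > 0`, and by local existence `z` is alive slightly after `τ` (at `τ` if `τ = t`):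
contradiction. (Look in `Loewner.lean`, `Hulls.lean`, `G/NoKill.lean` `exists_low`,
`H/Harnack.lean` for existing existence/extension lemmas.) -/
theorem height_of_death {W : ℝ → ℝ} (hW : Continuous W) {z : ℂ} (hz : 0 < z.im) {t : ℝ}
    (ht : 0 ≤ t) (hd : z ∉ loewnerDomain W t) {y₀ : ℝ} (hy₀ : 0 < y₀) :
    ∃ u v : ℝ, 0 ≤ u ∧ u < v ∧ v ≤ t ∧ z ∉ loewnerDomain W v ∧
      ∀ x ∈ Ico u v, z ∈ loewnerDomain W x ∧ (Zf W z x).im ≤ y₀ :=
  TStopH_height_of_death hW hz ht hd hy₀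

/-- Stopped version: it suffices to bound `φ` by the value of the process at the end, and at all
times at which the height is `≤ y₀`. Proof: grid `u_j = s + j (t-s)/2^n`, `j ≤ 2^n`;
`B_j = {ω ∈ A | z alive at u_j and y₀ < height(u_j)}` (the height decreases, so this is the same
as: at all `u_i`, `i ≤ j`), `X_j = {z alive at u_{j+1}, height(u_{j+1}) ≤ y₀ }`. `T_thm` on
`[u_j,u_{j+1}]` with the event `B_j` (`∈ past W u_j`, by `Z_past`) plus the already collected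
reward `∫_s^{u_j} a` gives
`∫⁻_{B_j ∩ X_j} V(u_{j+1}) + ∫⁻_{B_{j+1}} V(u_{j+1}) ≤ ∫⁻_{B_j} V(u_j)`,
`V(u) = ofReal (F(u) + ∫_s^u a)`. By `h`, `φ ≤ V(u_{j+1})` on `B_j ∩ X_j`. Summing up: with
`A₀ = {ω ∈ A | z alive at s, height ≤ y₀}` (there `φ ≤ V(s)`),
`∫⁻_{A \ L_n} φ ≤ ∫⁻_A ofReal F(s)` where the lost set
`L_n = {ω ∈ A | for some j: ω ∈ B_j, z dead at u_{j+1}}` or `z` dead at `s`. For fixed `ω ∈ A`
with `z` alive at `s`, `ω ∉ L_n` for large `n` by `height_of_death` (a grid point falls in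
`[u,v)`, and the heights decrease).
Conclude with Fatou (`lintegral_liminf_le`) applied to `φ · 1_{A \ L_n}`. -/
theorem T_stop {κ : ℝ} (hκ : 0 < κ) {F FX FXX FY FU a : ℂ → ℝ → ℝ} (hr : Reg F FX FXX FY FU)
    (ha : ContinuousOn (Function.uncurry a) ({Z : ℂ | 0 < Z.im} ×ˢ univ))
    (hF0 : ∀ Z U, 0 < Z.im → 0 ≤ F Z U) (ha0 : ∀ Z U, 0 < Z.im → 0 ≤ a Z U)
    (hgen : ∀ Z U, 0 < Z.im → gen κ FX FXX FY FU Z U + a Z U ≤ 0)
    {Ω : Type*} [MeasurableSpace Ω] {P : Measure Ω} {W : ℝ → Ω → ℝ} (hW : IsDrv κ P W)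
    (z : ℂ) {s t : ℝ} (hs : 0 ≤ s) (hst : s ≤ t) {A : Set Ω} (hA : MeasurableSet[past W s] A)
    (hAz : ∀ ω ∈ A, z ∈ loewnerDomain (fun u => W u ω) s)
    {y₀ : ℝ} (hy₀ : 0 < y₀) {φ : Ω → ℝ≥0∞} (hφ : Measurable φ)
    (h : ∀ ω ∈ A, ∀ u ∈ Icc s t, z ∈ loewnerDomain (fun v => W v ω) u →
      ((Zf (fun v => W v ω) z u).im ≤ y₀ ∨ u = t) →
      φ ω ≤ ENNReal.ofReal (St F (fun v => W v ω) z u +
        ∫ v in s..u, St a (fun v => W v ω) z v)) :
    ∫⁻ ω in A, φ ω ∂P ≤ ∫⁻ ω in A, ENNReal.ofReal (St F (fun u => W u ω) z s) ∂P := by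
  exact TStopAux_main (fun hW' _ hz _ ht hd _ hy => height_of_death hW' hz ht hd hy) hκ hr ha hF0
    ha0 hgen hW z hs hst hA hAz hy₀ hφ h

end Vale.Agent.P164
end

section

/-!
# Auxiliary lemmas for `lower_i` (`0 < κ < 8`)
-/

namespace Vale.Agent.P164.E8

open Set Metric Filter Topology MeasureTheory ProbabilityTheory
open scoped NNReal ENNReal

lemma FMLowerAuxI_snp_le_one {κ : ℝ} (h0 : 0 < κ) (h8 : κ < 8) {Z : ℂ} (hZ : 0 < Z.im) :
    sn Z ^ be κ ≤ 1 :=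
  Real.rpow_le_one (sn_pos hZ).le (sn_le_one Z) (be_nonneg h0 h8)

lemma FMLowerAuxI_f1_le {κ r : ℝ} (h8 : κ < 8) (hr : 0 < r) (U : ℝ) :
    FM.f1 κ r U ≤ r ^ (-xx κ) := by
  unfold FM.f1
  have hx : 0 < xx κ := by unfold xx; linarith only [h8]
  rcases le_total U (Real.log r) with h | h
  · rw [ee_of_nonpos (by linarith only [h])]
    simp only [sub_self, zero_mul]
    positivity
  · have h1 : Real.exp (-xx κ * U) ≤ r ^ (-xx κ) := by
      rw [Real.rpow_def_of_pos hr]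
      apply Real.exp_le_exp.2
      nlinarith only [hx, h]
    have h2 : 0 ≤ ee (U - Real.log r) := ee_nonneg _
    have h3 : (1 - ee (U - Real.log r)) * Real.exp (-xx κ * U) ≤ 1 * Real.exp (-xx κ * U) :=
      mul_le_mul_of_nonneg_right (by linarith only [h2]) (Real.exp_pos _).le
    linarith

lemma FMLowerAuxI_a1_nonneg {κ : ℝ} (h0 : 0 < κ) (h8 : κ < 8) (r : ℝ) {Z : ℂ} (hZ : 0 < Z.im)
    (U : ℝ) : 0 ≤ FM.a1 κ r Z U := by
  unfold FM.a1
  have := FMLowerAuxI_snp_le_one h0 h8 hZ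
  exact mul_nonneg (mul_nonneg (mul_nonneg (Real.exp_pos _).le (phi_nonneg _)) (rate_nonneg Z))
    (by linarith)

lemma FMLowerAuxI_F1_nonneg {κ : ℝ} (h0 : 0 < κ) (h8 : κ < 8) {r : ℝ} (hr : 0 < r) {Z : ℂ}
    (hZ : 0 < Z.im) (U : ℝ) : 0 ≤ FM.F1 κ r Z U := by
  unfold FM.F1
  have h1 := FMLowerAuxI_snp_le_one h0 h8 hZ
  have h2 := FM.snp_nonneg κ hZ
  have h3 := FMLowerAuxI_f1_le h8 hr U
  have h5 := FM.f1_nonneg κ r U
  have h6 := FM.SS_nonneg κ r U
  have h7 : FM.f1 κ r U * sn Z ^ be κ ≤ FM.f1 κ r U * 1 := mul_le_mul_of_nonneg_left h1 h5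
  linarith only [h3, h6, h7]

/-- the pathwise identity -/
lemma FMLowerAuxI_path_id {κ : ℝ} (h0 : 0 < κ) (h8 : κ < 8) {r : ℝ} (hr : 0 < r) {V : ℝ → ℝ}
    (hV : Continuous V) {z : ℂ} {s t : ℝ} (hs : 0 ≤ s)
    (hst : s ≤ t) (hz : z ∈ loewnerDomain V t) :
    St (FM.F1 κ r) V z t + ∫ u in s..t, St (FM.a1 κ r) V z u =
      r ^ (-xx κ) + FM.SS κ r (Uf V z s) - FM.f1 κ r (Uf V z t) * sn (Zf V z t) ^ be κ -
        yc κ r V z s t := by
  have hzim : 0 < z.im := im_pos_of_dom (hs.trans hst) hz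
  obtain ⟨hi, hp⟩ := FM.SS_path (κ := κ) (r := r) hV hs hst hz
  have hyi := yc_integrable h0 h8 hr hV hzim hs hst
  have e1 : ∫ u in s..t, St (FM.a1 κ r) V z u =
      ∫ u in s..t, (Real.exp (-xx κ * Uf V z u) * phi (Uf V z u - Real.log r) *
        rate (Zf V z u) - St (aR κ r) V z u) := by
    refine intervalIntegral.integral_congr fun u hu => ?_
    rw [uIcc_of_le hst] at hu
    have hu' : z ∈ loewnerDomain V u := dom_mono hu.2 hz
    have him := Zf_im_pos (hs.trans hu.1) hu'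
    simp only [St_of_mem hu']
    rw [FM.aR_eq κ r him]
    unfold FM.a1
    ring
  rw [e1, intervalIntegral.integral_sub hi hyi, hp, St_of_mem hz]
  unfold FM.F1 yc
  ring

lemma FMLowerAuxI_reg_mul {F FX FXX FY FU : ℂ → ℝ → ℝ} (h : Reg F FX FXX FY FU) (ε : ℝ) :
    Reg (fun Z U => ε * F Z U) (fun Z U => ε * FX Z U) (fun Z U => ε * FXX Z U)
      (fun Z U => ε * FY Z U) (fun Z U => ε * FU Z U) :=
  ⟨fun Z U hZ => (h.dX Z U hZ).const_mul ε, fun Z U hZ => (h.dXX Z U hZ).const_mul ε,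
    fun Z U hZ => (h.dY Z U hZ).const_mul ε, fun Z U hZ => (h.dU Z U hZ).const_mul ε,
    continuousOn_const.mul h.cF, continuousOn_const.mul h.cX, continuousOn_const.mul h.cXX,
    continuousOn_const.mul h.cY, continuousOn_const.mul h.cU⟩

lemma FMLowerAuxI_gen_mul (κ : ℝ) (FX FXX FY FU : ℂ → ℝ → ℝ) (ε : ℝ) (Z : ℂ) (U : ℝ) :
    gen κ (fun Z U => ε * FX Z U) (fun Z U => ε * FXX Z U)
      (fun Z U => ε * FY Z U) (fun Z U => ε * FU Z U) Z U = ε * gen κ FX FXX FY FU Z U := by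
  simp only [gen]
  ring

/-- `f1 sn^β ≤ M`. -/
lemma FMLowerAuxI_f1_le_MM (κ r : ℝ) {Z : ℂ} (hZ : 0 < Z.im) (U : ℝ) :
    FM.f1 κ r U * sn Z ^ be κ ≤ MM κ Z U := by
  unfold FM.f1 MM
  have h2 : (1 - ee (U - Real.log r)) ≤ 1 := by linarith [ee_nonneg (U - Real.log r)]
  have h3 := (Real.exp_pos (-xx κ * U)).le
  have h4 := mul_le_mul_of_nonneg_right h2 h3
  rw [one_mul] at h4
  exact mul_le_mul_of_nonneg_right h4 (FM.snp_nonneg κ hZ)

variable {Ω : Type*} [MeasurableSpace Ω] {P : Measure Ω} {W : ℝ → Ω → ℝ}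

/-- One fixed `ε`. -/
lemma FMLowerAuxI_eps {κ : ℝ} (h0 : 0 < κ) (h8 : κ < 8) (hW : IsDrv κ P W) {z : ℂ}
    (hz : 0 < z.im) {r t₀ T : ℝ} (hr : 0 < r) (ht₀ : 0 ≤ t₀) (hT : t₀ ≤ T) {A : Set Ω}
    (hA : MeasurableSet[past W t₀] A)
    (hU : ∀ ω ∈ A, z ∈ loewnerDomain (fun u => W u ω) t₀ ∧
      Real.log r + 1 ≤ Uf (fun u => W u ω) z t₀)
    {G GX GXX GY GU : ℂ → ℝ → ℝ} (hG : Reg G GX GXX GY GU)
    (hGg : ∀ Z U, 0 < Z.im → gen κ GX GXX GY GU Z U = 0)
    (hG0 : ∀ Z U, 0 < Z.im → 0 ≤ G Z U) {ε y₀ : ℝ} (hε : 0 < ε) (hy₀ : 0 < y₀)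
    (hdom : ∀ Z U, 0 < Z.im → Z.im ≤ y₀ → Real.log r ≤ U → MM κ Z U ≤ ε * G Z U) :
    ∫⁻ ω in A, ENNReal.ofReal (St (MM κ) (fun u => W u ω) z t₀) ∂P ≤
      (∫⁻ ω in A, ENNReal.ofReal (St (MM κ) (fun u => W u ω) z T) ∂P +
      ∫⁻ ω in A, ENNReal.ofReal (yc κ r (fun u => W u ω) z t₀ T) ∂P) +
      ENNReal.ofReal ε * ∫⁻ ω in A, ENNReal.ofReal (St G (fun u => W u ω) z t₀) ∂P := by
  have hprob := hW.prob
  have hA' : MeasurableSet A := hW.past_le _ hA
  set c : ℝ := FM.SS κ r (Real.log r + 1) with hc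
  have hc0 : 0 ≤ c := FM.SS_nonneg _ _ _
  have hrx : 0 < r ^ (-xx κ) := Real.rpow_pos_of_pos hr _
  have hm1 : Measurable fun ω => ENNReal.ofReal (St (MM κ) (fun u => W u ω) z t₀) :=
    ((St_past hW.cont hW.meas (FM.MM_measurable κ) ht₀ z).mono hW.past_le le_rfl).ennreal_ofReal
  have hmT : Measurable fun ω => St (MM κ) (fun u => W u ω) z T :=
    (St_past hW.cont hW.meas (FM.MM_measurable κ) (ht₀.trans hT) z).mono hW.past_le le_rfl
  have hmy : Measurable fun ω => yc κ r (fun u => W u ω) z t₀ T :=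
    (timeint_past hW.cont hW.meas (aR_measurable κ r) ht₀ hT z).mono hW.past_le le_rfl
  have hmG : Measurable fun ω => St G (fun u => W u ω) z t₀ :=
    (St_past' hW hG.cF ht₀ z).mono hW.past_le le_rfl
  have hmF : Measurable fun ω => St (FM.F1 κ r) (fun u => W u ω) z t₀ :=
    (St_past' hW (FM.F1_reg κ r).cF ht₀ z).mono hW.past_le le_rfl
  -- value at `t₀`
  have e0 : ∀ ω ∈ A, St (FM.F1 κ r) (fun u => W u ω) z t₀ =
      r ^ (-xx κ) + c - St (MM κ) (fun u => W u ω) z t₀ := by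
    intro ω hω
    obtain ⟨h1, h2⟩ := hU ω hω
    rw [St_of_mem h1, St_of_mem h1]
    unfold FM.F1 FM.f1 MM
    rw [ee_of_one_le (by linarith only [h2]), FM.SS_const κ r h2]
    ring
  have hMT : ∀ ω, 0 ≤ St (MM κ) (fun u => W u ω) z T := by
    intro ω
    by_cases h : z ∈ loewnerDomain (fun u => W u ω) T
    · rw [St_of_mem h]; exact FM.MM_nonneg κ (Zf_im_pos (ht₀.trans hT) h) _
    · rw [St_of_not_mem h]
  set φ : Ω → ℝ≥0∞ := fun ω => ENNReal.ofReal (r ^ (-xx κ) + c -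
    yc κ r (fun u => W u ω) z t₀ T - St (MM κ) (fun u => W u ω) z T) with hφ
  have hφm : Measurable φ := ((measurable_const.sub hmy).sub hmT).ennreal_ofReal
  have h := T_stop h0 (Reg.add (FM.F1_reg κ r) (FMLowerAuxI_reg_mul hG ε)) (a := FM.a1 κ r)
    (FM.a1_cont κ r)
    (fun Z U hZ => add_nonneg (FMLowerAuxI_F1_nonneg h0 h8 hr hZ U)
      (mul_nonneg hε.le (hG0 Z U hZ)))
    (fun Z U hZ => FMLowerAuxI_a1_nonneg h0 h8 r hZ U)
    (fun Z U hZ => by
      rw [gen_add, FMLowerAuxI_gen_mul, hGg Z U hZ,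
        FM.gen_pow h0 (fun U => -FM.f1 κ r U) (fun U => -FM.f1' κ r U)
        (fun U => Real.exp (-xx κ * U) * phi (U - Real.log r)) hZ]
      apply le_of_eq
      unfold FM.f1 FM.f1' FM.a1
      ring) hW z ht₀ hT hA (fun ω hω => (hU ω hω).1) hy₀ hφm (by
      intro ω hω u hu hal hcase
      simp only [hφ]
      apply ENNReal.ofReal_le_ofReal
      have hu0 : 0 ≤ u := ht₀.trans hu.1
      have hZ := Zf_im_pos hu0 hal
      have hp := FMLowerAuxI_path_id h0 h8 hr (hW.cont ω) ht₀ hu.1 hal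
      rw [FM.SS_const κ r (hU ω hω).2] at hp
      have hs : St (fun Z U => FM.F1 κ r Z U + ε * G Z U) (fun v => W v ω) z u =
          St (FM.F1 κ r) (fun v => W v ω) z u +
            ε * G (Zf (fun v => W v ω) z u) (Uf (fun v => W v ω) z u) := by
        rw [St_of_mem hal, St_of_mem hal]
      rw [hs]
      have hG1 := mul_nonneg hε.le (hG0 (Zf (fun v => W v ω) z u) (Uf (fun v => W v ω) z u) hZ)
      have hya := yc_add h0 h8 hr (hW.cont ω) hz ht₀ hu.1 hu.2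
      have hy1 : 0 ≤ yc κ r (fun u => W u ω) z u T := yc_nonneg hu0 hu.2
      rcases hcase with hle | huT
      · have h6 : FM.f1 κ r (Uf (fun v => W v ω) z u) *
            sn (Zf (fun v => W v ω) z u) ^ be κ ≤
            ε * G (Zf (fun v => W v ω) z u) (Uf (fun v => W v ω) z u) := by
          rcases le_total (Real.log r) (Uf (fun v => W v ω) z u) with hl | hl
          · exact (FMLowerAuxI_f1_le_MM κ r hZ _).trans (hdom _ _ hZ hle hl)
          · have : FM.f1 κ r (Uf (fun v => W v ω) z u) = 0 := by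
              unfold FM.f1
              rw [ee_of_nonpos (by linarith only [hl])]
              simp
            rw [this, zero_mul]
            exact hG1
        linarith only [hp, hya, hy1, h6, hMT ω]
      · subst huT
        have h6 := FMLowerAuxI_f1_le_MM κ r hZ (Uf (fun v => W v ω) z u)
        have h7 : St (MM κ) (fun u => W u ω) z u =
          MM κ (Zf (fun v => W v ω) z u) (Uf (fun v => W v ω) z u) := St_of_mem hal
        linarith only [hp, hG1, h6, h7])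
  -- total mass
  have k1 : ∫⁻ _ in A, ENNReal.ofReal (r ^ (-xx κ) + c) ∂P ≤
      ∫⁻ ω in A, φ ω ∂P +
      (∫⁻ ω in A, ENNReal.ofReal (St (MM κ) (fun u => W u ω) z T) ∂P +
      ∫⁻ ω in A, ENNReal.ofReal (yc κ r (fun u => W u ω) z t₀ T) ∂P) := by
    rw [← lintegral_add_left hmT.ennreal_ofReal, ← lintegral_add_left hφm]
    refine lintegral_mono fun ω => ?_
    have hy : 0 ≤ yc κ r (fun u => W u ω) z t₀ T := yc_nonneg ht₀ hT
    rw [← ENNReal.ofReal_add (hMT ω) hy]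
    refine le_trans ?_ ENNReal.ofReal_add_le
    apply ENNReal.ofReal_le_ofReal
    linarith only []
  have k2 : ∫⁻ ω in A, ENNReal.ofReal (St (FM.F1 κ r) (fun u => W u ω) z t₀) ∂P +
      ∫⁻ ω in A, ENNReal.ofReal (St (MM κ) (fun u => W u ω) z t₀) ∂P =
      ∫⁻ _ in A, ENNReal.ofReal (r ^ (-xx κ) + c) ∂P := by
    rw [← lintegral_add_right _ hm1]
    refine setLIntegral_congr_fun hA' fun ω hω => ?_
    obtain ⟨h1, h2⟩ := hU ω hω
    have hZ := Zf_im_pos ht₀ h1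
    have hM : 0 ≤ St (MM κ) (fun u => W u ω) z t₀ := by
      rw [St_of_mem h1]; exact FM.MM_nonneg κ hZ _
    have hF : 0 ≤ St (FM.F1 κ r) (fun u => W u ω) z t₀ := by
      rw [St_of_mem h1]; exact FMLowerAuxI_F1_nonneg h0 h8 hr hZ _
    change ENNReal.ofReal (St (FM.F1 κ r) (fun u => W u ω) z t₀) +
      ENNReal.ofReal (St (MM κ) (fun u => W u ω) z t₀) = ENNReal.ofReal (r ^ (-xx κ) + c)
    rw [← ENNReal.ofReal_add hF hM, e0 ω hω]
    congr 1
    ring
  have k3 : ∫⁻ ω in A, ENNReal.ofReal (St (fun Z U => FM.F1 κ r Z U + ε * G Z U)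
      (fun u => W u ω) z t₀) ∂P =
      ∫⁻ ω in A, ENNReal.ofReal (St (FM.F1 κ r) (fun u => W u ω) z t₀) ∂P +
      ENNReal.ofReal ε * ∫⁻ ω in A, ENNReal.ofReal (St G (fun u => W u ω) z t₀) ∂P := by
    rw [← lintegral_const_mul _ hmG.ennreal_ofReal, ← lintegral_add_left hmF.ennreal_ofReal]
    refine setLIntegral_congr_fun hA' fun ω hω => ?_
    obtain ⟨h1, h2⟩ := hU ω hω
    have hZ := Zf_im_pos ht₀ h1
    change ENNReal.ofReal (St (fun Z U => FM.F1 κ r Z U + ε * G Z U) (fun u => W u ω) z t₀) =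
      ENNReal.ofReal (St (FM.F1 κ r) (fun u => W u ω) z t₀) +
      ENNReal.ofReal ε * ENNReal.ofReal (St G (fun u => W u ω) z t₀)
    rw [St_of_mem h1, St_of_mem h1, St_of_mem h1, ← ENNReal.ofReal_mul hε.le,
      ← ENNReal.ofReal_add (FMLowerAuxI_F1_nonneg h0 h8 hr hZ _)
        (mul_nonneg hε.le (hG0 _ _ hZ))]
  have kfin : ∫⁻ ω in A, ENNReal.ofReal (St (FM.F1 κ r) (fun u => W u ω) z t₀) ∂P ≠ ⊤ := by
    have : ∫⁻ _ in A, ENNReal.ofReal (r ^ (-xx κ) + c) ∂P ≠ ⊤ := by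
      rw [setLIntegral_const]
      exact ENNReal.mul_ne_top ENNReal.ofReal_ne_top (measure_ne_top _ _)
    rw [← k2] at this
    exact (ENNReal.add_ne_top.1 this).1
  rw [k3] at h
  have k4 := (k2.le.trans k1).trans (add_le_add_left h _)
  rw [add_assoc] at k4
  have k5 := (ENNReal.add_le_add_iff_left kfin).1 k4
  refine k5.trans (le_of_eq ?_)
  rw [add_comm]

/-- Assembly: `ε → 0` and exhaustion. -/
theorem FMLowerAuxI_main {κ : ℝ} (h0 : 0 < κ) (h8 : κ < 8) (hW : IsDrv κ P W) {z : ℂ}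
    (hz : 0 < z.im) {r t₀ T : ℝ} (hr : 0 < r) (ht₀ : 0 ≤ t₀) (hT : t₀ ≤ T) {A : Set Ω}
    (hA : MeasurableSet[past W t₀] A)
    (hU : ∀ ω ∈ A, z ∈ loewnerDomain (fun u => W u ω) t₀ ∧
      Real.log r + 1 ≤ Uf (fun u => W u ω) z t₀)
    {G GX GXX GY GU : ℂ → ℝ → ℝ} (hG : Reg G GX GXX GY GU)
    (hGg : ∀ Z U, 0 < Z.im → gen κ GX GXX GY GU Z U = 0)
    (hG0 : ∀ Z U, 0 < Z.im → 0 ≤ G Z U)
    (hdom : ∀ ε : ℝ, 0 < ε → ∃ y₀ : ℝ, 0 < y₀ ∧
      ∀ Z U, 0 < Z.im → Z.im ≤ y₀ → Real.log r ≤ U → MM κ Z U ≤ ε * G Z U) :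
    ∫⁻ ω in A, ENNReal.ofReal (St (MM κ) (fun u => W u ω) z t₀) ∂P ≤
      ∫⁻ ω in A, ENNReal.ofReal (St (MM κ) (fun u => W u ω) z T) ∂P +
      ∫⁻ ω in A, ENNReal.ofReal (yc κ r (fun u => W u ω) z t₀ T) ∂P := by
  have hprob := hW.prob
  have hA' : MeasurableSet A := hW.past_le _ hA
  set B : ℕ → Set Ω := fun n => A ∩ {ω | St G (fun u => W u ω) z t₀ ≤ (n : ℝ)} with hB
  have hBp : ∀ n, MeasurableSet[past W t₀] (B n) := fun n =>
    MeasurableSet.inter hA ((St_past' hW hG.cF ht₀ z) measurableSet_Iic)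
  have hBU : ⋃ n, B n = A := by
    apply Subset.antisymm
    · exact iUnion_subset fun n => inter_subset_left
    · intro ω hω
      obtain ⟨n, hn⟩ := exists_nat_ge (St G (fun u => W u ω) z t₀)
      exact mem_iUnion.2 ⟨n, hω, hn⟩
  have hBmono : Monotone B := by
    intro n m hnm ω hω
    have h1 : St G (fun u => W u ω) z t₀ ≤ (n : ℝ) := hω.2
    have h2 : (n : ℝ) ≤ (m : ℝ) := by exact_mod_cast hnm
    exact ⟨hω.1, h1.trans h2⟩
  have hBd : Directed (· ⊆ ·) B := hBmono.directed_le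
  have key : ∀ n, ∫⁻ ω in B n, ENNReal.ofReal (St (MM κ) (fun u => W u ω) z t₀) ∂P ≤
      ∫⁻ ω in A, ENNReal.ofReal (St (MM κ) (fun u => W u ω) z T) ∂P +
      ∫⁻ ω in A, ENNReal.ofReal (yc κ r (fun u => W u ω) z t₀ T) ∂P := by
    intro n
    have hfin : ∫⁻ ω in B n, ENNReal.ofReal (St G (fun u => W u ω) z t₀) ∂P ≠ ⊤ := by
      have hle : ∫⁻ ω in B n, ENNReal.ofReal (St G (fun u => W u ω) z t₀) ∂P ≤
          ∫⁻ _ in B n, ENNReal.ofReal (n : ℝ) ∂P :=
        setLIntegral_mono' (hW.past_le _ (hBp n)) fun ω hω => ENNReal.ofReal_le_ofReal hω.2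
      refine ne_top_of_le_ne_top ?_ hle
      rw [setLIntegral_const]
      exact ENNReal.mul_ne_top ENNReal.ofReal_ne_top (measure_ne_top _ _)
    have hε : ∀ ε : ℝ, 0 < ε →
        ∫⁻ ω in B n, ENNReal.ofReal (St (MM κ) (fun u => W u ω) z t₀) ∂P ≤
        (∫⁻ ω in A, ENNReal.ofReal (St (MM κ) (fun u => W u ω) z T) ∂P +
        ∫⁻ ω in A, ENNReal.ofReal (yc κ r (fun u => W u ω) z t₀ T) ∂P) +
        ENNReal.ofReal ε * ∫⁻ ω in B n, ENNReal.ofReal (St G (fun u => W u ω) z t₀) ∂P := by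
      intro ε hε
      obtain ⟨y₀, hy₀, hd⟩ := hdom ε hε
      refine (FMLowerAuxI_eps h0 h8 hW hz hr ht₀ hT (hBp n) (fun ω hω => hU ω hω.1) hG hGg hG0
        hε hy₀ hd).trans ?_
      gcongr
      · exact inter_subset_left
      · exact inter_subset_left
    have hlim : Tendsto (fun ε : ℝ =>
        (∫⁻ ω in A, ENNReal.ofReal (St (MM κ) (fun u => W u ω) z T) ∂P +
        ∫⁻ ω in A, ENNReal.ofReal (yc κ r (fun u => W u ω) z t₀ T) ∂P) +
        ENNReal.ofReal ε * ∫⁻ ω in B n, ENNReal.ofReal (St G (fun u => W u ω) z t₀) ∂P)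
        (𝓝[>] 0) (𝓝 ((∫⁻ ω in A, ENNReal.ofReal (St (MM κ) (fun u => W u ω) z T) ∂P +
        ∫⁻ ω in A, ENNReal.ofReal (yc κ r (fun u => W u ω) z t₀ T) ∂P) + 0)) := by
      refine Tendsto.const_add _ ?_
      have h1 : Tendsto (fun ε : ℝ => ENNReal.ofReal ε) (𝓝[>] 0) (𝓝 0) := by
        have := (ENNReal.continuous_ofReal.tendsto (0 : ℝ)).mono_left
          (nhdsWithin_le_nhds (s := Ioi (0 : ℝ)))
        simpa using this
      have h2 := ENNReal.Tendsto.mul_const (b := ∫⁻ ω in B n,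
        ENNReal.ofReal (St G (fun u => W u ω) z t₀) ∂P) h1 (Or.inr hfin)
      simpa only [zero_mul] using h2
    rw [add_zero] at hlim
    refine ge_of_tendsto hlim ?_
    filter_upwards [self_mem_nhdsWithin] with ε hε'
    exact hε ε hε'
  calc ∫⁻ ω in A, ENNReal.ofReal (St (MM κ) (fun u => W u ω) z t₀) ∂P
      = ∫⁻ ω in ⋃ n, B n, ENNReal.ofReal (St (MM κ) (fun u => W u ω) z t₀) ∂P := by rw [hBU]
    _ = ⨆ n, ∫⁻ ω in B n, ENNReal.ofReal (St (MM κ) (fun u => W u ω) z t₀) ∂P :=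
        setLIntegral_iUnion_of_directed _ hBd
    _ ≤ _ := iSup_le key

end Vale.Agent.P164.E8
end

section

/-!
# Decay of the mass of the local martingale (`0 < κ < 8`)
-/

namespace Vale.Agent.P164.E8

open Set Metric Filter Topology MeasureTheory ProbabilityTheory
open scoped NNReal ENNReal

/-- The function `(|Z| + 2 Y)^{1/4}`. -/
noncomputable def hD (Z : ℂ) : ℝ := (‖Z‖ + 2 * Z.im) ^ (1 / 4 : ℝ)

/-- Algebra behind the decay. With `s = sn Z`, `c = cs Z`, `c² = 1 - s²`. The left side is linear in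
`κ`; at `κ = 0` it is `(1+2s)(4s²-4s-6) ≤ -6`, at `κ = 8` it is `-1 - 5s²`. -/
theorem decay_alg {κ s : ℝ} (h0 : 0 ≤ κ) (h8 : κ ≤ 8) (hs : 0 ≤ s) (hs1 : s ≤ 1) :
    (1 + 2 * s) * ((κ / 2 - 2) * s ^ 2 + (κ - 6) * (1 - s ^ 2) - 4 * s) -
      3 * κ / 8 * (1 - s ^ 2) ≤ -1 := by
  have e : (1 + 2 * s) * ((κ / 2 - 2) * s ^ 2 + (κ - 6) * (1 - s ^ 2) - 4 * s) -
      3 * κ / 8 * (1 - s ^ 2) = (1 - κ / 8) * ((1 + 2 * s) * (4 * s ^ 2 - 4 * s - 6)) +
        κ / 8 * (-1 - 5 * s ^ 2) := by ring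
  have h1 : (1 + 2 * s) * (4 * s ^ 2 - 4 * s - 6) ≤ -1 := by
    nlinarith only [hs, hs1]
  have h2 : -1 - 5 * s ^ 2 ≤ -1 := by nlinarith only []
  have h3 := mul_le_mul_of_nonneg_left h1 (show 0 ≤ 1 - κ / 8 by linarith only [h8])
  have h4 := mul_le_mul_of_nonneg_left h2 (show 0 ≤ κ / 8 by linarith only [h0])
  rw [e]
  linarith only [h3, h4]

/-- Regularity and generator of `MM · hD`: with `R = |Z| + 2Y`,
`L(M h) = M · (1/4) R^{-7/4} · {(1+2s)[(κ/2-2)s²+(κ-6)c²-4s] - (3κ/8)c²} / 1` (note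
`R = |Z| (1+2s)`). Derivation: `L(M f)/M = (κ/2) f_XX + (κ-6) X/|Z|² f_X - 2Y/|Z|² f_Y` for a
function `f` of `Z` (because `LM = 0` and the cross term is `κ M_X/M f_X = -κ β X/|Z|² f_X`
`= -(8-κ) X/|Z|² f_X`, plus the drift `2X/|Z|² f_X`); and for `f = R^b`, `b = 1/4`:
`f_X = b R^{b-1} X/|Z|`, `f_Y = b R^{b-1}(Y/|Z| + 2)`,
`f_XX = b(b-1) R^{b-2} X²/|Z|² + b R^{b-1} Y²/|Z|³`. Then use `decay_alg`:
`L(M h) ≤ -(1/4) M R^{-7/4} = -(1/4) M h^{-7}`. -/
theorem reg_MhD {κ : ℝ} (h0 : 0 < κ) (h8 : κ < 8) :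
    ∃ FX FXX FY FU : ℂ → ℝ → ℝ, Reg (fun Z U => MM κ Z U * hD Z) FX FXX FY FU ∧
      ∀ Z U, 0 < Z.im → gen κ FX FXX FY FU Z U + 1 / 4 * (MM κ Z U * (hD Z ^ 7)⁻¹) ≤ 0 := by
  have d1 : ∀ U : ℝ, HasDerivAt (fun U : ℝ => Real.exp (-xx κ * U))
      (-xx κ * Real.exp (-xx κ * U)) U := by
    intro U
    have := ((hasDerivAt_id U).const_mul (-xx κ)).exp
    refine this.congr_deriv ?_
    simp only [id_eq, neg_mul, mul_one, mul_neg, neg_inj]
    ring
  have c1 : Continuous fun U : ℝ => -xx κ * Real.exp (-xx κ * U) := by fun_prop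
  have eM : ∀ Z U, 0 < Z.im → MM κ Z U = Real.exp (-xx κ * U) * hY (be κ) (be κ) Z := by
    intro Z U hZ
    rw [hY_sn hZ, MM]
  refine ⟨_, _, _, _, DecayAux_reg_congr
    (DecayAux_reg_mul (reg_pow d1 c1 (be κ) (be κ)) DecayAux_reg_h) ?_, ?_⟩
  · intro Z U hZ
    rw [eM Z U hZ]
    rfl
  · intro Z U hZ
    have hN := norm_pos_of_im hZ
    have hR := DecayAux_R_pos hZ
    have hh := DecayAux_h_pos hZ
    have hH := hY_pos (be κ) (be κ) Z
    have hX : Z.re ^ 2 = ‖Z‖ ^ 2 - Z.im ^ 2 := by rw [normsq_eq]; ring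
    have hg := DecayAux_gen h0 (Real.exp (-xx κ * U)) (hY (be κ) (be κ) Z) (DecayAux_h Z)
      Z.re Z.im ‖Z‖ (DecayAux_R Z) hX hN hZ rfl
    have e8 : (hD Z ^ 7)⁻¹ = DecayAux_h Z / DecayAux_R Z ^ 2 := by
      have h8 := DecayAux_h_pow8 hZ
      have : hD Z = DecayAux_h Z := rfl
      rw [this, ← h8]
      (clear * - hh; field_simp)
    have hal := decay_alg h0.le h8.le (sn_pos hZ).le (sn_le_one Z)
    rw [e8, eM Z U hZ]
    simp only [gen, sn, mul_zero, add_zero] at hal ⊢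
    rw [hg]
    have hc : 0 ≤ Real.exp (-xx κ * U) * hY (be κ) (be κ) Z * DecayAux_h Z /
        (4 * DecayAux_R Z ^ 2) := by positivity
    have h5 := mul_le_mul_of_nonneg_left hal hc
    have h6 : 1 / 4 * (Real.exp (-xx κ * U) * hY (be κ) (be κ) Z *
        (DecayAux_h Z / DecayAux_R Z ^ 2)) = Real.exp (-xx κ * U) * hY (be κ) (be κ) Z *
        DecayAux_h Z / (4 * DecayAux_R Z ^ 2) := by
      field_simp
    rw [h6]
    linarith only [h5]

theorem Decay_hD_pos {Z : ℂ} (hZ : 0 < Z.im) : 0 < hD Z :=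
  Real.rpow_pos_of_pos (by have := FM.norm_pos hZ; positivity) _

theorem Decay_hD_meas : Measurable hD := by
  unfold hD
  exact (measurable_norm.add (Complex.measurable_im.const_mul 2)).pow_const _

theorem Decay_F_meas (κ : ℝ) : Measurable (Function.uncurry fun Z U => MM κ Z U * hD Z) :=
  (FM.MM_measurable κ).mul (Decay_hD_meas.comp measurable_fst)

theorem Decay_a_meas (κ : ℝ) :
    Measurable (Function.uncurry fun Z U => 1 / 4 * (MM κ Z U * (hD Z ^ 7)⁻¹)) :=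
  ((FM.MM_measurable κ).mul ((Decay_hD_meas.comp measurable_fst).pow_const 7).inv).const_mul _

theorem Decay_a_cont (κ : ℝ) :
    ContinuousOn (Function.uncurry fun Z U => 1 / 4 * (MM κ Z U * (hD Z ^ 7)⁻¹))
      ({Z : ℂ | 0 < Z.im} ×ˢ univ) := by
  have h1 : ContinuousOn (fun p : ℂ × ℝ => hD p.1) FM.HS := by
    unfold hD
    exact (FM.c_norm.add (continuousOn_const.mul FM.c_im)).rpow_const
      fun p _ => Or.inr (by norm_num)
  have h2 : ContinuousOn (fun p : ℂ × ℝ => MM κ p.1 p.2) FM.HS := by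
    unfold MM
    exact (FM.c_u (f := fun U => Real.exp (-xx κ * U)) (by fun_prop)).mul (FM.c_snp _)
  exact continuousOn_const.mul (h2.mul ((h1.pow 7).inv₀ fun p hp =>
    pow_ne_zero 7 (Decay_hD_pos hp.1).ne'))

theorem Decay_one_le {x : ℝ} (hx : 0 < x) : 1 ≤ x + (x ^ 7)⁻¹ := by
  rcases le_total 1 x with h | h
  · have : 0 ≤ (x ^ 7)⁻¹ := by positivity
    linarith only [h, this]
  · have h1 : x ^ 7 ≤ 1 := pow_le_one₀ hx.le h
    have h2 : 1 ≤ (x ^ 7)⁻¹ := (one_le_inv₀ (by positivity)).mpr h1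
    linarith only [hx, h2]

/-- Pointwise comparison. -/
theorem Decay_pt {κ lam : ℝ} (hl : 0 < lam) {V : ℝ → ℝ} {z : ℂ} {u : ℝ} (hu : 0 ≤ u) :
    ENNReal.ofReal (St (MM κ) V z u) ≤
      ENNReal.ofReal lam * ENNReal.ofReal (St (fun Z U => MM κ Z U * hD Z) V z u) +
        ENNReal.ofReal (4 * (lam ^ 7)⁻¹) *
          ENNReal.ofReal (St (fun Z U => 1 / 4 * (MM κ Z U * (hD Z ^ 7)⁻¹)) V z u) := by
  have hF0 : 0 ≤ St (fun Z U => MM κ Z U * hD Z) V z u :=
    St_nonneg' (fun Z U hZ => mul_nonneg (FM.MM_nonneg κ hZ U) (Decay_hD_pos hZ).le) hu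
  have ha0 : 0 ≤ St (fun Z U => 1 / 4 * (MM κ Z U * (hD Z ^ 7)⁻¹)) V z u :=
    St_nonneg' (fun Z U hZ => by
      have h1 := FM.MM_nonneg κ hZ U
      have h2 := Decay_hD_pos hZ
      (clear * - h1 h2; positivity)) hu
  rw [← ENNReal.ofReal_mul hl.le, ← ENNReal.ofReal_mul (by positivity),
    ← ENNReal.ofReal_add (by positivity) (by positivity)]
  apply ENNReal.ofReal_le_ofReal
  by_cases h : z ∈ loewnerDomain V u
  · rw [St_of_mem h, St_of_mem h, St_of_mem h]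
    have hZ := Zf_im_pos hu h
    have hM := FM.MM_nonneg κ hZ (Uf V z u)
    have hh := Decay_hD_pos hZ
    have h1 := Decay_one_le (mul_pos hl hh)
    have h2 := mul_le_mul_of_nonneg_left h1 hM
    rw [mul_one] at h2
    refine h2.trans (le_of_eq ?_)
    rw [mul_pow, mul_inv]
    ring
  · rw [St_of_not_mem h, St_of_not_mem h, St_of_not_mem h]
    simp

/-- Joint measurability in time and randomness. -/
theorem Decay_joint {κ : ℝ} {Ω : Type*} [MeasurableSpace Ω] {P : Measure Ω}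
    {W : ℝ → Ω → ℝ} (hW : IsDrv κ P W) {G : ℂ → ℝ → ℝ} (hG : Measurable (Function.uncurry G))
    (z : ℂ) (T : ℝ) : Measurable (fun p : ℝ × Ω => ENNReal.ofReal
      (if 0 ≤ p.1 ∧ p.1 ≤ T then St G (fun u => W u p.2) z p.1 else 0)) := by
  have h := (adapt_joint (T := T) hW.cont (fun s _ => hW.meas s) hG).comp
    ((measurable_fst.prodMk measurable_const).prodMk measurable_snd : Measurable
      (fun q : ℝ × Ω => (((q.1, z) : ℝ × ℂ), q.2)))
  exact h.ennreal_ofReal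

/-- `MM` is a supermartingale. -/
theorem Decay_MM_super {κ : ℝ} (h0 : 0 < κ) {Ω : Type*} [MeasurableSpace Ω] {P : Measure Ω}
    {W : ℝ → Ω → ℝ} (hW : IsDrv κ P W) (z : ℂ) {s t : ℝ} (hs : 0 ≤ s)
    (hst : s ≤ t) {A : Set Ω} (hA : MeasurableSet[past W s] A) :
    ∫⁻ ω in A, ENNReal.ofReal (St (MM κ) (fun u => W u ω) z t) ∂P ≤
      ∫⁻ ω in A, ENNReal.ofReal (St (MM κ) (fun u => W u ω) z s) ∂P := by
  exact SmallAngle_super h0 (FM.reg_MM κ) (fun Z U hZ => FM.MM_nonneg κ hZ U)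
    (fun Z U hZ => by
      rw [FM.gen_pow h0 (fun U => Real.exp (-xx κ * U))
        (fun U => Real.exp (-xx κ * U) * (-xx κ)) (fun _ => 0) hZ]
      apply le_of_eq
      ring) hW z hs hst hA

/-- The constant. -/
theorem Decay_const {x lam : ℝ} (hx : 0 ≤ x) (_hl : 0 < lam) {R : ℝ} (hR : 0 < R)
    (hl8 : lam ^ 8 = 4 / R) :
    2 * lam * (3 * x) ^ (1 / 4 : ℝ) ≤ 4 * (x ^ 2 / R) ^ (1 / 8 : ℝ) := by
  have h1 : 0 ≤ 4 * (x ^ 2 / R) ^ (1 / 8 : ℝ) := by (clear * - hR; positivity)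
  refine le_of_pow_le_pow_left₀ (n := 8) (by norm_num) h1 ?_
  have e1 : ((3 * x) ^ (1 / 4 : ℝ)) ^ 8 = (3 * x) ^ 2 := by
    rw [← Real.rpow_natCast ((3 * x) ^ (1 / 4 : ℝ)) 8, ← Real.rpow_mul (by (clear * - hx; positivity))]
    norm_num
  have e2 : ((x ^ 2 / R) ^ (1 / 8 : ℝ)) ^ 8 = x ^ 2 / R := by
    rw [← Real.rpow_natCast ((x ^ 2 / R) ^ (1 / 8 : ℝ)) 8, ← Real.rpow_mul (by (clear * - hR; positivity))]
    norm_num
  have e3 : (2 * lam * (3 * x) ^ (1 / 4 : ℝ)) ^ 8 = 2 ^ 8 * lam ^ 8 * (3 * x) ^ 2 := by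
    rw [mul_pow, mul_pow, e1]
  have e4 : (4 * (x ^ 2 / R) ^ (1 / 8 : ℝ)) ^ 8 = 4 ^ 8 * (x ^ 2 / R) := by
    rw [mul_pow, e2]
  rw [e3, e4, hl8]
  have h2 : 0 ≤ x ^ 2 / R := by (clear * - hR; positivity)
  have e5 : (2 : ℝ) ^ 8 * (4 / R) * (3 * x) ^ 2 = 9216 * (x ^ 2 / R) := by ring
  rw [e5]
  nlinarith only [h2]

/-- Decay of the mass. Proof: let `m(u) = ∫⁻_A ofReal (St MM u)` (nonincreasing:
`SmallAngle_super` of H/SmallAngle.lean), `H(u) = ∫⁻_A ofReal (St (MM·hD) u) ≤ H(t₀)` (the same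
lemma). By `T_dead` (X/SmallCont.lean) for
`F = MM·hD`, `a = (1/4) MM hD^{-7}`:
`∫⁻_A ∫⁻_{Ioc t₀ T} ofReal (St (MM hD^{-7}) u) ≤ 4 H(t₀)`. Pointwise `1 ≤ lam h + (lam h)^{-7}` for
`h, lam > 0`, so with Tonelli
`(T-t₀) m(T) ≤ ∫⁻_{Ioc t₀ T} m(u) du ≤ lam (T-t₀) H(t₀) + lam^{-7} 4 H(t₀) = 2 lam (T-t₀) H(t₀)` for
`lam^8 = 4/(T-t₀)`. Finally `hD ≤ (3|Z|)^{1/4}` and `2 · 4^{1/8} · 3^{1/4} ≤ 4`
(`(2 · 4^{1/8} · 3^{1/4})^8 = 2^8·4·9 = 9216 ≤ 65536`). (If `H(t₀) = ∞` nothing to prove; no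
finiteness is needed.) -/
theorem decay {κ : ℝ} (h0 : 0 < κ) (h8 : κ < 8) {Ω : Type*} [MeasurableSpace Ω] {P : Measure Ω}
    {W : ℝ → Ω → ℝ} (hW : IsDrv κ P W) {z : ℂ} {t₀ T : ℝ} (ht₀ : 0 ≤ t₀) (hT : t₀ < T)
    {A : Set Ω} (hA : MeasurableSet[past W t₀] A) :
    ∫⁻ ω in A, ENNReal.ofReal (St (MM κ) (fun u => W u ω) z T) ∂P ≤
      ∫⁻ ω in A, ENNReal.ofReal (St (MM κ) (fun u => W u ω) z t₀ *
        (4 * (‖Zf (fun u => W u ω) z t₀‖ ^ 2 / (T - t₀)) ^ (1 / 8 : ℝ))) ∂P := by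
  have hprob := hW.prob
  obtain ⟨FX, FXX, FY, FU, hreg, hgen⟩ := reg_MhD h0 h8
  have hR : 0 < T - t₀ := sub_pos.mpr hT
  -- the parameter
  obtain ⟨lam, hl, hl8⟩ : ∃ lam : ℝ, 0 < lam ∧ lam ^ 8 = 4 / (T - t₀) := by
    refine ⟨(4 / (T - t₀)) ^ (1 / 8 : ℝ), by positivity, ?_⟩
    rw [← Real.rpow_natCast _ 8, ← Real.rpow_mul (by positivity)]
    norm_num
  set F : ℂ → ℝ → ℝ := fun Z U => MM κ Z U * hD Z with hF
  set a : ℂ → ℝ → ℝ := fun Z U => 1 / 4 * (MM κ Z U * (hD Z ^ 7)⁻¹) with ha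
  set H0 : ℝ≥0∞ := ∫⁻ ω in A, ENNReal.ofReal (St F (fun u => W u ω) z t₀) ∂P with hH0
  have hF0 : ∀ Z U, 0 < Z.im → 0 ≤ F Z U := fun Z U hZ =>
    mul_nonneg (FM.MM_nonneg κ hZ U) (Decay_hD_pos hZ).le
  have ha0 : ∀ Z U, 0 < Z.im → 0 ≤ a Z U := fun Z U hZ => by
    have h1 := FM.MM_nonneg κ hZ U
    have h2 := Decay_hD_pos hZ
    simp only [ha]
    (clear * - h1 h2; positivity)
  have key1 : ∀ u, t₀ ≤ u → ∫⁻ ω in A, ENNReal.ofReal (St F (fun u => W u ω) z u) ∂P ≤ H0 :=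
    fun u hu => SmallAngle_super h0 hreg hF0
      (fun Z U hZ => by
        have h1 := hgen Z U hZ
        have h2 : 0 ≤ 1 / 4 * (MM κ Z U * (hD Z ^ 7)⁻¹) := ha0 Z U hZ
        linarith only [h1, h2]) hW z ht₀ hu hA
  have key2 : ∫⁻ ω in A, (∫⁻ v in Ioc t₀ T, ENNReal.ofReal (St a (fun v => W v ω) z v)) ∂P ≤
      H0 := T_dead h0 hreg (Decay_a_cont κ) hF0 ha0 hgen hW z ht₀ hT.le hA
  have mF := Decay_joint hW (Decay_F_meas κ) z T
  have mA := Decay_joint hW (Decay_a_meas κ) z T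
  have hmemIoc : ∀ u ∈ Ioc t₀ T, 0 ≤ u ∧ u ≤ T := fun u hu => ⟨ht₀.trans hu.1.le, hu.2⟩
  -- Tonelli
  have swap : ∫⁻ v in Ioc t₀ T, (∫⁻ ω in A, ENNReal.ofReal (St a (fun v => W v ω) z v) ∂P) ≤
      H0 := by
    have e1 : ∫⁻ v in Ioc t₀ T, (∫⁻ ω in A, ENNReal.ofReal (St a (fun v => W v ω) z v) ∂P) =
        ∫⁻ v in Ioc t₀ T, (∫⁻ ω in A, ENNReal.ofReal
          (if 0 ≤ v ∧ v ≤ T then St a (fun u => W u ω) z v else 0) ∂P) := by
      refine setLIntegral_congr_fun measurableSet_Ioc fun v hv => ?_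
      simp only [if_pos (hmemIoc v hv)]
    have e2 : ∫⁻ ω in A, (∫⁻ v in Ioc t₀ T, ENNReal.ofReal (St a (fun v => W v ω) z v)) ∂P =
        ∫⁻ ω in A, (∫⁻ v in Ioc t₀ T, ENNReal.ofReal
          (if 0 ≤ v ∧ v ≤ T then St a (fun u => W u ω) z v else 0)) ∂P := by
      refine lintegral_congr fun ω => ?_
      refine setLIntegral_congr_fun measurableSet_Ioc fun v hv => ?_
      simp only [if_pos (hmemIoc v hv)]
    rw [e1, lintegral_lintegral_swap mA.aemeasurable, ← e2]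
    exact key2
  -- the main estimate
  have main : ENNReal.ofReal (T - t₀) *
      ∫⁻ ω in A, ENNReal.ofReal (St (MM κ) (fun u => W u ω) z T) ∂P ≤
      ENNReal.ofReal (T - t₀) * (ENNReal.ofReal (2 * lam) * H0) := by
    have hvol : volume (Ioc t₀ T) = ENNReal.ofReal (T - t₀) := Real.volume_Ioc
    calc ENNReal.ofReal (T - t₀) *
          ∫⁻ ω in A, ENNReal.ofReal (St (MM κ) (fun u => W u ω) z T) ∂P
        = ∫⁻ _ in Ioc t₀ T,
            (∫⁻ ω in A, ENNReal.ofReal (St (MM κ) (fun u => W u ω) z T) ∂P) := by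
          rw [setLIntegral_const, hvol, mul_comm]
      _ ≤ ∫⁻ v in Ioc t₀ T, (ENNReal.ofReal lam * H0 + ENNReal.ofReal (4 * (lam ^ 7)⁻¹) *
            ∫⁻ ω in A, ENNReal.ofReal (St a (fun v => W v ω) z v) ∂P) := by
          refine setLIntegral_mono' measurableSet_Ioc fun v hv => ?_
          have hv0 := (hmemIoc v hv).1
          refine (Decay_MM_super h0 hW z hv0 hv.2 (past_mono hv.1.le _ hA)).trans ?_
          have mFv : Measurable fun ω => ENNReal.ofReal (St F (fun u => W u ω) z v) :=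
            (adapt_St hW.cont (fun s _ => hW.meas s) (Decay_F_meas κ) hv0 z).ennreal_ofReal
          have mAv : Measurable fun ω => ENNReal.ofReal (St a (fun u => W u ω) z v) :=
            (adapt_St hW.cont (fun s _ => hW.meas s) (Decay_a_meas κ) hv0 z).ennreal_ofReal
          calc ∫⁻ ω in A, ENNReal.ofReal (St (MM κ) (fun u => W u ω) z v) ∂P
              ≤ ∫⁻ ω in A, (ENNReal.ofReal lam * ENNReal.ofReal (St F (fun u => W u ω) z v) +
                ENNReal.ofReal (4 * (lam ^ 7)⁻¹) *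
                  ENNReal.ofReal (St a (fun u => W u ω) z v)) ∂P :=
                lintegral_mono fun ω => Decay_pt hl hv0
            _ = ENNReal.ofReal lam * ∫⁻ ω in A, ENNReal.ofReal (St F (fun u => W u ω) z v) ∂P +
                ENNReal.ofReal (4 * (lam ^ 7)⁻¹) *
                  ∫⁻ ω in A, ENNReal.ofReal (St a (fun u => W u ω) z v) ∂P := by
                rw [lintegral_add_left (mFv.const_mul _), lintegral_const_mul _ mFv,
                  lintegral_const_mul _ mAv]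
            _ ≤ _ := by
                gcongr
                exact key1 v hv.1.le
      _ = ENNReal.ofReal lam * H0 * ENNReal.ofReal (T - t₀) +
            ENNReal.ofReal (4 * (lam ^ 7)⁻¹) *
              ∫⁻ v in Ioc t₀ T, (∫⁻ ω in A, ENNReal.ofReal (St a (fun v => W v ω) z v) ∂P) := by
          rw [lintegral_add_left measurable_const, setLIntegral_const, hvol,
            lintegral_const_mul' _ _ ENNReal.ofReal_ne_top]
      _ ≤ ENNReal.ofReal lam * H0 * ENNReal.ofReal (T - t₀) +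
            ENNReal.ofReal (4 * (lam ^ 7)⁻¹) * H0 := by (clear * - swap; gcongr)
      _ = ENNReal.ofReal (T - t₀) * (ENNReal.ofReal (2 * lam) * H0) := by
          have e1 : 4 * (lam ^ 7)⁻¹ = (T - t₀) * lam := by
            have h1 : lam ^ 8 * (T - t₀) = 4 := by
              rw [hl8]
              (clear * - hR; field_simp)
            rw [← h1]
            (clear * - hR hl; field_simp)
          rw [e1, ENNReal.ofReal_mul hR.le, ENNReal.ofReal_mul (by norm_num : (0 : ℝ) ≤ 2)]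
          have e2 : ENNReal.ofReal 2 = 2 := by simp
          rw [e2]
          ring
  have main' : ∫⁻ ω in A, ENNReal.ofReal (St (MM κ) (fun u => W u ω) z T) ∂P ≤
      ENNReal.ofReal (2 * lam) * H0 :=
    (ENNReal.mul_le_mul_iff_right (by simpa only [ne_eq, ENNReal.ofReal_eq_zero, tsub_le_iff_right, zero_add, not_le, sub_pos] using hR) ENNReal.ofReal_ne_top).mp main
  refine main'.trans ?_
  rw [hH0, ← lintegral_const_mul' _ _ ENNReal.ofReal_ne_top]
  refine lintegral_mono fun ω => ?_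
  rw [← ENNReal.ofReal_mul (by (clear * - hl; positivity))]
  apply ENNReal.ofReal_le_ofReal
  by_cases h : z ∈ loewnerDomain (fun u => W u ω) t₀
  · rw [St_of_mem h, St_of_mem h]
    have hZ := Zf_im_pos ht₀ h
    have hM := FM.MM_nonneg κ hZ (Uf (fun u => W u ω) z t₀)
    have h1 : hD (Zf (fun u => W u ω) z t₀) ≤
        (3 * ‖Zf (fun u => W u ω) z t₀‖) ^ (1 / 4 : ℝ) := by
      unfold hD
      refine Real.rpow_le_rpow (by (clear * - hZ; positivity)) ?_ (by norm_num)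
      have h2 := Complex.abs_im_le_norm (Zf (fun u => W u ω) z t₀)
      have h3 := le_abs_self (Zf (fun u => W u ω) z t₀).im
      linarith only [h2, h3]
    have h2 := Decay_const (norm_nonneg (Zf (fun u => W u ω) z t₀)) hl hR hl8
    have h3 : 2 * lam * hD (Zf (fun u => W u ω) z t₀) ≤
        4 * (‖Zf (fun u => W u ω) z t₀‖ ^ 2 / (T - t₀)) ^ (1 / 8 : ℝ) :=
      (mul_le_mul_of_nonneg_left h1 (by positivity)).trans h2
    have h4 := mul_le_mul_of_nonneg_left h3 hM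
    simp only [hF]
    linarith only [h4]
  · rw [St_of_not_mem h, St_of_not_mem h]
    simp

end Vale.Agent.P164.E8
end

section

/-!
# First moment of the content, lower bound (`0 < κ < 8`)
-/

namespace Vale.Agent.P164.E8

open Set Metric Filter Topology MeasureTheory ProbabilityTheory
open scoped NNReal ENNReal

/-- The exponent of the height in `GG8`. -/
noncomputable def bG1 (κ : ℝ) : ℝ := κ * be κ ^ 2 / 16

/-- The exponent of `exp U` in `GG8`. -/
noncomputable def bG2 (κ : ℝ) : ℝ := κ / 8 * (be κ / 2) * (be κ / 2 + 1)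

/-- The local martingale `M Y^{-b₁} sn^{-β/2} e^{b₂ U}`. -/
noncomputable def GG8 (κ : ℝ) (Z : ℂ) (U : ℝ) : ℝ :=
  Real.exp ((bG2 κ - xx κ) * U) * hY (be κ / 2 - bG1 κ) (be κ / 2) Z

/-- Its generator vanishes: `reg_pow`, `gen_pow` of `G/RegPow.lean` with
`c(U) = exp ((b₂ - x) U)`, `p = β/2 - b₁`, `s = β/2`: the generator is `hY/|Z|² · c · (const + coefficient
of sn²)` with `const = 2s - 2p - (κ/2)(β/2) s = 2 b₁ - κβ²/8 = 0` and coefficient of `sn²`
`(κ/2)(β/2)(β/2+1) - 4 b₂ = 0` (use `κ β = 8 - κ`, `x = 1 - κ/8`, `cs² = 1 - sn²`). -/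
theorem reg_GG8 {κ : ℝ} (h0 : 0 < κ) :
    ∃ FX FXX FY FU : ℂ → ℝ → ℝ, Reg (GG8 κ) FX FXX FY FU ∧
      ∀ Z U, 0 < Z.im → gen κ FX FXX FY FU Z U = 0 := by
  have hd : ∀ U : ℝ, HasDerivAt (fun U : ℝ => Real.exp ((bG2 κ - xx κ) * U))
      (Real.exp ((bG2 κ - xx κ) * U) * (bG2 κ - xx κ)) U := fun U => by
    simpa using ((hasDerivAt_id U).const_mul (bG2 κ - xx κ)).exp
  refine ⟨_, _, _, _, reg_pow hd (by fun_prop) (be κ / 2 - bG1 κ) (be κ / 2), fun Z U hZ => ?_⟩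
  rw [gen_pow κ (fun U : ℝ => Real.exp ((bG2 κ - xx κ) * U))
    (fun U : ℝ => Real.exp ((bG2 κ - xx κ) * U) * (bG2 κ - xx κ)) _ _ hZ U]
  have hcs : cs Z ^ 2 = 1 - sn Z ^ 2 := by
    have h1 := sn_sq_add_cs_sq (Z := Z) (fun h => by simp [h] at hZ)
    linarith only [h1]
  rw [hcs]
  have e : Real.exp ((bG2 κ - xx κ) * U) * ((κ / 2 * (be κ / 2) * (be κ / 2 + 2) -
        4 * (be κ / 2)) * (1 - sn Z ^ 2) - κ / 2 * (be κ / 2) - 2 * (be κ / 2 - bG1 κ) +
        2 * (be κ / 2)) -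
      4 * sn Z ^ 2 * (Real.exp ((bG2 κ - xx κ) * U) * (bG2 κ - xx κ)) = 0 := by
    have hb : κ * be κ = 8 - κ := by
      unfold be
      (clear * - h0; field_simp)
    have h2 : bG1 κ = (8 - κ) * be κ / 16 := by
      unfold bG1
      linear_combination (be κ / 16) * hb
    have h3 : bG2 κ = (8 - κ) * (be κ / 2 + 1) / 16 := by
      unfold bG2
      linear_combination ((be κ / 2 + 1) / 16) * hb
    rw [h2, h3]
    unfold xx
    linear_combination (Real.exp (((8 - κ) * (be κ / 2 + 1) / 16 - (1 - κ / 8)) * U)) *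
      ((be κ / 8 + 1 / 4) * (1 - sn Z ^ 2) - 1 / 4) * hb
  rw [e, mul_zero]

/-- `GG8` dominates `MM`: `GG8 = M · Y^{-b₁} e^{b₂U} sn^{-β/2} ≥ M Y^{-b₁} e^{b₂ U}`. -/
theorem GG8_ge {κ : ℝ} (h0 : 0 < κ) (h8 : κ < 8) {Z : ℂ} (hZ : 0 < Z.im) (U : ℝ) :
    MM κ Z U * (Z.im ^ (-bG1 κ) * Real.exp (bG2 κ * U)) ≤ GG8 κ Z U := by
  have hb : 0 < be κ := by
    unfold be
    have : 1 < 8 / κ := by rw [lt_div_iff₀ h0]; linarith only [h8]
    linarith
  have h1 : GG8 κ Z U = Real.exp (-xx κ * U) * sn Z ^ (be κ / 2) *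
      (Z.im ^ (-bG1 κ) * Real.exp (bG2 κ * U)) := by
    unfold GG8
    have e1 : hY (be κ / 2 - bG1 κ) (be κ / 2) Z =
        Z.im ^ (-bG1 κ) * hY (be κ / 2) (be κ / 2) Z := by
      unfold hY
      rw [Real.rpow_def_of_pos hZ, ← Real.exp_add]
      congr 1
      ring
    rw [e1, hY_sn hZ]
    have e2 : Real.exp ((bG2 κ - xx κ) * U) = Real.exp (-xx κ * U) * Real.exp (bG2 κ * U) := by
      rw [← Real.exp_add]
      congr 1
      ring
    rw [e2]
    ring
  rw [h1]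
  unfold MM
  refine mul_le_mul_of_nonneg_right (mul_le_mul_of_nonneg_left ?_ (Real.exp_pos _).le)
    (mul_nonneg (Real.rpow_nonneg hZ.le _) (Real.exp_pos _).le)
  exact Real.rpow_le_rpow_of_exponent_ge (sn_pos hZ) (sn_le_one Z) (by linarith only [hb])

/-- Main step: no mass is lost at death. Proof. First assume `y₁ ≤ height(t₀)` on `A` for some
`y₁ > 0` (general case: `A_n = A ∩ {1/n ≤ height(t₀)}` increases to `A`, monotone convergence
`setLIntegral_iUnion_of_directed` / `lintegral_iUnion`...). Then `∫⁻_A ofReal GG8(t₀) < ∞`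
(`GG8 ≤ e^{(b₂-x)U} Y^{-b₁}`, `log r + 1 ≤ U ≤ log Im z`). Let `ε > 0`, `F = F1 + ε GG8`
(`FM.F1`, `FM.F1_reg`, `Reg.add`, `gen_add`), `a = FM.a1`; `gen F + a1 = 0`. With
`K = r^{-x} + SS(log r + 1)`: `F1(t₀) = K - M(t₀)` (as in `FM.lower_i`), and for `z` alive at
`u ∈ [t₀,T]`, `F1(u) + ∫_{t₀}^u a1 = K - f1(U_u) sn^β - yc(t₀,u)` (`FM.path_id`, which must be
re-proved for `κ < 8`: it only needs `yc_integrable` etc., which hold for `κ < 8`).
Apply `T_stop` with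
`φ = ofReal (K - yc(t₀,T) - 1_{alive T} M(T))` and `y₀` with `y₀^{b₁} ≤ ε r^{b₂}`: at an alive
time `u` with height `≤ y₀`, `f1(U) sn^β ≤ M 1_{U ≥ log r} ≤ ε GG8` (`GG8_ge`), so
`F(u) + ∫ a1 ≥ K - yc(t₀,u) ≥ K - yc(t₀,T)` (`yc_add`, `yc_nonneg`); at `u = T` use
`f1 sn^β ≤ M`. Result:
`∫⁻_A ofReal (K - yc - M_T) ≤ ∫⁻_A ofReal (K - M(t₀) + ε GG8(t₀))`. Add
`∫⁻_A ofReal yc + ∫⁻_A ofReal M_T` on the left and `∫⁻_A ofReal M(t₀)` on both sides (all finite:
`M ≤ r^{-x}` for `U ≥ log r + 1`) and let `ε → 0`. -/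
theorem lower_i {κ : ℝ} (h0 : 0 < κ) (h8 : κ < 8) {Ω : Type*} [MeasurableSpace Ω]
    {P : Measure Ω} {W : ℝ → Ω → ℝ} (hW : IsDrv κ P W) {z : ℂ} (hz : 0 < z.im)
    {r t₀ T : ℝ} (hr : 0 < r) (ht₀ : 0 ≤ t₀) (hT : t₀ ≤ T) {A : Set Ω}
    (hA : MeasurableSet[past W t₀] A)
    (hU : ∀ ω ∈ A, z ∈ loewnerDomain (fun u => W u ω) t₀ ∧
      Real.log r + 1 ≤ Uf (fun u => W u ω) z t₀) :
    ∫⁻ ω in A, ENNReal.ofReal (St (MM κ) (fun u => W u ω) z t₀) ∂P ≤
      ∫⁻ ω in A, ENNReal.ofReal (St (MM κ) (fun u => W u ω) z T) ∂P +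
      ∫⁻ ω in A, ENNReal.ofReal (yc κ r (fun u => W u ω) z t₀ T) ∂P := by
  obtain ⟨GX, GXX, GY, GU, hG, hGg⟩ := reg_GG8 h0
  have hbe : 0 < be κ := by
    unfold be
    have : 1 < 8 / κ := by rw [lt_div_iff₀ h0]; linarith
    linarith only [this]
  have hb1 : 0 < bG1 κ := by unfold bG1; positivity
  have hb2 : 0 ≤ bG2 κ := by unfold bG2; positivity
  refine FMLowerAuxI_main h0 h8 hW hz hr ht₀ hT hA hU hG hGg
    (fun Z U _ => mul_nonneg (Real.exp_pos _).le (hY_pos _ _ Z).le) ?_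
  intro ε hε
  have hrb : 0 < r ^ bG2 κ := Real.rpow_pos_of_pos hr _
  have hpos : 0 < ε * r ^ bG2 κ := mul_pos hε hrb
  refine ⟨(ε * r ^ bG2 κ) ^ (1 / bG1 κ), Real.rpow_pos_of_pos hpos _, ?_⟩
  intro Z U hZ hle hU'
  have h1 := GG8_ge h0 h8 hZ U
  have hM : 0 ≤ MM κ Z U := FM.MM_nonneg κ hZ U
  have h2 : Z.im ^ bG1 κ ≤ ε * r ^ bG2 κ := by
    calc Z.im ^ bG1 κ ≤ ((ε * r ^ bG2 κ) ^ (1 / bG1 κ)) ^ bG1 κ :=
          Real.rpow_le_rpow hZ.le hle hb1.le
      _ = ε * r ^ bG2 κ := by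
          rw [← Real.rpow_mul hpos.le, one_div, inv_mul_cancel₀ hb1.ne', Real.rpow_one]
  have h3 : r ^ bG2 κ ≤ Real.exp (bG2 κ * U) := by
    rw [Real.rpow_def_of_pos hr]
    apply Real.exp_le_exp.2
    nlinarith only [hb2, hU']
  have hYp : 0 < Z.im ^ bG1 κ := Real.rpow_pos_of_pos hZ _
  have h4 : 1 ≤ ε * (Z.im ^ (-bG1 κ) * Real.exp (bG2 κ * U)) := by
    rw [Real.rpow_neg hZ.le]
    have h5 : ε * ((Z.im ^ bG1 κ)⁻¹ * Real.exp (bG2 κ * U)) =
        ε * Real.exp (bG2 κ * U) / Z.im ^ bG1 κ := by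
      (clear * - hZ hε; field_simp)
    rw [h5, le_div_iff₀ hYp, one_mul]
    exact h2.trans (mul_le_mul_of_nonneg_left h3 hε.le)
  calc MM κ Z U = MM κ Z U * 1 := (mul_one _).symm
    _ ≤ MM κ Z U * (ε * (Z.im ^ (-bG1 κ) * Real.exp (bG2 κ * U))) :=
        mul_le_mul_of_nonneg_left h4 hM
    _ = ε * (MM κ Z U * (Z.im ^ (-bG1 κ) * Real.exp (bG2 κ * U))) := by ring
    _ ≤ ε * GG8 κ Z U := mul_le_mul_of_nonneg_left h1 hε.le

/-- First moment, lower bound. Proof: as `first_moment_lower` (G/FirstMoment.lean), with `decay`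
instead of `MM2_super` and `lower_i` above: restrict to
`B = {4 (|Z|²/(T-t₀))^{1/8} ≤ 1}`. -/
theorem first_moment_lower {κ : ℝ} (h0 : 0 < κ) (h8 : κ < 8) {Ω : Type*} [MeasurableSpace Ω]
    {P : Measure Ω} {W : ℝ → Ω → ℝ} (hW : IsDrv κ P W) {z : ℂ} (hz : 0 < z.im)
    {r t₀ T : ℝ} (hr : 0 < r) (ht₀ : 0 ≤ t₀) (hT : t₀ < T) {A : Set Ω}
    (hA : MeasurableSet[past W t₀] A)
    (hU : ∀ ω ∈ A, z ∈ loewnerDomain (fun u => W u ω) t₀ ∧
      Real.log r + 1 ≤ Uf (fun u => W u ω) z t₀) :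
    ∫⁻ ω in A, ENNReal.ofReal (St (MM κ) (fun u => W u ω) z t₀ *
        (1 - 4 * (‖Zf (fun u => W u ω) z t₀‖ ^ 2 / (T - t₀)) ^ (1 / 8 : ℝ))) ∂P ≤
      ∫⁻ ω in A, ENNReal.ofReal (yc κ r (fun u => W u ω) z t₀ T) ∂P := by
  have hprob := hW.prob
  have hA' : MeasurableSet A := hW.past_le _ hA
  have hq : ∀ Z : ℂ, 0 ≤ 4 * (‖Z‖ ^ 2 / (T - t₀)) ^ (1 / 8 : ℝ) := fun Z =>
    mul_nonneg (by norm_num) (Real.rpow_nonneg (div_nonneg (by (clear * -; positivity)) (by linarith only [hT])) _)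
  have hqm : Measurable fun p : ℂ × ℝ => 4 * (‖p.1‖ ^ 2 / (T - t₀)) ^ (1 / 8 : ℝ) :=
    ((((measurable_norm.comp measurable_fst).pow_const 2).div_const _).pow_const _).const_mul 4
  have hS : MeasurableSet {p : ℂ × ℝ | 4 * (‖p.1‖ ^ 2 / (T - t₀)) ^ (1 / 8 : ℝ) ≤ 1} :=
    measurableSet_le hqm measurable_const
  set B : Set Ω := {ω | z ∈ loewnerDomain (fun u => W u ω) t₀ ∧
      (Zf (fun u => W u ω) z t₀, Uf (fun u => W u ω) z t₀) ∈
        {p : ℂ × ℝ | 4 * (‖p.1‖ ^ 2 / (T - t₀)) ^ (1 / 8 : ℝ) ≤ 1}} with hB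
  have hBp : MeasurableSet[past W t₀] B := Z_past hW.cont hW.meas ht₀ z hS
  have hABp : MeasurableSet[past W t₀] (A ∩ B) := MeasurableSet.inter hA hBp
  have hAB : MeasurableSet (A ∩ B) := hW.past_le _ hABp
  have hABU : ∀ ω ∈ A ∩ B, z ∈ loewnerDomain (fun u => W u ω) t₀ ∧
      Real.log r + 1 ≤ Uf (fun u => W u ω) z t₀ := fun ω hω => hU ω hω.1
  have k1 := lower_i h0 h8 hW hz hr ht₀ hT.le hABp hABU
  have k2 := decay h0 h8 hW (z := z) ht₀ hT hABp
  -- restriction to `A ∩ B`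
  have k3 : ∫⁻ ω in A, ENNReal.ofReal (St (MM κ) (fun u => W u ω) z t₀ *
        (1 - 4 * (‖Zf (fun u => W u ω) z t₀‖ ^ 2 / (T - t₀)) ^ (1 / 8 : ℝ))) ∂P ≤
      ∫⁻ ω in A ∩ B, ENNReal.ofReal (St (MM κ) (fun u => W u ω) z t₀ *
        (1 - 4 * (‖Zf (fun u => W u ω) z t₀‖ ^ 2 / (T - t₀)) ^ (1 / 8 : ℝ))) ∂P := by
    rw [← lintegral_indicator hA', ← lintegral_indicator hAB]
    refine lintegral_mono fun ω => ?_
    by_cases hω : ω ∈ A
    · by_cases hωB : ω ∈ B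
      · have hAB' : ω ∈ A ∩ B := ⟨hω, hωB⟩
        rw [indicator_of_mem hω, indicator_of_mem hAB']
      · rw [indicator_of_mem hω]
        obtain ⟨h1, h2⟩ := hU ω hω
        have h3 : 1 < 4 * (‖Zf (fun u => W u ω) z t₀‖ ^ 2 / (T - t₀)) ^ (1 / 8 : ℝ) := by
          by_contra hcon
          exact hωB ⟨h1, not_lt.1 hcon⟩
        have h5 : ENNReal.ofReal (St (MM κ) (fun u => W u ω) z t₀ *
            (1 - 4 * (‖Zf (fun u => W u ω) z t₀‖ ^ 2 / (T - t₀)) ^ (1 / 8 : ℝ))) = 0 := by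
          apply ENNReal.ofReal_of_nonpos
          apply mul_nonpos_of_nonneg_of_nonpos
          · rw [St_of_mem h1]; exact FM.MM_nonneg κ (Zf_im_pos ht₀ h1) _
          · linarith
        rw [h5]
        exact zero_le
    · rw [indicator_of_notMem hω]
      exact zero_le
  refine k3.trans ?_
  -- splitting
  have k4 : ∫⁻ ω in A ∩ B, ENNReal.ofReal (St (MM κ) (fun u => W u ω) z t₀ *
        (1 - 4 * (‖Zf (fun u => W u ω) z t₀‖ ^ 2 / (T - t₀)) ^ (1 / 8 : ℝ))) ∂P +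
      ∫⁻ ω in A ∩ B, ENNReal.ofReal (St (MM κ) (fun u => W u ω) z t₀ *
        (4 * (‖Zf (fun u => W u ω) z t₀‖ ^ 2 / (T - t₀)) ^ (1 / 8 : ℝ))) ∂P =
      ∫⁻ ω in A ∩ B, ENNReal.ofReal (St (MM κ) (fun u => W u ω) z t₀) ∂P := by
    have hm4 : Measurable fun ω => ENNReal.ofReal (St (MM κ) (fun u => W u ω) z t₀ *
        (4 * (‖Zf (fun u => W u ω) z t₀‖ ^ 2 / (T - t₀)) ^ (1 / 8 : ℝ))) := by
      have hG : Measurable (Function.uncurry fun (Z : ℂ) (U : ℝ) => MM κ Z U *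
          (4 * (‖Z‖ ^ 2 / (T - t₀)) ^ (1 / 8 : ℝ))) := (FM.MM_measurable κ).mul hqm
      have h1 := (St_past hW.cont hW.meas hG ht₀ z).mono hW.past_le le_rfl
      have h2 : (fun ω => St (fun (Z : ℂ) (U : ℝ) => MM κ Z U *
          (4 * (‖Z‖ ^ 2 / (T - t₀)) ^ (1 / 8 : ℝ))) (fun u => W u ω) z t₀) =
          fun ω => St (MM κ) (fun u => W u ω) z t₀ *
        (4 * (‖Zf (fun u => W u ω) z t₀‖ ^ 2 / (T - t₀)) ^ (1 / 8 : ℝ)) := by
        funext ω
        by_cases hω : z ∈ loewnerDomain (fun u => W u ω) t₀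
        · rw [St_of_mem hω, St_of_mem hω]
        · rw [St_of_not_mem hω, St_of_not_mem hω, zero_mul]
      rw [h2] at h1
      exact h1.ennreal_ofReal
    rw [← lintegral_add_right _ hm4]
    refine setLIntegral_congr_fun hAB fun ω hω => ?_
    obtain ⟨h1, h2⟩ := hABU ω hω
    have h3 : 4 * (‖Zf (fun u => W u ω) z t₀‖ ^ 2 / (T - t₀)) ^ (1 / 8 : ℝ) ≤ 1 := hω.2.2
    have hM : 0 ≤ St (MM κ) (fun u => W u ω) z t₀ := by
      rw [St_of_mem h1]; exact FM.MM_nonneg κ (Zf_im_pos ht₀ h1) _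
    rw [← ENNReal.ofReal_add (mul_nonneg hM (by linarith only [h3])) (mul_nonneg hM (hq _))]
    congr 1
    ring
  have kfin : ∫⁻ ω in A ∩ B, ENNReal.ofReal (St (MM κ) (fun u => W u ω) z t₀ *
        (4 * (‖Zf (fun u => W u ω) z t₀‖ ^ 2 / (T - t₀)) ^ (1 / 8 : ℝ))) ∂P ≠ ⊤ := by
    have hle : ∫⁻ ω in A ∩ B, ENNReal.ofReal (St (MM κ) (fun u => W u ω) z t₀ *
        (4 * (‖Zf (fun u => W u ω) z t₀‖ ^ 2 / (T - t₀)) ^ (1 / 8 : ℝ))) ∂P ≤
        ∫⁻ _ in A ∩ B, ENNReal.ofReal (Real.exp (-xx κ * (Real.log r + 1))) ∂P := by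
      refine setLIntegral_mono' hAB fun ω hω => ?_
      apply ENNReal.ofReal_le_ofReal
      obtain ⟨h1, h2⟩ := hABU ω hω
      have h3 : 4 * (‖Zf (fun u => W u ω) z t₀‖ ^ 2 / (T - t₀)) ^ (1 / 8 : ℝ) ≤ 1 := hω.2.2
      have hZ := Zf_im_pos ht₀ h1
      have hM0 : 0 ≤ MM κ (Zf (fun u => W u ω) z t₀) (Uf (fun u => W u ω) z t₀) :=
        FM.MM_nonneg κ hZ _
      have hb : 0 ≤ be κ := by
        unfold be
        have : 1 < 8 / κ := by rw [lt_div_iff₀ h0]; linarith only [h8]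
        linarith only [this]
      have hx : 0 < xx κ := by unfold xx; linarith only [h8]
      have hM : MM κ (Zf (fun u => W u ω) z t₀) (Uf (fun u => W u ω) z t₀) ≤
          Real.exp (-xx κ * (Real.log r + 1)) := by
        unfold MM
        have h7 : sn (Zf (fun u => W u ω) z t₀) ^ be κ ≤ 1 :=
          Real.rpow_le_one (sn_pos hZ).le (sn_le_one _) hb
        have h8' := (Real.exp_pos (-xx κ * Uf (fun u => W u ω) z t₀)).le
        calc _ ≤ Real.exp (-xx κ * Uf (fun u => W u ω) z t₀) * 1 :=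
              mul_le_mul_of_nonneg_left h7 h8'
          _ ≤ _ := by
              rw [mul_one]
              apply Real.exp_le_exp.2
              nlinarith only [h2, hx]
      rw [St_of_mem h1]
      calc _ ≤ MM κ (Zf (fun u => W u ω) z t₀) (Uf (fun u => W u ω) z t₀) * 1 :=
            mul_le_mul_of_nonneg_left h3 hM0
        _ ≤ _ := by linarith only [hM]
    refine ne_top_of_le_ne_top ?_ hle
    rw [setLIntegral_const]
    exact ENNReal.mul_ne_top ENNReal.ofReal_ne_top (measure_ne_top _ _)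
  have k6 : ∫⁻ ω in A ∩ B, ENNReal.ofReal (St (MM κ) (fun u => W u ω) z t₀ *
        (1 - 4 * (‖Zf (fun u => W u ω) z t₀‖ ^ 2 / (T - t₀)) ^ (1 / 8 : ℝ))) ∂P ≤
      ∫⁻ ω in A ∩ B, ENNReal.ofReal (yc κ r (fun u => W u ω) z t₀ T) ∂P := by
    have h9 := (k4.le.trans k1).trans (add_le_add_left k2 _)
    rw [add_comm] at h9
    exact (ENNReal.add_le_add_iff_left kfin).1 h9
  refine k6.trans ?_
  exact lintegral_mono_set inter_subset_left

end Vale.Agent.P164.E8
end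

section

/-!
# A simple trace is a trace
-/

namespace Vale.Agent.P164

open Set Metric Filter Topology MeasureTheory ProbabilityTheory
open scoped NNReal ENNReal

universe u

theorem simple_isTrace {W : ℝ → ℝ} {γ : ℝ → ℂ} (hW : ContinuousOn W (Ici 0))
    (h : IsSimpleTrace W γ) : IsTrace W γ := by
  have him0 : (γ 0).im = 0 := by rw [h.start, Complex.ofReal_im]
  refine ⟨h.cont, h.start, fun t ht => ?_, fun t ht => ?_⟩
  · rcases eq_or_lt_of_le ht with h0 | h0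
    · rw [← h0, him0]
    · exact (h.im_pos t h0).le
  · have hWt : ContinuousOn W (Icc 0 t) := hW.mono fun s hs => hs.1
    have hS : {z : ℂ | 0 < z.im} \ γ '' Icc 0 t = loewnerDomain W t := by
      rw [h.domain_eq t ht]
      ext z
      refine ⟨fun hz => ⟨hz.1, fun hz' => hz.2 (image_mono Ioc_subset_Icc_self hz')⟩,
        fun hz => ⟨hz.1, ?_⟩⟩
      rintro ⟨s, hs, rfl⟩
      rcases eq_or_lt_of_le hs.1 with h0 | h0
      · have h1 : 0 < (γ s).im := hz.1
        rw [← h0, him0] at h1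
        exact lt_irrefl _ h1
      · exact hz.2 ⟨s, ⟨h0, hs.2⟩, rfl⟩
    rw [hS]
    have hconn : IsPreconnected (loewnerDomain W t) := by
      have e : loewnerDomain W t = invflow W t '' {w : ℂ | 0 < w.im} := by
        ext z
        constructor
        · intro hz
          exact ⟨flow W t z, flow_im_pos hz ⟨ht, le_rfl⟩, invflow_flow ht hWt hz⟩
        · rintro ⟨w, hw, rfl⟩
          exact invflow_mem ht hWt hw
      rw [e]
      refine (convex_halfSpace_im_gt 0).isPreconnected.image _ fun w hw => ?_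
      exact (hasDerivAt_invflow ht hWt hw).continuousAt.continuousWithinAt
    have hunb : ¬ Bornology.IsBounded (loewnerDomain W t) := by
      intro hb
      have hc : IsCompact (γ '' Icc 0 t) :=
        isCompact_Icc.image_of_continuousOn (h.cont.mono fun s hs => hs.1)
      obtain ⟨R, hR⟩ := (hb.union hc.isBounded).subset_closedBall 0
      set w : ℂ := ((|R| + 1 : ℝ) : ℂ) * Complex.I with hw
      have hwn : ‖w‖ = |R| + 1 := by
        rw [hw, norm_mul, Complex.norm_I, mul_one, Complex.norm_real,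
          Real.norm_of_nonneg (by (clear * -; positivity))]
      have hwR : w ∉ closedBall (0 : ℂ) R := by
        rw [mem_closedBall, dist_zero_right, hwn]
        have := le_abs_self R
        linarith only [this]
      have hwim : 0 < w.im := by
        rw [hw, Complex.im_ofReal_mul, Complex.I_im, mul_one]
        (clear * -; positivity)
      refine hwR (hR (Or.inl ?_))
      rw [← hS]
      exact ⟨hwim, fun hg => hwR (hR (Or.inr hg))⟩
    ext z
    constructor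
    · intro hz
      refine ⟨hz, fun hb => hunb ?_⟩
      rwa [hconn.connectedComponentIn hz] at hb
    · exact fun hz => hz.1

/-- An SLE trace in the simple sense is an SLE trace. -/
theorem isSLE_of_isSLETrace {κ : ℝ} (h0 : 0 ≤ κ) {Ω : Type u} [MeasurableSpace Ω] {P : Measure Ω}
    {γ : Ω → ℝ → ℂ} (hγ : IsSLETrace κ P γ) : IsSLE κ P γ := by
  obtain ⟨B, hB, htr⟩ := hγ
  obtain ⟨W, hW, hWB⟩ := exists_drv h0 hB
  refine ⟨B, hB, ?_⟩
  filter_upwards [htr, hWB] with ω h1 h2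
  refine simple_isTrace ?_ h1
  exact ((hW.cont ω).continuousOn).congr fun t ht => (h2 t ht).symm

end Vale.Agent.P164
end
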