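import Vale.Agent.P164.MathlibUsed
import Vale.Agent.P164.X.Defs8
import Vale.Agent.P164.Bdl.B2
import Vale.Agent.P164.Bdl.B7
import Vale.Agent.P164.Bdl.B11
import Vale.Agent.P164.Bdl.B13
import Vale.Agent.P164.Bdl.B10
import Vale.Agent.P164.Bdl.B8
import Vale.Agent.P164.Bdl.B12
import Vale.Agent.P164.Bdl.B14
import Vale.Agent.P164.Bdl.B4
import Vale.Agent.P164.Bdl.B9

set_option linter.all false

section

/-!
# The full theorem from the core statement (comparison of gauges)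
-/

namespace Vale.Agent.P164

open Set Metric Filter Topology MeasureTheory ProbabilityTheory
open scoped NNReal ENNReal

universe u

/-- Comparison of gauges, null version: `c h₁ ≤ h₂` near `0`. -/
lemma cor8_null_bigO {h₁ h₂ : ℝ → ℝ} (hh₁ : IsGauge h₁) {c r₀ : ℝ} (hc : 0 < c) (hr₀ : 0 < r₀)
    (ho : ∀ r : ℝ, 0 < r → r < r₀ → c * h₁ r ≤ h₂ r)
    {E : Set ℂ} (hE : gaugeMeasure h₂ E = 0) : gaugeMeasure h₁ E = 0 := by
  refine le_antisymm (gaugeMeasure_le fun δ hδ => ?_) zero_le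
  refine ENNReal.le_of_forall_pos_le_add fun ε' hε' _ => ?_
  · rw [zero_add]
    obtain ⟨ε, hεdef⟩ : ∃ ε : ℝ≥0∞, ε = ((ε' : ℝ≥0) : ℝ≥0∞) := ⟨_, rfl⟩
    rw [← hεdef]
    have hε : 0 < ε := by rw [hεdef]; exact_mod_cast hε'
    have hmin : 0 < min δ (r₀ / 2) := lt_min hδ (half_pos hr₀)
    have hcε : 0 < ENNReal.ofReal c * ε := by
      exact ENNReal.mul_pos (ENNReal.ofReal_pos.2 hc).ne' hε.ne'
    obtain ⟨U, hU1, hU2, hU3⟩ := exists_cover (h := h₂) (δ := min δ (r₀ / 2)) (E := E)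
      (c := ENNReal.ofReal c * ε)
      (lt_of_le_of_lt ((pre_le_gaugeMeasure h₂ hmin E).trans_eq hE) hcε)
    have h1 : pre h₁ δ E ≤ ∑' n, ENNReal.ofReal (h₁ (Metric.diam (U n))) :=
      iInf_le_of_le U (iInf_le_of_le hU1 (iInf_le_of_le
        (fun n => ⟨(hU2 n).1, (hU2 n).2.trans (min_le_left _ _)⟩) le_rfl))
    refine h1.trans ?_
    have h2 : ENNReal.ofReal c * ∑' n, ENNReal.ofReal (h₁ (Metric.diam (U n))) ≤
        ENNReal.ofReal c * ε := by
      rw [← ENNReal.tsum_mul_left]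
      refine (ENNReal.tsum_le_tsum fun n => ?_).trans hU3.le
      rw [← ENNReal.ofReal_mul hc.le]
      rcases eq_or_lt_of_le (Metric.diam_nonneg (s := U n)) with h0 | h0
      · rw [← h0, hh₁.zero]
        simp only [mul_zero, ENNReal.ofReal_zero, zero_le]
      · refine ENNReal.ofReal_le_ofReal (ho _ h0 ?_)
        have := (hU2 n).2.trans (min_le_right _ _)
        linarith only [h0, this]
    exact (ENNReal.mul_le_mul_iff_right (ENNReal.ofReal_pos.2 hc).ne' ENNReal.ofReal_ne_top).1 h2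

/-- Comparison of gauges, finite version: `h₁ ≤ C h₂` near `0`. -/
lemma cor8_finite_bigO {h₁ h₂ : ℝ → ℝ} (hh₁ : IsGauge h₁) (hh₂ : IsGauge h₂) {C r₀ : ℝ}
    (hr₀ : 0 < r₀) (ho : ∀ r : ℝ, 0 < r → r < r₀ → h₁ r ≤ C * h₂ r)
    {E : Set ℂ} (hE : gaugeMeasure h₂ E < ⊤) : gaugeMeasure h₁ E < ⊤ := by
  have hC : 0 ≤ C := by
    have h1 := ho (r₀ / 2) (by linarith only [hr₀]) (by linarith only [hr₀])
    have h2 := hh₁.pos (r₀ / 2) (by linarith only [hr₀])
    have h3 := hh₂.pos (r₀ / 2) (by linarith only [hr₀])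
    by_contra h4
    push Not at h4
    nlinarith only [h1, h2, h3, h4]
  have hfin : gaugeMeasure h₂ E + 1 ≠ ⊤ := ENNReal.add_ne_top.2 ⟨hE.ne, ENNReal.one_ne_top⟩
  refine lt_of_le_of_lt (gaugeMeasure_le (c := ENNReal.ofReal C * (gaugeMeasure h₂ E + 1))
    fun δ hδ => ?_) (ENNReal.mul_lt_top ENNReal.ofReal_lt_top hfin.lt_top)
  have hmin : 0 < min δ (r₀ / 2) := lt_min hδ (half_pos hr₀)
  obtain ⟨U, hU1, hU2, hU3⟩ := exists_cover (h := h₂) (δ := min δ (r₀ / 2)) (E := E)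
    (c := gaugeMeasure h₂ E + 1)
    (lt_of_le_of_lt (pre_le_gaugeMeasure h₂ hmin E) (ENNReal.lt_add_right hE.ne one_ne_zero))
  have h1 : pre h₁ δ E ≤ ∑' n, ENNReal.ofReal (h₁ (Metric.diam (U n))) :=
    iInf_le_of_le U (iInf_le_of_le hU1 (iInf_le_of_le
      (fun n => ⟨(hU2 n).1, (hU2 n).2.trans (min_le_left _ _)⟩) le_rfl))
  refine h1.trans ?_
  calc ∑' n, ENNReal.ofReal (h₁ (Metric.diam (U n)))
      ≤ ∑' n, ENNReal.ofReal C * ENNReal.ofReal (h₂ (Metric.diam (U n))) := by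
        refine ENNReal.tsum_le_tsum fun n => ?_
        rw [← ENNReal.ofReal_mul hC]
        rcases eq_or_lt_of_le (Metric.diam_nonneg (s := U n)) with h0 | h0
        · rw [← h0, hh₁.zero]
          simp only [ENNReal.ofReal_zero, zero_le]
        · refine ENNReal.ofReal_le_ofReal (ho _ h0 ?_)
          have := (hU2 n).2.trans (min_le_right _ _)
          linarith only [h0, this]
    _ = ENNReal.ofReal C * ∑' n, ENNReal.ofReal (h₂ (Metric.diam (U n))) :=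
        ENNReal.tsum_mul_left
    _ ≤ _ := by gcongr

/-- Comparison of gauges, `h₁ = o(h₂)`. -/
lemma cor8_null_littleO {h₁ h₂ : ℝ → ℝ} (hh₁ : IsGauge h₁)
    (ho : ∀ ε : ℝ, 0 < ε → ∃ δ : ℝ, 0 < δ ∧ ∀ r : ℝ, 0 < r → r ≤ δ → h₁ r ≤ ε * h₂ r)
    {E : Set ℂ} (hE : gaugeMeasure h₂ E < ⊤) : gaugeMeasure h₁ E = 0 := by
  refine le_antisymm (gaugeMeasure_le fun δ hδ => ?_) zero_le
  have key : ∀ ε : ℝ, 0 < ε → pre h₁ δ E ≤ ENNReal.ofReal ε * (gaugeMeasure h₂ E + 1) := by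
    intro ε hε
    obtain ⟨δ', hδ', H⟩ := ho ε hε
    have hmin : 0 < min δ δ' := lt_min hδ hδ'
    obtain ⟨U, hU1, hU2, hU3⟩ := exists_cover (h := h₂) (δ := min δ δ') (E := E)
      (c := gaugeMeasure h₂ E + 1)
      (lt_of_le_of_lt (pre_le_gaugeMeasure h₂ hmin E) (ENNReal.lt_add_right hE.ne one_ne_zero))
    have h1 : pre h₁ δ E ≤ ∑' n, ENNReal.ofReal (h₁ (Metric.diam (U n))) :=
      iInf_le_of_le U (iInf_le_of_le hU1 (iInf_le_of_le
        (fun n => ⟨(hU2 n).1, (hU2 n).2.trans (min_le_left _ _)⟩) le_rfl))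
    refine h1.trans ?_
    calc ∑' n, ENNReal.ofReal (h₁ (Metric.diam (U n)))
        ≤ ∑' n, ENNReal.ofReal ε * ENNReal.ofReal (h₂ (Metric.diam (U n))) := by
          refine ENNReal.tsum_le_tsum fun n => ?_
          rw [← ENNReal.ofReal_mul hε.le]
          rcases eq_or_lt_of_le (Metric.diam_nonneg (s := U n)) with h0 | h0
          · rw [← h0, hh₁.zero]
            simp only [ENNReal.ofReal_zero, zero_le]
          · exact ENNReal.ofReal_le_ofReal (H _ h0 ((hU2 n).2.trans (min_le_right _ _)))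
      _ = ENNReal.ofReal ε * ∑' n, ENNReal.ofReal (h₂ (Metric.diam (U n))) :=
          ENNReal.tsum_mul_left
      _ ≤ _ := by (clear * - hU3; gcongr)
  have hfin : gaugeMeasure h₂ E + 1 ≠ ⊤ := ENNReal.add_ne_top.2 ⟨hE.ne, ENNReal.one_ne_top⟩
  refine ENNReal.le_of_forall_pos_le_add fun ε' hε' _ => ?_
  rw [zero_add]
  obtain ⟨M, hM⟩ : ∃ M : ℝ, M = (gaugeMeasure h₂ E + 1).toReal := ⟨_, rfl⟩
  have hM0 : 0 ≤ M := by rw [hM]; exact ENNReal.toReal_nonneg
  have e1 : gaugeMeasure h₂ E + 1 = ENNReal.ofReal M := by rw [hM, ENNReal.ofReal_toReal hfin]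
  have hε'' : (0 : ℝ) < (ε' : ℝ) / (M + 1) := by (clear * - hε' hM0; positivity)
  refine (key _ hε'').trans ?_
  rw [e1, ← ENNReal.ofReal_mul hε''.le, ← ENNReal.ofReal_coe_nnreal]
  refine ENNReal.ofReal_le_ofReal ?_
  rw [div_mul_eq_mul_div, div_le_iff₀ (by positivity)]
  linarith

lemma cor8_hh (κ r : ℝ) :
    hh κ r = r ^ (1 + κ / 8) * Real.log (Real.log (1 / r)) ^ (1 / 2 - κ / 16) := by
  rw [hh, dd, xx, show (1 - κ / 8) / 2 = 1 / 2 - κ / 16 by ring]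

/-- Schramm's candidate is of larger order than the exact gauge. -/
lemma cor8_schramm {κ : ℝ} (h0 : 0 < κ) {k : ℝ → ℝ} {r₀ : ℝ} (hr₀ : 0 < r₀)
    (hkr : ∀ r, 0 < r → r < r₀ → k r = r ^ (1 + κ / 8) * Real.log (Real.log (1 / r)))
    (ε : ℝ) (hε : 0 < ε) : ∃ δ : ℝ, 0 < δ ∧ ∀ r : ℝ, 0 < r → r ≤ δ →
      r ^ (1 + κ / 8) * Real.log (Real.log (1 / r)) ^ (1 / 2 - κ / 16) ≤ ε * k r := by
  have hp : 0 < 1 / 2 + κ / 16 := by linarith
  have hl : Tendsto (fun r : ℝ => Real.log (Real.log (1 / r))) (𝓝[>] 0) atTop := by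
    have h1 : Tendsto (fun r : ℝ => 1 / r) (𝓝[>] 0) atTop := by
      simpa only [one_div] using tendsto_inv_nhdsGT_zero (𝕜 := ℝ)
    exact Real.tendsto_log_atTop.comp (Real.tendsto_log_atTop.comp h1)
  have hl2 : Tendsto (fun r : ℝ => Real.log (Real.log (1 / r)) ^ (1 / 2 + κ / 16)) (𝓝[>] 0)
      atTop := (tendsto_rpow_atTop hp).comp hl
  have h3 := (hl2.eventually_ge_atTop (1 / ε)).and (hl.eventually_ge_atTop 1)
  rw [eventually_nhdsWithin_iff] at h3
  obtain ⟨δ, hδ, H⟩ := Metric.eventually_nhds_iff.1 h3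
  refine ⟨min (δ / 2) (r₀ / 2), lt_min (half_pos hδ) (half_pos hr₀), fun r hr hr' => ?_⟩
  have e1 : r ≤ δ / 2 := hr'.trans (min_le_left _ _)
  have e2 : r ≤ r₀ / 2 := hr'.trans (min_le_right _ _)
  obtain ⟨h4', h5⟩ := H (show dist r 0 < δ by rw [Real.dist_eq, sub_zero, abs_of_pos hr]; linarith only [hr, e1])
    hr
  rw [hkr r hr (by linarith only [hr, e2])]
  set l := Real.log (Real.log (1 / r)) with hl'
  have hl0 : 0 < l := by linarith only [h5]
  have e3 : l = l ^ (1 / 2 - κ / 16) * l ^ (1 / 2 + κ / 16) := by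
    rw [← Real.rpow_add hl0, show 1 / 2 - κ / 16 + (1 / 2 + κ / 16) = 1 by ring, Real.rpow_one]
  have e4 : 1 ≤ ε * l ^ (1 / 2 + κ / 16) := by
    rw [div_le_iff₀ hε] at h4'
    linarith only [h4']
  have e5 : 0 ≤ r ^ (1 + κ / 8) * l ^ (1 / 2 - κ / 16) := by (clear * - hr h5; positivity)
  calc r ^ (1 + κ / 8) * l ^ (1 / 2 - κ / 16)
      ≤ (r ^ (1 + κ / 8) * l ^ (1 / 2 - κ / 16)) * (ε * l ^ (1 / 2 + κ / 16)) :=
        le_mul_of_one_le_right e5 e4
    _ = ε * (r ^ (1 + κ / 8) * (l ^ (1 / 2 - κ / 16) * l ^ (1 / 2 + κ / 16))) := by ring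
    _ = ε * (r ^ (1 + κ / 8) * l) := by rw [← e3]

/-- The full theorem from the core statement: the exact gauge is good. -/
theorem full_of_core {κ : ℝ} (h0 : 0 < κ) (h8 : κ < 8)
    (hcore : ∀ h : ℝ → ℝ, IsGauge h → (∃ r₀ : ℝ, 0 < r₀ ∧ ∀ r : ℝ, 0 < r → r < r₀ →
      h r = hh κ r) → Good8.{u} κ h) :
    (∃ h : ℝ → ℝ, IsGauge h ∧
      (∃ r₀ : ℝ, 0 < r₀ ∧ ∀ r : ℝ, 0 < r → r < r₀ →
        h r = r ^ (1 + κ / 8) * Real.log (Real.log (1 / r)) ^ (1 / 2 - κ / 16)) ∧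
      Good8.{u} κ h) ∧
    (∀ k : ℝ → ℝ, IsGauge k →
      ((∃ c C r₀ : ℝ, 0 < c ∧ 0 < r₀ ∧ ∀ r : ℝ, 0 < r → r < r₀ →
          c * (r ^ (1 + κ / 8) * Real.log (Real.log (1 / r)) ^ (1 / 2 - κ / 16)) ≤ k r ∧
          k r ≤ C * (r ^ (1 + κ / 8) * Real.log (Real.log (1 / r)) ^ (1 / 2 - κ / 16))) →
        Good8.{u} κ k) ∧
      ((∀ ε : ℝ, 0 < ε → ∃ δ : ℝ, 0 < δ ∧ ∀ r : ℝ, 0 < r → r ≤ δ →
          k r ≤ ε * (r ^ (1 + κ / 8) * Real.log (Real.log (1 / r)) ^ (1 / 2 - κ / 16))) →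
        AllNull8.{u} κ k) ∧
      ((∀ ε : ℝ, 0 < ε → ∃ δ : ℝ, 0 < δ ∧ ∀ r : ℝ, 0 < r → r ≤ δ →
          r ^ (1 + κ / 8) * Real.log (Real.log (1 / r)) ^ (1 / 2 - κ / 16) ≤ ε * k r) →
        AllInf8.{u} κ k) ∧
      ((∃ r₀ : ℝ, 0 < r₀ ∧ ∀ r : ℝ, 0 < r → r < r₀ →
          k r = r ^ (1 + κ / 8) * Real.log (Real.log (1 / r))) →
        AllInf8.{u} κ k)) := by
  obtain ⟨g, hg, r₁, hr₁, -, hgr⟩ := exG_exists h0 h8
  have hgood : Good8.{u} κ g := hcore g hg ⟨r₁, hr₁, hgr⟩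
  have hinf : ∀ k : ℝ → ℝ, IsGauge k → (∀ ε : ℝ, 0 < ε → ∃ δ : ℝ, 0 < δ ∧ ∀ r : ℝ, 0 < r →
      r ≤ δ → r ^ (1 + κ / 8) * Real.log (Real.log (1 / r)) ^ (1 / 2 - κ / 16) ≤ ε * k r) →
      AllInf8.{u} κ k := by
    intro k hk ho Ω _ P γ hγ
    filter_upwards [hgood Ω P γ hγ] with ω h2 s t hs hst
    by_contra hne
    refine (h2 s t hs hst).1.ne' (cor8_null_littleO hg (h₂ := k) (fun ε hε => ?_)
      (lt_top_iff_ne_top.2 hne))
    obtain ⟨δ, hδ, H⟩ := ho ε hε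
    refine ⟨min δ (r₁ / 2), lt_min hδ (half_pos hr₁), fun r hr hr' => ?_⟩
    have h3 : r ≤ r₁ / 2 := hr'.trans (min_le_right _ _)
    rw [hgr r hr (by linarith only [hr, h3]), cor8_hh]
    exact H r hr (hr'.trans (min_le_left _ _))
  refine ⟨⟨g, hg, ⟨r₁, hr₁, fun r hr hr' => by rw [hgr r hr hr', cor8_hh]⟩, hgood⟩,
    fun k hk => ⟨?_, ?_, ?_, ?_⟩⟩
  · rintro ⟨c, C, r₀, hc, hr₀, hkr⟩ Ω _ P γ hγ
    filter_upwards [hgood Ω P γ hγ] with ω h2 s t hs hst
    have hmin : 0 < min r₀ r₁ := lt_min hr₀ hr₁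
    refine ⟨pos_iff_ne_zero.2 fun hz => (h2 s t hs hst).1.ne'
      (cor8_null_bigO hg hc hmin (fun r hr hr' => ?_) hz),
      cor8_finite_bigO hk hg (C := C) hmin (fun r hr hr' => ?_) (h2 s t hs hst).2⟩
    · rw [hgr r hr (hr'.trans_le (min_le_right _ _)), cor8_hh]
      exact (hkr r hr (hr'.trans_le (min_le_left _ _))).1
    · rw [hgr r hr (hr'.trans_le (min_le_right _ _)), cor8_hh]
      exact (hkr r hr (hr'.trans_le (min_le_left _ _))).2
  · intro ho Ω _ P γ hγ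
    filter_upwards [hgood Ω P γ hγ] with ω h2 s t hs hst
    refine cor8_null_littleO hk (h₂ := g) (fun ε hε => ?_) (h2 s t hs hst).2
    obtain ⟨δ, hδ, H⟩ := ho ε hε
    refine ⟨min δ (r₁ / 2), lt_min hδ (half_pos hr₁), fun r hr hr' => ?_⟩
    have h3 : r ≤ r₁ / 2 := hr'.trans (min_le_right _ _)
    rw [hgr r hr (by linarith only [hr, h3]), cor8_hh]
    exact H r hr (hr'.trans (min_le_left _ _))
  · exact fun ho => hinf k hk ho
  · rintro ⟨r₀, hr₀, hkr⟩
    exact hinf k hk fun ε hε => cor8_schramm h0 hr₀ hkr ε hε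

end Vale.Agent.P164
end

section

/-!
# X-B9. Auxiliary lemmas for the pathwise lower bound of the accumulated reward
-/

namespace Vale.Agent.P164

open Set Metric Filter Topology MeasureTheory ProbabilityTheory
open scoped NNReal ENNReal

section RPrimeAux

variable {κ c ε : ℝ} {z₀ : ℂ} {R L ϰ dl : ℝ} {Ω : Type*} {W : ℝ → Ω → ℝ} {ω : Ω} {t₀ T δ : ℝ}
  {D : Set ℂ} {w : ℝ → ℝ} {z : ℂ} {t s : ℝ}

lemma RPrime_Zf_meas (hw : Continuous w) (ht : 0 ≤ t) : Measurable (fun z => Zf w z t) := by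
  have h1 : Measurable fun z => (Zf w z t).re := by
    have h := St_measurable_z hw (G := fun Z _ => Z.re)
      (Complex.measurable_re.comp measurable_fst) ht
    convert h using 1
    funext z
    by_cases h : z ∈ loewnerDomain w t
    · rw [St_of_mem h]
    · rw [St_of_not_mem h, Zf_of_not_mem h, Complex.zero_re]
  have h2 : Measurable fun z => (Zf w z t).im := by
    have h := St_measurable_z hw (G := fun Z _ => Z.im)
      (Complex.measurable_im.comp measurable_fst) ht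
    convert h using 1
    funext z
    by_cases h : z ∈ loewnerDomain w t
    · rw [St_of_mem h]
    · rw [St_of_not_mem h, Zf_of_not_mem h, Complex.zero_im]
  exact Complex.measurableEquivRealProd.symm.measurable.comp (h1.prodMk h2)

lemma RPrime_alive_meas (hw : Continuous w) (ht : 0 ≤ t) :
    MeasurableSet {z : ℂ | z ∈ loewnerDomain w t} := by
  have h := (measurableSet_aliveSet hw).preimage
    (measurable_const.prodMk measurable_id : Measurable fun z : ℂ => (t, z))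
  convert h using 1
  ext z
  simp only [ofPred_mem_eq, preimage_ofPred_eq, ht, true_and]

lemma RPrime_alvX_mem (hδ : 0 ≤ δ) (hz : z ∈ D)
    (hs : z ∈ loewnerDomain (fun u => W u ω) s)
    (hϰ : ∀ u ∈ Icc t₀ s, ϰ < ‖Zf (fun u => W u ω) z u‖) :
    ∀ j : ℕ, t₀ + j * δ ≤ s → (z, ω) ∈ alvX W D ϰ t₀ δ j
  | 0, h => by
    have h' : t₀ ≤ s := by simpa only [CharP.cast_eq_zero, zero_mul, add_zero] using h
    exact ⟨hz, dom_mono h' hs, (hϰ t₀ ⟨le_rfl, h'⟩).le⟩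
  | j + 1, h => by
    have e : t₀ + ((j + 1 : ℕ) : ℝ) * δ = t₀ + j * δ + δ := by push_cast; ring
    rw [e] at h
    have hj : (0 : ℝ) ≤ j * δ := mul_nonneg (Nat.cast_nonneg j) hδ
    exact ⟨RPrime_alvX_mem hδ hz hs hϰ j (by linarith only [hδ, h]), dom_mono h hs,
      (hϰ _ ⟨by linarith, h⟩).le⟩

lemma RPrime_alvX_alive : ∀ j : ℕ, (z, ω) ∈ alvX W D ϰ t₀ δ j →
    z ∈ D ∧ z ∈ loewnerDomain (fun u => W u ω) (t₀ + j * δ)
  | 0, h => by
    refine ⟨h.1, ?_⟩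
    have h1 := h.2.1
    simpa using h1
  | j + 1, h => by
    have e : t₀ + ((j + 1 : ℕ) : ℝ) * δ = t₀ + j * δ + δ := by push_cast; ring
    rw [e]
    exact ⟨(RPrime_alvX_alive j h.1).1, h.2.1⟩

lemma RPrime_alvX_meas (hw : Continuous fun t => W t ω) (ht₀ : 0 ≤ t₀) (hδ : 0 ≤ δ)
    (hD : MeasurableSet D) : ∀ j : ℕ, MeasurableSet {z : ℂ | (z, ω) ∈ alvX W D ϰ t₀ δ j}
  | 0 => by
    have h1 : MeasurableSet {z : ℂ | ϰ ≤ ‖Zf (fun u => W u ω) z t₀‖} :=
      measurableSet_le measurable_const (RPrime_Zf_meas hw ht₀).norm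
    exact hD.inter ((RPrime_alive_meas hw ht₀).inter h1)
  | j + 1 => by
    have hj : (0 : ℝ) ≤ t₀ + j * δ + δ := by
      have : (0 : ℝ) ≤ j * δ := mul_nonneg (Nat.cast_nonneg j) hδ
      linarith
    have h1 : MeasurableSet {z : ℂ | ϰ ≤ ‖Zf (fun u => W u ω) z (t₀ + j * δ + δ)‖} :=
      measurableSet_le measurable_const (RPrime_Zf_meas hw hj).norm
    exact (RPrime_alvX_meas hw ht₀ hδ hD j).inter ((RPrime_alive_meas hw hj).inter h1)

/-- the changes of the state over a short interval -/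
lemma RPrime_path (hw : Continuous w) (ht : 0 ≤ t) (hts : t ≤ s)
    (hz : z ∈ loewnerDomain w s) (hϰ : 0 < ϰ) (hZ : ∀ u ∈ Icc t s, ϰ < ‖Zf w z u‖)
    (hη : |w t - w s| ≤ ϰ / 2) (hδ : 4 * (s - t) ≤ ϰ ^ 2) :
    Uf w z t ≤ Uf w z s + 1 ∧ sn (Zf w z s) / 2 ≤ sn (Zf w z t) := by
  constructor
  · have h1 := Uf_sub hw ht hts hz
    have h2 : ‖∫ u in t..s, rate (Zf w z u)‖ ≤ 4 / ϰ ^ 2 * |s - t| := by
      refine intervalIntegral.norm_integral_le_of_norm_le_const fun u hu => ?_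
      rw [uIoc_of_le hts] at hu
      have hu' : u ∈ Icc t s := ⟨hu.1.le, hu.2⟩
      have h3 := hZ u hu'
      have him := Zf_im_pos (ht.trans hu.1.le) (dom_mono hu.2 hz)
      rw [Real.norm_of_nonneg (rate_nonneg _)]
      unfold rate
      have h4 : sn (Zf w z u) ^ 2 ≤ 1 := by
        have := sn_le_one (Zf w z u)
        have := sn_pos him
        nlinarith
      calc 4 * sn (Zf w z u) ^ 2 / ‖Zf w z u‖ ^ 2 ≤ 4 * 1 / ϰ ^ 2 := by gcongr
        _ = 4 / ϰ ^ 2 := by rw [mul_one]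
    have h3 : 4 / ϰ ^ 2 * |s - t| ≤ 1 := by
      rw [abs_of_nonneg (sub_nonneg.2 hts), div_mul_eq_mul_div, div_le_one (by positivity)]
      exact hδ
    have h4 := le_abs_self (∫ u in t..s, rate (Zf w z u))
    rw [Real.norm_eq_abs] at h2
    linarith
  · have hs : 0 ≤ s := ht.trans hts
    have h1 : ‖gf w z t - gf w z s‖ ≤ 2 / ϰ * ‖t - s‖ := by
      refine (convex_Icc t s).norm_image_sub_le_of_norm_hasDerivWithin_le
        (f := gf w z) (f' := fun u => 2 / Zf w z u) (fun u hu => ?_) (fun u hu => ?_)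
        (right_mem_Icc.2 hts) (left_mem_Icc.2 hts)
      · exact (gf_hasDeriv hz ⟨ht.trans hu.1, hu.2⟩).mono (Icc_subset_Icc_left ht)
      · rw [norm_div]
        have h2 := hZ u hu
        have h4 : ‖(2 : ℂ)‖ = 2 := by simp
        rw [h4]
        (clear * - hϰ h2; gcongr)
    have h2 : Zf w z t = Zf w z s + (gf w z t - gf w z s) - ((w t - w s : ℝ) : ℂ) := by
      rw [Zf_eq, Zf_eq]
      push_cast
      ring
    have h3 : ‖Zf w z t‖ ≤ ‖Zf w z s‖ + ‖gf w z t - gf w z s‖ + |w t - w s| := by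
      rw [h2]
      refine (norm_sub_le _ _).trans ?_
      rw [Complex.norm_real, Real.norm_eq_abs]
      gcongr
      exact norm_add_le _ _
    have h4 : 2 / ϰ * ‖t - s‖ ≤ ϰ / 2 := by
      rw [Real.norm_eq_abs, abs_sub_comm, abs_of_nonneg (sub_nonneg.2 hts), div_mul_eq_mul_div,
        div_le_iff₀ hϰ]
      nlinarith only [hδ]
    have h5 := hZ s (right_mem_Icc.2 hts)
    have h6 : ‖Zf w z t‖ ≤ 2 * ‖Zf w z s‖ := by linarith only [hη, h1, h3, h4, h5]
    have him := Zf_im_pos hs hz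
    have h7 := im_le_of_le ht hts hz
    have h8 : 0 < ‖Zf w z t‖ := hϰ.trans (hZ t (left_mem_Icc.2 hts))
    have h9 : 0 < ‖Zf w z s‖ := hϰ.trans h5
    unfold sn
    rw [div_div, div_le_div_iff₀ (by (clear * - h9; positivity)) h8]
    nlinarith only [hϰ, h7, hη, him, h1, h3, h4, h5]

open scoped Classical in
/-- the counted reward density -/
noncomputable def RPrime_f (κ ε dl ϰ t₀ : ℝ) (w : ℝ → ℝ) (z : ℂ) (s : ℝ) : ℝ :=
  if (z ∈ loewnerDomain w s ∧ ∀ u ∈ Icc t₀ s, ϰ < ‖Zf w z u‖) then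
    St (fun Z U => if dl ≤ sn Z then aR κ ε Z U else 0) w z s else 0

lemma RPrime_G_meas : Measurable (Function.uncurry
    (fun (Z : ℂ) (U : ℝ) => if dl ≤ sn Z then aR κ ε Z U else 0)) := by
  have h1 : Measurable fun p : ℂ × ℝ => sn p.1 := by
    unfold sn
    exact (Complex.measurable_im.comp measurable_fst).div measurable_fst.norm
  exact Measurable.ite (measurableSet_le measurable_const h1) (aR_measurable κ ε) measurable_const

lemma RPrime_G_bounds (hs : 0 ≤ s) :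
    0 ≤ St (fun Z U => if dl ≤ sn Z then aR κ ε Z U else 0) w z s ∧
      St (fun Z U => if dl ≤ sn Z then aR κ ε Z U else 0) w z s ≤ St (aR κ ε) w z s := by
  have h0 := aR_nonneg (κ := κ) (r := ε) (W := w) (z := z) hs
  by_cases h : z ∈ loewnerDomain w s
  · rw [St_of_mem h] at h0 ⊢
    rw [St_of_mem h]
    by_cases h1 : dl ≤ sn (Zf w z s)
    · rw [if_pos h1]
      exact ⟨h0, le_rfl⟩
    · rw [if_neg h1]
      exact ⟨le_rfl, h0⟩
  · rw [St_of_not_mem h, St_of_not_mem h]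
    exact ⟨le_rfl, le_rfl⟩

lemma RPrime_f_bounds (hs : 0 ≤ s) :
    0 ≤ RPrime_f κ ε dl ϰ t₀ w z s ∧ RPrime_f κ ε dl ϰ t₀ w z s ≤ St (aR κ ε) w z s := by
  unfold RPrime_f
  split_ifs with h
  · exact RPrime_G_bounds hs
  · exact ⟨le_rfl, aR_nonneg hs⟩

lemma RPrime_f_int (h0 : 0 < κ) (h8 : κ < 8) (hε : 0 < ε) (hw : Continuous w) (hz : 0 < z.im)
    (ht₀ : 0 ≤ t₀) (ht : t₀ ≤ t) (hts : t ≤ s) :
    IntervalIntegrable (RPrime_f κ ε dl ϰ t₀ w z) volume t s := by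
  have h1 := yc_integrable h0 h8 hε hw hz (ht₀.trans ht) hts
  rw [intervalIntegrable_iff_integrableOn_Ioc_of_le hts] at h1 ⊢
  set A : Set ℝ := {s | t₀ ≤ s ∧ z ∈ loewnerDomain w s ∧ ∀ u ∈ Icc t₀ s, ϰ < ‖Zf w z u‖} with hA
  have hAo : A.OrdConnected := by
    refine ⟨fun a ha b hb x hx => ?_⟩
    exact ⟨ha.1.trans hx.1, dom_mono hx.2 hb.2.1, fun u hu => hb.2.2 u ⟨hu.1, hu.2.trans hx.2⟩⟩
  have h2 : AEStronglyMeasurable (RPrime_f κ ε dl ϰ t₀ w z) (volume.restrict (Ioc t s)) := by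
    have h3 : Measurable fun u : ℝ => if 0 ≤ u then
        St (fun Z U => if dl ≤ sn Z then aR κ ε Z U else 0) w z u else 0 :=
      (St_measurable hw (RPrime_G_meas (κ := κ) (ε := ε) (dl := dl))).comp
        (measurable_id.prodMk measurable_const)
    have h4 := h3.indicator hAo.measurableSet
    refine h4.aestronglyMeasurable.congr ?_
    filter_upwards [ae_restrict_mem measurableSet_Ioc] with u hu
    have hu1 : t₀ ≤ u := ht.trans hu.1.le
    by_cases huA : u ∈ A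
    · rw [indicator_of_mem huA, if_pos (ht₀.trans hu1), RPrime_f, if_pos huA.2]
    · rw [indicator_of_notMem huA, RPrime_f, if_neg]
      exact fun h => huA ⟨hu1, h⟩
  refine Integrable.mono' h1 h2 ?_
  filter_upwards [ae_restrict_mem measurableSet_Ioc] with u hu
  have h4 := RPrime_f_bounds (κ := κ) (ε := ε) (dl := dl) (ϰ := ϰ) (t₀ := t₀) (w := w) (z := z)
    ((ht₀.trans ht).trans hu.1.le)
  rw [Real.norm_of_nonneg h4.1]
  exact h4.2

lemma RPrime_aX (hL : 0 < L) (z : ℂ) (s : ℝ) :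
    St (aX κ c L ε) w z s = c * L ^ xx κ * St (aR κ ε) w z s := by
  by_cases h : z ∈ loewnerDomain w s
  · rw [St_of_mem h, St_of_mem h]
    unfold aX EA dX qv aR
    simp only [Fin.sum_univ_one, Matrix.cons_val_zero]
    have e : Real.exp (-xx κ * (Uf w z s - Real.log L)) =
        Real.exp (-xx κ * Uf w z s) * L ^ xx κ := by
      rw [Real.rpow_def_of_pos hL, ← Real.exp_add]
      congr 1
      ring
    rw [e]
    ring
  · rw [St_of_not_mem h, St_of_not_mem h, mul_zero]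

lemma RPrime_RwX (hL : 0 < L) (E 𝒬 : Set ℂ) (w : ℝ → ℝ) (t δ : ℝ) :
    RwX κ c L ε E 𝒬 w t δ = c * L ^ (-dd κ) *
      ∫ z in 𝒬, om L E w t (Zf w z t) * yc κ ε w z t (t + δ) := by
  unfold RwX
  have h1 : ∀ z : ℂ, om L E w t (Zf w z t) * ∫ s in t..(t + δ), St (aX κ c L ε) w z s =
      (c * L ^ xx κ) * (om L E w t (Zf w z t) * yc κ ε w z t (t + δ)) := by
    intro z
    simp only [RPrime_aX hL]
    rw [intervalIntegral.integral_const_mul]
    unfold yc
    ring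
  simp only [h1]
  rw [integral_const_mul]
  have h2 : L ^ xx κ / L ^ 2 = L ^ (-dd κ) := by
    rw [← Real.rpow_two, ← Real.rpow_sub hL]
    congr 1
    unfold xx dd
    ring
  rw [← h2]
  ring

lemma RPrime_sX (E : Set ℂ) : ∀ N : ℕ, sX κ c L ε E D W ϰ t₀ δ N ω =
    ∑ j ∈ Finset.range N, RwX κ c L ε E {z | (z, ω) ∈ alvX W D ϰ t₀ δ j} (fun u => W u ω)
      (t₀ + j * δ) δ
  | 0 => by simp only [sX, Finset.range_zero, Finset.sum_empty]
  | N + 1 => by
    rw [Finset.sum_range_succ, ← RPrime_sX E N]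
    rfl

/-- pointwise comparison on one step -/
lemma RPrime_pt (hw : Continuous w) (ht₀ : 0 ≤ t₀) (hL : 0 < L) (hR : 1 ≤ R)
    (hz0 : 3 * (R * L) ≤ z₀.im) (hϰ : 0 < ϰ)
    (hI : ∀ {W : ℝ → ℝ} {t : ℝ}, SA W t z₀ R L → ∀ z ∈ DD z₀ R L, z ∈ loewnerDomain W t →
      Uf W z t ≤ Real.log ε + 2 → dl / 2 ≤ sn (Zf W z t) →
        IQ L (EE z₀ R L) W t (Zf W z t) ≤ 1)
    (hzD : z ∈ DD z₀ R L) (ht : t₀ ≤ t) (hts : t ≤ s) (hosc : |w t - w s| ≤ ϰ / 2)
    (hδ : 4 * (s - t) ≤ ϰ ^ 2) {S : Set ℂ}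
    (hS : z ∈ loewnerDomain w s → (∀ u ∈ Icc t₀ s, ϰ < ‖Zf w z u‖) → z ∈ S)
    (hS' : z ∈ S → z ∈ loewnerDomain w t) :
    RPrime_f κ ε dl ϰ t₀ w z s ≤
      S.indicator (fun z => 2 * om L (EE z₀ R L) w t (Zf w z t)) z * St (aR κ ε) w z s := by
  have ht' : 0 ≤ t := ht₀.trans ht
  have hs : 0 ≤ s := ht'.trans hts
  have SAt : SA w t z₀ R L := ⟨hw, ht', hL, hR, hz0⟩
  have ha := aR_nonneg (κ := κ) (r := ε) (W := w) (z := z) hs
  by_cases hzS : z ∈ S
  · rw [indicator_of_mem hzS]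
    have him := Zf_im_pos ht' (hS' hzS)
    have hom0 := om_pos SAt him
    have hR0 : 0 ≤ 2 * om L (EE z₀ R L) w t (Zf w z t) * St (aR κ ε) w z s := by (clear * - hom0 ha; positivity)
    unfold RPrime_f
    split_ifs with h
    · rw [St_of_mem h.1]
      by_cases h1 : dl ≤ sn (Zf w z s)
      · rw [if_pos h1]
        by_cases h2 : Uf w z s < Real.log ε + 1
        · have h3 := RPrime_path hw ht' hts h.1 hϰ
            (fun u hu => h.2 u ⟨ht.trans hu.1, hu.2⟩) hosc hδ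
          have h4 := hI SAt z hzD (dom_mono hts h.1) (by linarith only [h2, h3]) (by linarith only [h1, h3])
          have h5 := IQ_nonneg SAt him
          have h6 : 1 ≤ 2 * om L (EE z₀ R L) w t (Zf w z t) := by
            unfold om
            rw [mul_one_div, le_div_iff₀ (by linarith only [h5])]
            linarith only [h4]
          rw [St_of_mem h.1] at ha ⊢
          nlinarith only [ha, h6]
        · have h3 : aR κ ε (Zf w z s) (Uf w z s) = 0 := by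
            rw [aR, phi_eq_zero (Or.inr (by linarith only [h2])), mul_zero, zero_mul]
          rw [h3]
          exact hR0
      · rw [if_neg h1]
        exact hR0
    · exact hR0
  · rw [indicator_of_notMem hzS, zero_mul]
    unfold RPrime_f
    rw [if_neg]
    exact fun h => hzS (hS h.1 h.2)

/-- the comparison integrated over one step -/
lemma RPrime_step (h0 : 0 < κ) (h8 : κ < 8) (hε : 0 < ε) (hw : Continuous fun t => W t ω)
    (ht₀ : 0 ≤ t₀) (hL : 0 < L) (hR : 1 ≤ R)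
    (hz0 : 3 * (R * L) ≤ z₀.im) (hϰ : 0 < ϰ)
    (hI : ∀ {W : ℝ → ℝ} {t : ℝ}, SA W t z₀ R L → ∀ z ∈ DD z₀ R L, z ∈ loewnerDomain W t →
      Uf W z t ≤ Real.log ε + 2 → dl / 2 ≤ sn (Zf W z t) →
        IQ L (EE z₀ R L) W t (Zf W z t) ≤ 1)
    (hzD : z ∈ DD z₀ R L) (hzim : 0 < z.im) (hδ0 : 0 ≤ δ) (j : ℕ)
    (hosc : ∀ s ∈ Icc (t₀ + j * δ) (t₀ + j * δ + δ),
      |W (t₀ + j * δ) ω - W s ω| ≤ ϰ / 2)
    (hδ : 4 * δ ≤ ϰ ^ 2) :
    ∫ s in (t₀ + j * δ)..(t₀ + j * δ + δ), RPrime_f κ ε dl ϰ t₀ (fun u => W u ω) z s ≤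
      {z : ℂ | (z, ω) ∈ alvX W (DD z₀ R L) ϰ t₀ δ j}.indicator (fun z =>
        2 * (om L (EE z₀ R L) (fun u => W u ω) (t₀ + j * δ) (Zf (fun u => W u ω) z (t₀ + j * δ)) *
          yc κ ε (fun u => W u ω) z (t₀ + j * δ) (t₀ + j * δ + δ))) z := by
  have hj : (0 : ℝ) ≤ j * δ := mul_nonneg (Nat.cast_nonneg j) hδ0
  have htj : t₀ ≤ t₀ + j * δ := by linarith only [hj]
  have hts : t₀ + j * δ ≤ t₀ + j * δ + δ := by linarith only [hδ0]
  have htj0 : 0 ≤ t₀ + j * δ := ht₀.trans htj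
  have h1 : ∫ s in (t₀ + j * δ)..(t₀ + j * δ + δ), RPrime_f κ ε dl ϰ t₀ (fun u => W u ω) z s ≤
      ∫ s in (t₀ + j * δ)..(t₀ + j * δ + δ),
        {z : ℂ | (z, ω) ∈ alvX W (DD z₀ R L) ϰ t₀ δ j}.indicator (fun z =>
          2 * om L (EE z₀ R L) (fun u => W u ω) (t₀ + j * δ)
            (Zf (fun u => W u ω) z (t₀ + j * δ))) z * St (aR κ ε) (fun u => W u ω) z s := by
    refine intervalIntegral.integral_mono_on hts
      (RPrime_f_int h0 h8 hε hw hzim ht₀ htj hts)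
      ((yc_integrable h0 h8 hε hw hzim htj0 hts).const_mul _) fun s hs => ?_
    refine RPrime_pt hw ht₀ hL hR hz0 hϰ hI hzD htj hs.1 (hosc s hs) ?_ ?_ ?_
    · have := hs.2
      linarith only [hδ, this]
    · intro h2 h3
      exact RPrime_alvX_mem hδ0 hzD h2 h3 j hs.1
    · intro h2
      exact (RPrime_alvX_alive j h2).2
  refine h1.trans (le_of_eq ?_)
  rw [intervalIntegral.integral_const_mul]
  change _ * yc κ ε (fun u => W u ω) z (t₀ + j * δ) (t₀ + j * δ + δ) = _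
  by_cases hzS : z ∈ {z : ℂ | (z, ω) ∈ alvX W (DD z₀ R L) ϰ t₀ δ j}
  · rw [indicator_of_mem hzS, indicator_of_mem hzS]
    ring
  · rw [indicator_of_notMem hzS, indicator_of_notMem hzS, zero_mul]

/-- the counted reward of one step is integrable -/
lemma RPrime_g_int (h0 : 0 < κ) (h8 : κ < 8) (hε : 0 < ε) (hw : Continuous fun t => W t ω)
    (ht₀ : 0 ≤ t₀) (hL : 0 < L) (hR : 1 ≤ R) (hz0 : 3 * (R * L) ≤ z₀.im) (hδ0 : 0 ≤ δ) (j : ℕ) :
    IntegrableOn ({z : ℂ | (z, ω) ∈ alvX W (DD z₀ R L) ϰ t₀ δ j}.indicator (fun z =>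
        2 * (om L (EE z₀ R L) (fun u => W u ω) (t₀ + j * δ) (Zf (fun u => W u ω) z (t₀ + j * δ)) *
          yc κ ε (fun u => W u ω) z (t₀ + j * δ) (t₀ + j * δ + δ)))) (DD z₀ R L) := by
  have hj : (0 : ℝ) ≤ j * δ := mul_nonneg (Nat.cast_nonneg j) hδ0
  have hts : t₀ + j * δ ≤ t₀ + j * δ + δ := by linarith only [hδ0]
  have htj0 : 0 ≤ t₀ + j * δ := by linarith only [ht₀, hj]
  have hS := RPrime_alvX_meas (ϰ := ϰ) hw ht₀ hδ0 (measurableSet_ball (x := z₀) (ε := R * L)) j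
  have hm : Measurable ({z : ℂ | (z, ω) ∈ alvX W (DD z₀ R L) ϰ t₀ δ j}.indicator (fun z =>
        2 * (om L (EE z₀ R L) (fun u => W u ω) (t₀ + j * δ) (Zf (fun u => W u ω) z (t₀ + j * δ)) *
          yc κ ε (fun u => W u ω) z (t₀ + j * δ) (t₀ + j * δ + δ)))) := by
    refine Measurable.indicator ?_ hS
    exact (((measurable_om hw htj0 _).comp (RPrime_Zf_meas hw htj0)).mul
      (yc_measurable hw htj0 hts)).const_mul 2
  refine Integrable.mono' (g := fun _ => 2 * ε ^ (-xx κ))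
    (integrableOn_const (measure_ball_lt_top.ne)) hm.aestronglyMeasurable ?_
  filter_upwards [ae_restrict_mem measurableSet_ball] with z hz
  have hzim : 0 < z.im := by
    have h1 : |z.im - z₀.im| ≤ ‖z - z₀‖ := by
      rw [← Complex.sub_im]
      exact Complex.abs_im_le_norm _
    rw [DD, mem_ball, dist_eq_norm] at hz
    have h2 := (abs_le.1 h1).1
    have h3 : 0 < R * L := mul_pos (by linarith only [hR]) hL
    linarith only [hz0, hz, h2, h3]
  have hε' : 0 ≤ ε ^ (-xx κ) := Real.rpow_nonneg hε.le _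
  by_cases hzS : z ∈ {z : ℂ | (z, ω) ∈ alvX W (DD z₀ R L) ϰ t₀ δ j}
  · rw [indicator_of_mem hzS]
    have SAt : SA (fun u => W u ω) (t₀ + j * δ) z₀ R L := ⟨hw, htj0, hL, hR, hz0⟩
    have him := Zf_im_pos htj0 (RPrime_alvX_alive j hzS).2
    have h1 := om_pos SAt him
    have h2 := om_le_one SAt him
    have h3 := yc_nonneg (κ := κ) (r := ε) (W := fun u => W u ω) (z := z) htj0 hts
    have h4 := yc_le h0 h8 hε hw hzim htj0 hts
    rw [Real.norm_of_nonneg (by (clear * - h1 h3; positivity))]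
    nlinarith only [hε', h2, h1, h4]
  · rw [indicator_of_notMem hzS, norm_zero]
    (clear * - hε; positivity)

lemma RPrime_im (hL : 0 < L) (hR : 1 ≤ R) (hz0 : 3 * (R * L) ≤ z₀.im) (hz : z ∈ DD z₀ R L) :
    0 < z.im := by
  have h1 : |z.im - z₀.im| ≤ ‖z - z₀‖ := by
    rw [← Complex.sub_im]
    exact Complex.abs_im_le_norm _
  rw [DD, mem_ball, dist_eq_norm] at hz
  have h2 := (abs_le.1 h1).1
  have h3 : 0 < R * L := mul_pos (by linarith only [hR]) hL
  linarith only [hz0, hz, h2, h3]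

/-- the comparison summed over the steps and integrated over the ball -/
lemma RPrime_sum (h0 : 0 < κ) (h8 : κ < 8) (hc : 0 < c) (hε : 0 < ε)
    (hw : Continuous fun t => W t ω)
    (ht₀ : 0 ≤ t₀) (hL : 0 < L) (hR : 1 ≤ R)
    (hz0 : 3 * (R * L) ≤ z₀.im) (hϰ : 0 < ϰ)
    (hI : ∀ {W : ℝ → ℝ} {t : ℝ}, SA W t z₀ R L → ∀ z ∈ DD z₀ R L, z ∈ loewnerDomain W t →
      Uf W z t ≤ Real.log ε + 2 → dl / 2 ≤ sn (Zf W z t) →
        IQ L (EE z₀ R L) W t (Zf W z t) ≤ 1)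
    (hδ0 : 0 ≤ δ) (N : ℕ)
    (hosc : ∀ j < N, ∀ s ∈ Icc (t₀ + j * δ) (t₀ + j * δ + δ),
      |W (t₀ + j * δ) ω - W s ω| ≤ ϰ / 2)
    (hδ : 4 * δ ≤ ϰ ^ 2) :
    c / 2 * L ^ (-dd κ) * (∫ z in DD z₀ R L, ∫ s in t₀..(t₀ + N * δ),
      RPrime_f κ ε dl ϰ t₀ (fun u => W u ω) z s) ≤
      sX κ c L ε (EE z₀ R L) (DD z₀ R L) W ϰ t₀ δ N ω := by
  set g : ℕ → ℂ → ℝ := fun j => {z : ℂ | (z, ω) ∈ alvX W (DD z₀ R L) ϰ t₀ δ j}.indicator
      (fun z => 2 * (om L (EE z₀ R L) (fun u => W u ω) (t₀ + j * δ)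
        (Zf (fun u => W u ω) z (t₀ + j * δ)) *
          yc κ ε (fun u => W u ω) z (t₀ + j * δ) (t₀ + j * δ + δ))) with hg
  have hgi : ∀ j, IntegrableOn (g j) (DD z₀ R L) := fun j =>
    RPrime_g_int h0 h8 hε hw ht₀ hL hR hz0 hδ0 j
  have hNδ : (0 : ℝ) ≤ N * δ := mul_nonneg (Nat.cast_nonneg N) hδ0
  have h1 : ∀ z ∈ DD z₀ R L, ∫ s in t₀..(t₀ + N * δ),
      RPrime_f κ ε dl ϰ t₀ (fun u => W u ω) z s ≤ ∑ j ∈ Finset.range N, g j z := by
    intro z hz
    have hzim := RPrime_im hL hR hz0 hz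
    have h2 := intervalIntegral.sum_integral_adjacent_intervals (μ := volume)
      (f := RPrime_f κ ε dl ϰ t₀ (fun u => W u ω) z) (a := fun j : ℕ => t₀ + (j : ℝ) * δ)
      (n := N) (fun j _ => by
        have hj : (0 : ℝ) ≤ j * δ := mul_nonneg (Nat.cast_nonneg j) hδ0
        refine RPrime_f_int h0 h8 hε hw hzim ht₀ (by linarith only [hj]) ?_
        push_cast
        linarith only [hδ0])
    simp only [Nat.cast_zero, zero_mul, add_zero] at h2
    rw [← h2]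
    refine Finset.sum_le_sum fun j hj => ?_
    have h3 := RPrime_step h0 h8 hε hw ht₀ hL hR hz0 hϰ hI hz hzim hδ0 j
      (hosc j (Finset.mem_range.1 hj)) hδ
    have e : t₀ + ((j + 1 : ℕ) : ℝ) * δ = t₀ + j * δ + δ := by push_cast; ring
    rw [e]
    exact h3
  have h2 : (∫ z in DD z₀ R L, ∫ s in t₀..(t₀ + N * δ),
      RPrime_f κ ε dl ϰ t₀ (fun u => W u ω) z s) ≤
        ∫ z in DD z₀ R L, ∑ j ∈ Finset.range N, g j z := by
    refine integral_mono_of_nonneg ?_ (integrable_finsetSum _ fun j _ => hgi j) ?_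
    · filter_upwards [] with z
      refine intervalIntegral.integral_nonneg (by linarith only [hNδ]) fun s hs => ?_
      exact (RPrime_f_bounds (ht₀.trans hs.1)).1
    · filter_upwards [ae_restrict_mem measurableSet_ball] with z hz
      exact h1 z hz
  rw [integral_finsetSum _ fun j _ => hgi j] at h2
  rw [RPrime_sX]
  have hcL : 0 ≤ c / 2 * L ^ (-dd κ) := by positivity
  refine (mul_le_mul_of_nonneg_left h2 hcL).trans (le_of_eq ?_)
  rw [Finset.mul_sum]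
  refine Finset.sum_congr rfl fun j _ => ?_
  rw [RPrime_RwX hL, hg]
  simp only
  have hDm : MeasurableSet (DD z₀ R L) := measurableSet_ball
  rw [setIntegral_indicator (RPrime_alvX_meas hw ht₀ hδ0 hDm j),
    integral_const_mul]
  have e : DD z₀ R L ∩ {z | (z, ω) ∈ alvX W (DD z₀ R L) ϰ t₀ δ j} =
      {z | (z, ω) ∈ alvX W (DD z₀ R L) ϰ t₀ δ j} := by
    refine inter_eq_right.2 fun z hz => (RPrime_alvX_alive j hz).1
  rw [e]
  ring

end RPrimeAux

end Vale.Agent.P164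
end

section

/-!
# X-B9. Auxiliary facts for the exponential moments of the content at angles `≥ dl`
-/

namespace Vale.Agent.P164

open Set Metric Filter Topology MeasureTheory ProbabilityTheory
open scoped NNReal ENNReal

theorem RPrimeB_le_of_rat {f : ℝ → ℝ} {c : ℝ} (hf : ContinuousOn f (Icc 0 1))
    (h : ∀ q : ℚ, (q : ℝ) ∈ Icc (0 : ℝ) 1 → c ≤ f q) {x : ℝ} (hx : x ∈ Icc (0 : ℝ) 1) :
    c ≤ f x := by
  have hcl : IsClosed (Icc (0 : ℝ) 1 ∩ f ⁻¹' (Ici c)) :=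
    hf.preimage_isClosed_of_isClosed isClosed_Icc isClosed_Ici
  have hsub : Ioo (0 : ℝ) 1 ∩ range ((↑) : ℚ → ℝ) ⊆ Icc (0 : ℝ) 1 ∩ f ⁻¹' (Ici c) := by
    rintro _ ⟨hy, q, rfl⟩
    exact ⟨Ioo_subset_Icc_self hy, h q (Ioo_subset_Icc_self hy)⟩
  have h1 : Icc (0 : ℝ) 1 ⊆ closure (Ioo (0 : ℝ) 1 ∩ range ((↑) : ℚ → ℝ)) := by
    rw [← closure_Ioo (zero_ne_one' ℝ)]
    exact closure_minimal (Rat.denseRange_cast.open_subset_closure_inter isOpen_Ioo)
      isClosed_closure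
  exact (hcl.closure_subset_iff.2 hsub (h1 hx)).2

/-- The pairs (time, point) such that the point is alive and has not come close to the tip. -/
def RPrimeB_cut (W : ℝ → ℝ) (t₀ ϰ : ℝ) : Set (ℝ × ℂ) :=
  {p | t₀ ≤ p.1 ∧ p.2 ∈ loewnerDomain W p.1 ∧ ∀ u ∈ Icc t₀ p.1, ϰ < ‖Zf W p.2 u‖}

theorem RPrimeB_cut_meas {W : ℝ → ℝ} (hW : Continuous W) {t₀ ϰ : ℝ} (ht₀ : 0 ≤ t₀)
    (hϰ : 0 < ϰ) : MeasurableSet (RPrimeB_cut W t₀ ϰ) := by
  set N : ℝ × ℂ → ℝ := fun p => if 0 ≤ p.1 then St (fun Z _ => ‖Z‖) W p.2 p.1 else 0 with hN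
  have mN : Measurable N := by
    have hG : Measurable (Function.uncurry fun (Z : ℂ) (_ : ℝ) => ‖Z‖) := measurable_fst.norm
    exact St_measurable hW hG
  have hNv : ∀ u z, 0 ≤ u → N (u, z) = ‖Zf W z u‖ := by
    intro u z hu
    by_cases h : z ∈ loewnerDomain W u
    · simp only [hu, ↓reduceIte, St_of_mem h, N]
    · simp only [hu, ↓reduceIte, St_of_not_mem h, Zf_of_not_mem h, norm_zero, N]
  have key : RPrimeB_cut W t₀ ϰ = {p : ℝ × ℂ | t₀ ≤ p.1} ∩
      ⋃ m : ℕ, ⋂ q : {q : ℚ // (q : ℝ) ∈ Icc (0 : ℝ) 1},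
        {p : ℝ × ℂ | ϰ + 1 / ((m : ℝ) + 1) ≤ N (t₀ + ((q : ℚ) : ℝ) * (p.1 - t₀), p.2)} := by
    ext p
    obtain ⟨s, z⟩ := p
    constructor
    · rintro ⟨hs, hal, hall⟩
      simp only at hs hal hall
      have hs0 : 0 ≤ s := ht₀.trans hs
      have hcont : ContinuousOn (fun u => ‖Zf W z u‖) (Icc t₀ s) :=
        ((Zf_cont hW hs0 hal).norm).mono (Icc_subset_Icc_left ht₀)
      obtain ⟨u₀, hu₀, hmin⟩ := isCompact_Icc.exists_isMinOn (nonempty_Icc.2 hs) hcont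
      have h1 := hall u₀ hu₀
      obtain ⟨m, hm⟩ := exists_nat_one_div_lt (sub_pos.2 h1)
      refine ⟨hs, mem_iUnion.2 ⟨m, mem_iInter.2 fun q => ?_⟩⟩
      have hq := q.2
      have hu : t₀ + ((q : ℚ) : ℝ) * (s - t₀) ∈ Icc t₀ s := by
        constructor
        · nlinarith only [hs, hq.1]
        · nlinarith only [hs, hq.2]
      show ϰ + 1 / ((m : ℝ) + 1) ≤ N (t₀ + ((q : ℚ) : ℝ) * (s - t₀), z)
      rw [hNv _ _ (ht₀.trans hu.1)]
      have h2 : ‖Zf W z u₀‖ ≤ ‖Zf W z (t₀ + ((q : ℚ) : ℝ) * (s - t₀))‖ := hmin hu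
      linarith only [hm, h2]
    · rintro ⟨hs, hU⟩
      obtain ⟨m, hm⟩ := mem_iUnion.1 hU
      have hs : t₀ ≤ s := hs
      have hs0 : 0 ≤ s := ht₀.trans hs
      have hm' : ∀ q : ℚ, (q : ℝ) ∈ Icc (0 : ℝ) 1 →
          ϰ + 1 / ((m : ℝ) + 1) ≤ ‖Zf W z (t₀ + (q : ℝ) * (s - t₀))‖ := by
        intro q hq
        have h1 : ϰ + 1 / ((m : ℝ) + 1) ≤ N (t₀ + (q : ℝ) * (s - t₀), z) :=
          mem_iInter.1 hm ⟨q, hq⟩
        rwa [hNv _ _ (by nlinarith only [ht₀, hs, hq.1])] at h1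
      have hpos : 0 < 1 / ((m : ℝ) + 1) := by (clear * -; positivity)
      have h1 : ϰ + 1 / ((m : ℝ) + 1) ≤ ‖Zf W z s‖ := by
        have := hm' 1 (by norm_num)
        simpa only [one_div, ge_iff_le, Rat.cast_one, one_mul, add_sub_cancel] using this
      have hal : z ∈ loewnerDomain W s := by
        by_contra hcon
        rw [Zf_of_not_mem hcon, norm_zero] at h1
        linarith only [hϰ, hpos, h1]
      refine ⟨hs, hal, fun u hu => ?_⟩
      simp only at hu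
      rcases hs.eq_or_lt with heq | hlt
      · have : u = s := le_antisymm hu.2 (heq ▸ hu.1)
        rw [this]
        show ϰ < ‖Zf W z s‖
        linarith
      · have hd : 0 < s - t₀ := sub_pos.2 hlt
        have hf : ContinuousOn (fun x : ℝ => ‖Zf W z (t₀ + x * (s - t₀))‖) (Icc 0 1) := by
          have h2 : ContinuousOn (fun u => ‖Zf W z u‖) (Icc 0 s) := (Zf_cont hW hs0 hal).norm
          refine h2.comp (f := fun x : ℝ => t₀ + x * (s - t₀)) (by fun_prop) fun x hx => ?_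
          constructor
          · nlinarith only [ht₀, hs, hx.1]
          · nlinarith only [hs, hx.2]
        have hx : (u - t₀) / (s - t₀) ∈ Icc (0 : ℝ) 1 :=
          ⟨div_nonneg (by linarith only [hu.1]) hd.le, (div_le_one hd).2 (by linarith only [hu.2])⟩
        have h3 := RPrimeB_le_of_rat hf hm' hx
        rw [div_mul_cancel₀ _ hd.ne', add_sub_cancel] at h3
        show ϰ < ‖Zf W z u‖
        linarith only [hpos, h3]
  rw [key]
  refine (measurableSet_le measurable_const measurable_fst).inter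
    (MeasurableSet.iUnion fun m => MeasurableSet.iInter fun q =>
      measurableSet_le measurable_const (mN.comp ?_))
  fun_prop

/-- The reward at angles `≥ dl`. -/
noncomputable def RPrimeB_G (κ ε dl : ℝ) : ℂ → ℝ → ℝ :=
  fun Z U => if dl ≤ sn Z then aR κ ε Z U else 0

theorem RPrimeB_G_meas (κ ε dl : ℝ) : Measurable (Function.uncurry (RPrimeB_G κ ε dl)) := by
  unfold RPrimeB_G
  exact Measurable.ite (measurableSet_le measurable_const (measurable_sn.comp measurable_fst))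
    (aR_measurable κ ε) measurable_const

theorem RPrimeB_G_bounds {κ ε dl : ℝ} {W : ℝ → ℝ} {z : ℂ} {u : ℝ} (hu : 0 ≤ u) :
    0 ≤ St (RPrimeB_G κ ε dl) W z u ∧
      St (RPrimeB_G κ ε dl) W z u ≤ St (aR κ ε) W z u := by
  have ha : 0 ≤ St (aR κ ε) W z u := aR_nonneg hu
  by_cases h : z ∈ loewnerDomain W u
  · rw [St_of_mem h] at ha ⊢
    rw [St_of_mem h]
    unfold RPrimeB_G
    split_ifs
    · exact ⟨ha, le_rfl⟩
    · exact ⟨le_rfl, ha⟩
  · rw [St_of_not_mem h, St_of_not_mem h]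
    exact ⟨le_rfl, le_rfl⟩

open scoped Classical in
/-- The truncated content converges to the content. -/
theorem RPrimeB_lim {κ ε dl : ℝ} (h0 : 0 < κ) (h8 : κ < 8) (hε : 0 < ε) {W : ℝ → ℝ}
    (hW : Continuous W) {D : Set ℂ} (hD : MeasurableSet D) (hDv : volume D ≠ ⊤)
    (hDim : ∀ z ∈ D, 0 < z.im) {t₀ T : ℝ} (ht₀ : 0 ≤ t₀) (hT : t₀ ≤ T) :
    Tendsto (fun n : ℕ => ∫ z in D, ∫ s in t₀..T,
      if (z ∈ loewnerDomain W s ∧ ∀ u ∈ Icc t₀ s, 1 / ((n : ℝ) + 1) < ‖Zf W z u‖) then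
        St (fun Z U => if dl ≤ sn Z then aR κ ε Z U else 0) W z s else 0) atTop
      (𝓝 (muge κ ε dl W D t₀ T)) := by
  have hcut : ∀ n : ℕ, MeasurableSet (RPrimeB_cut W t₀ (1 / ((n : ℝ) + 1))) := fun n =>
    RPrimeB_cut_meas hW ht₀ (by (clear * -; positivity))
  set H : ℕ → ℂ → ℝ → ℝ := fun n z s => (RPrimeB_cut W t₀ (1 / ((n : ℝ) + 1))).indicator
    (fun p : ℝ × ℂ => if 0 ≤ p.1 then St (RPrimeB_G κ ε dl) W p.2 p.1 else 0) (s, z) with hH
  have mH : ∀ n, Measurable (Function.uncurry (H n)) := by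
    intro n
    have h1 : Measurable ((RPrimeB_cut W t₀ (1 / ((n : ℝ) + 1))).indicator
        (fun p : ℝ × ℂ => if 0 ≤ p.1 then St (RPrimeB_G κ ε dl) W p.2 p.1 else 0)) :=
      (St_measurable hW (RPrimeB_G_meas κ ε dl)).indicator (hcut n)
    exact h1.comp measurable_swap
  have hHeq : ∀ n : ℕ, ∀ z : ℂ, ∀ s ∈ Ioc t₀ T,
      (if (z ∈ loewnerDomain W s ∧ ∀ u ∈ Icc t₀ s, 1 / ((n : ℝ) + 1) < ‖Zf W z u‖) then
        St (fun Z U => if dl ≤ sn Z then aR κ ε Z U else 0) W z s else 0) = H n z s := by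
    intro n z s hs
    simp only [hH]
    by_cases hc : z ∈ loewnerDomain W s ∧ ∀ u ∈ Icc t₀ s, 1 / ((n : ℝ) + 1) < ‖Zf W z u‖
    · rw [if_pos hc, indicator_of_mem (show (s, z) ∈ RPrimeB_cut W t₀ (1 / ((n : ℝ) + 1)) from
        ⟨hs.1.le, hc.1, hc.2⟩)]
      simp only
      rw [if_pos (ht₀.trans hs.1.le)]
      rfl
    · rw [if_neg hc, indicator_of_notMem]
      rintro ⟨_, h2, h3⟩
      exact hc ⟨h2, h3⟩
  have hHb : ∀ n : ℕ, ∀ z : ℂ, ∀ s ∈ Ioc t₀ T, 0 ≤ H n z s ∧ H n z s ≤ St (aR κ ε) W z s := by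
    intro n z s hs
    have hs0 : 0 ≤ s := ht₀.trans hs.1.le
    have hb := RPrimeB_G_bounds (κ := κ) (ε := ε) (dl := dl) (W := W) (z := z) hs0
    simp only [hH]
    by_cases hc : (s, z) ∈ RPrimeB_cut W t₀ (1 / ((n : ℝ) + 1))
    · rw [indicator_of_mem hc]
      simp only
      rw [if_pos hs0]
      exact hb
    · rw [indicator_of_notMem hc]
      exact ⟨le_rfl, aR_nonneg hs0⟩
  have hIn : ∀ n : ℕ, ∀ z : ℂ, ∫ s in t₀..T,
      (if (z ∈ loewnerDomain W s ∧ ∀ u ∈ Icc t₀ s, 1 / ((n : ℝ) + 1) < ‖Zf W z u‖) then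
        St (fun Z U => if dl ≤ sn Z then aR κ ε Z U else 0) W z s else 0)
      = ∫ s in Ioc t₀ T, H n z s := by
    intro n z
    rw [intervalIntegral.integral_of_le hT]
    exact setIntegral_congr_fun measurableSet_Ioc fun s hs => hHeq n z s hs
  simp only [hIn]
  unfold muge
  have hInt : ∀ z ∈ D, IntegrableOn (fun s => St (aR κ ε) W z s) (Ioc t₀ T) := by
    intro z hz
    have h1 := yc_integrable h0 h8 hε hW (hDim z hz) ht₀ hT
    rwa [intervalIntegrable_iff_integrableOn_Ioc_of_le hT] at h1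
  refine tendsto_integral_of_dominated_convergence (fun _ => ε ^ (-xx κ))
    (fun n => ?_) (integrableOn_const hDv) (fun n => ?_) ?_
  · exact ((mH n).stronglyMeasurable.integral_prod_right
      (ν := volume.restrict (Ioc t₀ T))).aestronglyMeasurable
  · filter_upwards [ae_restrict_mem hD] with z hz
    have h1 : 0 ≤ ∫ s in Ioc t₀ T, H n z s :=
      setIntegral_nonneg measurableSet_Ioc fun s hs => (hHb n z s hs).1
    rw [Real.norm_of_nonneg h1]
    have h2 := yc_le h0 h8 hε hW (hDim z hz) ht₀ hT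
    rw [yc, intervalIntegral.integral_of_le hT] at h2
    refine le_trans ?_ h2
    refine setIntegral_mono_on ?_ (hInt z hz) measurableSet_Ioc fun s hs => (hHb n z s hs).2
    refine Integrable.mono' (hInt z hz)
      ((mH n).comp measurable_prodMk_left).aestronglyMeasurable ?_
    filter_upwards [ae_restrict_mem measurableSet_Ioc] with s hs
    have h3 := hHb n z s hs
    show ‖H n z s‖ ≤ _
    rw [Real.norm_of_nonneg h3.1]
    exact h3.2
  · filter_upwards [ae_restrict_mem hD] with z hz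
    rw [intervalIntegral.integral_of_le hT]
    refine tendsto_integral_of_dominated_convergence (fun s => St (aR κ ε) W z s)
      (fun n => ((mH n).comp measurable_prodMk_left).aestronglyMeasurable) (hInt z hz)
      (fun n => ?_) ?_
    · filter_upwards [ae_restrict_mem measurableSet_Ioc] with s hs
      have h3 := hHb n z s hs
      show ‖H n z s‖ ≤ _
      rw [Real.norm_of_nonneg h3.1]
      exact h3.2
    · filter_upwards [ae_restrict_mem measurableSet_Ioc] with s hs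
      have hs0 : 0 ≤ s := ht₀.trans hs.1.le
      by_cases hal : z ∈ loewnerDomain W s
      · have hcont : ContinuousOn (fun u => ‖Zf W z u‖) (Icc t₀ s) :=
          ((Zf_cont hW hs0 hal).norm).mono (Icc_subset_Icc_left ht₀)
        obtain ⟨u₀, hu₀, hmin⟩ := isCompact_Icc.exists_isMinOn (nonempty_Icc.2 hs.1.le) hcont
        have hpos : 0 < ‖Zf W z u₀‖ := Zf_norm_pos (ht₀.trans hu₀.1) (dom_mono hu₀.2 hal)
        have hev : ∀ᶠ n : ℕ in atTop, 1 / ((n : ℝ) + 1) < ‖Zf W z u₀‖ :=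
          (tendsto_one_div_add_atTop_nhds_zero_nat (𝕜 := ℝ)).eventually (gt_mem_nhds hpos)
        refine Tendsto.congr' ?_ tendsto_const_nhds
        filter_upwards [hev] with n hn
        rw [← hHeq n z s hs, if_pos ⟨hal, fun u hu => hn.trans_le (hmin hu)⟩]
      · refine Tendsto.congr' (Eventually.of_forall fun n => ?_) tendsto_const_nhds
        show _ = H n z s
        rw [← hHeq n z s hs, if_neg fun h => hal h.1, St_of_not_mem hal]

section Meas

variable {Ω : Type*} [mΩ : MeasurableSpace Ω] {P : Measure Ω} {W : ℝ → Ω → ℝ}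

theorem RPrimeB_alv_meas (hc : ∀ ω, Continuous fun t => W t ω) (hm : ∀ t, Measurable (W t))
    {D : Set ℂ} (hD : MeasurableSet D) {ϰ t₀ δ : ℝ} (ht₀ : 0 ≤ t₀) (hδ : 0 ≤ δ) (j : ℕ) :
    @MeasurableSet (ℂ × Ω) (@Prod.instMeasurableSpace ℂ Ω _ (past W (t₀ + j * δ)))
      (alvX W D ϰ t₀ δ j) := by
  have hB : MeasurableSet {q : ℂ × ℝ | ϰ ≤ ‖q.1‖} :=
    measurableSet_le measurable_const measurable_fst.norm
  induction j with
  | zero =>
    have ht : t₀ + ((0 : ℕ) : ℝ) * δ = t₀ := by simp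
    rw [ht]
    have h1 : @MeasurableSet (ℂ × Ω) (@Prod.instMeasurableSpace ℂ Ω _ (past W t₀))
        (Prod.fst ⁻¹' D) := (@measurable_fst ℂ Ω _ (past W t₀)) hD
    have h2 := alive_joint hc hm ht₀ hB
    have h3 := @MeasurableSet.inter (ℂ × Ω) (@Prod.instMeasurableSpace ℂ Ω _ (past W t₀)) _ _ h1 h2
    exact h3
  | succ j ih =>
    have ht : t₀ + ((j + 1 : ℕ) : ℝ) * δ = t₀ + j * δ + δ := by
      push_cast
      ring
    rw [ht]
    have htn : 0 ≤ t₀ + j * δ + δ := by (clear * - ht₀ hδ; positivity)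
    have hmono : (@Prod.instMeasurableSpace ℂ Ω _ (past W (t₀ + j * δ))) ≤
        (@Prod.instMeasurableSpace ℂ Ω _ (past W (t₀ + j * δ + δ))) :=
      sup_le_sup le_rfl (MeasurableSpace.comap_mono (past_mono (by linarith only [hδ])))
    have h2 := alive_joint hc hm htn hB
    have h3 := @MeasurableSet.inter (ℂ × Ω)
      (@Prod.instMeasurableSpace ℂ Ω _ (past W (t₀ + j * δ + δ))) _ _ (hmono _ ih) h2
    exact h3

theorem RPrimeB_sX_meas {κ c L ε : ℝ} (h0 : 0 < κ) (h8 : κ < 8) (hW : IsDrv κ P W)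
    {D E : Set ℂ} (hD : MeasurableSet D) {ϰ t₀ δ : ℝ} (ht₀ : 0 ≤ t₀) (hδ : 0 ≤ δ) (j : ℕ) :
    Measurable (sX κ c L ε E D W ϰ t₀ δ j) := by
  induction j with
  | zero => exact measurable_const
  | succ j ih =>
    have h1 := RwX_past (κ := κ) (c := c) (L := L) (ε := ε) h0 h8 hW.cont hW.meas
      (by (clear * - ht₀ hδ; positivity) : 0 ≤ t₀ + j * δ) hδ E
      (RPrimeB_alv_meas hW.cont hW.meas hD (ϰ := ϰ) ht₀ hδ j)
    exact ih.add (h1.mono hW.past_le le_rfl)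

theorem RPrimeB_osc_meas {κ : ℝ} (hW : IsDrv κ P W) {A : Set Ω} (hA : MeasurableSet A)
    {ϰ t₀ δ : ℝ} (hδ : 0 ≤ δ) (j : ℕ) : MeasurableSet (oscX W ϰ t₀ δ A j) := by
  induction j with
  | zero => exact hA
  | succ j ih =>
    have h1 : Measurable (osc W (t₀ + j * δ) δ) := (hW.meas_osc hδ).mono hW.fut_le le_rfl
    exact ih.inter (measurableSet_le h1 measurable_const)

theorem RPrimeB_mem_osc {A : Set Ω} {ϰ t₀ δ : ℝ} {ω : Ω} (hω : ω ∈ A) (j : ℕ)
    (h : ∀ i < j, osc W (t₀ + i * δ) δ ω ≤ ϰ / 16) : ω ∈ oscX W ϰ t₀ δ A j := by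
  induction j with
  | zero => exact hω
  | succ j ih =>
    exact ⟨ih fun i hi => h i (hi.trans (Nat.lt_succ_self j)), h j (Nat.lt_succ_self j)⟩

theorem RPrimeB_osc_event {κ : ℝ} (hW : IsDrv κ P W) {A : Set Ω} {ϰ t₀ T : ℝ} (hϰ : 0 < ϰ)
    (ht₀ : 0 ≤ t₀) (hT : t₀ < T) {ω : Ω} (hω : ω ∈ A) :
    ∀ᶠ N : ℕ in atTop, ω ∈ oscX W ϰ t₀ ((T - t₀) / N) A N := by
  obtain ⟨δ₀, hδ₀, H⟩ := hW.osc_small T ω (by positivity : 0 < ϰ / 16)
  have h1 : Tendsto (fun N : ℕ => (T - t₀) / (N : ℝ)) atTop (𝓝 0) :=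
    tendsto_const_div_atTop_nhds_zero_nat (T - t₀)
  have hd : 0 < T - t₀ := sub_pos.2 hT
  filter_upwards [h1.eventually (gt_mem_nhds hδ₀), eventually_ge_atTop 1] with N hN hN1
  have hNpos : (0 : ℝ) < N := by exact_mod_cast hN1
  refine RPrimeB_mem_osc hω N fun i hi => H _ (by positivity) hN.le _ ⟨by (clear * - ht₀ hT hN1; positivity), ?_⟩
  have hi' : (i : ℝ) ≤ N := by exact_mod_cast hi.le
  have h2 : (i : ℝ) * ((T - t₀) / N) ≤ N * ((T - t₀) / N) :=
    mul_le_mul_of_nonneg_right hi' (by positivity)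
  rw [mul_div_cancel₀ _ hNpos.ne'] at h2
  linarith

end Meas

theorem RPrimeB_vol (z : ℂ) {r : ℝ} (hr : 0 ≤ r) :
    (volume (ball z r)).toReal = Real.pi * r ^ 2 := by
  rw [Complex.volume_ball, ENNReal.toReal_mul, ENNReal.toReal_pow, ENNReal.toReal_ofReal hr]
  simp [mul_comm]

/-- Bound of the functional at the initial time. -/
theorem RPrimeB_phi0 {κ c K₀ ε : ℝ} (h0 : 0 < κ) (h8 : κ < 8) (hc : 0 ≤ c) (hK : 0 ≤ K₀)
    {W : ℝ → ℝ} {t : ℝ} {z₀ : ℂ} {R L : ℝ} (S : SA W t z₀ R L) {𝒬 : Set ℂ}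
    (hQ : 𝒬 ⊆ DD z₀ R L)
    (hU : ∀ z ∈ DD z₀ R L, z ∈ loewnerDomain W t ∧ Real.log L ≤ Uf W z t) :
    PhiX κ c K₀ L ε (EE z₀ R L) 𝒬 W t ≤ (2 * c + 27 * K₀) * Real.pi * R ^ 2 := by
  have hL := S.hL
  have hRL : 0 ≤ R * L := mul_nonneg (by linarith only [S.hR]) hL.le
  have h1 : ‖∫ z in 𝒬, St (fun Z U => fX κ c L ε Z U * om L (EE z₀ R L) W t Z) W z t‖
      ≤ 2 * c * (volume : Measure ℂ).real 𝒬 := by
    refine norm_setIntegral_le_of_norm_le_const ?_ fun z hz => ?_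
    · exact lt_of_le_of_lt (measure_mono hQ) measure_ball_lt_top
    · obtain ⟨hal, hUz⟩ := hU z (hQ hz)
      have him := Zf_im_pos S.ht hal
      rw [St_of_mem hal, fX_eq]
      have e1 := f1X_nonneg (κ := κ) (L := L) (ε := ε) hc him (Uf W z t)
      have e2 := f2X_nonneg (κ := κ) (L := L) (ε := ε) hc him (Uf W z t)
      have e3 := f1X_le (L := L) (ε := ε) h0 h8 hc him (Uf W z t)
      have e4 := f2X_le (L := L) (ε := ε) h0 h8 hc him (Uf W z t)
      have e5 := FF_le_one (L := L) h0 h8 him hUz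
      have e6 := om_pos S him
      have e7 := om_le_one S him
      have e8 : c * FF κ L (Zf W z t) (Uf W z t) ≤ c := by nlinarith only [hc, e5]
      rw [Real.norm_of_nonneg (mul_nonneg (add_nonneg e1 e2) e6.le)]
      calc (f1X κ c L ε (Zf W z t) (Uf W z t) + f2X κ c L ε (Zf W z t) (Uf W z t)) *
            om L (EE z₀ R L) W t (Zf W z t)
          ≤ (c + c) * 1 := mul_le_mul (by (clear * - e3 e4 e8; linarith)) e7 e6.le (by linarith only [hc])
        _ = 2 * c := by ring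
  have h2 : ‖∫ z in EE z₀ R L, St (fun _ U => GG (U - Real.log L)) W z t‖
      ≤ 3 * (volume : Measure ℂ).real (EE z₀ R L) := by
    refine norm_setIntegral_le_of_norm_le_const measure_ball_lt_top fun z _ => ?_
    by_cases hal : z ∈ loewnerDomain W t
    · rw [St_of_mem hal, Real.norm_of_nonneg (GG_nonneg _)]
      exact GG_le _
    · rw [St_of_not_mem hal, norm_zero]
      norm_num
  have v1 : (volume : Measure ℂ).real 𝒬 ≤ Real.pi * (R * L) ^ 2 := by
    rw [← RPrimeB_vol z₀ hRL]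
    exact ENNReal.toReal_mono measure_ball_lt_top.ne (measure_mono hQ)
  have v2 : (volume : Measure ℂ).real (EE z₀ R L) = Real.pi * (3 * (R * L)) ^ 2 :=
    RPrimeB_vol z₀ (by (clear * - hRL; positivity))
  have h3 := (le_abs_self _).trans (h1.trans (mul_le_mul_of_nonneg_left v1 (by positivity)))
  rw [v2] at h2
  have h4 := (le_abs_self _).trans h2
  have hL2 : 0 < L ^ 2 := by positivity
  unfold PhiX BI
  have h5 : (∫ z in 𝒬, St (fun Z U => fX κ c L ε Z U * om L (EE z₀ R L) W t Z) W z t) / L ^ 2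
      ≤ 2 * c * Real.pi * R ^ 2 := by
    rw [div_le_iff₀ hL2]
    calc _ ≤ _ := h3
      _ = 2 * c * Real.pi * R ^ 2 * L ^ 2 := by ring
  have h6 : (∫ z in EE z₀ R L, St (fun _ U => GG (U - Real.log L)) W z t) / L ^ 2
      ≤ 27 * Real.pi * R ^ 2 := by
    rw [div_le_iff₀ hL2]
    calc _ ≤ _ := h4
      _ = 27 * Real.pi * R ^ 2 * L ^ 2 := by ring
  calc _ ≤ 2 * c * Real.pi * R ^ 2 + K₀ * (27 * Real.pi * R ^ 2) :=
        add_le_add h5 (mul_le_mul_of_nonneg_left h6 hK)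
    _ = _ := by ring

/-- Fatou in the mesh, for a fixed truncation. -/
theorem RPrimeB_fatou {κ c K₀ ε : ℝ} (h0 : 0 < κ) (h8 : κ < 8) (hc : 0 ≤ c) (hK : 0 ≤ K₀)
    {z₀ : ℂ} {R L ϰ : ℝ} (hL : 0 < L) (hR : 1 ≤ R) (hz : 3 * (R * L) ≤ z₀.im) (hϰ : 0 < ϰ)
    (H : ∀ {W : ℝ → ℝ} {t : ℝ} {𝒬 : Set ℂ}, SA W t z₀ R L → Adm W t z₀ R L ϰ 𝒬 →
      BI L 𝒬 W t (genX κ c L ε (EE z₀ R L) W t) +
        κ / 2 * BI L 𝒬 W t (derX κ c L ε (EE z₀ R L) W t) ^ 2 ≤
          K₀ / 10 * N2 L ϰ (EE z₀ R L) W t)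
    {Ω : Type*} [MeasurableSpace Ω] {P : Measure Ω} {W : ℝ → Ω → ℝ} (hW : IsDrv κ P W)
    {t₀ T : ℝ} (ht₀ : 0 ≤ t₀) (hT : t₀ < T) {A : Set Ω} (hA : MeasurableSet[past W t₀] A)
    (hU : ∀ ω ∈ A, ∀ z ∈ DD z₀ R L, z ∈ loewnerDomain (fun u => W u ω) t₀ ∧
      Real.log L ≤ Uf (fun u => W u ω) z t₀) :
    (∀ N : ℕ, Measurable ((oscX W ϰ t₀ ((T - t₀) / N) A N).indicator fun ω =>
      ENNReal.ofReal (Real.exp (sX κ c L ε (EE z₀ R L) (DD z₀ R L) W ϰ t₀
        ((T - t₀) / N) N ω)))) ∧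
    ∫⁻ ω, liminf (fun N : ℕ => (oscX W ϰ t₀ ((T - t₀) / N) A N).indicator (fun ω =>
      ENNReal.ofReal (Real.exp (sX κ c L ε (EE z₀ R L) (DD z₀ R L) W ϰ t₀
        ((T - t₀) / N) N ω))) ω) atTop ∂P ≤
      ENNReal.ofReal (Real.exp ((2 * c + 27 * K₀) * Real.pi * R ^ 2)) * P A := by
  obtain ⟨C, δ₀, hC, hδ₀, HI⟩ := e_iterX h0 h8 hc hK hL hR hz hϰ H
  have hA' : MeasurableSet A := hW.past_le _ hA
  have hd : 0 < T - t₀ := sub_pos.2 hT
  have hδN : ∀ N : ℕ, 0 ≤ (T - t₀) / N := fun N => by (clear * - hT; positivity)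
  have mO : ∀ N : ℕ, MeasurableSet (oscX W ϰ t₀ ((T - t₀) / N) A N) := fun N =>
    RPrimeB_osc_meas hW hA' (hδN N) N
  have mS : ∀ N : ℕ, Measurable fun ω => ENNReal.ofReal (Real.exp
      (sX κ c L ε (EE z₀ R L) (DD z₀ R L) W ϰ t₀ ((T - t₀) / N) N ω)) := fun N =>
    ENNReal.measurable_ofReal.comp (Real.measurable_exp.comp
      (RPrimeB_sX_meas h0 h8 hW measurableSet_ball ht₀ (hδN N) N))
  refine ⟨fun N => (mS N).indicator (mO N), ?_⟩
  refine (lintegral_liminf_le fun N => (mS N).indicator (mO N)).trans ?_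
  set K : ℝ≥0∞ := ENNReal.ofReal (Real.exp ((2 * c + 27 * K₀) * Real.pi * R ^ 2)) with hKdef
  have hlim0 : Tendsto (fun N : ℕ => (T - t₀) / (N : ℝ)) atTop (𝓝 0) :=
    tendsto_const_div_atTop_nhds_zero_nat (T - t₀)
  have hbound : ∀ᶠ N : ℕ in atTop, ∫⁻ ω, (oscX W ϰ t₀ ((T - t₀) / N) A N).indicator (fun ω =>
      ENNReal.ofReal (Real.exp (sX κ c L ε (EE z₀ R L) (DD z₀ R L) W ϰ t₀
        ((T - t₀) / N) N ω))) ω ∂P ≤
      ENNReal.ofReal (Real.exp (N * (C * ((T - t₀) / N) * √((T - t₀) / N)))) * (K * P A) := by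
    filter_upwards [hlim0.eventually (gt_mem_nhds hδ₀), eventually_ge_atTop 1] with N hN hN1
    have hNpos : (0 : ℝ) < N := by exact_mod_cast hN1
    rw [lintegral_indicator (mO N)]
    refine (HI hW ht₀ (by (clear * - hT hN1; positivity)) hN.le hA N).trans ?_
    refine mul_le_mul_right ?_ _
    calc _ ≤ ∫⁻ _ in A, K ∂P := by
          refine lintegral_mono_ae ?_
          filter_upwards [ae_restrict_mem hA'] with ω hω
          refine ENNReal.ofReal_le_ofReal (Real.exp_le_exp.2 ?_)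
          exact RPrimeB_phi0 h0 h8 hc hK ⟨hW.cont ω, ht₀, hL, hR, hz⟩ (fun z hz => hz.1)
            (hU ω hω)
      _ = K * P A := setLIntegral_const _ _
  refine (liminf_le_liminf hbound).trans ?_
  have ht : Tendsto (fun N : ℕ => (N : ℝ) * (C * ((T - t₀) / N) * √((T - t₀) / N))) atTop
      (𝓝 0) := by
    have h1 : Tendsto (fun N : ℕ => C * (T - t₀) * √((T - t₀) / N)) atTop (𝓝 0) := by
      have h2 := ((Real.continuous_sqrt.tendsto 0).comp hlim0).const_mul (C * (T - t₀))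
      simpa only [Nat.cast_nonneg, Real.sqrt_div', Function.comp_apply, Real.sqrt_zero, mul_zero] using h2
    refine h1.congr' ?_
    filter_upwards [eventually_ge_atTop 1] with N hN1
    have hNpos : (0 : ℝ) < N := by exact_mod_cast hN1
    (clear * - hN1 hd hC; field_simp)
  have ht2 : Tendsto (fun N : ℕ => ENNReal.ofReal (Real.exp ((N : ℝ) *
      (C * ((T - t₀) / N) * √((T - t₀) / N)))) * (K * P A)) atTop (𝓝 (K * P A)) := by
    have h1 : Tendsto (fun N : ℕ => ENNReal.ofReal (Real.exp ((N : ℝ) *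
        (C * ((T - t₀) / N) * √((T - t₀) / N))))) atTop (𝓝 1) := by
      have h2 := ENNReal.tendsto_ofReal ((Real.continuous_exp.tendsto 0).comp ht)
      simpa only [Nat.cast_nonneg, Real.sqrt_div', Function.comp_apply, Real.exp_zero, ENNReal.ofReal_one] using h2
    have hP : P A ≠ ⊤ := by
      have := hW.prob
      exact measure_ne_top P A
    have h3 := ENNReal.Tendsto.mul_const h1
      (Or.inr (ENNReal.mul_ne_top ENNReal.ofReal_ne_top hP) : (1 : ℝ≥0∞) ≠ 0 ∨ K * P A ≠ ⊤)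
    simpa only [Nat.cast_nonneg, Real.sqrt_div', one_mul] using h3
  exact ht2.liminf_eq.le

end Vale.Agent.P164
end

section

/-!
# X-B9. Exponential moments of the content at angles `≥ dl`
-/

namespace Vale.Agent.P164

open Set Metric Filter Topology MeasureTheory ProbabilityTheory
open scoped NNReal ENNReal

open scoped Classical in
/-- (B9a) Pathwise lower bound of the accumulated reward: for a fixed continuous path and `ϰ > 0`,
for all small enough mesh `δ = (T - t₀)/N`, `sX N ≥ (c/2) L^{-d} ∫_D ∫ 1{sn ≥ dl, alive at s,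
|Z| > ϰ on [t₀,s]} aR`. At a time `s ∈ [t_j, t_{j+1}]` with `aR ≠ 0`, `sn(s) ≥ dl` and `|Z| > ϰ` on
`[t₀, s]`: `z ∈ alvX j`, `U(t_j) ≤ U(s) + 1/10`, `sn(t_j) ≥ dl/2`, so `om(t_j) ≥ 1/2` by the
hypothesis `hI`. -/
theorem sX_lower {κ c ε : ℝ} (h0 : 0 < κ) (h8 : κ < 8) (hc : 0 < c) (hε : 0 < ε)
    {z₀ : ℂ} {R L ϰ dl : ℝ} (hL : 0 < L) (hR : 1 ≤ R) (hz : 3 * (R * L) ≤ z₀.im) (hϰ : 0 < ϰ)
    (hdl : 0 < dl)
    (hI : ∀ {W : ℝ → ℝ} {t : ℝ}, SA W t z₀ R L → ∀ z ∈ DD z₀ R L, z ∈ loewnerDomain W t →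
      Uf W z t ≤ Real.log ε + 2 → dl / 2 ≤ sn (Zf W z t) →
        IQ L (EE z₀ R L) W t (Zf W z t) ≤ 1)
    {Ω : Type*} {W : ℝ → Ω → ℝ} {ω : Ω} (hW : Continuous fun t => W t ω) {t₀ T : ℝ}
    (ht₀ : 0 ≤ t₀) (hT : t₀ < T) :
    ∀ᶠ N : ℕ in atTop,
      c / 2 * L ^ (-dd κ) * (∫ z in DD z₀ R L, ∫ s in t₀..T,
        if (z ∈ loewnerDomain (fun u => W u ω) s ∧
            ∀ u ∈ Icc t₀ s, ϰ < ‖Zf (fun u => W u ω) z u‖) then
          St (fun Z U => if dl ≤ sn Z then aR κ ε Z U else 0) (fun u => W u ω) z s else 0) ≤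
        sX κ c L ε (EE z₀ R L) (DD z₀ R L) W ϰ t₀ ((T - t₀) / N) N ω := by
  have hu := isCompact_Icc.uniformContinuousOn_of_continuous
    (hW.continuousOn (s := Icc t₀ T))
  obtain ⟨δ₁, hδ₁, hosc⟩ := Metric.uniformContinuousOn_iff.1 hu (ϰ / 2) (by positivity)
  have hlim := tendsto_const_div_atTop_nhds_zero_nat (T - t₀)
  have hmin : 0 < min δ₁ (ϰ ^ 2 / 4) := lt_min hδ₁ (by positivity)
  filter_upwards [hlim.eventually (gt_mem_nhds hmin), eventually_ge_atTop 1] with N hN hN1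
  have hN0 : (0 : ℝ) < N := by exact_mod_cast hN1
  set δ : ℝ := (T - t₀) / N with hδdef
  have hδ0 : 0 < δ := div_pos (by linarith only [hT]) hN0
  have e : t₀ + N * δ = T := by
    rw [hδdef]
    field_simp
    ring
  have h1 : 4 * δ ≤ ϰ ^ 2 := by
    have := hN.le.trans (min_le_right _ _)
    linarith only [this]
  have h2 := RPrime_sum (z₀ := z₀) (R := R) (L := L) (dl := dl) h0 h8 hc hε hW ht₀ hL hR hz hϰ hI
    hδ0.le N (fun j hj s hs => ?_) h1
  · rw [e] at h2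
    exact h2
  · have hjN : ((j : ℝ) + 1) ≤ N := by exact_mod_cast hj
    have h3 : t₀ + j * δ + δ ≤ T := by
      rw [← e]
      nlinarith only [e, hT, hjN]
    have hj0 : (0 : ℝ) ≤ j * δ := by (clear * - hT hN1; positivity)
    have h4 := hosc (t₀ + j * δ) ⟨by linarith only [hj0], by linarith only [hδ0, h3]⟩ s
      ⟨by linarith only [hj0, hs.1], hs.2.trans h3⟩ (by
        rw [dist_comm, Real.dist_eq, abs_of_nonneg (by linarith only [hs.1])]
        have := hN.trans_le (min_le_left _ _)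
        linarith only [this, hs.2])
    rw [Real.dist_eq] at h4
    exact h4.le

/-- Fatou in the mesh and in the truncation. -/
theorem RPrimeB_core {κ c K₀ ε : ℝ} (h0 : 0 < κ) (h8 : κ < 8) (hc : 0 < c) (hK : 0 < K₀)
    (hε : 0 < ε) {z₀ : ℂ} {R L dl : ℝ} (hL : 0 < L) (hR : 1 ≤ R) (hz : 3 * (R * L) ≤ z₀.im)
    (hdl : 0 < dl)
    (H : ∀ {W : ℝ → ℝ} {t ϰ : ℝ} {𝒬 : Set ℂ}, 0 < ϰ → SA W t z₀ R L → Adm W t z₀ R L ϰ 𝒬 →
      BI L 𝒬 W t (genX κ c L ε (EE z₀ R L) W t) +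
        κ / 2 * BI L 𝒬 W t (derX κ c L ε (EE z₀ R L) W t) ^ 2 ≤
          K₀ / 10 * N2 L ϰ (EE z₀ R L) W t)
    (hI : ∀ {W : ℝ → ℝ} {t : ℝ}, SA W t z₀ R L → ∀ z ∈ DD z₀ R L, z ∈ loewnerDomain W t →
      Uf W z t ≤ Real.log ε + 2 → dl / 2 ≤ sn (Zf W z t) →
        IQ L (EE z₀ R L) W t (Zf W z t) ≤ 1)
    {Ω : Type*} [MeasurableSpace Ω] {P : Measure Ω} {W : ℝ → Ω → ℝ} (hW : IsDrv κ P W)
    {t₀ T : ℝ} (ht₀ : 0 ≤ t₀) (hT : t₀ < T) {A : Set Ω} (hA : MeasurableSet[past W t₀] A)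
    (hU : ∀ ω ∈ A, ∀ z ∈ DD z₀ R L, z ∈ loewnerDomain (fun u => W u ω) t₀ ∧
      Real.log L ≤ Uf (fun u => W u ω) z t₀) :
    ∫⁻ ω in A, ENNReal.ofReal (Real.exp (c / 2 * L ^ (-dd κ) *
      muge κ ε dl (fun u => W u ω) (DD z₀ R L) t₀ T)) ∂P ≤
      ENNReal.ofReal (Real.exp ((2 * c + 27 * K₀) * Real.pi * R ^ 2)) * P A := by
  have hA' : MeasurableSet A := hW.past_le _ hA
  set F : ℕ → Ω → ℝ≥0∞ := fun n ω => liminf (fun N : ℕ =>
    (oscX W (1 / ((n : ℝ) + 1)) t₀ ((T - t₀) / N) A N).indicator (fun ω =>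
      ENNReal.ofReal (Real.exp (sX κ c L ε (EE z₀ R L) (DD z₀ R L) W (1 / ((n : ℝ) + 1)) t₀
        ((T - t₀) / N) N ω))) ω) atTop with hFdef
  have hFat := fun n : ℕ => RPrimeB_fatou (ε := ε) h0 h8 hc.le hK.le hL hR hz
    (ϰ := 1 / ((n : ℝ) + 1)) (by (clear * -; positivity))
    (fun S hA => H (by (clear * -; positivity)) S hA) hW ht₀ hT hA hU
  have mF : ∀ n, Measurable (F n) := fun n => Measurable.liminf (hFat n).1
  have hF : ∀ n, ∫⁻ ω, F n ω ∂P ≤
      ENNReal.ofReal (Real.exp ((2 * c + 27 * K₀) * Real.pi * R ^ 2)) * P A := fun n => (hFat n).2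
  have hpt : ∀ ω ∈ A, ENNReal.ofReal (Real.exp (c / 2 * L ^ (-dd κ) *
      muge κ ε dl (fun u => W u ω) (DD z₀ R L) t₀ T)) ≤ liminf (fun n => F n ω) atTop := by
    intro ω hω
    have hlim := RPrimeB_lim (dl := dl) h0 h8 hε (hW.cont ω) (D := DD z₀ R L) measurableSet_ball
      measure_ball_lt_top.ne (fun z hz' => im_pos_of_dom ht₀ (hU ω hω z hz').1) ht₀ hT.le
    have hlim2 := ENNReal.tendsto_ofReal ((Real.continuous_exp.tendsto _).comp
      (hlim.const_mul (c / 2 * L ^ (-dd κ))))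
    rw [← hlim2.liminf_eq]
    refine liminf_le_liminf (Eventually.of_forall fun n => ?_)
    have hϰ : 0 < 1 / ((n : ℝ) + 1) := by (clear * -; positivity)
    have hlow := sX_lower h0 h8 hc hε hL hR hz hϰ hdl hI (hW.cont ω) ht₀ hT
    refine le_liminf_of_le (by isBoundedDefault) ?_
    filter_upwards [hlow, RPrimeB_osc_event hW hϰ ht₀ hT hω] with N hN1 hN2
    rw [indicator_of_mem hN2]
    exact ENNReal.ofReal_le_ofReal (Real.exp_le_exp.2 hN1)
  calc ∫⁻ ω in A, ENNReal.ofReal (Real.exp (c / 2 * L ^ (-dd κ) *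
          muge κ ε dl (fun u => W u ω) (DD z₀ R L) t₀ T)) ∂P
      ≤ ∫⁻ ω in A, liminf (fun n => F n ω) atTop ∂P := by
        refine lintegral_mono_ae ?_
        filter_upwards [ae_restrict_mem hA'] with ω hω
        exact hpt ω hω
    _ ≤ ∫⁻ ω, liminf (fun n => F n ω) atTop ∂P := setLIntegral_le_lintegral _ _
    _ ≤ liminf (fun n => ∫⁻ ω, F n ω ∂P) atTop := lintegral_liminf_le mF
    _ ≤ liminf (fun _ : ℕ => ENNReal.ofReal (Real.exp ((2 * c + 27 * K₀) * Real.pi * R ^ 2)) *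
          P A) atTop := liminf_le_liminf (Eventually.of_forall hF)
    _ = ENNReal.ofReal (Real.exp ((2 * c + 27 * K₀) * Real.pi * R ^ 2)) * P A := liminf_const _

/-- The weight is at least `1/2` where content accumulates. -/
theorem RPrimeB_weight {C₁ a C ε ρ R L : ℝ} (hC₁ : 1 ≤ C₁) (ha1 : a ≤ 1)
    (hC6 : 6 * C₁ ≤ C) (hρ : 0 < ρ) (hR : 4 ≤ R) (hε : 0 < ε) (h8ε : 8 * ε ≤ ρ)
    (hRL : R * L = ρ) {z₀ : ℂ}
    (HI : ∀ {W : ℝ → ℝ} {t : ℝ} {z₀ : ℂ} {R L : ℝ} (_ : SA W t z₀ R L) {z : ℂ}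
      (_ : z ∈ DD z₀ R L) (_ : z ∈ loewnerDomain W t) {r : ℝ} (_ : Real.exp (Uf W z t) ≤ r)
      (_ : r ≤ R * L),
      IQ L (EE z₀ R L) W t (Zf W z t) * sn (Zf W z t) ^ 2 ≤ C₁ * R ^ 3 * (r / (R * L)) ^ a)
    {W : ℝ → ℝ} {t : ℝ} (S : SA W t z₀ R L) {z : ℂ} (hz : z ∈ DD z₀ R L)
    (hal : z ∈ loewnerDomain W t) (hUf : Uf W z t ≤ Real.log ε + 2)
    (hsn : C * R ^ 2 * (ε / ρ) ^ (a / 2) / 2 ≤ sn (Zf W z t)) :
    IQ L (EE z₀ R L) W t (Zf W z t) ≤ 1 := by
  have hC1 : 1 ≤ C := by (clear * - hC₁ hC6; linarith)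
  have hRpos : 0 < R := by linarith only [hR]
  have hq0 : 0 < ε / ρ := div_pos hε hρ
  set dl : ℝ := C * R ^ 2 * (ε / ρ) ^ (a / 2) with hdldef
  have hdl : 0 < dl := by positivity
  have hr1 : Real.exp (Uf W z t) ≤ 8 * ε := by
    have h1 : Real.exp 1 < 2.7182818286 := Real.exp_one_lt_d9
    have h2 : Real.exp 2 ≤ 8 := by
      have h3 : Real.exp 2 = Real.exp 1 * Real.exp 1 := by
        rw [← Real.exp_add]
        norm_num
      rw [h3]
      nlinarith only [h1, Real.exp_pos 1]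
    calc Real.exp (Uf W z t) ≤ Real.exp (Real.log ε + 2) := Real.exp_le_exp.2 hUf
      _ = ε * Real.exp 2 := by rw [Real.exp_add, Real.exp_log hε]
      _ ≤ ε * 8 := mul_le_mul_of_nonneg_left h2 hε.le
      _ = 8 * ε := mul_comm _ _
  have h1 := HI S hz hal hr1 (by rw [hRL]; exact h8ε)
  rw [hRL] at h1
  have hsn0 : 0 < sn (Zf W z t) := by linarith only [hsn, hdl]
  set X : ℝ := (ε / ρ) ^ a with hXdef
  have hX : 0 < X := by positivity
  have h2 : (8 * ε / ρ) ^ a ≤ 8 * X := by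
    rw [mul_div_assoc, Real.mul_rpow (by norm_num) hq0.le]
    refine mul_le_mul_of_nonneg_right ?_ hX.le
    calc (8 : ℝ) ^ a ≤ 8 ^ (1 : ℝ) := Real.rpow_le_rpow_of_exponent_le (by norm_num) ha1
      _ = 8 := Real.rpow_one _
  have h3 : dl ^ 2 = C ^ 2 * R ^ 4 * X := by
    have h4 : ((ε / ρ) ^ (a / 2)) ^ 2 = X := by
      rw [hXdef, ← Real.rpow_natCast, ← Real.rpow_mul hq0.le]
      congr 1
      push_cast
      ring
    rw [hdldef, mul_pow, h4]
    ring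
  have h6 : 32 * C₁ ≤ C ^ 2 * R := by
    have h7 : 36 * C₁ ≤ C ^ 2 := by nlinarith only [hC₁, hC6]
    nlinarith only [h7, hR]
  have h4 : C₁ * R ^ 3 * (8 * ε / ρ) ^ a ≤ dl ^ 2 / 4 := by
    rw [h3]
    have h5 : C₁ * R ^ 3 * (8 * ε / ρ) ^ a ≤ C₁ * R ^ 3 * (8 * X) :=
      mul_le_mul_of_nonneg_left h2 (by positivity)
    have h8' : 32 * C₁ * (R ^ 3 * X) ≤ C ^ 2 * R * (R ^ 3 * X) :=
      mul_le_mul_of_nonneg_right h6 (by positivity)
    calc C₁ * R ^ 3 * (8 * ε / ρ) ^ a ≤ C₁ * R ^ 3 * (8 * X) := h5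
      _ = 32 * C₁ * (R ^ 3 * X) / 4 := by ring
      _ ≤ C ^ 2 * R * (R ^ 3 * X) / 4 := by linarith only [h8']
      _ = C ^ 2 * R ^ 4 * X / 4 := by ring
  have h5 : dl ^ 2 / 4 ≤ sn (Zf W z t) ^ 2 := by
    have h7 : (dl / 2) ^ 2 ≤ sn (Zf W z t) ^ 2 := pow_le_pow_left₀ (by positivity) hsn 2
    linarith only [h7]
  by_contra hcon
  have h7 : 1 * sn (Zf W z t) ^ 2 < IQ L (EE z₀ R L) W t (Zf W z t) *
      sn (Zf W z t) ^ 2 := mul_lt_mul_of_pos_right (not_le.1 hcon) (by (clear * - hsn0; positivity))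
  linarith only [h1, h4, h5, h7]

theorem RPrimeB_dl {C a ε ρ R : ℝ} (hC1 : 1 ≤ C) (ha1 : a ≤ 1) (hρ : 0 < ρ) (hR : 4 ≤ R)
    (hε : 0 < ε) (hερ : ε ≤ ρ) (hdl1 : C * R ^ 2 * (ε / ρ) ^ (a / 2) ≤ 1) : 8 * ε ≤ ρ := by
  have hq0 : 0 < ε / ρ := div_pos hε hρ
  have hq1 : ε / ρ ≤ 1 := (div_le_one hρ).2 hερ
  by_contra hcon
  have h1 : 1 / 8 ≤ ε / ρ := by
    rw [div_le_div_iff₀ (by norm_num) hρ]
    linarith only [hcon]
  have h2 : (1 / 8 : ℝ) ≤ (ε / ρ) ^ (a / 2) := by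
    calc (1 / 8 : ℝ) ≤ (ε / ρ) ^ (1 : ℝ) := by rwa [Real.rpow_one]
      _ ≤ (ε / ρ) ^ (a / 2) := Real.rpow_le_rpow_of_exponent_ge hq0 hq1 (by linarith only [ha1])
  have h3 : (16 : ℝ) ≤ C * R ^ 2 := by nlinarith only [hR, hC1]
  have h4 : 16 * (1 / 8 : ℝ) ≤ C * R ^ 2 * (ε / ρ) ^ (a / 2) :=
    mul_le_mul h3 h2 (by norm_num) (by positivity)
  linarith only [hdl1, h4]

/-- (B9) (R'). `c, K₀` from `static_ineq`, `L = ρ/R`; `e_iterX` with mesh `(T-t₀)/N`, `sX_lower`,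
Fatou in `N`; then `ϰ = 1/n → 0`, monotone convergence of the inner integral and Fatou again.
The initial value: on `A`, `f ≤ 2c` (`FF_le_one`, `R ≥ 4`), `GG ≤ 3`, areas `πR²L²`, `9πR²L²`.
`hI` by `i_small` with `r = 8ε`, provided `8ε ≤ RL = ρ` (if `8ε > ρ` choose the constant `C` in
the definition of `dl` so large that `dl > 1` and `muge = 0`). -/
theorem r_prime {κ : ℝ} (h0 : 0 < κ) (h8 : κ < 8) :
    ∃ c₁ C c₂ : ℝ, 0 < c₁ ∧ 1 ≤ C ∧ 0 < c₂ ∧ ∀ {Ω : Type*} [MeasurableSpace Ω]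
      {P : Measure Ω} {W : ℝ → Ω → ℝ} (_ : IsDrv κ P W)
      {z₀ : ℂ} {ρ R ε t₀ T : ℝ} (_ : 0 < ρ) (_ : 3 * ρ < z₀.im) (_ : 4 ≤ R) (_ : 0 < ε)
      (_ : ε ≤ ρ) (_ : 0 ≤ t₀) (_ : t₀ ≤ T) {A : Set Ω} (_ : MeasurableSet[past W t₀] A)
      (_ : ∀ ω ∈ A, ∀ z ∈ ball z₀ ρ, z ∈ loewnerDomain (fun u => W u ω) t₀ ∧
        Real.log (ρ / 4) ≤ Uf (fun u => W u ω) z t₀),
      ∫⁻ ω in A, ENNReal.ofReal (Real.exp (c₁ * (R / ρ) ^ dd κ *
          muge κ ε (C * R ^ 2 * (ε / ρ) ^ c₂) (fun u => W u ω) (ball z₀ ρ) t₀ T)) ∂P ≤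
        ENNReal.ofReal (Real.exp (C * R ^ 2)) * P A := by
  obtain ⟨c, K₀, hc, hK₀, HS⟩ := static_ineq h0 h8
  obtain ⟨C₁, a, hC₁, ha0, ha1, HI⟩ := i_small
  set C : ℝ := max (6 * C₁) ((2 * c + 27 * K₀) * Real.pi) with hCdef
  have hC6 : 6 * C₁ ≤ C := le_max_left _ _
  have hC1 : 1 ≤ C := by linarith only [hC₁, hC6]
  have hCK : (2 * c + 27 * K₀) * Real.pi ≤ C := le_max_right _ _
  refine ⟨c / 2, C, a / 2, by positivity, hC1, by positivity, ?_⟩
  intro Ω _ P W hW z₀ ρ R ε t₀ T hρ hz hR hε hερ ht₀ hT A hA hU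
  have hRpos : 0 < R := by linarith only [hR]
  have hq0 : 0 < ε / ρ := div_pos hε hρ
  set dl : ℝ := C * R ^ 2 * (ε / ρ) ^ (a / 2) with hdldef
  have hdl : 0 < dl := by (clear * - hC₁ hR hε hρ; positivity)
  have htriv : (∀ ω, muge κ ε dl (fun u => W u ω) (ball z₀ ρ) t₀ T = 0) →
      ∫⁻ ω in A, ENNReal.ofReal (Real.exp (c / 2 * (R / ρ) ^ dd κ *
          muge κ ε dl (fun u => W u ω) (ball z₀ ρ) t₀ T)) ∂P ≤
        ENNReal.ofReal (Real.exp (C * R ^ 2)) * P A := by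
    intro h
    simp only [h, mul_zero, Real.exp_zero, ENNReal.ofReal_one, setLIntegral_one]
    have h1 : (1 : ℝ≥0∞) ≤ ENNReal.ofReal (Real.exp (C * R ^ 2)) :=
      ENNReal.one_le_ofReal.2 (Real.one_le_exp (by (clear * - hC₁ hR; positivity)))
    calc P A = 1 * P A := (one_mul _).symm
      _ ≤ _ := mul_le_mul_left h1 _
  rcases hT.eq_or_lt with hTe | hTlt
  · refine htriv fun ω => ?_
    rw [← hTe]
    simp only [muge, intervalIntegral.integral_same, integral_zero]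
  rcases lt_or_ge 1 dl with hdl1 | hdl1
  · refine htriv fun ω => ?_
    have h1 : (fun (Z : ℂ) (U : ℝ) => if dl ≤ sn Z then aR κ ε Z U else 0) = fun _ _ => 0 := by
      funext Z U
      exact if_neg (not_le.2 ((sn_le_one Z).trans_lt hdl1))
    rw [muge, h1]
    simp [St]
  have h8ε : 8 * ε ≤ ρ := RPrimeB_dl hC1 ha1 hρ hR hε hερ hdl1
  set L : ℝ := ρ / R with hLdef
  have hL : 0 < L := div_pos hρ hRpos
  have hRL : R * L = ρ := mul_div_cancel₀ _ hRpos.ne'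
  have hzz : 3 * (R * L) ≤ z₀.im := by
    rw [hRL]
    exact hz.le
  have hDD : DD z₀ R L = ball z₀ ρ := by
    unfold DD
    rw [hRL]
  have hU' : ∀ ω ∈ A, ∀ z ∈ DD z₀ R L, z ∈ loewnerDomain (fun u => W u ω) t₀ ∧
      Real.log L ≤ Uf (fun u => W u ω) z t₀ := by
    intro ω hω z hz'
    rw [hDD] at hz'
    obtain ⟨h1, h2⟩ := hU ω hω z hz'
    refine ⟨h1, le_trans (Real.log_le_log hL ?_) h2⟩
    exact div_le_div_of_nonneg_left hρ.le (by norm_num) hR
  have key := RPrimeB_core (ε := ε) (z₀ := z₀) (dl := dl) h0 h8 hc hK₀ hε hL (by linarith only [hR]) hzz hdl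
    (fun hϰ S hA => HS S hϰ hA)
    (fun S z hz hal hUf hsn =>
      RPrimeB_weight hC₁ ha1 hC6 hρ hR hε h8ε hRL HI S hz hal hUf hsn)
    hW ht₀ hTlt hA hU'
  have hLdd : L ^ (-dd κ) = (R / ρ) ^ dd κ := by
    rw [Real.rpow_neg hL.le, ← Real.inv_rpow hL.le, hLdef, inv_div]
  rw [hLdd, hDD] at key
  refine key.trans ?_
  refine mul_le_mul_left (ENNReal.ofReal_le_ofReal (Real.exp_le_exp.2 ?_)) _
  exact mul_le_mul_of_nonneg_right hCK (by (clear * - hR; positivity))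

end Vale.Agent.P164
end

section

/-!
# The tail bound of the content for all `0 < κ < 8` (TAIL')
-/

namespace Vale.Agent.P164

open Set Metric Filter Topology MeasureTheory ProbabilityTheory
open scoped NNReal ENNReal

/-- Measurability of the content, as a function of the path. -/
theorem tail8_mu_meas {κ : ℝ} {Ω : Type*} [MeasurableSpace Ω] {P : Measure Ω} {W : ℝ → Ω → ℝ}
    (hW : IsDrv κ P W) {G : ℂ → ℝ → ℝ} (hG : Measurable (Function.uncurry G)) (D : Set ℂ)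
    {t₀ T : ℝ} (ht₀ : 0 ≤ t₀) (htT : t₀ ≤ T) :
    Measurable fun ω => ∫ z in D, ∫ u in t₀..T, St G (fun u => W u ω) z u := by
  have h := (fieldint_past' hW.cont hW.meas hG ht₀ htT D).mono hW.past_le le_rfl
  exact h

theorem tail8_sn_meas : Measurable fun p : ℂ × ℝ => sn p.1 := by
  unfold sn
  exact (Complex.measurable_im.comp measurable_fst).div measurable_fst.norm

theorem tail8_ge_meas (κ ε dl : ℝ) :
    Measurable (Function.uncurry fun (Z : ℂ) (U : ℝ) => if dl ≤ sn Z then aR κ ε Z U else 0) := by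
  show Measurable fun p : ℂ × ℝ => if dl ≤ sn p.1 then aR κ ε p.1 p.2 else 0
  exact Measurable.ite (measurableSet_le measurable_const tail8_sn_meas) (aR_measurable κ ε)
    measurable_const

theorem tail8_lt_meas (κ ε dl : ℝ) :
    Measurable (Function.uncurry fun (Z : ℂ) (U : ℝ) => if sn Z < dl then aR κ ε Z U else 0) := by
  show Measurable fun p : ℂ × ℝ => if sn p.1 < dl then aR κ ε p.1 p.2 else 0
  exact Measurable.ite (measurableSet_lt tail8_sn_meas measurable_const) (aR_measurable κ ε)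
    measurable_const

/-- The pointwise inequality. -/
theorem tail8_point {X Y lam a : ℝ} (hlam : 0 < lam) (hY : 0 ≤ Y)
    (h : 2 * a ≤ X + Y) :
    X + Y ≤ 4 / lam * Real.exp (-(lam * a / 2)) * Real.exp (lam * X) + 2 * Y := by
  have hpos : 0 ≤ 4 / lam * Real.exp (-(lam * a / 2)) * Real.exp (lam * X) := by positivity
  rcases le_total X Y with hXY | hXY
  · linarith
  · have ha : a ≤ X := by linarith only [h, hXY]
    have h1 : lam * X / 2 + 1 ≤ Real.exp (lam * X / 2) := Real.add_one_le_exp _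
    have h2 : X ≤ 2 / lam * Real.exp (lam * X / 2) := by
      rw [div_mul_eq_mul_div, le_div_iff₀ hlam]
      nlinarith only [h1]
    have h3 : Real.exp (lam * X / 2) ≤ Real.exp (-(lam * a / 2)) * Real.exp (lam * X) := by
      rw [← Real.exp_add, Real.exp_le_exp]
      nlinarith only [hlam, h, hXY]
    have h4 : 2 * X ≤ 4 / lam * Real.exp (-(lam * a / 2)) * Real.exp (lam * X) := by
      calc 2 * X ≤ 2 * (2 / lam * Real.exp (lam * X / 2)) := by linarith only [h2]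
        _ ≤ 2 * (2 / lam * (Real.exp (-(lam * a / 2)) * Real.exp (lam * X))) := by gcongr
        _ = _ := by ring
    linarith only [hY, hpos, h4]

/-- **TAIL'** (PART L', all `0 < κ < 8`; no trace hypothesis). From `r_prime` and `small_cont`
with `X = muge`, `Y = mult` (`mu = X + Y`), `a = (C/2) R^x ρ^d`, `λ = c₁ (R/ρ)^d`,
`dl = C₁ R² (ε/ρ)^{c₂}`: `mu 1{mu ≥ 2a} ≤ 2X 1{X ≥ a} + 2Y`,
`X 1{X ≥ a} ≤ (2/λ) e^{-λa/2} e^{λX}`, `λ a = (c₁C/2) R²` (`d + x = 2`). -/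
theorem tail8 {κ : ℝ} (h0 : 0 < κ) (h8 : κ < 8) :
    ∃ c C R₀ : ℝ, 0 < c ∧ 0 < C ∧ 1 ≤ R₀ ∧ ∀ {Ω : Type*} [MeasurableSpace Ω] {P : Measure Ω}
      {W : ℝ → Ω → ℝ} (_ : IsDrv κ P W)
      {z₀ : ℂ} {ρ R ε t₀ T : ℝ} (_ : 0 < ρ) (_ : 3 * ρ < z₀.im) (_ : R₀ ≤ R) (_ : 0 < ε)
      (_ : ε ≤ ρ) (_ : 0 ≤ t₀) (_ : t₀ ≤ T) {A : Set Ω} (_ : MeasurableSet[past W t₀] A)
      (_ : ∀ ω ∈ A, ∀ z ∈ ball z₀ ρ, z ∈ loewnerDomain (fun u => W u ω) t₀ ∧
        Real.log (ρ / 4) ≤ Uf (fun u => W u ω) z t₀),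
      ∫⁻ ω in A ∩ {ω | C * R ^ xx κ * ρ ^ dd κ ≤ mu κ ε (fun u => W u ω) (ball z₀ ρ) t₀ T},
          ENNReal.ofReal (mu κ ε (fun u => W u ω) (ball z₀ ρ) t₀ T) ∂P ≤
        ENNReal.ofReal ((C * Real.exp (-c * R ^ 2) + C * R ^ C * (ε / ρ) ^ c) * ρ ^ dd κ) * P A := by
  obtain ⟨c₁, C₁, c₂, hc₁, hC₁, hc₂, hE⟩ := r_prime h0 h8
  obtain ⟨C₂, hC₂, hS⟩ := small_cont h0 h8
  have hC₁0 : 0 < C₁ := by (clear * - hC₁; linarith)
  obtain ⟨C, hCa, hCb, hCc, hC4⟩ : ∃ C : ℝ, 4 * (C₁ + 1) / c₁ ≤ C ∧ 4 / c₁ ≤ C ∧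
      2 * C₂ * C₁ ^ 2 ≤ C ∧ 4 ≤ C := by
    refine ⟨4 * (C₁ + 1) / c₁ + 4 / c₁ + 2 * C₂ * C₁ ^ 2 + 4, ?_, ?_, ?_, ?_⟩ <;>
    · have e1 : 0 < 4 * (C₁ + 1) / c₁ := by positivity
      have e2 : 0 < 4 / c₁ := by positivity
      have e3 : 0 < 2 * C₂ * C₁ ^ 2 := by positivity
      linarith only [e1, e2, e3]
  have hC0 : 0 < C := by linarith only [hC4]
  refine ⟨min 1 (2 * c₂), C, 4, by positivity, hC0, by norm_num, ?_⟩
  intro Ω _ P W hW z₀ ρ R ε t₀ T hρ hρz hR hε hερ ht₀ htT A hA hU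
  have hR0 : 0 < R := by linarith only [hR]
  have hR1 : 1 ≤ R := by linarith only [hR]
  have hd0 : 0 < dd κ := by rw [dd]; linarith only [h0]
  have hρd : 0 < ρ ^ dd κ := by (clear * - hρ; positivity)
  have hRd : 0 < R ^ dd κ := by positivity
  have hRd1 : 1 ≤ R ^ dd κ := Real.one_le_rpow hR1 hd0.le
  have hq0 : 0 < ε / ρ := by (clear * - hε hρ; positivity)
  have hq1 : ε / ρ ≤ 1 := (div_le_one hρ).2 hερ
  set dl : ℝ := C₁ * R ^ 2 * (ε / ρ) ^ c₂ with hdl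
  have hdl0 : 0 ≤ dl := by positivity
  set lam : ℝ := c₁ * (R / ρ) ^ dd κ with hlamdef
  have hlam : 0 < lam := by positivity
  set X : Ω → ℝ := fun ω => muge κ ε dl (fun u => W u ω) (ball z₀ ρ) t₀ T with hXdef
  set Y : Ω → ℝ := fun ω => mult κ ε dl (fun u => W u ω) (ball z₀ ρ) t₀ T with hYdef
  have hXm : Measurable X := tail8_mu_meas hW (tail8_ge_meas κ ε dl) _ ht₀ htT
  have hYm : Measurable Y := tail8_mu_meas hW (tail8_lt_meas κ ε dl) _ ht₀ htT
  have hXY : ∀ ω, mu κ ε (fun u => W u ω) (ball z₀ ρ) t₀ T = X ω + Y ω ∧ 0 ≤ X ω ∧ 0 ≤ Y ω :=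
    fun ω => mu_eq_muge_add h0 h8 hε (hW.cont ω) measurableSet_ball measure_ball_lt_top.ne
      ht₀ htT
  have hA1 := hE hW hρ hρz hR hε hερ ht₀ htT hA hU
  have hA2 := hS hW (z₀ := z₀) (dl := dl) hρ hε hdl0 ht₀ htT hA hU
  set a : ℝ := C / 2 * R ^ xx κ * ρ ^ dd κ with hadef
  set K : ℝ := 4 / lam * Real.exp (-(lam * a / 2)) with hKdef
  have hK0 : 0 ≤ K := by positivity
  have hla : lam * a = c₁ * C / 2 * R ^ 2 := by
    have e1 : (R / ρ) ^ dd κ = R ^ dd κ / ρ ^ dd κ := Real.div_rpow hR0.le hρ.le _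
    have e2 : R ^ dd κ * R ^ xx κ = R ^ 2 := by
      rw [← Real.rpow_add hR0, ← Real.rpow_natCast]
      congr 1
      rw [dd, xx]
      push_cast
      ring
    calc lam * a = c₁ * C / 2 * (R ^ dd κ * R ^ xx κ) * (ρ ^ dd κ / ρ ^ dd κ) := by
          rw [hlamdef, hadef, e1]; ring
      _ = c₁ * C / 2 * R ^ 2 := by rw [e2, div_self hρd.ne', mul_one]
  have hg1 : Measurable fun ω => ENNReal.ofReal K * ENNReal.ofReal (Real.exp (lam * X ω)) :=
    ((Real.measurable_exp.comp (hXm.const_mul lam)).ennreal_ofReal).const_mul _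
  have hg2 : Measurable fun ω => ENNReal.ofReal 2 * ENNReal.ofReal (Y ω) :=
    hYm.ennreal_ofReal.const_mul _
  have hreal : K * Real.exp (C₁ * R ^ 2) + 2 * (C₂ * dl ^ 2 * ρ ^ dd κ) ≤
      (C * Real.exp (-min 1 (2 * c₂) * R ^ 2) + C * R ^ C * (ε / ρ) ^ min 1 (2 * c₂)) *
        ρ ^ dd κ := by
    have p1 : K * Real.exp (C₁ * R ^ 2) ≤ C * Real.exp (-min 1 (2 * c₂) * R ^ 2) * ρ ^ dd κ := by
      have e0 : 4 / lam ≤ 4 / c₁ * ρ ^ dd κ := by
        rw [hlamdef, Real.div_rpow hR0.le hρ.le]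
        rw [div_le_iff₀ (by (clear * - hc₁ hR hρ; positivity))]
        have : 4 / c₁ * ρ ^ dd κ * (c₁ * (R ^ dd κ / ρ ^ dd κ)) = 4 * R ^ dd κ := by
          field_simp
        rw [this]
        linarith only [hRd1]
      have e1 : Real.exp (-(lam * a / 2)) * Real.exp (C₁ * R ^ 2) ≤
          Real.exp (-min 1 (2 * c₂) * R ^ 2) := by
        rw [← Real.exp_add, Real.exp_le_exp, hla]
        have m1 : min 1 (2 * c₂) ≤ 1 := min_le_left _ _
        have m2 : 4 * (C₁ + 1) ≤ C * c₁ := (div_le_iff₀ hc₁).1 hCa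
        have m3 : 0 < R ^ 2 := by (clear * - hR; positivity)
        nlinarith only [m1, m2]
      calc K * Real.exp (C₁ * R ^ 2)
          = 4 / lam * (Real.exp (-(lam * a / 2)) * Real.exp (C₁ * R ^ 2)) := by
            rw [hKdef]; ring
        _ ≤ (4 / c₁ * ρ ^ dd κ) * Real.exp (-min 1 (2 * c₂) * R ^ 2) := by (clear * - e0 e1 hc₁ hρ; gcongr)
        _ ≤ (C * ρ ^ dd κ) * Real.exp (-min 1 (2 * c₂) * R ^ 2) := by (clear * - hCb hρ; gcongr)
        _ = _ := by ring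
    have p2 : 2 * (C₂ * dl ^ 2 * ρ ^ dd κ) ≤
        C * R ^ C * (ε / ρ) ^ min 1 (2 * c₂) * ρ ^ dd κ := by
      have e1 : dl ^ 2 = C₁ ^ 2 * R ^ 4 * (ε / ρ) ^ (2 * c₂) := by
        have : ((ε / ρ) ^ c₂) ^ 2 = (ε / ρ) ^ (2 * c₂) := by
          rw [← Real.rpow_natCast, ← Real.rpow_mul hq0.le]
          congr 1
          push_cast
          ring
        rw [hdl, ← this]
        ring
      have e2 : (ε / ρ) ^ (2 * c₂) ≤ (ε / ρ) ^ min 1 (2 * c₂) :=
        Real.rpow_le_rpow_of_exponent_ge hq0 hq1 (min_le_right _ _)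
      have e3 : R ^ 4 ≤ R ^ C := by
        have h := Real.rpow_le_rpow_of_exponent_le hR1 hC4
        have h' : R ^ (4 : ℝ) = R ^ 4 := by
          rw [← Real.rpow_natCast]
          norm_num
        rwa [h'] at h
      calc 2 * (C₂ * dl ^ 2 * ρ ^ dd κ)
          = (2 * C₂ * C₁ ^ 2) * R ^ 4 * (ε / ρ) ^ (2 * c₂) * ρ ^ dd κ := by rw [e1]; ring
        _ ≤ C * R ^ C * (ε / ρ) ^ min 1 (2 * c₂) * ρ ^ dd κ := by (clear * - hCc e3 hR hC4 e2 hε hρ; gcongr)
    calc K * Real.exp (C₁ * R ^ 2) + 2 * (C₂ * dl ^ 2 * ρ ^ dd κ)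
        ≤ C * Real.exp (-min 1 (2 * c₂) * R ^ 2) * ρ ^ dd κ +
          C * R ^ C * (ε / ρ) ^ min 1 (2 * c₂) * ρ ^ dd κ := add_le_add p1 p2
      _ = _ := by ring
  calc ∫⁻ ω in A ∩ {ω | C * R ^ xx κ * ρ ^ dd κ ≤ mu κ ε (fun u => W u ω) (ball z₀ ρ) t₀ T},
          ENNReal.ofReal (mu κ ε (fun u => W u ω) (ball z₀ ρ) t₀ T) ∂P
      ≤ ∫⁻ ω in A ∩ {ω | C * R ^ xx κ * ρ ^ dd κ ≤ mu κ ε (fun u => W u ω) (ball z₀ ρ) t₀ T},
          (ENNReal.ofReal K * ENNReal.ofReal (Real.exp (lam * X ω)) +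
            ENNReal.ofReal 2 * ENNReal.ofReal (Y ω)) ∂P := by
        refine setLIntegral_mono (hg1.add hg2) fun ω hω => ?_
        obtain ⟨hm, hX0, hY0⟩ := hXY ω
        have hω2 : C * R ^ xx κ * ρ ^ dd κ ≤ mu κ ε (fun u => W u ω) (ball z₀ ρ) t₀ T := hω.2
        rw [hm] at hω2 ⊢
        rw [← ENNReal.ofReal_mul hK0, ← ENNReal.ofReal_mul (by norm_num),
          ← ENNReal.ofReal_add (by positivity) (by (clear * - hY0; positivity))]
        refine ENNReal.ofReal_le_ofReal (tail8_point hlam hY0 ?_)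
        refine le_trans (le_of_eq ?_) hω2
        rw [hadef]
        ring
    _ ≤ ∫⁻ ω in A, (ENNReal.ofReal K * ENNReal.ofReal (Real.exp (lam * X ω)) +
            ENNReal.ofReal 2 * ENNReal.ofReal (Y ω)) ∂P := lintegral_mono_set inter_subset_left
    _ = ENNReal.ofReal K * ∫⁻ ω in A, ENNReal.ofReal (Real.exp (lam * X ω)) ∂P +
          ENNReal.ofReal 2 * ∫⁻ ω in A, ENNReal.ofReal (Y ω) ∂P := by
        rw [lintegral_add_left hg1, lintegral_const_mul' _ _ ENNReal.ofReal_ne_top,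
          lintegral_const_mul' _ _ ENNReal.ofReal_ne_top]
    _ ≤ ENNReal.ofReal K * (ENNReal.ofReal (Real.exp (C₁ * R ^ 2)) * P A) +
          ENNReal.ofReal 2 * (ENNReal.ofReal (C₂ * dl ^ 2 * ρ ^ dd κ) * P A) := by
        (clear * - hA1 hA2; gcongr)
    _ = ENNReal.ofReal (K * Real.exp (C₁ * R ^ 2) + 2 * (C₂ * dl ^ 2 * ρ ^ dd κ)) * P A := by
        rw [ENNReal.ofReal_add (by (clear * - hc₁ hR hρ; positivity)) (by positivity), ENNReal.ofReal_mul hK0,
          ENNReal.ofReal_mul (by norm_num : (0 : ℝ) ≤ 2)]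
        ring
    _ ≤ _ := by
        (clear * - hreal; gcongr)

end Vale.Agent.P164
end

section

/-!
# From the first moment to a probability (`0 < κ < 8`)
-/

namespace Vale.Agent.P164.E8

open Set Metric Filter Topology MeasureTheory ProbabilityTheory
open scoped NNReal ENNReal

/-- A lower bound of the first moment and the tail bound give a lower bound of the probability.
Proof. Let `c₀, C₀, R₀` be the constants of `tail8`. Choose `R ≥ R₀` with `C₀ exp(-c₀ R²) ≤ a/4`, then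
`c` with `C₀ R^C₀ c^c₀ ≤ a/4`; put `K = C₀ R^x` (enlarge to `K ≥ a`), and also `c ≤ a/(2K)`. By
`tail8`, `∫⁻_{A ∩ {K ρ^d ≤ μ}} μ ≤ (a/2) ρ^d P A`. Splitting `A` into `{K ρ^d ≤ μ}`,
`{a ρ^d ≤ μ < K ρ^d}`, `{μ < a ρ^d}`:
`2 a ρ^d P A ≤ (a/2) ρ^d P A + K ρ^d P(A ∩ {a ρ^d ≤ μ}) + a ρ^d P A`. Measurability of `μ` in `ω`:
`H806.mu_meas` (G/H806Chain or near), finiteness of `P A`: `hW.prob`. -/
theorem spread {κ : ℝ} (h0 : 0 < κ) (h8 : κ < 8) {a : ℝ} (ha : 0 < a) :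
    ∃ c : ℝ, 0 < c ∧ c ≤ 1 ∧ ∀ {Ω : Type*} [MeasurableSpace Ω] {P : Measure Ω}
      {W : ℝ → Ω → ℝ} (_ : IsDrv κ P W)
      {z₀ : ℂ} {ρ ε t₀ T : ℝ} (_ : 0 < ρ) (_ : 3 * ρ < z₀.im) (_ : 0 < ε)
      (_ : ε ≤ c * ρ) (_ : 0 ≤ t₀) (_ : t₀ ≤ T) {A : Set Ω} (_ : MeasurableSet[past W t₀] A)
      (_ : ∀ ω ∈ A, ∀ z ∈ ball z₀ ρ, z ∈ loewnerDomain (fun u => W u ω) t₀ ∧
        Real.log (ρ / 4) ≤ Uf (fun u => W u ω) z t₀)
      (_ : ENNReal.ofReal (2 * a * ρ ^ dd κ) * P A ≤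
        ∫⁻ ω in A, ENNReal.ofReal (mu κ ε (fun u => W u ω) (ball z₀ ρ) t₀ T) ∂P),
      ENNReal.ofReal c * P A ≤
        P (A ∩ {ω | a * ρ ^ dd κ ≤ mu κ ε (fun u => W u ω) (ball z₀ ρ) t₀ T}) := by
  obtain ⟨c₀, C₀, R₀, hc₀, hC₀, hR₀, hT⟩ := tail8 h0 h8
  -- the choice of `R`
  obtain ⟨R, hR, hR1, hRe⟩ : ∃ R : ℝ, R₀ ≤ R ∧ 1 ≤ R ∧ C₀ * Real.exp (-c₀ * R ^ 2) ≤ a / 4 := by
    refine ⟨max R₀ (4 * C₀ / (a * c₀)), le_max_left _ _, hR₀.trans (le_max_left _ _), ?_⟩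
    set R := max R₀ (4 * C₀ / (a * c₀)) with hRdef
    have hR1 : 1 ≤ R := hR₀.trans (le_max_left _ _)
    have hR2 : 4 * C₀ / (a * c₀) ≤ R := le_max_right _ _
    have h1 : 4 * C₀ ≤ R * (a * c₀) := (div_le_iff₀ (by positivity)).1 hR2
    have h2 : c₀ * R ^ 2 + 1 ≤ Real.exp (c₀ * R ^ 2) := Real.add_one_le_exp _
    have h3 : c₀ * R ≤ Real.exp (c₀ * R ^ 2) := by
      have h4 : c₀ * R ≤ c₀ * R ^ 2 := by
        apply mul_le_mul_of_nonneg_left _ hc₀.le
        (clear * - hR1; nlinarith)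
      linarith only [h2, h4]
    have h5 : 4 * C₀ ≤ a * Real.exp (c₀ * R ^ 2) := by
      calc 4 * C₀ ≤ R * (a * c₀) := h1
        _ = a * (c₀ * R) := by ring
        _ ≤ a * Real.exp (c₀ * R ^ 2) := by gcongr
    have h6 : Real.exp (-c₀ * R ^ 2) = (Real.exp (c₀ * R ^ 2))⁻¹ := by
      rw [← Real.exp_neg]; ring_nf
    rw [h6, ← div_eq_mul_inv, div_le_iff₀ (Real.exp_pos _)]
    linarith only [h5]
  have hR0 : 0 < R := by linarith only [hR₀, hR]
  have hK : 0 < C₀ * R ^ xx κ := by (clear * - hC₀ hR1; positivity)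
  have hM : 0 < C₀ * R ^ C₀ := by (clear * - hC₀ hR1; positivity)
  refine ⟨min (min 1 (a / (2 * (C₀ * R ^ xx κ)))) ((a / (4 * (C₀ * R ^ C₀))) ^ (1 / c₀)), ?_, ?_, ?_⟩
  · exact lt_min (lt_min one_pos (by (clear * - ha hC₀ hR1; positivity))) (by positivity)
  · exact (min_le_left _ _).trans (min_le_left _ _)
  intro Ω _ P W hW z₀ ρ ε t₀ T hρ hρz hε hεc ht₀ htT A hA hAz hlow
  have := hW.prob
  set c := min (min 1 (a / (2 * (C₀ * R ^ xx κ)))) ((a / (4 * (C₀ * R ^ C₀))) ^ (1 / c₀)) with hc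
  have hcpos : 0 < c := lt_min (lt_min one_pos (by positivity)) (by positivity)
  have hc1 : c ≤ 1 := (min_le_left _ _).trans (min_le_left _ _)
  have hc2 : c ≤ a / (2 * (C₀ * R ^ xx κ)) := (min_le_left _ _).trans (min_le_right _ _)
  have hc3 : c ≤ (a / (4 * (C₀ * R ^ C₀))) ^ (1 / c₀) := min_le_right _ _
  have hc4 : C₀ * R ^ C₀ * (ε / ρ) ^ c₀ ≤ a / 4 := by
    have h1 : ε / ρ ≤ c := (div_le_iff₀ hρ).2 hεc
    have h2 : (ε / ρ) ^ c₀ ≤ a / (4 * (C₀ * R ^ C₀)) := by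
      calc (ε / ρ) ^ c₀ ≤ ((a / (4 * (C₀ * R ^ C₀))) ^ (1 / c₀)) ^ c₀ :=
            Real.rpow_le_rpow (by (clear * - hε hρ; positivity)) (h1.trans hc3) hc₀.le
        _ = a / (4 * (C₀ * R ^ C₀)) := by
            rw [← Real.rpow_mul (by positivity), one_div_mul_cancel hc₀.ne', Real.rpow_one]
    calc C₀ * R ^ C₀ * (ε / ρ) ^ c₀ ≤ C₀ * R ^ C₀ * (a / (4 * (C₀ * R ^ C₀))) := by (clear * - h2 hC₀ hR1; gcongr)
      _ = a / 4 := by (clear * - hC₀ hR1 ha; field_simp)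
  have hερ : ε ≤ ρ := hεc.trans (by nlinarith only [hρ, hc1])
  -- the tail bound
  have htail := hT hW hρ hρz hR hε hερ ht₀ htT hA hAz
  set m : Ω → ℝ := fun ω => mu κ ε (fun u => W u ω) (ball z₀ ρ) t₀ T with hm
  have hmm : Measurable m := H806.mu_meas hW ε (ball z₀ ρ) ht₀ htT
  have hAm : MeasurableSet A := hW.past_le _ hA
  have hd : 0 < ρ ^ dd κ := Real.rpow_pos_of_pos hρ _
  set K := C₀ * R ^ xx κ with hKdef
  have hS1 : MeasurableSet {ω | K * ρ ^ dd κ ≤ m ω} := measurableSet_le measurable_const hmm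
  have hS2 : MeasurableSet {ω | a * ρ ^ dd κ ≤ m ω} := measurableSet_le measurable_const hmm
  have htail2 : ∫⁻ ω in A ∩ {ω | K * ρ ^ dd κ ≤ m ω}, ENNReal.ofReal (m ω) ∂P ≤
      ENNReal.ofReal (a / 2 * ρ ^ dd κ) * P A := by
    refine htail.trans ?_
    gcongr
    linarith only [hRe, hc4]
  have hsplit : ∫⁻ ω in A, ENNReal.ofReal (m ω) ∂P ≤
      ENNReal.ofReal (a / 2 * ρ ^ dd κ) * P A +
        ENNReal.ofReal (K * ρ ^ dd κ) * P (A ∩ {ω | a * ρ ^ dd κ ≤ m ω}) +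
        ENNReal.ofReal (a * ρ ^ dd κ) * P A := by
    calc ∫⁻ ω in A, ENNReal.ofReal (m ω) ∂P
        ≤ ∫⁻ ω in A, (({ω | K * ρ ^ dd κ ≤ m ω}.indicator (fun ω => ENNReal.ofReal (m ω)) ω +
            {ω | a * ρ ^ dd κ ≤ m ω}.indicator (fun _ => ENNReal.ofReal (K * ρ ^ dd κ)) ω) +
            ENNReal.ofReal (a * ρ ^ dd κ)) ∂P := by
          apply lintegral_mono
          intro ω
          by_cases h1 : K * ρ ^ dd κ ≤ m ω
          · have h2 : {ω | K * ρ ^ dd κ ≤ m ω}.indicator (fun ω => ENNReal.ofReal (m ω)) ω =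
                ENNReal.ofReal (m ω) :=
              Set.indicator_of_mem (s := {ω | K * ρ ^ dd κ ≤ m ω}) h1 _
            beta_reduce
            rw [h2, add_assoc]
            exact le_self_add
          · have h1' : m ω ≤ K * ρ ^ dd κ := (not_le.1 h1).le
            by_cases h3 : a * ρ ^ dd κ ≤ m ω
            · have h4 : {ω | a * ρ ^ dd κ ≤ m ω}.indicator
                  (fun _ => ENNReal.ofReal (K * ρ ^ dd κ)) ω = ENNReal.ofReal (K * ρ ^ dd κ) :=
                Set.indicator_of_mem (s := {ω | a * ρ ^ dd κ ≤ m ω}) h3 _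
              beta_reduce
              rw [h4]
              calc ENNReal.ofReal (m ω) ≤ ENNReal.ofReal (K * ρ ^ dd κ) :=
                    ENNReal.ofReal_le_ofReal h1'
                _ ≤ _ := le_add_right le_add_self
            · have h3' : m ω ≤ a * ρ ^ dd κ := (not_le.1 h3).le
              exact (ENNReal.ofReal_le_ofReal h3').trans le_add_self
      _ = _ := by
          rw [lintegral_add_right _ measurable_const, lintegral_add_left
            (hmm.ennreal_ofReal.indicator hS1), lintegral_indicator hS1,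
            lintegral_indicator hS2, Measure.restrict_restrict hS1,
            Measure.restrict_restrict hS2, setLIntegral_const, setLIntegral_const,
            Set.inter_comm _ A, Set.inter_comm _ A]
      _ ≤ _ := by (clear * - htail2; gcongr)
  have hfin := hlow.trans hsplit
  have hp : P A = ENNReal.ofReal (P A).toReal := (ENNReal.ofReal_toReal (measure_ne_top _ _)).symm
  have hq : P (A ∩ {ω | a * ρ ^ dd κ ≤ m ω}) =
      ENNReal.ofReal (P (A ∩ {ω | a * ρ ^ dd κ ≤ m ω})).toReal :=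
    (ENNReal.ofReal_toReal (measure_ne_top _ _)).symm
  set p := (P A).toReal with hpdef
  set q := (P (A ∩ {ω | a * ρ ^ dd κ ≤ m ω})).toReal with hqdef
  have hp0 : 0 ≤ p := ENNReal.toReal_nonneg
  have hq0 : 0 ≤ q := ENNReal.toReal_nonneg
  show ENNReal.ofReal c * P A ≤ P (A ∩ {ω | a * ρ ^ dd κ ≤ m ω})
  rw [hp, hq] at hfin
  rw [hp, hq]
  rw [← ENNReal.ofReal_mul (by (clear * - ha hρ; positivity)), ← ENNReal.ofReal_mul (by positivity),
    ← ENNReal.ofReal_mul (by positivity), ← ENNReal.ofReal_mul (by positivity),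
    ← ENNReal.ofReal_add (by (clear * - ha hρ; positivity)) (by (clear * - hC₀ hR1 hρ; positivity)),
    ← ENNReal.ofReal_add (by (clear * - ha hρ hC₀ hR1; positivity)) (by (clear * - ha hρ; positivity)),
    ENNReal.ofReal_le_ofReal_iff (by (clear * - ha hρ hC₀ hR1; positivity))] at hfin
  rw [← ENNReal.ofReal_mul hcpos.le]
  apply ENNReal.ofReal_le_ofReal
  have h1 : ρ ^ dd κ * (a / 2 * p) ≤ ρ ^ dd κ * (K * q) := by linarith only [hfin]
  have h2 : a / 2 * p ≤ K * q := le_of_mul_le_mul_left h1 hd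
  calc c * p ≤ a / (2 * K) * p := by (clear * - hc2; gcongr)
    _ = (a / 2 * p) / K := by (clear * - hK ha; field_simp)
    _ ≤ (K * q) / K := by (clear * - h2 hC₀ hR1; gcongr)
    _ = q := by (clear * - hK; field_simp)

end Vale.Agent.P164.E8
end

section

/-!
# Content step (`0 < κ < 8`)
-/

namespace Vale.Agent.P164.E8

open Set Metric Filter Topology MeasureTheory ProbabilityTheory
open scoped NNReal ENNReal

/-- Duration of the content part of a step. -/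
noncomputable def Tc (_κ ch a : ℝ) : ℝ := 67108864 * (ch * a) ^ 2

/-- First moment of the content of a small disc on an event. -/
lemma ContStep_first {κ : ℝ} (h0 : 0 < κ) (h4 : κ < 8) {Ω : Type*} [MeasurableSpace Ω]
    {P : Measure Ω} {W : ℝ → Ω → ℝ} (hW : IsDrv κ P W)
    {z : ℂ} {s y q ε T : ℝ} (hs : 0 ≤ s) (hy : 0 < y) (hq : 0 < q) (hqz : q < z.im)
    (hε : 0 < ε) (hε2 : ε ≤ q / 300) (hT : T = s + 67108864 * y ^ 2) {A : Set Ω}
    (hA : MeasurableSet[past W s] A)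
    (hAz : ∀ ω ∈ A, z ∈ loewnerDomain (fun u => W u ω) s ∧
        dist (Zf (fun u => W u ω) z s) ((y : ℝ) * Complex.I) ≤ y / 10 ∧
        Real.log (q / 2) ≤ Uf (fun u => W u ω) z s ∧ Uf (fun u => W u ω) z s ≤ Real.log (2 * q)) :
    ENNReal.ofReal ((1 / 2 * ((80 * q) ^ (-xx κ) * (1 / 2 : ℝ) ^ be κ)) *
        ((q / 32000) ^ 2 * Real.pi)) * P A ≤
      ∫⁻ ω in A, ENNReal.ofReal (mu κ ε (fun u => W u ω) (ball z (q / 32000)) s T) ∂P := by
  have hprob := hW.prob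
  have hTs : s < T := by
    rw [hT]
    have : 0 < 67108864 * y ^ 2 := by (clear * - hy; positivity)
    linarith only [this]
  have hbe : 0 < be κ := by
    unfold be
    have : 1 < 8 / κ := by rw [lt_div_iff₀ h0]; linarith only [h4]
    linarith only [this]
  have hxx : 0 < xx κ := by unfold xx; linarith only [h4]
  have hA' : MeasurableSet A := hW.past_le _ hA
  have hjoint : Measurable (fun p : ℂ × Ω => yc κ ε (fun u => W u p.2) p.1 s T) :=
    timeint_joint hW.cont hW.meas (aR_measurable κ ε) hs hTs.le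
  have hvfin : volume (ball z (q / 32000)) ≠ ⊤ := measure_ball_lt_top.ne
  have him : ∀ z' ∈ ball z (q / 32000), 0 < z'.im := by
    intro z' hz'
    rw [mem_ball, dist_eq_norm] at hz'
    have h1 := Complex.abs_im_le_norm (z' - z)
    rw [Complex.sub_im] at h1
    have h2 := (abs_le.1 (h1.trans hz'.le)).1
    linarith only [hqz, hε, hε2, h2]
  have hgeo : ∀ ω ∈ A, ∀ z' ∈ ball z (q / 32000), z' ∈ loewnerDomain (fun u => W u ω) s ∧
      ‖Zf (fun u => W u ω) z' s‖ ≤ 2 * y ∧ 1 / 2 ≤ sn (Zf (fun u => W u ω) z' s) ∧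
      Real.log (q / 80) ≤ Uf (fun u => W u ω) z' s ∧
        Uf (fun u => W u ω) z' s ≤ Real.log (80 * q) := by
    intro ω hω z' hz'
    obtain ⟨h1, h2, h3, h5⟩ := hAz ω hω
    exact ContStep_geo (hW.cont ω) hs hy hq h1 h2 h3 h5 (mem_ball.1 hz').le
  set m : ℝ := 1 / 2 * ((80 * q) ^ (-xx κ) * (1 / 2 : ℝ) ^ be κ) with hm
  have hm0 : 0 < m := by positivity
  have hfirst : ∀ z' ∈ ball z (q / 32000), ENNReal.ofReal m * P A ≤
      ∫⁻ ω in A, ENNReal.ofReal (yc κ ε (fun u => W u ω) z' s T) ∂P := by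
    intro z' hz'
    refine le_trans ?_ (first_moment_lower h0 h4 hW (him z' hz') hε hs hTs hA
      (fun ω hω => ⟨(hgeo ω hω z' hz').1, ?_⟩))
    · rw [← setLIntegral_const]
      refine setLIntegral_mono' hA' fun ω hω => ?_
      apply ENNReal.ofReal_le_ofReal
      obtain ⟨g1, g2, g3, g4, g5⟩ := hgeo ω hω z' hz'
      rw [St_of_mem g1]
      have e1 : T - s = 67108864 * y ^ 2 := by
        rw [hT]
        ring
      rw [e1]
      have e2 : 1 / 2 ≤ 1 - 4 * (‖Zf (fun u => W u ω) z' s‖ ^ 2 /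
          (67108864 * y ^ 2)) ^ (1 / 8 : ℝ) := by
        have e3 : ‖Zf (fun u => W u ω) z' s‖ ^ 2 ≤ (2 * y) ^ 2 :=
          pow_le_pow_left₀ (norm_nonneg _) g2 2
        have e4 : ‖Zf (fun u => W u ω) z' s‖ ^ 2 / (67108864 * y ^ 2) ≤ (1 / 8 : ℝ) ^ 8 := by
          rw [div_le_iff₀ (by positivity)]
          nlinarith only [e3]
        have e5 : (‖Zf (fun u => W u ω) z' s‖ ^ 2 / (67108864 * y ^ 2)) ^ (1 / 8 : ℝ) ≤ 1 / 8 := by
          calc _ ≤ ((1 / 8 : ℝ) ^ 8) ^ (1 / 8 : ℝ) :=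
                Real.rpow_le_rpow (by (clear * - hy; positivity)) e4 (by norm_num)
            _ = 1 / 8 := by
                rw [← Real.rpow_natCast, ← Real.rpow_mul (by norm_num)]
                norm_num
        linarith only [e5]
      have e3 : (80 * q) ^ (-xx κ) * (1 / 2 : ℝ) ^ be κ ≤
          MM κ (Zf (fun u => W u ω) z' s) (Uf (fun u => W u ω) z' s) := by
        unfold MM
        have f1 : (80 * q) ^ (-xx κ) ≤ Real.exp (-xx κ * Uf (fun u => W u ω) z' s) := by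
          rw [Real.rpow_def_of_pos (by positivity)]
          apply Real.exp_le_exp.2
          nlinarith only [hxx, g5]
        have f2 : (1 / 2 : ℝ) ^ be κ ≤ sn (Zf (fun u => W u ω) z' s) ^ be κ :=
          Real.rpow_le_rpow (by norm_num) g3 hbe.le
        exact mul_le_mul f1 f2 (by positivity) (Real.exp_pos _).le
      calc m = ((80 * q) ^ (-xx κ) * (1 / 2 : ℝ) ^ be κ) * (1 / 2) := by rw [hm]; ring
        _ ≤ MM κ (Zf (fun u => W u ω) z' s) (Uf (fun u => W u ω) z' s) *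
              (1 - 4 * (‖Zf (fun u => W u ω) z' s‖ ^ 2 / (67108864 * y ^ 2)) ^ (1 / 8 : ℝ)) :=
          mul_le_mul e3 e2 (by norm_num) (le_trans (by positivity) e3)
    · obtain ⟨g1, g2, g3, g4, g5⟩ := hgeo ω hω z' hz'
      refine le_trans ?_ g4
      have e1 : Real.log ε + 1 = Real.log (ε * Real.exp 1) := by
        rw [Real.log_mul hε.ne' (Real.exp_pos 1).ne', Real.log_exp]
      rw [e1]
      apply Real.log_le_log (by positivity)
      have e2 := Real.exp_one_lt_d9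
      nlinarith only [hε, hε2, e2]
  have e1 : ∀ ω, ENNReal.ofReal (mu κ ε (fun u => W u ω) (ball z (q / 32000)) s T) =
      ∫⁻ z' in ball z (q / 32000), ENNReal.ofReal (yc κ ε (fun u => W u ω) z' s T) := by
    intro ω
    unfold mu
    rw [ofReal_integral_eq_lintegral_ofReal]
    · exact yc_integrableOn h0 (by linarith only [h4]) hε (hW.cont ω) measurableSet_ball him hvfin hs
        hTs.le
    · exact Filter.Eventually.of_forall fun z => yc_nonneg hs hTs.le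
  simp_rw [e1]
  have hmj : Measurable (Function.uncurry fun (ω : Ω) (z' : ℂ) =>
      ENNReal.ofReal (yc κ ε (fun u => W u ω) z' s T)) :=
    (hjoint.comp measurable_swap).ennreal_ofReal
  rw [lintegral_lintegral_swap hmj.aemeasurable]
  calc ENNReal.ofReal (m * ((q / 32000) ^ 2 * Real.pi)) * P A
      = ∫⁻ _z' in ball z (q / 32000), ENNReal.ofReal m * P A := by
        have e2 : ENNReal.ofReal Real.pi = (NNReal.pi : ℝ≥0∞) := by
          rw [← NNReal.coe_real_pi, ENNReal.ofReal_coe_nnreal]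
        have e3 : ENNReal.ofReal (m * ((q / 32000) ^ 2 * Real.pi)) =
            ENNReal.ofReal m * (ENNReal.ofReal (q / 32000) ^ 2 * (NNReal.pi : ℝ≥0∞)) := by
          have e4 : (0 : ℝ) ≤ (q / 32000) ^ 2 := by (clear * - hq; positivity)
          have e5 : (0 : ℝ) ≤ q / 32000 := by positivity
          rw [ENNReal.ofReal_mul hm0.le, ENNReal.ofReal_mul e4, ENNReal.ofReal_pow e5, e2]
        rw [setLIntegral_const, Complex.volume_ball, e3]
        ring
    _ ≤ _ := setLIntegral_mono' measurableSet_ball hfirst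

/-- U-CONT. -/
theorem content_step {κ : ℝ} (h0 : 0 < κ) (h4 : κ < 8) :
    ∃ ch cd c : ℝ, 0 < ch ∧ 0 < cd ∧ cd ≤ 1 ∧ 0 < c ∧ c ≤ 1 ∧
      (∀ a : ℝ, Tc κ ch a ≤ a ^ 2 / (2 * κ)) ∧
      ∀ {Ω : Type*} [MeasurableSpace Ω] {P : Measure Ω} {W : ℝ → Ω → ℝ} (_ : IsDrv κ P W)
      {z : ℂ} {s a q ε : ℝ} (_ : 0 ≤ s) (_ : 0 < a) (_ : 0 < q) (_ : q < z.im) (_ : 0 < ε)
      (_ : ε ≤ c * q) {A : Set Ω} (_ : MeasurableSet[past W s] A)
      (_ : ∀ ω ∈ A, z ∈ loewnerDomain (fun u => W u ω) s ∧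
        dist (Zf (fun u => W u ω) z s) ((ch * a : ℝ) * Complex.I) ≤ ch * a / 10 ∧
        Real.log (q / 2) ≤ Uf (fun u => W u ω) z s ∧ Uf (fun u => W u ω) z s ≤ Real.log (2 * q)),
      ENNReal.ofReal c * P A ≤ P (A ∩ {ω |
        c * q ^ dd κ ≤ mu κ ε (fun u => W u ω) (ball z (cd * q)) s (s + Tc κ ch a) ∧
          osc W s (Tc κ ch a) ω ≤ a / 4}) := by
  obtain ⟨C₀, hC₀, hosc⟩ := osc_small_prob h0
  set k1 : ℝ := (1 / 2 * ((80 : ℝ) ^ (-xx κ) * (1 / 2 : ℝ) ^ be κ)) *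
        ((1 / 32000) ^ 2 * Real.pi) with hk1
  have hk1pos : 0 < k1 := by
    have := Real.pi_pos
    positivity
  set aa : ℝ := k1 / 2 * 32000 ^ dd κ with haa
  have haapos : 0 < aa := by positivity
  obtain ⟨p, hppos, hp1, hspread⟩ := spread h0 h4 haapos
  set ch : ℝ := min 1 (min (1 / (134217728 * κ)) (p / (2305843009213693952 * C₀))) with hch
  have hchpos : 0 < ch := by positivity
  have hch1 : ch ≤ 1 := min_le_left _ _
  have hch2 : ch ≤ 1 / (134217728 * κ) := (min_le_right _ _).trans (min_le_left _ _)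
  have hch3 : ch ≤ p / (2305843009213693952 * C₀) := (min_le_right _ _).trans (min_le_right _ _)
  set c : ℝ := min (min (p / 2) (k1 / 2)) (min (1 / 300) (p / 32000)) with hc
  have hcpos : 0 < c := by positivity
  have hc1 : c ≤ p / 2 := (min_le_left _ _).trans (min_le_left _ _)
  have hc2 : c ≤ k1 / 2 := (min_le_left _ _).trans (min_le_right _ _)
  have hc3 : c ≤ 1 / 300 := (min_le_right _ _).trans (min_le_left _ _)
  have hc4 : c ≤ p / 32000 := (min_le_right _ _).trans (min_le_right _ _)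
  refine ⟨ch, 1 / 32000, c, hchpos, by norm_num, by norm_num, hcpos, by linarith only [hp1, hc4], ?_, ?_⟩
  · intro a
    unfold Tc
    rw [le_div_iff₀ (by positivity)]
    have e1 : ch * (134217728 * κ) ≤ 1 := by rwa [le_div_iff₀ (by positivity)] at hch2
    have e2 : ch ^ 2 * (134217728 * κ) ≤ 1 := by
      refine le_trans ?_ e1
      have : ch ^ 2 ≤ ch := by nlinarith only [hchpos, hch1]
      exact mul_le_mul_of_nonneg_right this (by positivity)
    calc 67108864 * (ch * a) ^ 2 * (2 * κ) = a ^ 2 * (ch ^ 2 * (134217728 * κ)) := by ring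
      _ ≤ a ^ 2 * 1 := mul_le_mul_of_nonneg_left e2 (sq_nonneg a)
      _ = a ^ 2 := mul_one _
  intro Ω _ P W hW z s a q ε hs ha hq hqz hε hεc A hA hAz
  have hprob := hW.prob
  have hA' : MeasurableSet A := hW.past_le _ hA
  have hy : 0 < ch * a := by (clear * - h0 hppos hC₀ ha; positivity)
  have hT0 : 0 < Tc κ ch a := by
    unfold Tc
    (clear * - h0 hppos hC₀ ha; positivity)
  have hqd : 0 < q ^ dd κ := by (clear * - hq; positivity)
  have hball : 1 / 32000 * q = q / 32000 := by ring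
  -- first moment
  have hF := ContStep_first h0 h4 hW hs hy hq hqz hε (by nlinarith only [hεc, hc3, hq]) (T := s + Tc κ ch a)
    (by rw [Tc]) hA hAz
  rw [← hball] at hF
  have hF2 : (1 / 2 * ((80 * q) ^ (-xx κ) * (1 / 2 : ℝ) ^ be κ)) *
        ((1 / 32000 * q) ^ 2 * Real.pi) = 2 * (k1 / 2 * q ^ dd κ) := by
    have e1 : (80 * q) ^ (-xx κ) = (80 : ℝ) ^ (-xx κ) * q ^ (-xx κ) :=
      Real.mul_rpow (by norm_num) hq.le
    have e2 : q ^ dd κ = q ^ (-xx κ) * q ^ 2 := by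
      rw [← Real.rpow_natCast q 2, ← Real.rpow_add hq]
      congr 1
      unfold dd xx
      push_cast
      ring
    rw [e1, e2, hk1]
    ring
  rw [hF2] at hF
  -- spread
  have hrho : aa * (1 / 32000 * q) ^ dd κ = k1 / 2 * q ^ dd κ := by
    rw [Real.mul_rpow (by norm_num) hq.le, haa, one_div, Real.inv_rpow (by norm_num)]
    have : (32000 : ℝ) ^ dd κ ≠ 0 := by positivity
    field_simp
  have hPZ := hspread hW (z₀ := z) (ρ := 1 / 32000 * q) (ε := ε) (t₀ := s)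
    (T := s + Tc κ ch a) (by (clear * - hq; positivity)) (by linarith only [hq, hqz]) hε (by
      calc ε ≤ c * q := hεc
        _ ≤ p / 32000 * q := by (clear * - hc4 hq; gcongr)
        _ = p * (1 / 32000 * q) := by ring) hs (by linarith only [hT0]) hA
    (fun ω hω z' hz' => by
      obtain ⟨h1, h2, h3, h5⟩ := hAz ω hω
      rw [hball] at hz'
      obtain ⟨g1, g2, g3, g4, g5⟩ :=
        ContStep_geo (hW.cont ω) hs hy hq h1 h2 h3 h5 (mem_ball.1 hz').le
      refine ⟨g1, le_trans (Real.log_le_log (by (clear * - hq; positivity)) ?_) g4⟩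
      linarith only [hq]) (by
      rw [mul_assoc, hrho]
      exact hF)
  rw [hrho] at hPZ
  -- oscillation
  have hO := hosc hW (s := s) (a := a / 4) (τ := Tc κ ch a) hs (by (clear * - ha; positivity)) hT0.le hA
  have hO2 : C₀ * Tc κ ch a ^ 2 / (a / 4) ^ 4 ≤ p / 2 := by
    have e1 : C₀ * Tc κ ch a ^ 2 / (a / 4) ^ 4 = ch ^ 4 * (1152921504606846976 * C₀) := by
      unfold Tc
      field_simp
      ring
    rw [e1]
    have e2 : ch ^ 4 ≤ p / (2305843009213693952 * C₀) := by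
      refine le_trans ?_ hch3
      have : ch ^ 4 ≤ ch ^ 1 := pow_le_pow_of_le_one hchpos.le hch1 (by norm_num)
      simpa only [ge_iff_le, pow_one] using this
    calc ch ^ 4 * (1152921504606846976 * C₀)
        ≤ p / (2305843009213693952 * C₀) * (1152921504606846976 * C₀) :=
          mul_le_mul_of_nonneg_right e2 (by positivity)
      _ = p / 2 := by
          field_simp
          norm_num
  have hO3 : P (A ∩ {ω | a / 4 < osc W s (Tc κ ch a) ω}) ≤ ENNReal.ofReal (p / 2) * P A :=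
    hO.trans (by (clear * - hO2; gcongr))
  -- conclusion
  set G : Set Ω := A ∩ {ω |
        c * q ^ dd κ ≤ mu κ ε (fun u => W u ω) (ball z (1 / 32000 * q)) s (s + Tc κ ch a) ∧
          osc W s (Tc κ ch a) ω ≤ a / 4} with hG
  have hsub : A ∩ {ω | k1 / 2 * q ^ dd κ ≤
      mu κ ε (fun u => W u ω) (ball z (1 / 32000 * q)) s (s + Tc κ ch a)} ⊆
      G ∪ (A ∩ {ω | a / 4 < osc W s (Tc κ ch a) ω}) := by
    rintro ω ⟨hωA, hω⟩
    rw [mem_ofPred_eq] at hω
    by_cases h : osc W s (Tc κ ch a) ω ≤ a / 4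
    · left
      refine ⟨hωA, le_trans ?_ hω, h⟩
      exact mul_le_mul_of_nonneg_right hc2 hqd.le
    · right
      exact ⟨hωA, not_le.1 h⟩
  have hfin : ENNReal.ofReal (p / 2) * P A ≠ ⊤ :=
    ENNReal.mul_ne_top ENNReal.ofReal_ne_top (measure_ne_top _ _)
  have hsplit : ENNReal.ofReal (p / 2) * P A + ENNReal.ofReal (p / 2) * P A ≤
      P G + ENNReal.ofReal (p / 2) * P A := by
    rw [← add_mul, ← ENNReal.ofReal_add (by (clear * - hppos; positivity)) (by positivity), add_halves]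
    refine hPZ.trans ((measure_mono hsub).trans ((measure_union_le _ _).trans ?_))
    (clear * - hO3; gcongr)
  have hfinal : ENNReal.ofReal (p / 2) * P A ≤ P G :=
    (ENNReal.add_le_add_iff_right hfin).1 hsplit
  refine le_trans ?_ hfinal
  (clear * - hc1; gcongr)

end Vale.Agent.P164.E8
end

section

/-!
# Tube with content (`0 < κ < 8`)
-/

namespace Vale.Agent.P164.E8

open Set Metric Filter Topology MeasureTheory ProbabilityTheory
open scoped NNReal ENNReal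

section Step

variable {Ω : Type*} [MeasurableSpace Ω] {κ : ℝ} {P : Measure Ω} {W : ℝ → Ω → ℝ}

/-- The step with content. -/
lemma tube_cont (h0 : 0 < κ) (h4 : κ < 8) {ch cd c c₁ c₂ lam : ℝ} (hcd : 0 < cd)
    (hcd1 : cd ≤ 1) (hc1 : 0 < c₁) (hc2 : 0 < c₂) (hcc : c ≤ c₁ * c₂) (hcc1 : c ≤ c₁)
    (hlam : 1 ≤ lam) (hW : IsDrv κ P W) (hTc : ∀ a : ℝ, Tc κ ch a ≤ a ^ 2 / (2 * κ))
    (Hbm : ∀ {s a τ σ : ℝ} (_ : 0 ≤ s) (_ : 0 < a) (_ : a ^ 2 / (2 * κ) ≤ τ) (_ : τ ≤ a ^ 2 / κ)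
      (_ : σ = 1 ∨ σ = -1) {A : Set Ω} (_ : MeasurableSet[past W s] A),
      ENNReal.ofReal c₂ * P A ≤ P (A ∩ {ω | a / 2 ≤ σ * (W (s + τ) ω - W s ω) ∧
        σ * (W (s + τ) ω - W s ω) ≤ 2 * a ∧ osc W s τ ω ≤ lam * a}))
    {z : ℂ} {s a q ε σ : ℝ} (hs : 0 ≤ s) (ha : 0 < a) (hq : 0 < q) (hqz : q < z.im)
    (hε : 0 < ε) (hσ : σ = 1 ∨ σ = -1)
    {B : Set Ω} (hB : MeasurableSet[past W s] B)
    (Hc : ENNReal.ofReal c₁ * P B ≤ P (B ∩ {ω |
        c₁ * q ^ dd κ ≤ mu κ ε (fun u => W u ω) (ball z (cd * q)) s (s + Tc κ ch a) ∧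
          osc W s (Tc κ ch a) ω ≤ a / 4})) :
    ∃ E : Set Ω, E ⊆ B ∧ MeasurableSet[past W (s + a ^ 2 / κ)] E ∧
      ENNReal.ofReal c * P B ≤ P E ∧ TubeOut W s (a ^ 2 / κ) a lam σ E ∧
      ∀ ω ∈ E, c * q ^ dd κ ≤ mu κ ε (fun u => W u ω) (ball z (cd * q)) s (s + a ^ 2 / κ) := by
  have hτ : 0 < a ^ 2 / κ := by positivity
  have hT0 : 0 ≤ Tc κ ch a := by
    unfold Tc
    (clear * -; positivity)
  have hT1 := hTc a
  have e2 : a ^ 2 / (2 * κ) = (a ^ 2 / κ) / 2 := by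
    field_simp
  set T := Tc κ ch a with hT
  have hTτ : T ≤ a ^ 2 / κ := by rw [e2] at hT1; (clear * - hτ hT1; linarith)
  set E₁ : Set Ω := B ∩ {ω |
        c₁ * q ^ dd κ ≤ mu κ ε (fun u => W u ω) (ball z (cd * q)) s (s + T) ∧
          osc W s T ω ≤ a / 4} with hE1
  have mE1 : MeasurableSet[past W (s + T)] E₁ := by
    have m1 : Measurable[past W (s + T)]
        (fun ω => mu κ ε (fun u => W u ω) (ball z (cd * q)) s (s + T)) :=
      fieldint_past' hW.cont hW.meas (aR_measurable κ ε) hs (by linarith only [hT0]) (ball z (cd * q))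
    have m2 := tthm_meas_osc hW hs hT0 (a / 4)
    exact MeasurableSet.inter (past_mono (by linarith only [hT0]) _ hB)
      (MeasurableSet.inter (m1 measurableSet_Ici) m2)
  set τ' := a ^ 2 / κ - T with hτ'
  have hτ'0 : 0 ≤ τ' := by rw [hτ']; linarith only [hτ, e2, hT1]
  have h1 := Hbm (s := s + T) (a := a) (τ := τ') (σ := σ) (by linarith only [hs, hT0]) ha
    (by rw [hτ', e2]; rw [e2] at hT1; linarith only [hT1]) (by rw [hτ']; linarith only [hT0]) hσ mE1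
  have es : s + T + τ' = s + a ^ 2 / κ := by rw [hτ']; ring
  refine ⟨E₁ ∩ {ω | a / 2 ≤ σ * (W (s + T + τ') ω - W (s + T) ω) ∧
        σ * (W (s + T + τ') ω - W (s + T) ω) ≤ 2 * a ∧ osc W (s + T) τ' ω ≤ lam * a},
      inter_subset_left.trans inter_subset_left, ?_, ?_, ?_, ?_⟩
  · have m3 := tube_meas_step hW (s := s + T) (τ := τ') (by linarith only [hs, hT0]) hτ'0 a lam σ
    rw [← es]
    exact MeasurableSet.inter (past_mono (by linarith only [hτ, e2, hT1]) _ mE1) m3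
  · refine le_trans ?_ h1
    calc ENNReal.ofReal c * P B ≤ ENNReal.ofReal (c₁ * c₂) * P B := by (clear * - hcc; gcongr)
      _ = ENNReal.ofReal c₂ * (ENNReal.ofReal c₁ * P B) := by
          rw [ENNReal.ofReal_mul hc1.le]; ring
      _ ≤ ENNReal.ofReal c₂ * P E₁ := by (clear * - Hc; gcongr)
  · rintro ω ⟨⟨_, _, h2⟩, h3, h4, h5⟩
    have k1 : ∀ u ∈ Icc 0 T, |W (s + u) ω - W s ω| ≤ a / 4 := by
      intro u hu
      exact (hW.le_osc (t := s) (δ := T) ω (u := s + u)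
        ⟨by linarith only [hu.1], by linarith only [hu.2]⟩).trans h2
    have k2 := abs_le.1 (k1 T ⟨hT0, le_rfl⟩)
    refine ⟨fun u hu => ?_, ?_, ?_⟩
    · rcases le_total u T with h | h
      · have := k1 u ⟨hu.1, h⟩
        nlinarith only [ha, this, hlam]
      · have h6 := (hW.le_osc (t := s + T) (δ := τ') ω (u := s + u)
          ⟨by linarith only [h], by rw [es]; linarith only [hu.2]⟩).trans h5
        have h7 := abs_le.1 h6
        rw [abs_le]
        constructor <;> linarith only [k2, h7]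
    · rw [es] at h3
      rcases hσ with h | h <;> subst h <;> linarith only [k2, h3]
    · rw [es] at h4
      rcases hσ with h | h <;> subst h <;> linarith only [k2, h4]
  · rintro ω ⟨⟨_, h2, _⟩, _⟩
    have hq2 : 0 < q ^ dd κ := Real.rpow_pos_of_pos hq _
    have hρ : cd * q < z.im := by
      have : cd * q ≤ 1 * q := by (clear * - hcd1 hq; gcongr)
      linarith only [hqz, this]
    have h3 := tube_mu_mono h0 (by linarith only [h4] : κ < 8) hε (hW.cont ω) hρ hs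
      (by linarith only [hT0] : s ≤ s + T) (by linarith only [hτ, e2, hT1] : s + T ≤ s + a ^ 2 / κ)
    have h4 : c * q ^ dd κ ≤ c₁ * q ^ dd κ := by (clear * - hcc1 hq; gcongr)
    linarith only [h2, h3, h4]

/-- One step, collecting content at the first good pair of the list. -/
lemma tube_list (h0 : 0 < κ) (h4 : κ < 8) {ch cd c c₁ c₂ lam : ℝ} (hcd : 0 < cd)
    (hcd1 : cd ≤ 1) (hc1 : 0 < c₁) (hc2 : 0 < c₂) (hcc : c ≤ c₁ * c₂) (hcc1 : c ≤ c₁)
    (hcc2 : c ≤ c₂) (hlam : 1 ≤ lam) (hW : IsDrv κ P W)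
    (hTc : ∀ a : ℝ, Tc κ ch a ≤ a ^ 2 / (2 * κ))
    (Hbm : ∀ {s a τ σ : ℝ} (_ : 0 ≤ s) (_ : 0 < a) (_ : a ^ 2 / (2 * κ) ≤ τ) (_ : τ ≤ a ^ 2 / κ)
      (_ : σ = 1 ∨ σ = -1) {A : Set Ω} (_ : MeasurableSet[past W s] A),
      ENNReal.ofReal c₂ * P A ≤ P (A ∩ {ω | a / 2 ≤ σ * (W (s + τ) ω - W s ω) ∧
        σ * (W (s + τ) ω - W s ω) ≤ 2 * a ∧ osc W s τ ω ≤ lam * a}))
    {s a ε σ : ℝ} (hs : 0 ≤ s) (ha : 0 < a) (hε : 0 < ε) (hσ : σ = 1 ∨ σ = -1)
    (L : List (ℂ × ℝ))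
    (HL : ∀ p ∈ L, 0 < p.2 ∧ p.2 < p.1.im ∧ ∀ {B : Set Ω}, MeasurableSet[past W s] B →
      (∀ ω ∈ B, TubeGood ch a (fun u => W u ω) s p) →
      ENNReal.ofReal c₁ * P B ≤ P (B ∩ {ω |
        c₁ * p.2 ^ dd κ ≤ mu κ ε (fun u => W u ω) (ball p.1 (cd * p.2)) s (s + Tc κ ch a) ∧
          osc W s (Tc κ ch a) ω ≤ a / 4}))
    {B : Set Ω} (hB : MeasurableSet[past W s] B) :
    ∃ E : Set Ω, E ⊆ B ∧ MeasurableSet[past W (s + a ^ 2 / κ)] E ∧
      ENNReal.ofReal c * P B ≤ P E ∧ TubeOut W s (a ^ 2 / κ) a lam σ E ∧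
      ∀ ω ∈ E, (∃ p ∈ L, TubeGood ch a (fun u => W u ω) s p) →
        ∃ p ∈ L, c * p.2 ^ dd κ ≤
          mu κ ε (fun u => W u ω) (ball p.1 (cd * p.2)) s (s + a ^ 2 / κ) := by
  induction L generalizing B with
  | nil =>
    obtain ⟨E, hE1, hE2, hE3, hE4⟩ := tube_bm h0 hcc2 hlam hW Hbm hs ha hσ hB
    exact ⟨E, hE1, hE2, hE3, hE4, fun ω _ h => by simp at h⟩
  | cons p L ih =>
    set G : Set Ω := {ω | TubeGood ch a (fun u => W u ω) s p} with hG
    have mG : MeasurableSet[past W s] G := tube_meas_good hW hs ch a p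
    have mB1 : MeasurableSet[past W s] (B ∩ G) := MeasurableSet.inter hB mG
    have mB2 : MeasurableSet[past W s] (B \ G) := MeasurableSet.diff hB mG
    obtain ⟨hp1, hp2, hp3⟩ := HL p (by simp)
    obtain ⟨E₁, a1, a2, a3, a4, a5⟩ := tube_cont h0 h4 hcd hcd1 hc1 hc2 hcc hcc1 hlam hW hTc Hbm
      hs ha hp1 hp2 hε hσ mB1 (hp3 mB1 fun ω hω => hω.2)
    obtain ⟨E₂, b1, b2, b3, b4, b5⟩ := ih (fun p' hp' => HL p' (by simp [hp'])) mB2
    refine ⟨E₁ ∪ E₂, ?_, MeasurableSet.union a2 b2, ?_, ?_, ?_⟩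
    · exact union_subset (a1.trans inter_subset_left) (b1.trans sdiff_subset)
    · have hd : Disjoint (B ∩ G) (B \ G) := disjoint_inf_sdiff
      have := tube_combine a3 b3 a1 b1 hd (hW.past_le _ b2)
      rwa [inter_union_sdiff] at this
    · rintro ω (hω | hω)
      · exact a4 ω hω
      · exact b4 ω hω
    · rintro ω (hω | hω) hex
      · exact ⟨p, by simp, a5 ω hω⟩
      · obtain ⟨p', hp', hg⟩ := hex
        have hne : p' ∈ L := by
          rcases List.mem_cons.1 hp' with h | h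
          · subst h
            exact absurd hg (b1 hω).2
          · exact h
        obtain ⟨p'', hp'', h⟩ := b5 ω hω ⟨p', hne, hg⟩
        exact ⟨p'', by simp [hp''], h⟩

end Step

theorem tube_content {κ : ℝ} (h0 : 0 < κ) (h4 : κ < 8) :
    ∃ ch cd c lam : ℝ, 0 < ch ∧ 0 < cd ∧ cd ≤ 1 ∧ 0 < c ∧ c ≤ 1 ∧ 1 ≤ lam ∧ 8 / κ ≤ lam ∧
      ∀ {Ω : Type*} [MeasurableSpace Ω] {P : Measure Ω} {W : ℝ → Ω → ℝ} (_ : IsDrv κ P W)
      {Λ : Finset ℂ} {Q : Finset ℝ} {w : ℝ → ℝ} {t₀ a ε : ℝ} {J : ℕ} (_ : 0 ≤ t₀) (_ : 0 < a)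
      (_ : ∀ q ∈ Q, 0 < q ∧ ε ≤ c * q) (_ : ∀ z ∈ Λ, ∀ q ∈ Q, q < z.im) (_ : 0 < ε)
      (_ : w 0 = 0) (_ : ∀ u v, |w u - w v| ≤ κ / (8 * a) * |u - v|) {A : Set Ω}
      (_ : MeasurableSet[past W t₀] A),
      ∃ S : Set Ω, S ⊆ A ∧ MeasurableSet[past W (t₀ + J * (a ^ 2 / κ))] S ∧
        ENNReal.ofReal (c ^ J) * P A ≤ P S ∧ ∀ ω ∈ S,
          (∀ u ∈ Icc 0 (J * (a ^ 2 / κ)), |W (t₀ + u) ω - W t₀ ω - w u| ≤ (lam + 4) * a) ∧
          ∀ j < J, (∃ z q, GoodStep ch a Λ Q (fun u => W u ω) (t₀ + j * (a ^ 2 / κ)) z q) →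
            ∃ z ∈ Λ, ∃ q ∈ Q, c * q ^ dd κ ≤
              mu κ ε (fun u => W u ω) (ball z (cd * q)) (t₀ + j * (a ^ 2 / κ))
                (t₀ + (j + 1) * (a ^ 2 / κ)) := by
  obtain ⟨ch, cd, c₁, hch, hcd, hcd1, hc1, hc11, hTc, Hcont⟩ := content_step h0 h4
  obtain ⟨c₂, lam₀, hc2, hlam0, Hbm⟩ := bm_step h0
  set lam := max lam₀ (max (8 / κ) 1) with hlam
  set c := c₁ * min c₂ 1 with hc
  have hmin0 : 0 < min c₂ 1 := lt_min hc2 one_pos
  have hcpos : 0 < c := mul_pos hc1 hmin0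
  have hcc1 : c ≤ c₁ := mul_le_of_le_one_right hc1.le (min_le_right _ _)
  have hcc : c ≤ c₁ * c₂ := mul_le_mul_of_nonneg_left (min_le_left _ _) hc1.le
  have hcc2 : c ≤ c₂ := hcc.trans (mul_le_of_le_one_left hc2.le hc11)
  have hlam1 : 1 ≤ lam := (le_max_right _ _).trans (le_max_right _ _)
  refine ⟨ch, cd, c, lam, hch, hcd, hcd1, hcpos, hcc1.trans hc11, hlam1,
    (le_max_left _ _).trans (le_max_right _ _), ?_⟩
  intro Ω _ P W hW Λ Q w t₀ a ε J ht₀ ha hQ hΛQ hε hw0 hw A hA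
  have hτ : 0 < a ^ 2 / κ := by positivity
  set τ := a ^ 2 / κ with hτdef
  have hwa : ∀ u v, |u - v| ≤ τ → |w u - w v| ≤ a / 8 := by
    intro u v huv
    refine (hw u v).trans ?_
    calc κ / (8 * a) * |u - v| ≤ κ / (8 * a) * τ := by (clear * - huv h0 ha; gcongr)
      _ = a / 8 := by rw [hτdef]; (clear * - h0 ha; field_simp)
  -- the induction, with the offset
  suffices H : ∀ J : ℕ, ∃ S : Set Ω, S ⊆ A ∧ MeasurableSet[past W (t₀ + J * τ)] S ∧
        ENNReal.ofReal (c ^ J) * P A ≤ P S ∧ ∀ ω ∈ S,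
          ((∀ u ∈ Icc 0 (J * τ), |W (t₀ + u) ω - W t₀ ω - w u| ≤ (lam + 4) * a) ∧
          ∀ j < J, (∃ z q, GoodStep ch a Λ Q (fun u => W u ω) (t₀ + j * τ) z q) →
            ∃ z ∈ Λ, ∃ q ∈ Q, c * q ^ dd κ ≤
              mu κ ε (fun u => W u ω) (ball z (cd * q)) (t₀ + j * τ)
                (t₀ + (j + 1) * τ)) ∧
          |W (t₀ + J * τ) ω - W t₀ ω - w (J * τ)| ≤ 3 * a by
    obtain ⟨S, h1, h2, h3, h4⟩ := H J
    exact ⟨S, h1, h2, h3, fun ω hω => (h4 ω hω).1⟩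
  intro J
  induction J with
  | zero =>
    have e0 : t₀ + ((0 : ℕ) : ℝ) * τ = t₀ := by simp
    refine ⟨A, Subset.rfl, by rw [e0]; exact hA, by simp, fun ω _ => ⟨⟨?_, ?_⟩, ?_⟩⟩
    · intro u hu
      have hu0 : u = 0 := by
        have h1 := hu.1
        have h2 := hu.2
        simp only [Nat.cast_zero, zero_mul] at h2
        linarith only [h1, h2]
      subst hu0
      rw [hw0]
      simp only [add_zero, sub_self, abs_zero]
      positivity
    · intro j hj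
      exact absurd hj (Nat.not_lt_zero _)
    · simp only [CharP.cast_eq_zero, zero_mul, add_zero, sub_self, hw0, abs_zero, Nat.ofNat_pos, mul_nonneg_iff_of_pos_left]
      (clear * - ha; positivity)
  | succ J ih =>
    obtain ⟨S, hSA, mS, hSP, hS⟩ := ih
    set s := t₀ + J * τ with hs
    have hs0 : 0 ≤ s := by (clear * - ht₀ ha h0; positivity)
    have hst : s + τ = t₀ + (J + 1 : ℕ) * τ := by rw [hs]; push_cast; ring
    -- the list
    set L : List (ℂ × ℝ) := (Λ ×ˢ Q).toList with hL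
    have memL : ∀ p : ℂ × ℝ, p ∈ L ↔ p.1 ∈ Λ ∧ p.2 ∈ Q := by
      intro p
      rw [hL, Finset.mem_toList, Finset.mem_product]
    have HL : ∀ p ∈ L, 0 < p.2 ∧ p.2 < p.1.im ∧ ∀ {B : Set Ω}, MeasurableSet[past W s] B →
      (∀ ω ∈ B, TubeGood ch a (fun u => W u ω) s p) →
      ENNReal.ofReal c₁ * P B ≤ P (B ∩ {ω |
        c₁ * p.2 ^ dd κ ≤ mu κ ε (fun u => W u ω) (ball p.1 (cd * p.2)) s (s + Tc κ ch a) ∧
          osc W s (Tc κ ch a) ω ≤ a / 4}) := by
      intro p hp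
      obtain ⟨hp1, hp2⟩ := (memL p).1 hp
      refine ⟨(hQ _ hp2).1, hΛQ _ hp1 _ hp2, fun {B} hB hg => ?_⟩
      refine Hcont hW hs0 ha (hQ _ hp2).1 (hΛQ _ hp1 _ hp2) hε ?_ hB hg
      refine (hQ _ hp2).2.trans ?_
      exact mul_le_mul_of_nonneg_right hcc1 (hQ _ hp2).1.le
    -- the sign of the offset
    set O : Set Ω := {ω | 0 ≤ W s ω - W t₀ ω - w (J * τ)} with hO
    have mO : MeasurableSet[past W s] O := by
      have m1 : Measurable[past W s] (W s) := IsDrv.meas_past hs0 le_rfl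
      have m2 : Measurable[past W s] (W t₀) :=
        IsDrv.meas_past ht₀ (by rw [hs]; have : 0 ≤ J * τ := by (clear * - ha h0; positivity)
                                linarith only [this])
      have m3 : Measurable[past W s] (fun ω => W s ω - W t₀ ω - w (J * τ)) :=
        (m1.sub m2).sub_const _
      exact m3 measurableSet_Ici
    have mB1 : MeasurableSet[past W s] (S ∩ O) := MeasurableSet.inter mS mO
    have mB2 : MeasurableSet[past W s] (S \ O) := MeasurableSet.diff mS mO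
    obtain ⟨E₁, a1, a2, a3, a4, a5⟩ := tube_list h0 h4 hcd hcd1 hc1 hc2 hcc hcc1 hcc2 hlam1 hW
      hTc (Hbm (le_max_left _ _) hW) hs0 ha hε (Or.inr rfl) L HL mB1
    obtain ⟨E₂, b1, b2, b3, b4, b5⟩ := tube_list h0 h4 hcd hcd1 hc1 hc2 hcc hcc1 hcc2 hlam1 hW
      hTc (Hbm (le_max_left _ _) hW) hs0 ha hε (Or.inl rfl) L HL mB2
    have hES : E₁ ∪ E₂ ⊆ S := union_subset (a1.trans inter_subset_left) (b1.trans sdiff_subset)
    refine ⟨E₁ ∪ E₂, hES.trans hSA, ?_, ?_, ?_⟩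
    · rw [← hst]
      exact MeasurableSet.union a2 b2
    · have hd : Disjoint (S ∩ O) (S \ O) := disjoint_inf_sdiff
      have h1 := tube_combine a3 b3 a1 b1 hd (hW.past_le _ b2)
      rw [inter_union_sdiff] at h1
      refine le_trans ?_ h1
      rw [pow_succ, ENNReal.ofReal_mul (by positivity)]
      calc ENNReal.ofReal (c ^ J) * ENNReal.ofReal c * P A
          = ENNReal.ofReal c * (ENNReal.ofReal (c ^ J) * P A) := by ring
        _ ≤ ENNReal.ofReal c * P S := by (clear * - hSP; gcongr)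
    · intro ω hω
      obtain ⟨⟨i1, i2⟩, i3⟩ := hS ω (hES hω)
      have hmid : (∀ u ∈ Icc 0 τ, |W (s + u) ω - W s ω| ≤ (lam + 1 / 4) * a) := by
        rcases hω with h | h
        · exact (a4 ω h).1
        · exact (b4 ω h).1
      have hcontent : (∃ p ∈ L, TubeGood ch a (fun u => W u ω) s p) →
        ∃ p ∈ L, c * p.2 ^ dd κ ≤
          mu κ ε (fun u => W u ω) (ball p.1 (cd * p.2)) s (s + τ) := by
        rcases hω with h | h
        · exact a5 ω h
        · exact b5 ω h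
      have hwJ : |w ((J + 1 : ℕ) * τ) - w (J * τ)| ≤ a / 8 := by
        refine hwa _ _ ?_
        have : ((J + 1 : ℕ) : ℝ) * τ - J * τ = τ := by push_cast; ring
        rw [this, abs_of_pos hτ]
      refine ⟨⟨?_, ?_⟩, ?_⟩
      · intro u hu
        rcases le_total u (J * τ) with h | h
        · exact i1 u ⟨hu.1, h⟩
        · have hu2 : u - J * τ ≤ τ := by
            have := hu.2
            push_cast at this
            linarith only [this]
          have h1 := abs_le.1 (hmid (u - J * τ) ⟨by linarith only [h], hu2⟩)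
          have e1 : s + (u - J * τ) = t₀ + u := by rw [hs]; ring
          rw [e1] at h1
          have h2 := abs_le.1 (hwa u (J * τ) (by rw [abs_of_nonneg (by linarith only [h])]; exact hu2))
          have h3 := abs_le.1 i3
          rw [abs_le]
          constructor
          · linarith
          · nlinarith only [h1, h2, h3]
      · intro j hj hex
        rcases Nat.lt_succ_iff_lt_or_eq.1 hj with h | h
        · exact i2 j h hex
        · subst h
          obtain ⟨z, q, hzq⟩ := hex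
          obtain ⟨p, hp, h⟩ := hcontent ⟨(z, q), (memL _).2 ⟨hzq.1, hzq.2.1⟩, hzq.2.2⟩
          refine ⟨p.1, ((memL p).1 hp).1, p.2, ((memL p).1 hp).2, ?_⟩
          have e2 : t₀ + (j + 1 : ℝ) * τ = s + τ := by rw [hs]; ring
          rw [e2]
          exact h
      · have e3 : t₀ + (J + 1 : ℕ) * τ = s + τ := hst.symm
        rw [e3]
        have h2 := abs_le.1 hwJ
        have h3 := abs_le.1 i3
        rw [abs_le]
        rcases hω with h | h
        · obtain ⟨_, k1, k2⟩ := a4 ω h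
          have hsgn : 0 ≤ W s ω - W t₀ ω - w (J * τ) := (a1 h).2
          constructor <;> linarith only [h2, h3, k1, k2, hsgn]
        · obtain ⟨_, k1, k2⟩ := b4 ω h
          have hsgn : ¬ 0 ≤ W s ω - W t₀ ω - w (J * τ) := (b1 h).2
          push Not at hsgn
          constructor <;> linarith only [h2, h3, k1, k2, hsgn]

end Vale.Agent.P164.E8
end

section

/-!
# Y-LOW1. Death and simultaneous swallowing (deterministic)
-/

namespace Vale.Agent.P164.E8

open Set Metric Filter Topology MeasureTheory ProbabilityTheory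
open scoped NNReal ENNReal

variable {W : ℝ → ℝ} {z z₀ : ℂ} {t T τ ρ : ℝ}

/-- Existence of a death time. The set of alive times in `[0,T]` is an interval containing `0`
and it is relatively open (`one_step_alive` / `dom_extend_unif`). -/
theorem low_death (hW : Continuous W) (hz : 0 < z.im) (hT : 0 ≤ T)
    (hd : z ∉ loewnerDomain W T) :
    ∃ τ : ℝ, 0 < τ ∧ τ ≤ T ∧ (∀ t, 0 ≤ t → t < τ → z ∈ loewnerDomain W t) ∧
      z ∉ loewnerDomain W τ := by
  obtain ⟨D, hD⟩ : ∃ D : Set ℝ, D = {t | 0 ≤ t ∧ z ∉ loewnerDomain W t} := ⟨_, rfl⟩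
  have hTD : T ∈ D := by rw [hD]; exact ⟨hT, hd⟩
  have hbd : BddBelow D := ⟨0, fun t ht => by rw [hD] at ht; exact ht.1⟩
  have h0 : 0 ≤ sInf D := le_csInf ⟨T, hTD⟩ fun t ht => by rw [hD] at ht; exact ht.1
  have hal : ∀ t, 0 ≤ t → t < sInf D → z ∈ loewnerDomain W t := by
    intro t ht htD
    by_contra hcon
    exact absurd (csInf_le hbd (show t ∈ D by rw [hD]; exact ⟨ht, hcon⟩)) (not_le.2 htD)
  have hdead : z ∉ loewnerDomain W (sInf D) := by
    intro hcon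
    obtain ⟨δ, hδ, hδ'⟩ := dom_extend hW h0 hcon
    have h1 : sInf D + δ ≤ sInf D := by
      refine le_csInf ⟨T, hTD⟩ fun t ht => ?_
      rw [hD] at ht
      by_contra hlt
      exact ht.2 (dom_mono (not_le.1 hlt).le hδ')
    linarith only [hδ, h1]
  refine ⟨sInf D, lt_of_le_of_ne h0 fun h => ?_, csInf_le hbd hTD, hal, hdead⟩
  rw [← h] at hdead
  exact hdead (dom_zero.2 hz)

/-- At the death time `|Z| → 0`: if `‖Z_t‖ ≥ c` with `τ - t ≤ c²/64` and oscillation of `W` on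
`[t,τ]` at most `c/8`, then `z` is alive at `τ` (`one_step_alive`). -/
theorem low_norm (hW : Continuous W) (hτ : 0 < τ)
    (hal : ∀ t, 0 ≤ t → t < τ → z ∈ loewnerDomain W t) (hd : z ∉ loewnerDomain W τ) :
    Tendsto (fun t => ‖Zf W z t‖) (𝓝[<] τ) (𝓝 0) := by
  rw [Metric.tendsto_nhds]
  intro c hc
  have hWτ : ContinuousAt W τ := hW.continuousAt
  obtain ⟨δ, hδ, hδ'⟩ := Metric.continuousAt_iff.1 hWτ (c / 16) (by (clear * - hc; positivity))
  have hlt : max 0 (τ - min δ (c ^ 2 / 64)) < τ := by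
    refine max_lt hτ ?_
    have : 0 < min δ (c ^ 2 / 64) := lt_min hδ (by (clear * - hc; positivity))
    linarith
  filter_upwards [Ioo_mem_nhdsLT hlt] with t ht
  rw [Real.dist_eq, sub_zero, abs_of_nonneg (norm_nonneg _)]
  by_contra hcon
  rw [not_lt] at hcon
  have ht0 : 0 ≤ t := (le_max_left _ _).trans ht.1.le
  have ht1 : τ - t < min δ (c ^ 2 / 64) := by
    have := (le_max_right 0 (τ - min δ (c ^ 2 / 64))).trans_lt ht.1
    linarith
  have hδt : τ - t < δ := ht1.trans_le (min_le_left _ _)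
  refine hd (one_step_alive hc hW ht0 ht.2.le (hal t ht0 ht.2) hcon
    (ht1.le.trans (min_le_right _ _)) (m := c / 8) le_rfl ?_)
  intro u hu
  have h1 := hδ' (x := u) (by
    rw [Real.dist_eq, abs_lt]; constructor <;> linarith only [hδ, hu.2, hδt, hu.1])
  have h2 := hδ' (x := t) (by
    rw [Real.dist_eq, abs_lt]; constructor <;> linarith only [hδ, ht.2, hδt])
  rw [Real.dist_eq] at h1 h2
  have h3 : |W u - W t| ≤ |W u - W τ| + |W t - W τ| := by
    have := abs_sub (W u - W τ) (W t - W τ)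
    rwa [sub_sub_sub_cancel_right] at this
  linarith only [h1, h2, h3]

/-- Simultaneous swallowing: if `Υ_{z₀} ≥ 20 ρ` up to the death time `τ` of `z₀`, then all points
of `ball z₀ ρ` are dead at `τ`. For `t < τ`, `z` is alive and
`|Z_z - Z_{z₀}| ≤ 40 Y ρ e^{-U} ≤ 2 Y_{z₀} ≤ 2 |Z_{z₀}|` (`pull_close` of H/Harnack or
`discBad_alive` and its ingredients), so `|Z_z(t)| ≤ 3|Z_{z₀}(t)| → 0`; if `z` were alive at `τ` then
`|Z_z|` would be continuous and positive on `[0,τ]`. -/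
theorem low_swallow (hW : Continuous W) (hτ : 0 < τ) (hρ : 0 < ρ)
    (hal : ∀ t, 0 ≤ t → t < τ → z₀ ∈ loewnerDomain W t) (hd : z₀ ∉ loewnerDomain W τ)
    (hU : ∀ t, 0 ≤ t → t < τ → Real.log (20 * ρ) ≤ Uf W z₀ t) (hz : z ∈ ball z₀ ρ) :
    z ∉ loewnerDomain W τ := by
  intro hcon
  have hz0 : 0 < z₀.im := im_pos_of_dom le_rfl (hal 0 le_rfl hτ)
  -- closeness
  have hclose : ∀ t, 0 ≤ t → t < τ → ‖Zf W z t‖ ≤ 3 * ‖Zf W z₀ t‖ := by
    intro t ht0 htτ
    have hz₀t := hal t ht0 htτ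
    have hY : 0 < (Zf W z₀ t).im := Zf_im_pos ht0 hz₀t
    have h1 : 20 * ρ ≤ Real.exp (Uf W z₀ t) :=
      (Real.log_le_iff_le_exp (by (clear * - hρ; positivity))).1 (hU t ht0 htτ)
    have hzd : dist z z₀ < ρ := hz
    obtain ⟨-, h2⟩ := pull_close hW ht0 hz₀t (z' := z) (by linarith only [h1, hzd])
    have h3 : 40 * (Zf W z₀ t).im * dist z z₀ * Real.exp (-Uf W z₀ t) ≤ 2 * (Zf W z₀ t).im := by
      rw [Real.exp_neg]
      have he := Real.exp_pos (Uf W z₀ t)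
      rw [← div_eq_mul_inv, div_le_iff₀ he]
      have h4 : dist z z₀ ≤ Real.exp (Uf W z₀ t) / 20 := by linarith only [h1, hzd]
      nlinarith only [h4, hY]
    have h5 : (Zf W z₀ t).im ≤ ‖Zf W z₀ t‖ := (le_abs_self _).trans (Complex.abs_im_le_norm _)
    have h6 : ‖Zf W z t‖ ≤ ‖Zf W z₀ t‖ + dist (Zf W z t) (Zf W z₀ t) := by
      rw [dist_eq_norm]
      have := norm_add_le (Zf W z₀ t) (Zf W z t - Zf W z₀ t)
      rwa [add_sub_cancel] at this
    linarith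
  have hlim := low_norm hW hτ hal hd
  have h1 : Tendsto (fun t => ‖Zf W z t‖) (𝓝[<] τ) (𝓝 0) := by
    have h2 : Tendsto (fun t => 3 * ‖Zf W z₀ t‖) (𝓝[<] τ) (𝓝 0) := by
      simpa only [mul_zero] using hlim.const_mul 3
    refine tendsto_of_tendsto_of_tendsto_of_le_of_le' tendsto_const_nhds h2
      (Eventually.of_forall fun t => norm_nonneg _) ?_
    filter_upwards [Ioo_mem_nhdsLT hτ] with t ht
    exact hclose t ht.1.le ht.2
  have h3 : Tendsto (fun t => ‖Zf W z t‖) (𝓝[<] τ) (𝓝 ‖Zf W z τ‖) := by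
    have h4 := (Zf_cont hW hτ.le hcon).norm τ ⟨hτ.le, le_rfl⟩
    refine h4.tendsto.mono_left (nhdsWithin_le_iff.2 ?_)
    filter_upwards [Ioo_mem_nhdsLT hτ] with t ht
    exact ⟨ht.1.le, ht.2.le⟩
  have h5 := tendsto_nhds_unique h1 h3
  exact absurd h5.symm (Zf_norm_pos hτ.le hcon).ne'

/-- If `z₀` never comes closer than `20ρ` (as long as it is alive), then for every `t ≤ T` every
point of the ball is dead at `t`, or `z₀` is alive and `U_z ≥ log (ρ/2)`. -/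
theorem low_far (hW : Continuous W) (hz0 : 0 < z₀.im) (hρ : 0 < ρ)
    (hU : ∀ t ∈ Icc 0 T, z₀ ∈ loewnerDomain W t → Real.log (20 * ρ) ≤ Uf W z₀ t)
    (hz : z ∈ ball z₀ ρ) (ht : t ∈ Icc 0 T) (hal : z ∈ loewnerDomain W t) :
    z₀ ∈ loewnerDomain W t ∧ Real.log (ρ / 2) ≤ Uf W z t := by
  have hmem : z₀ ∈ loewnerDomain W t := by
    by_contra hd
    obtain ⟨τ, hτ0, hτt, hτa, hτd⟩ := low_death hW hz0 ht.1 hd
    refine low_swallow hW hτ0 hρ hτa hτd (fun u hu0 huτ => ?_) hz (dom_mono hτt hal)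
    exact hU u ⟨hu0, huτ.le.trans (hτt.trans ht.2)⟩ (hτa u hu0 huτ)
  exact ⟨hmem, (discBad_alive hW ht.1 hρ hmem (hU t ht hmem) hz).2⟩

/-- No content without approach. -/
theorem low_mu_zero {κ ε : ℝ} (h0 : 0 < κ) (h8 : κ < 8) (hW : Continuous W) (hz0 : 0 < z₀.im)
    (hρ : 0 < ρ) (hε : 0 < ε) (hερ : ε ≤ ρ / 8) (hT : 0 ≤ T)
    (hU : ∀ t ∈ Icc 0 T, z₀ ∈ loewnerDomain W t → Real.log (20 * ρ) ≤ Uf W z₀ t) :
    mu κ ε W (ball z₀ ρ) 0 T = 0 := by
  have hlog : Real.log ε + 1 ≤ Real.log (ρ / 2) := by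
    rw [show (1 : ℝ) = Real.log (Real.exp 1) from (Real.log_exp 1).symm,
      ← Real.log_mul hε.ne' (Real.exp_pos 1).ne']
    refine Real.log_le_log (by positivity) ?_
    have := Real.exp_one_lt_d9
    nlinarith only [hε, hερ, this]
  have hzero : ∀ z ∈ ball z₀ ρ, yc κ ε W z 0 T = 0 := by
    intro z hz
    have h1 : ∫ u in (0:ℝ)..T, St (aR κ ε) W z u = ∫ u in (0:ℝ)..T, (0 : ℝ) := by
      refine intervalIntegral.integral_congr fun u hu => ?_
      rw [uIcc_of_le hT] at hu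
      by_cases hal : z ∈ loewnerDomain W u
      · have h2 := (low_far hW hz0 hρ hU hz hu hal).2
        change St (aR κ ε) W z u = 0
        rw [St_of_mem hal, aR, phi_eq_zero (Or.inr (by linarith only [hlog, h2])), mul_zero, zero_mul]
      · exact St_of_not_mem hal
    rw [yc, h1]
    simp
  unfold mu
  rw [setIntegral_congr_fun measurableSet_ball (g := fun _ => (0 : ℝ)) hzero]
  simp

end Vale.Agent.P164.E8
end

section

/-!
# Y-LOW2. Content of small discs (`0 < κ < 8`)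
-/

namespace Vale.Agent.P164.E8

open Set Metric Filter Topology MeasureTheory ProbabilityTheory
open scoped NNReal ENNReal

/-- Crossing of the grid, without the assumption that `z₀` survives until `T`: with
`σ = inf {t | U_t ≤ log (21ρ)}`, the mesh is smaller than the (positive) time between the levels
`21ρ` and `20ρ`; adapt `exists_crossEv`. -/
theorem low_cross {W : ℝ → ℝ} (hW : Continuous W) {z₀ : ℂ} {ρ T t₁ : ℝ} (hρ : 0 < ρ)
    (ht₁ : t₁ ∈ Icc 0 T) (hal : z₀ ∈ loewnerDomain W t₁) (h0 : Real.log (21 * ρ) < Uf W z₀ 0)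
    (hU1 : Uf W z₀ t₁ < Real.log (20 * ρ)) :
    ∀ᶠ n : ℕ in atTop, ∃ k < n + 1, z₀ ∈ loewnerDomain W (dgrid T n (k + 1)) ∧
      (Real.log (20 * ρ) ≤ Uf W z₀ (dgrid T n (k + 1)) ∧
      Uf W z₀ (dgrid T n (k + 1)) ≤ Real.log (21 * ρ)) ∧
      Real.log (21 * ρ) < Uf W z₀ (dgrid T n k) := by
  have hcont : ContinuousOn (Uf W z₀) (Icc 0 t₁) := Uf_cont hW hal
  have huc := isCompact_Icc.uniformContinuousOn_of_continuous hcont
  rw [Metric.uniformContinuousOn_iff] at huc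
  have hη : 0 < Real.log (21 * ρ) - Real.log (20 * ρ) :=
    sub_pos.2 (Real.log_lt_log (by positivity) (by linarith))
  have ht₁0 : 0 < t₁ := by
    rcases ht₁.1.eq_or_lt with h | h
    · rw [← h] at hU1
      linarith
    · exact h
  have hT : 0 < T := ht₁0.trans_le ht₁.2
  obtain ⟨δ, hδ, huc⟩ := huc _ hη
  obtain ⟨n₀, hn₀⟩ := exists_nat_gt (T / δ)
  filter_upwards [eventually_ge_atTop n₀] with n hn
  have hn' : T / (n + 1) < δ := by
    have h1 : (n₀ : ℝ) ≤ n := by exact_mod_cast hn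
    rw [div_lt_iff₀ (by (clear * -; positivity))]
    rw [div_lt_iff₀ hδ] at hn₀
    nlinarith only [hT, hn₀, h1]
  have hmesh : 0 < T / (n + 1) := by (clear * - hT; positivity)
  -- the last grid point before `t₁`
  obtain ⟨j, hj⟩ : ∃ j : ℕ, j = ⌊t₁ * (n + 1) / T⌋₊ := ⟨_, rfl⟩
  have hj1 : (j : ℝ) ≤ t₁ * (n + 1) / T := hj ▸ Nat.floor_le (by (clear * - ht₁0 hT; positivity))
  have hj2 : t₁ * (n + 1) / T < j + 1 := hj ▸ Nat.lt_floor_add_one _
  have hjt : dgrid T n j ≤ t₁ := by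
    unfold dgrid
    rw [div_le_iff₀ (by positivity)]
    rwa [le_div_iff₀ hT] at hj1
  have hjt' : t₁ - dgrid T n j < T / (n + 1) := by
    rw [div_lt_iff₀ hT] at hj2
    unfold dgrid
    rw [sub_lt_iff_lt_add, ← add_div, lt_div_iff₀ (by (clear * -; positivity))]
    linarith only [hj2]
  have hjn : j ≤ n + 1 := by
    have h1 : (j : ℝ) ≤ ((n + 1 : ℕ) : ℝ) := by
      refine hj1.trans ?_
      rw [div_le_iff₀ hT]
      push_cast
      nlinarith only [ht₁.2]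
    exact_mod_cast h1
  have hUj : Uf W z₀ (dgrid T n j) ≤ Real.log (21 * ρ) := by
    have h2 := huc (dgrid T n j) ⟨dgrid_nonneg hT.le n j, hjt⟩ t₁ ⟨ht₁0.le, le_rfl⟩ (by
      rw [Real.dist_eq, abs_sub_comm, abs_of_nonneg (by linarith only [hjt])]
      linarith only [hn', hjt'])
    rw [Real.dist_eq] at h2
    have h3 := (abs_lt.1 h2).2
    linarith only [hU1, h3]
  classical
  have hex : ∃ k, Uf W z₀ (dgrid T n k) ≤ Real.log (21 * ρ) := ⟨j, hUj⟩
  obtain ⟨m, hm⟩ : ∃ m, m = Nat.find hex := ⟨_, rfl⟩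
  have hm1 : Uf W z₀ (dgrid T n m) ≤ Real.log (21 * ρ) := hm ▸ Nat.find_spec hex
  have hmj : m ≤ j := hm ▸ Nat.find_min' hex hUj
  have hmt : dgrid T n m ≤ t₁ := (dgrid_mono hT.le n hmj).trans hjt
  have hm0 : m ≠ 0 := by
    rintro rfl
    have : dgrid T n 0 = 0 := by unfold dgrid; simp only [CharP.cast_eq_zero, zero_mul, zero_div]
    rw [this] at hm1
    linarith only [h0, hm1]
  obtain ⟨k, rfl⟩ := Nat.exists_eq_succ_of_ne_zero hm0
  have hk : ¬ Uf W z₀ (dgrid T n k) ≤ Real.log (21 * ρ) :=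
    Nat.find_min hex (by rw [← hm]; exact Nat.lt_succ_self k)
  rw [not_le] at hk
  refine ⟨k, by (clear * - hj hjn hex hm hmj; omega), ?_, ⟨?_, hm1⟩, hk⟩
  · exact dom_mono hmt hal
  have h2 := huc (dgrid T n k) ⟨dgrid_nonneg hT.le n k,
      (dgrid_mono hT.le n (Nat.le_succ k)).trans hmt⟩
    (dgrid T n (k + 1)) ⟨dgrid_nonneg hT.le n (k + 1), hmt⟩ (by
      rw [Real.dist_eq]
      have h3 : dgrid T n k - dgrid T n (k + 1) = -(T / (n + 1)) := by
        unfold dgrid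
        push_cast
        ring
      rw [h3, abs_neg, abs_of_nonneg hmesh.le]
      exact hn')
  rw [Real.dist_eq] at h2
  have h4 := (abs_lt.1 h2).2
  linarith only [hk, h4]

/-- Proof as `disc_bad` (G/DiscBad.lean) with `tail8` (`A = crossEv ... k`, `t₀ = dgrid T n (k+1)`;
on `crossEv`, `discBad_alive` gives all of the ball alive with `U ≥ log (ρ/2)`;
`3ρ < 1/4 ≤ Im z₀`), `E8.approach` (grid times, level `21ρ`) for
`P(⋃_k crossEv) ≤ C log(1/ρ) ρ^x`, `low_cross`, and `low_mu_zero` for the paths which never reach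
`20ρ` (`mu = 0`); Fatou in `n`. -/
theorem disc_bad {κ : ℝ} (h0 : 0 < κ) (h8 : κ < 8) :
    ∃ c C R₀ : ℝ, 0 < c ∧ 0 < C ∧ 1 ≤ R₀ ∧ ∀ {Ω : Type*} [MeasurableSpace Ω] {P : Measure Ω}
      {W : ℝ → Ω → ℝ} (_ : IsDrv κ P W)
      {z₀ : ℂ} {ρ R ε T : ℝ} (_ : 0 < ρ) (_ : ρ ≤ 1 / 100) (_ : dist z₀ Complex.I ≤ 3 / 4)
      (_ : R₀ ≤ R) (_ : 0 < ε) (_ : ε ≤ ρ / 8) (_ : 0 ≤ T),
      ∫⁻ ω in {ω | C * R ^ xx κ * ρ ^ dd κ ≤ mu κ ε (fun u => W u ω) (ball z₀ ρ) 0 T},
          ENNReal.ofReal (mu κ ε (fun u => W u ω) (ball z₀ ρ) 0 T) ∂P ≤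
        ENNReal.ofReal ((C * Real.exp (-c * R ^ 2) + C * R ^ C * (ε / ρ) ^ c) *
          Real.log (1 / ρ) * ρ ^ 2) := by
  obtain ⟨c₁, C₁, R₁, hc₁, hC₁, hR₁, htail⟩ := tail8 h0 h8
  obtain ⟨C₂, hC₂, happ⟩ := approach h0 h8
  refine ⟨c₁, 300 * C₁ + 84 * C₁ * C₂, R₁, hc₁, by (clear * - hC₁ hC₂; positivity), hR₁, ?_⟩
  intro Ω _ P W hW z₀ ρ R ε T hρ hρ1 hz₀ hR hε hερ hT
  have hP := hW.prob
  obtain ⟨C, hC⟩ : ∃ C, C = 300 * C₁ + 84 * C₁ * C₂ := ⟨_, rfl⟩
  rw [← hC]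
  have hC0 : 0 < C := by rw [hC]; positivity
  have hCC : 0 < C₁ * C₂ := by positivity
  have hC1C : C₁ ≤ C := by rw [hC]; nlinarith only [hC₁, hCC]
  have hz₀im : 1 / 4 ≤ z₀.im := by
    have h1 : |(z₀ - Complex.I).im| ≤ ‖z₀ - Complex.I‖ := Complex.abs_im_le_norm _
    rw [Complex.dist_eq] at hz₀
    have h2 := (abs_le.1 (h1.trans hz₀)).1
    rw [Complex.sub_im, Complex.I_im] at h2
    linarith only [h2]
  have hρz : 3 * ρ < z₀.im := by (clear * - hρ1 hε hερ hz₀im; linarith)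
  have hεq : ε ≤ ρ := by linarith only [hε, hερ]
  have hR1 : 1 ≤ R := hR₁.trans hR
  have hR0 : 0 < R := by linarith only [hR₁, hR]
  have hdd : 1 ≤ dd κ := by unfold dd; linarith only [h0]
  have hxx0 : 0 < xx κ := by unfold xx; linarith only [h8]
  have hxx1 : xx κ ≤ 1 := by unfold xx; linarith only [h0]
  have hsum : dd κ + xx κ = 2 := by unfold dd xx; ring
  have hfp : Measurable[past W T] (fun ω => mu κ ε (fun u => W u ω) (ball z₀ ρ) 0 T) :=
    discBad_mu_past hW le_rfl hT _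
  have hfm : Measurable (fun ω => mu κ ε (fun u => W u ω) (ball z₀ ρ) 0 T) :=
    hfp.mono hW.past_le le_rfl
  obtain ⟨f, hf⟩ : ∃ f : Ω → ℝ, f = fun ω => mu κ ε (fun u => W u ω) (ball z₀ ρ) 0 T := ⟨_, rfl⟩
  have hfω : ∀ ω, mu κ ε (fun u => W u ω) (ball z₀ ρ) 0 T = f ω := fun ω => by rw [hf]
  simp only [hfω]
  rw [← hf] at hfm
  have hexp : 0 < Real.exp (-c₁ * R ^ 2) := Real.exp_pos _
  obtain ⟨F₁, hF₁⟩ : ∃ F₁ : ℝ, F₁ = C₁ * Real.exp (-c₁ * R ^ 2) + C₁ * R ^ C₁ * (ε / ρ) ^ c₁ :=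
    ⟨_, rfl⟩
  obtain ⟨F, hF⟩ : ∃ F : ℝ, F = C * Real.exp (-c₁ * R ^ 2) + C * R ^ C * (ε / ρ) ^ c₁ :=
    ⟨_, rfl⟩
  have hF₁0 : 0 < F₁ := by rw [hF₁]; (clear * - hC₁ hR1 hε hρ; positivity)
  have hF0 : 0 < F := by rw [hF]; positivity
  have hFF : ∀ a : ℝ, 0 < a → a * C₁ ≤ C → a * F₁ ≤ F := by
    intro a ha haC
    have h1 : R ^ C₁ ≤ R ^ C := Real.rpow_le_rpow_of_exponent_le hR1 hC1C
    have h2 : 0 < (ε / ρ) ^ c₁ := by (clear * - hε hρ; positivity)
    have h3 : 0 < R ^ C := by positivity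
    calc a * F₁ = (a * C₁) * Real.exp (-c₁ * R ^ 2) + (a * C₁) * R ^ C₁ * (ε / ρ) ^ c₁ := by
          rw [hF₁]; ring
      _ ≤ C * Real.exp (-c₁ * R ^ 2) + C * R ^ C * (ε / ρ) ^ c₁ := by gcongr
      _ = F := hF.symm
  rw [← hF]
  have hlog1 : 1 ≤ Real.log (1 / ρ) := by
    rw [Real.le_log_iff_exp_le (by positivity)]
    have h1 : (100 : ℝ) ≤ 1 / ρ := by rw [le_div_iff₀ hρ]; linarith only [hρ1]
    have := Real.exp_one_lt_d9
    linarith only [h1, this]
  rcases lt_or_ge (1 / 300) ρ with hbig | hsmall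
  · -- large discs
    have h := htail hW hρ hρz hR hε hεq le_rfl hT (A := univ) MeasurableSet.univ
      (fun ω _ z hz => by
        have hzim : 6 / 25 ≤ z.im := by
          have h1 : |(z - z₀).im| ≤ ‖z - z₀‖ := Complex.abs_im_le_norm _
          rw [mem_ball, Complex.dist_eq] at hz
          have h2 := (abs_le.1 (h1.trans hz.le)).1
          rw [Complex.sub_im] at h2
          linarith only [hρ1, hz₀im, h2]
        refine ⟨dom_zero.2 (by linarith only [hzim]), ?_⟩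
        rw [Uf_zero]
        exact Real.log_le_log (by (clear * - hρ; positivity)) (by linarith only [hρ1, hzim]))
    simp only [hfω, univ_inter, measure_univ, mul_one, ← hF₁] at h
    refine (lintegral_mono_set fun ω hω => ?_).trans (h.trans (ENNReal.ofReal_le_ofReal ?_))
    · change C * R ^ xx κ * ρ ^ dd κ ≤ f ω at hω
      change C₁ * R ^ xx κ * ρ ^ dd κ ≤ f ω
      refine le_trans ?_ hω
      (clear * - hC1C hR1 hρ; gcongr)
    · have h1 : ρ ^ dd κ ≤ ρ := by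
        have := Real.rpow_le_rpow_of_exponent_ge hρ (by linarith only [hρ1]) hdd
        rwa [Real.rpow_one] at this
      have h2 : ρ ≤ 300 * ρ ^ 2 := by nlinarith only [hbig]
      calc F₁ * ρ ^ dd κ ≤ F₁ * (300 * ρ ^ 2) := by
            have := h1.trans h2
            (clear * - this hF₁0; gcongr)
        _ = (300 * F₁) * 1 * ρ ^ 2 := by ring
        _ ≤ F * Real.log (1 / ρ) * ρ ^ 2 := by
            have : 300 * F₁ ≤ F := hFF 300 (by norm_num) (by rw [hC]; nlinarith only [hCC])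
            (clear * - this hlog1 hF0 hρ; gcongr)
  · -- small discs
    obtain ⟨Bad, hBad⟩ : ∃ Bad : Set Ω, Bad = {ω | C * R ^ xx κ * ρ ^ dd κ ≤ f ω} := ⟨_, rfl⟩
    rw [← hBad]
    have hBadm : MeasurableSet Bad := by
      rw [hBad]
      exact measurableSet_le measurable_const hfm
    have hEm : ∀ n k, MeasurableSet (crossEv W z₀ ρ T n k) := fun n k =>
      hW.past_le _ (crossEv_past hW hT n k)
    have hU0 : ∀ ω, Real.log (1 / 4) ≤ Uf (fun u => W u ω) z₀ 0 := fun ω => by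
      rw [Uf_zero]
      exact Real.log_le_log (by positivity) hz₀im
    -- total probability of the crossing events
    have hprob : ∀ n : ℕ, P (⋃ k ∈ Finset.range (n + 1), crossEv W z₀ ρ T n k) ≤
        ENNReal.ofReal (C₂ * Real.log (1 / (84 * ρ)) * (84 * ρ) ^ xx κ) := by
      intro n
      classical
      have h := happ hW (z := z₀) (t₀ := 0) (ρ₀ := 1 / 4) (ε := 84 * ρ) le_rfl (by norm_num)
        (by positivity) (by have := Real.exp_neg_one_gt_d9; linarith only [hsmall, this]) (A := univ)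
        MeasurableSet.univ (fun ω _ => ⟨dom_zero.2 (by linarith only [hz₀im]), hU0 ω⟩)
        (Finset.image (fun k => dgrid T n (k + 1)) (Finset.range (n + 1))) (by
          intro t ht
          obtain ⟨k, -, rfl⟩ := Finset.mem_image.1 ht
          exact dgrid_nonneg hT _ _)
      rw [univ_inter, measure_univ, mul_one] at h
      refine le_trans (measure_mono ?_) h
      intro ω hω
      simp only [mem_iUnion] at hω
      obtain ⟨k, hk, ⟨h1, h2, h3⟩, -⟩ := hω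
      refine ⟨dgrid T n (k + 1), Finset.mem_image.2 ⟨k, hk, rfl⟩, h1, ?_⟩
      have : 84 * ρ * (1 / 4) = 21 * ρ := by ring
      rw [this]
      exact h3
    -- the mass on the crossing events
    have hmass : ∀ n k, k < n + 1 → ∫⁻ ω in Bad ∩ crossEv W z₀ ρ T n k,
        ENNReal.ofReal (f ω) ∂P ≤ ENNReal.ofReal (F₁ * ρ ^ dd κ) *
          P (crossEv W z₀ ρ T n k) := by
      intro n k hk
      have ht0 : 0 ≤ dgrid T n (k + 1) := dgrid_nonneg hT _ _
      have htT : dgrid T n (k + 1) ≤ T := dgrid_le hT n (by (clear * - hk; omega))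
      have heq : ∀ ω ∈ crossEv W z₀ ρ T n k, f ω =
          mu κ ε (fun u => W u ω) (ball z₀ ρ) (dgrid T n (k + 1)) T := by
        rintro ω ⟨⟨h1, h2, -⟩, -⟩
        rw [← hfω]
        exact discBad_mu_eq h0 h8 (hW.cont ω) ht0 htT hρ hε hερ h1 h2
      have h := htail hW hρ hρz hR hε hεq ht0 htT (A := crossEv W z₀ ρ T n k)
        (crossEv_past hW hT n k) (by
          rintro ω ⟨⟨h1, h2, -⟩, -⟩ z hz
          obtain ⟨h3, h5⟩ := discBad_alive (hW.cont ω) ht0 hρ h1 h2 hz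
          exact ⟨h3, (Real.log_le_log (by (clear * - hρ; positivity)) (by linarith only [hε, hερ])).trans h5⟩)
      rw [← hF₁] at h
      refine le_trans ?_ h
      rw [setLIntegral_congr_fun (hBadm.inter (hEm n k))
        (g := fun ω => ENNReal.ofReal (mu κ ε (fun u => W u ω) (ball z₀ ρ)
          (dgrid T n (k + 1)) T)) (fun ω hω => by rw [heq ω hω.2])]
      refine lintegral_mono_set ?_
      rintro ω ⟨h1, h2⟩
      refine ⟨h2, ?_⟩
      rw [hBad] at h1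
      change C * R ^ xx κ * ρ ^ dd κ ≤ f ω at h1
      rw [heq ω h2] at h1
      refine le_trans ?_ h1
      (clear * - hC1C hR1 hρ; gcongr)
    obtain ⟨K, hK⟩ : ∃ K : ℝ≥0∞, K = ENNReal.ofReal (F₁ * ρ ^ dd κ) *
      ENNReal.ofReal (C₂ * Real.log (1 / (84 * ρ)) * (84 * ρ) ^ xx κ) := ⟨_, rfl⟩
    have hbound : ∀ n : ℕ, ∫⁻ ω in Bad ∩ ⋃ k ∈ Finset.range (n + 1), crossEv W z₀ ρ T n k,
        ENNReal.ofReal (f ω) ∂P ≤ K := by
      intro n
      have hpd : ∀ (g : ℕ → Set Ω), (∀ k, g k ⊆ crossEv W z₀ ρ T n k) →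
          Set.PairwiseDisjoint (↑(Finset.range (n + 1)) : Set ℕ) g := by
        intro g hg j _ k _ hjk
        rcases lt_or_gt_of_ne hjk with h | h
        · exact (crossEv_disjoint hW hT n h).mono (hg j) (hg k)
        · exact ((crossEv_disjoint hW hT n h).mono (hg k) (hg j)).symm
      have h1 : Bad ∩ ⋃ k ∈ Finset.range (n + 1), crossEv W z₀ ρ T n k =
          ⋃ k ∈ Finset.range (n + 1), Bad ∩ crossEv W z₀ ρ T n k := by
        simp only [inter_iUnion]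
      rw [h1, lintegral_biUnion_finset (hpd _ fun k => inter_subset_right)
        (fun k _ => hBadm.inter (hEm n k))]
      calc ∑ k ∈ Finset.range (n + 1), ∫⁻ ω in Bad ∩ crossEv W z₀ ρ T n k,
            ENNReal.ofReal (f ω) ∂P
          ≤ ∑ k ∈ Finset.range (n + 1),
            ENNReal.ofReal (F₁ * ρ ^ dd κ) *
              P (crossEv W z₀ ρ T n k) :=
            Finset.sum_le_sum fun k hk => hmass n k (Finset.mem_range.1 hk)
        _ = ENNReal.ofReal (F₁ * ρ ^ dd κ) *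
              P (⋃ k ∈ Finset.range (n + 1), crossEv W z₀ ρ T n k) := by
            rw [← Finset.mul_sum, measure_biUnion_finset (hpd _ fun k => Subset.rfl)
              fun k _ => hEm n k]
        _ ≤ K := by rw [hK]; exact mul_le_mul_right (hprob n) _
    -- Fatou
    have hae : ∀ᵐ ω ∂P, Bad.indicator (fun ω => ENNReal.ofReal (f ω)) ω ≤
        liminf (fun n : ℕ => (Bad ∩ ⋃ k ∈ Finset.range (n + 1), crossEv W z₀ ρ T n k).indicator
          (fun ω => ENNReal.ofReal (f ω)) ω) atTop := by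
      refine Filter.Eventually.of_forall fun ω => ?_
      by_cases hωB : ω ∈ Bad
      · have hfpos : 0 < f ω := by
          rw [hBad] at hωB
          exact lt_of_lt_of_le (by (clear * - hC0 hR1 hρ; positivity)) hωB
        have h6 : Real.log (21 * ρ) < Uf (fun u => W u ω) z₀ 0 :=
          lt_of_lt_of_le (Real.log_lt_log (by positivity) (by linarith only [hsmall])) (hU0 ω)
        obtain ⟨t₁, ht₁, hal₁, hU₁⟩ : ∃ t ∈ Icc 0 T, z₀ ∈ loewnerDomain (fun u => W u ω) t ∧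
            Uf (fun u => W u ω) z₀ t < Real.log (20 * ρ) := by
          by_contra hcon
          push Not at hcon
          have h3 := low_mu_zero h0 h8 (hW.cont ω) (by linarith only [hz₀im]) hρ hε hερ hT hcon
          rw [hfω] at h3
          exact hfpos.ne' h3
        refine le_liminf_of_le (by isBoundedDefault) ?_
        filter_upwards [low_cross (hW.cont ω) hρ ht₁ hal₁ h6 hU₁] with n hn
        obtain ⟨k, hk, hal, h7, h9⟩ := hn
        have hmem : ω ∈ Bad ∩ ⋃ k ∈ Finset.range (n + 1), crossEv W z₀ ρ T n k := by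
          refine ⟨hωB, ?_⟩
          simp only [mem_iUnion]
          exact ⟨k, Finset.mem_range.2 hk, ⟨hal, h7⟩,
            ⟨dom_mono (dgrid_mono hT n (Nat.le_succ k)) hal, h9⟩⟩
        rw [indicator_of_mem hωB, indicator_of_mem hmem]
      · rw [indicator_of_notMem hωB]
        exact zero_le
    have hUm : ∀ n : ℕ, MeasurableSet (Bad ∩ ⋃ k ∈ Finset.range (n + 1),
        crossEv W z₀ ρ T n k) := fun n =>
      hBadm.inter (Finset.measurableSet_biUnion _ fun k _ => hEm n k)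
    have hfin : ∫⁻ ω in Bad, ENNReal.ofReal (f ω) ∂P ≤ K := by
      rw [← lintegral_indicator hBadm]
      refine (lintegral_mono_ae hae).trans ?_
      refine (lintegral_liminf_le fun n => hfm.ennreal_ofReal.indicator (hUm n)).trans ?_
      refine liminf_le_of_le (by isBoundedDefault) fun b hb => ?_
      obtain ⟨n, hn⟩ := hb.exists
      refine hn.trans ?_
      rw [lintegral_indicator (hUm n)]
      exact hbound n
    refine hfin.trans ?_
    rw [hK, ← ENNReal.ofReal_mul (by (clear * - hF₁0 hρ; positivity))]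
    refine ENNReal.ofReal_le_ofReal ?_
    have e1 : (84 * ρ) ^ xx κ ≤ 84 * ρ ^ xx κ := by
      rw [Real.mul_rpow (by norm_num) hρ.le]
      have : (84 : ℝ) ^ xx κ ≤ 84 ^ (1 : ℝ) :=
        Real.rpow_le_rpow_of_exponent_le (by norm_num) hxx1
      rw [Real.rpow_one] at this
      (clear * - this hρ; gcongr)
    have e2 : ρ ^ dd κ * ρ ^ xx κ = ρ ^ 2 := by
      rw [← Real.rpow_add hρ, hsum, Real.rpow_two]
    have e3 : Real.log (1 / (84 * ρ)) ≤ Real.log (1 / ρ) := by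
      refine Real.log_le_log (by (clear * - hρ; positivity)) ?_
      exact one_div_le_one_div_of_le hρ (by linarith only [hε, hερ])
    calc F₁ * ρ ^ dd κ * (C₂ * Real.log (1 / (84 * ρ)) * (84 * ρ) ^ xx κ)
        ≤ F₁ * ρ ^ dd κ * (C₂ * Real.log (1 / ρ) * (84 * ρ ^ xx κ)) := by (clear * - e3 hC₂ e1 hρ hlog1 hF₁0; gcongr)
      _ = (84 * C₂ * F₁) * Real.log (1 / ρ) * (ρ ^ dd κ * ρ ^ xx κ) := by ring
      _ ≤ F * Real.log (1 / ρ) * ρ ^ 2 := by
          rw [e2]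
          have : 84 * C₂ * F₁ ≤ F := hFF (84 * C₂) (by positivity) (by rw [hC]; nlinarith only [hC₁])
          (clear * - this hlog1 hρ; gcongr)

end Vale.Agent.P164.E8
end

section

/-!
# Y-LOW3. The good event (`0 < κ < 8`)
-/

namespace Vale.Agent.P164.E8

open Set Metric Filter Topology MeasureTheory ProbabilityTheory
open scoped NNReal ENNReal

/-- The time horizon. -/
noncomputable def TT8 : ℝ := 4 * 10 ^ 7

/-- Abstract lower bound of a probability from a first moment and truncated moments. -/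
lemma LowGood_abs {Ω : Type*} [MeasurableSpace Ω] {P : Measure Ω} [IsProbabilityMeasure P]
    {ι : Type*} (s : Finset ι) {X : Ω → ℝ} (hX : Measurable X) {Y : ι → Ω → ℝ}
    (hY : ∀ i ∈ s, Measurable (Y i)) {a lam tau : ℝ} (ha : 0 < a) (hlam : 0 < lam)
    (htau : 0 ≤ tau)
    (hXY : ∀ ω, ENNReal.ofReal (X ω) ≤ ∑ i ∈ s, ENNReal.ofReal (Y i ω))
    (h1 : ENNReal.ofReal (2 * a) ≤ ∫⁻ ω, ENNReal.ofReal (X ω) ∂P)
    (h2 : ∀ i ∈ s, ∫⁻ ω in {ω | lam ≤ Y i ω}, ENNReal.ofReal (Y i ω) ∂P ≤ ENNReal.ofReal tau)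
    (h3 : s.card * tau ≤ a / 2) :
    ENNReal.ofReal (a / (2 * (s.card + 1) * lam)) ≤ P {ω | a ≤ X ω} := by
  have hE : MeasurableSet {ω | a ≤ X ω} := measurableSet_le measurable_const hX
  have hEi : ∀ i ∈ s, MeasurableSet {ω | lam ≤ Y i ω} := fun i hi =>
    measurableSet_le measurable_const (hY i hi)
  have hpt : ∀ ω, ENNReal.ofReal (X ω) ≤ ENNReal.ofReal a + ∑ i ∈ s,
      (({ω | a ≤ X ω}.indicator (fun _ => ENNReal.ofReal lam) ω) +
        {ω | lam ≤ Y i ω}.indicator (fun ω => ENNReal.ofReal (Y i ω)) ω) := by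
    intro ω
    by_cases hω : a ≤ X ω
    · refine (hXY ω).trans (le_add_left (Finset.sum_le_sum fun i hi => ?_))
      rw [indicator_of_mem (show ω ∈ {ω | a ≤ X ω} from hω)]
      by_cases hi' : lam ≤ Y i ω
      · rw [indicator_of_mem (show ω ∈ {ω | lam ≤ Y i ω} from hi')]
        exact le_add_self
      · push Not at hi'
        exact (ENNReal.ofReal_le_ofReal hi'.le).trans le_self_add
    · push Not at hω
      exact (ENNReal.ofReal_le_ofReal hω.le).trans le_self_add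
  have hint : ∫⁻ ω, ENNReal.ofReal (X ω) ∂P ≤ ENNReal.ofReal a + ∑ i ∈ s,
      (ENNReal.ofReal lam * P {ω | a ≤ X ω} + ENNReal.ofReal tau) := by
    refine (lintegral_mono hpt).trans ?_
    have m1 : ∀ i ∈ s, Measurable fun ω =>
        (({ω | a ≤ X ω}.indicator (fun _ => ENNReal.ofReal lam) ω) +
        {ω | lam ≤ Y i ω}.indicator (fun ω => ENNReal.ofReal (Y i ω)) ω) := fun i hi =>
      (measurable_const.indicator hE).add ((hY i hi).ennreal_ofReal.indicator (hEi i hi))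
    rw [lintegral_add_left measurable_const, lintegral_finsetSum s m1,
      lintegral_const, measure_univ, mul_one]
    refine add_le_add le_rfl (Finset.sum_le_sum fun i hi => ?_)
    rw [lintegral_add_left (measurable_const.indicator hE), lintegral_indicator_const hE,
      lintegral_indicator (hEi i hi)]
    exact add_le_add le_rfl (h2 i hi)
  have hfin : P {ω | a ≤ X ω} ≠ ⊤ := measure_ne_top _ _
  obtain ⟨p, hp⟩ : ∃ p : ℝ, p = (P {ω | a ≤ X ω}).toReal := ⟨_, rfl⟩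
  have hpP : P {ω | a ≤ X ω} = ENNReal.ofReal p := by
    rw [hp]; exact (ENNReal.ofReal_toReal hfin).symm
  have hp0 : 0 ≤ p := by rw [hp]; exact ENNReal.toReal_nonneg
  rw [hpP] at hint ⊢
  have h4 := h1.trans hint
  clear hpP hfin hint
  have h7 : 0 ≤ lam * p := mul_nonneg hlam.le hp0
  have h9 : 0 ≤ lam * p + tau := add_nonneg h7 htau
  have hcard : (0 : ℝ) ≤ s.card := Nat.cast_nonneg _
  rw [Finset.sum_const, nsmul_eq_mul, ← ENNReal.ofReal_mul hlam.le,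
    ← ENNReal.ofReal_add h7 htau, ← ENNReal.ofReal_natCast,
    ← ENNReal.ofReal_mul hcard, ← ENNReal.ofReal_add ha.le (mul_nonneg hcard h9),
    ENNReal.ofReal_le_ofReal_iff (add_nonneg ha.le (mul_nonneg hcard h9))] at h4
  apply ENNReal.ofReal_le_ofReal
  have h10 : 0 < 2 * ((s.card : ℝ) + 1) * lam :=
    mul_pos (mul_pos two_pos (by linarith only [])) hlam
  rw [div_le_iff₀ h10]
  have h5 : a / 2 ≤ s.card * (lam * p) := by
    have h6 : (s.card : ℝ) * (lam * p + tau) = s.card * (lam * p) + s.card * tau := by ring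
    rw [h6] at h4
    linarith only [h3, h4]
  have h8 : p * (2 * ((s.card : ℝ) + 1) * lam) = 2 * (s.card * (lam * p)) + 2 * (lam * p) := by
    ring
  rw [h8]
  linarith only [h3, h4, h7]

/-- First moment of the mass. -/
lemma LowGood_first {κ : ℝ} (h0 : 0 < κ) (h8 : κ < 8) :
    ∃ a : ℝ, 0 < a ∧ ∀ {Ω : Type*} [MeasurableSpace Ω]
      {P : Measure Ω} {W : ℝ → Ω → ℝ} (_ : IsDrv κ P W) {ε : ℝ} (_ : 0 < ε) (_ : ε ≤ 1 / 6),
      ENNReal.ofReal (2 * a) ≤ ∫⁻ ω, ENNReal.ofReal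
        (mu κ ε (fun u => W u ω) (ball Complex.I (1 / 2)) 0 TT8) ∂P := by
  have hbe : 0 < be κ := by
    unfold be
    have : 1 < 8 / κ := by rw [lt_div_iff₀ h0]; linarith
    linarith
  have hxx : 0 < xx κ := by unfold xx; linarith
  obtain ⟨m₀, hm₀⟩ : ∃ m₀, m₀ = Real.exp (-xx κ * Real.log (3 / 2)) * (1 / 3 : ℝ) ^ be κ :=
    ⟨_, rfl⟩
  have hm₀pos : 0 < m₀ := by rw [hm₀]; positivity
  have hvfin : volume (ball Complex.I (1 / 2 : ℝ)) ≠ ⊤ := measure_ball_lt_top.ne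
  obtain ⟨v, hv⟩ : ∃ v, v = (volume (ball Complex.I (1 / 2 : ℝ))).toReal := ⟨_, rfl⟩
  have hvpos : 0 < v := by
    rw [hv]
    exact ENNReal.toReal_pos (measure_ball_pos _ _ (by norm_num)).ne' hvfin
  have hTT : 0 < TT8 := by unfold TT8; positivity
  refine ⟨m₀ * v / 4, by positivity, ?_⟩
  intro Ω _ P W hW ε hε hε0
  have := hW.prob
  have hjoint : Measurable (fun p : ℂ × Ω => yc κ ε (fun u => W u p.2) p.1 0 TT8) :=
    timeint_joint hW.cont hW.meas (aR_measurable κ ε) le_rfl hTT.le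
  have him : ∀ z ∈ ball Complex.I (1 / 2 : ℝ), 0 < z.im := fun z hz => by
    linarith only [(ref_disc_facts hz).1]
  -- first moment at a point
  have hfirst : ∀ z ∈ ball Complex.I (1 / 2 : ℝ), ENNReal.ofReal (1 / 2 * m₀) ≤
      ∫⁻ ω, ENNReal.ofReal (yc κ ε (fun u => W u ω) z 0 TT8) ∂P := by
    intro z hz
    obtain ⟨hz1, hz2, hz3⟩ := ref_disc_facts hz
    have hzim := him z hz
    have hU0 : ∀ ω, Uf (fun u => W u ω) z 0 = Real.log z.im := fun ω => Uf_zero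
    have hZ0 : ∀ ω, Zf (fun u => W u ω) z 0 = z := by
      intro ω
      rw [Zf_zero hzim, hW.zero]
      simp
    have h1 := first_moment_lower h0 h8 hW hzim hε le_rfl hTT (A := univ)
      MeasurableSet.univ (fun ω _ => ⟨dom_zero.2 hzim, by
        rw [hU0]
        have e1 : Real.log ε + 1 = Real.log (ε * Real.exp 1) := by
          rw [Real.log_mul hε.ne' (Real.exp_pos 1).ne', Real.log_exp]
        rw [e1]
        apply Real.log_le_log (by (clear * - hε; positivity))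
        have e2 := Real.exp_one_lt_d9
        have e3 : ε * Real.exp 1 ≤ 1 / 6 * 3 := by
          refine mul_le_mul hε0 (by linarith only [e2]) (Real.exp_pos 1).le (by norm_num)
        linarith only [hz1, e3]⟩)
    rw [setLIntegral_univ, setLIntegral_univ] at h1
    refine le_trans ?_ h1
    have h2 : ∀ ω, ENNReal.ofReal (1 / 2 * m₀) ≤ ENNReal.ofReal
        (St (MM κ) (fun u => W u ω) z 0 *
          (1 - 4 * (‖Zf (fun u => W u ω) z 0‖ ^ 2 / (TT8 - 0)) ^ (1 / 8 : ℝ))) := by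
      intro ω
      apply ENNReal.ofReal_le_ofReal
      rw [St_of_mem (dom_zero.2 hzim), hU0, hZ0]
      have e2 : 1 / 2 ≤ 1 - 4 * (‖z‖ ^ 2 / (TT8 - 0)) ^ (1 / 8 : ℝ) := by
        have f1 : ‖z‖ ^ 2 / (TT8 - 0) ≤ (1 / 8 : ℝ) ^ (8 : ℝ) := by
          have g1 : ‖z‖ ^ 2 ≤ (3 / 2) ^ 2 := by
            have := norm_nonneg z
            (clear * - hz3; gcongr)
          have g2 : (1 / 8 : ℝ) ^ (8 : ℝ) = 1 / 16777216 := by
            rw [show (8 : ℝ) = ((8 : ℕ) : ℝ) by norm_num, Real.rpow_natCast]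
            norm_num
          rw [g2, sub_zero, div_le_iff₀ hTT]
          refine g1.trans ?_
          unfold TT8
          norm_num
        have f2 : (‖z‖ ^ 2 / (TT8 - 0)) ^ (1 / 8 : ℝ) ≤ ((1 / 8 : ℝ) ^ (8 : ℝ)) ^ (1 / 8 : ℝ) := by
          refine Real.rpow_le_rpow ?_ f1 (by norm_num)
          rw [sub_zero]
          (clear * - hTT; positivity)
        rw [← Real.rpow_mul (by norm_num)] at f2
        have f3 : (8 : ℝ) * (1 / 8) = 1 := by norm_num
        rw [f3, Real.rpow_one] at f2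
        linarith only [f2]
      have e3 : m₀ ≤ MM κ z (Real.log z.im) := by
        unfold MM
        rw [hm₀]
        have f1 : Real.exp (-xx κ * Real.log (3 / 2)) ≤ Real.exp (-xx κ * Real.log z.im) := by
          apply Real.exp_le_exp.2
          have : Real.log z.im ≤ Real.log (3 / 2) := Real.log_le_log hzim hz2.le
          have := mul_le_mul_of_nonneg_left this hxx.le
          linarith only [this]
        have f2 : (1 / 3 : ℝ) ^ be κ ≤ sn z ^ be κ := by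
          apply Real.rpow_le_rpow (by norm_num) _ hbe.le
          unfold sn
          have hzn : 0 < ‖z‖ := norm_pos_iff.2 (fun h => by simp [h] at hzim)
          rw [le_div_iff₀ hzn]
          linarith only [hz1, hz3]
        have f3 : 0 ≤ (1 / 3 : ℝ) ^ be κ := by positivity
        have f4 := Real.exp_pos (-xx κ * Real.log z.im)
        exact mul_le_mul f1 f2 f3 f4.le
      calc 1 / 2 * m₀ = m₀ * (1 / 2) := by ring
        _ ≤ MM κ z (Real.log z.im) * (1 - 4 * (‖z‖ ^ 2 / (TT8 - 0)) ^ (1 / 8 : ℝ)) :=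
          mul_le_mul e3 e2 (by norm_num) (hm₀pos.le.trans e3)
    calc ENNReal.ofReal (1 / 2 * m₀) = ∫⁻ _ω, ENNReal.ofReal (1 / 2 * m₀) ∂P := by simp only [one_div, inv_nonneg, Nat.ofNat_nonneg, ENNReal.ofReal_mul, Nat.ofNat_pos, ENNReal.ofReal_inv_of_pos, ENNReal.ofReal_ofNat, lintegral_const, measure_univ, mul_one]
      _ ≤ _ := lintegral_mono h2
  -- first moment of the mass
  have e1 : ∀ ω, ENNReal.ofReal (mu κ ε (fun u => W u ω) (ball Complex.I (1 / 2)) 0 TT8) =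
      ∫⁻ z in ball Complex.I (1 / 2), ENNReal.ofReal (yc κ ε (fun u => W u ω) z 0 TT8) := by
    intro ω
    unfold mu
    rw [ofReal_integral_eq_lintegral_ofReal]
    · exact yc_integrableOn h0 h8 hε (hW.cont ω) measurableSet_ball him hvfin le_rfl hTT.le
    · exact Filter.Eventually.of_forall fun z => yc_nonneg le_rfl hTT.le
  simp_rw [e1]
  have hmj : Measurable (Function.uncurry fun (ω : Ω) (z : ℂ) =>
      ENNReal.ofReal (yc κ ε (fun u => W u ω) z 0 TT8)) :=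
    (hjoint.comp measurable_swap).ennreal_ofReal
  rw [lintegral_lintegral_swap hmj.aemeasurable]
  calc ENNReal.ofReal (2 * (m₀ * v / 4)) = ∫⁻ _z in ball Complex.I (1 / 2 : ℝ),
        ENNReal.ofReal (1 / 2 * m₀) := by
        rw [setLIntegral_const, ← ENNReal.ofReal_toReal hvfin, ← hv,
          ← ENNReal.ofReal_mul (by (clear * - hm₀pos; positivity))]
        congr 1
        ring
    _ ≤ _ := setLIntegral_mono' measurableSet_ball hfirst

/-- Lower bound for the mass, without second moments. `E mu(ball I (1/2)) ≥ 2a` by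
`E8.first_moment_lower` at `t₀ = 0` (`4 (|z|²/TT8)^{1/8} ≤ 1/2` for `|z| ≤ 3/2`,
`MM ≥ c`, `U_0 = log Im z ≥ log ε + 1`), Tonelli. Cover `ball I (1/2)` by `N` balls `B_i` of radius
`1/10` with centres in it (`3/10 < 1/2 < Im`), `tail8` with `A = univ`, `t₀ = 0`:
`E[mu(B_i) 1{mu(B_i) ≥ λ_R}] ≤ C e^{-cR²} + C R^C (10ε)^c`; choose `R` and then `ε₀` such that the sum
over `i` is `≤ a/2`. Then `E mu ≤ c₁ + P(mu ≥ c₁) N λ_R + a/2` with `c₁ = a/2`
(`ge_mu_le_sum`, G/GoodEv). -/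
theorem mass_lower {κ : ℝ} (h0 : 0 < κ) (h8 : κ < 8) :
    ∃ c₁ c₂ ε₀ : ℝ, 0 < c₁ ∧ 0 < c₂ ∧ 0 < ε₀ ∧ ∀ {Ω : Type*} [MeasurableSpace Ω]
      {P : Measure Ω} {W : ℝ → Ω → ℝ} (_ : IsDrv κ P W) {ε : ℝ} (_ : 0 < ε) (_ : ε ≤ ε₀),
      ENNReal.ofReal c₂ ≤
        P {ω | c₁ ≤ mu κ ε (fun u => W u ω) (ball Complex.I (1 / 2)) 0 TT8} := by
  obtain ⟨a, ha, hfm⟩ := LowGood_first h0 h8
  obtain ⟨c, C, R₀, hc, hC, hR₀, htail⟩ := tail8 h0 h8
  have hTT : 0 ≤ TT8 := by unfold TT8; positivity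
  have hdd : 0 < dd κ := by unfold dd; linarith
  -- the covering
  obtain ⟨s, hs, hsf, hcov⟩ := (isCompact_closedBall Complex.I (1 / 2 : ℝ)).finite_cover_balls
    (show (0 : ℝ) < 1 / 10 by norm_num)
  obtain ⟨t, rfl⟩ := hsf.exists_finset_coe
  have him : ∀ i ∈ t, 1 / 2 ≤ i.im := by
    intro i hi
    have h1 : ‖i - Complex.I‖ ≤ 1 / 2 := by
      have := hs (Finset.mem_coe.2 hi)
      rwa [mem_closedBall, dist_eq_norm] at this
    have h2 : |(i - Complex.I).im| ≤ 1 / 2 := (Complex.abs_im_le_norm _).trans h1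
    have h3 : (i - Complex.I).im = i.im - 1 := by simp
    rw [h3, abs_le] at h2
    linarith only [h2]
  have himb : ∀ i ∈ t, ∀ z ∈ ball i (1 / 10 : ℝ), 2 / 5 < z.im := by
    intro i hi z hz
    have h1 : ‖z - i‖ < 1 / 10 := by rwa [mem_ball, dist_eq_norm] at hz
    have h2 : |(z - i).im| < 1 / 10 := lt_of_le_of_lt (Complex.abs_im_le_norm _) h1
    rw [Complex.sub_im, abs_lt] at h2
    linarith [h2.1, him i hi]
  obtain ⟨n, hn⟩ : ∃ n : ℝ, n = t.card := ⟨_, rfl⟩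
  have hn0 : 0 ≤ n := by rw [hn]; (clear * -; positivity)
  -- the parameter `R`
  obtain ⟨R, hRR, hR⟩ : ∃ R : ℝ, R₀ ≤ R ∧ n * (C * Real.exp (-c * R ^ 2)) ≤ a / 4 := by
    have h1 : Tendsto (fun R : ℝ => n * (C * Real.exp (-c * R ^ 2))) atTop (𝓝 (n * (C * 0))) := by
      refine Tendsto.const_mul _ (Tendsto.const_mul _ ?_)
      refine Real.tendsto_exp_atBot.comp ?_
      have h2 : Tendsto (fun R : ℝ => c * R ^ 2) atTop atTop :=
        Tendsto.const_mul_atTop hc (tendsto_pow_atTop (by norm_num))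
      have h3 : (fun R : ℝ => -c * R ^ 2) = fun R => -(c * R ^ 2) := by
        funext R; ring
      rw [h3]
      exact tendsto_neg_atTop_atBot.comp h2
    rw [mul_zero, mul_zero] at h1
    have h2 : ∀ᶠ R : ℝ in atTop, n * (C * Real.exp (-c * R ^ 2)) ≤ a / 4 :=
      h1.eventually (ge_mem_nhds (by positivity))
    obtain ⟨R, hR1, hR2⟩ := ((eventually_ge_atTop R₀).and h2).exists
    exact ⟨R, hR1, hR2⟩
  have hR1 : 1 ≤ R := hR₀.trans hRR
  have hR0 : 0 < R := by linarith only [hR₀, hRR]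
  -- the parameter `ε₀`
  obtain ⟨ε₀, hε₀, hε₀'⟩ : ∃ ε₀ : ℝ, 0 < ε₀ ∧
      n * (C * R ^ C * (ε₀ / (1 / 10)) ^ c) ≤ a / 4 := by
    have h1 : Tendsto (fun e : ℝ => n * (C * R ^ C * (e / (1 / 10)) ^ c)) (𝓝[>] 0)
        (𝓝 (n * (C * R ^ C * 0))) := by
      refine Tendsto.mono_left ?_ nhdsWithin_le_nhds
      refine Tendsto.const_mul _ (Tendsto.const_mul _ ?_)
      have h2 : Continuous fun e : ℝ => (e / (1 / 10)) ^ c :=
        (continuous_id.div_const _).rpow_const fun _ => Or.inr hc.le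
      have h3 := h2.tendsto 0
      simp only [zero_div, Real.zero_rpow hc.ne'] at h3
      exact h3
    rw [mul_zero, mul_zero] at h1
    have h2 := h1.eventually (ge_mem_nhds (show (0 : ℝ) < a / 4 by positivity))
    obtain ⟨e, he1, he2⟩ := ((eventually_mem_nhdsWithin (a := (0 : ℝ)) (s := Ioi 0)).and h2).exists
    exact ⟨e, he1, he2⟩
  obtain ⟨lam, hlam⟩ : ∃ lam, lam = C * R ^ xx κ * (1 / 10 : ℝ) ^ dd κ := ⟨_, rfl⟩
  have hlam0 : 0 < lam := by rw [hlam]; positivity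
  refine ⟨a, a / (2 * (n + 1) * lam), min ε₀ (1 / 10), ha, by (clear * - ha hn0 hlam0; positivity), by positivity, ?_⟩
  intro Ω _ P W hW ε hε hεε
  have := hW.prob
  have hε1 : ε ≤ ε₀ := hεε.trans (min_le_left _ _)
  have hε2 : ε ≤ 1 / 10 := hεε.trans (min_le_right _ _)
  have hmeas : ∀ D : Set ℂ, Measurable fun ω => mu κ ε (fun u => W u ω) D 0 TT8 := by
    intro D
    have hjoint : Measurable (fun p : ℂ × Ω => yc κ ε (fun u => W u p.2) p.1 0 TT8) :=
      timeint_joint hW.cont hW.meas (aR_measurable κ ε) le_rfl hTT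
    exact (hjoint.stronglyMeasurable.integral_prod_left' (μ := volume.restrict D)).measurable
  obtain ⟨tau, htau⟩ : ∃ tau, tau = (C * Real.exp (-c * R ^ 2) +
      C * R ^ C * (ε / (1 / 10)) ^ c) * (1 / 10 : ℝ) ^ dd κ := ⟨_, rfl⟩
  have htau0 : 0 ≤ tau := by rw [htau]; (clear * - hC hR1 hε; positivity)
  rw [hn]
  refine LowGood_abs t (hmeas _) (Y := fun i ω => mu κ ε (fun u => W u ω) (ball i (1 / 10)) 0 TT8)
    (fun i _ => hmeas _) ha hlam0 htau0 (fun ω => ?_) (hfm hW hε (by linarith only [hε2])) (fun i hi => ?_) ?_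
  · refine ge_mu_le_sum h0 h8 hε (hW.cont ω) hTT t (fun i => ball i (1 / 10))
      (fun _ _ => measurableSet_ball) (fun i hi z hz => by linarith only [himb i hi z hz])
      (fun _ _ => measure_ball_lt_top.ne) measurableSet_ball ?_
    exact ball_subset_closedBall.trans hcov
  · have h1 := htail hW (z₀ := i) (ρ := 1 / 10) (R := R) (ε := ε) (t₀ := 0) (T := TT8)
      (by norm_num) (by linarith only [him i hi]) hRR hε hε2 le_rfl hTT (A := univ)
      MeasurableSet.univ (fun ω _ z hz => ⟨dom_zero.2 (by linarith only [himb i hi z hz]), by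
        rw [Uf_zero]
        apply Real.log_le_log (by norm_num)
        linarith only [himb i hi z hz]⟩)
    rw [univ_inter, measure_univ, mul_one, ← hlam, ← htau] at h1
    exact h1
  · rw [← hn, htau]
    have h1 : (1 / 10 : ℝ) ^ dd κ ≤ 1 := Real.rpow_le_one (by norm_num) (by norm_num) hdd.le
    have h2 : (ε / (1 / 10)) ^ c ≤ (ε₀ / (1 / 10)) ^ c := by
      apply Real.rpow_le_rpow (by positivity) _ hc.le
      (clear * - hε1; gcongr)
    calc n * ((C * Real.exp (-c * R ^ 2) + C * R ^ C * (ε / (1 / 10)) ^ c) * (1 / 10 : ℝ) ^ dd κ)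
        ≤ n * ((C * Real.exp (-c * R ^ 2) + C * R ^ C * (ε₀ / (1 / 10)) ^ c) * 1) := by
          (clear * - h2 hC hR1 h1 hε₀ hn0; gcongr)
      _ = n * (C * Real.exp (-c * R ^ 2)) + n * (C * R ^ C * (ε₀ / (1 / 10)) ^ c) := by ring
      _ ≤ a / 2 := by linarith only [hR, hε₀']

/-- As `GoodEv`, but only for sets of diameter `≥ √ε`. -/
def GoodEv8 (κ c₁ C₃ δ₀ ε : ℝ) (W : ℝ → ℝ) (T : ℝ) : Prop :=
  ∃ Ub : Set ℂ, MeasurableSet Ub ∧
    mu κ ε W (ball Complex.I (1 / 2) ∩ Ub) 0 T ≤ c₁ / 2 ∧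
    c₁ ≤ mu κ ε W (ball Complex.I (1 / 2)) 0 T ∧
    ∀ S : Set ℂ, MeasurableSet S → Bornology.IsBounded S → √ε ≤ diam S → diam S ≤ δ₀ →
      (S ∩ ball Complex.I (1 / 2) ⊆ Ub ∨
        mu κ ε W (S ∩ ball Complex.I (1 / 2)) 0 T ≤ C₃ * hh κ (diam S))

/-- The scales `m ∈ (m0, N)` with `2√ε ≤ geRho m` and their balls. -/
noncomputable def geF8 (ε : ℝ) (m0 N : ℕ) : Finset (Σ _ : ℕ, ℤ × ℤ) :=
  ((Finset.Ioo m0 N).filter (fun m => 2 * √ε ≤ geRho m)).sigma (fun m => geIdx m)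

/-- The bad balls. -/
noncomputable def geBad8 (κ ε C K T : ℝ) (m0 N : ℕ) (W : ℝ → ℝ) : Finset (Σ _ : ℕ, ℤ × ℤ) :=
  (geF8 ε m0 N).filter (fun x => geA κ C K x.1 ≤ mu κ ε W (geB x) 0 T)

lemma lowGood_geF8_mem {ε : ℝ} {m0 N : ℕ} {x : Σ _ : ℕ, ℤ × ℤ} :
    x ∈ geF8 ε m0 N ↔ (m0 < x.1 ∧ x.1 < N ∧ 2 * √ε ≤ geRho x.1) ∧ x.2 ∈ geIdx x.1 := by
  unfold geF8
  rw [Finset.mem_sigma, Finset.mem_filter, Finset.mem_Ioo]
  tauto

/-- Deterministic part: as `ge_det`, only the first alternative occurs: a set `S` with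
`√ε ≤ diam S = s ≤ geRho (m0+2)` and `geRho m/4 < s ≤ geRho m/2` has `2√ε ≤ geRho m`, `m0 < m`. -/
theorem ge_det8 {κ ε T c₁ C K : ℝ} (h0 : 0 < κ) (h8 : κ < 8) (hε : 0 < ε) (hT : 0 ≤ T)
    (hc₁ : 0 < c₁) (hC : 0 < C) (hK : 0 < K) {W : ℝ → ℝ} (hW : Continuous W) {m0 N : ℕ}
    (hm0 : 7 ≤ m0) (hN : ∀ m ≥ N, geRho m < 2 * √ε)
    (hsum : ∑ x ∈ geBad8 κ ε C K T m0 N W, ENNReal.ofReal (mu κ ε W (geB x) 0 T) ≤
      ENNReal.ofReal (c₁ / 2))
    (hmass : c₁ ≤ mu κ ε W (ball Complex.I (1 / 2)) 0 T) :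
    GoodEv8 κ c₁ (C * (2 * K) ^ (xx κ / 2) * 4 ^ dd κ) (geRho (m0 + 2)) ε W T := by
  classical
  have hmem : ∀ x ∈ geBad8 κ ε C K T m0 N W, x ∈ geF8 ε m0 N ∧
      geA κ C K x.1 ≤ mu κ ε W (geB x) 0 T := fun x hx => by
    unfold geBad8 at hx
    exact Finset.mem_filter.1 hx
  refine ⟨⋃ x ∈ geBad8 κ ε C K T m0 N W, geB x, ?_, ?_, hmass, ?_⟩
  · exact Finset.measurableSet_biUnion _ fun x _ => measurableSet_ball
  · have h1 := ge_mu_le_sum (κ := κ) (r := ε) (T := T) h0 h8 hε hW hT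
      (geBad8 κ ε C K T m0 N W) geB (fun x _ => measurableSet_ball)
      (fun x hx w hw => ge_im_pos (by have := (lowGood_geF8_mem.1 (hmem x hx).1).1.1; omega)
        (lowGood_geF8_mem.1 (hmem x hx).1).2 hw)
      (fun x _ => measure_ball_lt_top.ne)
      (A := ball Complex.I (1 / 2) ∩ ⋃ x ∈ geBad8 κ ε C K T m0 N W, geB x)
      (measurableSet_ball.inter (Finset.measurableSet_biUnion _ fun x _ => measurableSet_ball))
      inter_subset_right
    exact (ENNReal.ofReal_le_ofReal_iff (by positivity)).1 (h1.trans hsum)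
  · intro S hS hSb hεS hSd
    have hd0 : 0 < diam S := (Real.sqrt_pos.2 hε).trans_le hεS
    by_cases hne : (S ∩ ball Complex.I (1 / 2)).Nonempty
    swap
    · left
      rw [not_nonempty_iff_eq_empty.1 hne]
      exact empty_subset _
    obtain ⟨p, hpS, hpB⟩ := hne
    obtain ⟨n, hn1, hn2⟩ := exists_nat_pow_near_of_lt_one hd0
      (hSd.trans (by unfold geRho; exact pow_le_one₀ (by norm_num) (by norm_num)))
      (show (0 : ℝ) < 1 / 2 by norm_num) (show (1 / 2 : ℝ) < 1 by norm_num)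
    have hnm : m0 + 2 < n + 1 := by
      by_contra hcon
      push Not at hcon
      have h1 : ((1 : ℝ) / 2) ^ (m0 + 2) ≤ (1 / 2) ^ (n + 1) :=
        pow_le_pow_of_le_one (by norm_num) (by norm_num) hcon
      have h2 : diam S ≤ (1 / 2) ^ (m0 + 2) := hSd
      linarith only [hn1, h1, h2]
    obtain ⟨m, rfl⟩ : ∃ m, n = m + 1 := ⟨n - 1, by (clear * - hm0 hnm; omega)⟩
    have hm : m0 < m := by omega
    have hm7 : 7 ≤ m := by omega
    have hs1 : geRho m / 4 < diam S := by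
      have : geRho m / 4 = (1 / 2) ^ (m + 1 + 1) := by unfold geRho; ring
      rw [this]; exact hn1
    have hs2 : diam S ≤ geRho m / 2 := by
      have : geRho m / 2 = (1 / 2) ^ (m + 1) := by unfold geRho; ring
      rw [this]; exact hn2
    obtain ⟨q, hq, hqd⟩ := ge_near (m := m) (by (clear * - hm7; omega)) (mem_ball.1 hpB)
    have hsub : S ⊆ ball (gePt m q) (geRho m) := by
      intro w hw
      have h1 := dist_le_diam_of_mem hSb hw hpS
      have h2 := dist_triangle w p (gePt m q)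
      rw [mem_ball]
      linarith only [hs2, hqd, h1, h2]
    have hbim : ∀ w ∈ ball (gePt m q) (geRho m), 0 < w.im := fun w hw =>
      ge_im_pos hm7 hq hw
    have hmono : mu κ ε W (S ∩ ball Complex.I (1 / 2)) 0 T ≤
        mu κ ε W (ball (gePt m q) (geRho m)) 0 T :=
      ge_mu_mono h0 h8 hε hW hT measurableSet_ball hbim measure_ball_lt_top.ne
        (inter_subset_left.trans hsub)
    obtain ⟨hb1, -⟩ := ge_bound h0 h8 hm7 hs1 hs2 hK hC
    have hcase : 2 * √ε ≤ geRho m := by linarith only [hεS, hs2]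
    by_cases hbad : geA κ C K m ≤ mu κ ε W (geB ⟨m, q⟩) 0 T
    · left
      have hmN : m < N := by
        by_contra hcon
        push Not at hcon
        exact absurd (hN m hcon) (not_lt.2 hcase)
      have hx : (⟨m, q⟩ : Σ _ : ℕ, ℤ × ℤ) ∈ geBad8 κ ε C K T m0 N W := by
        unfold geBad8
        exact Finset.mem_filter.2 ⟨lowGood_geF8_mem.2 ⟨⟨hm, hmN, hcase⟩, hq⟩, hbad⟩
      intro w hw
      exact mem_iUnion₂.2 ⟨⟨m, q⟩, hx, hsub hw.1⟩
    · right
      push Not at hbad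
      have h3 : mu κ ε W (ball (gePt m q) (geRho m)) 0 T < geA κ C K m := hbad
      unfold geA at h3
      linarith only [hmono, hb1, h3]

/-- The majorant of the sum over scale `m`. -/
noncomputable def lowGoodG (c C : ℝ) (m : ℕ) : ℝ :=
  25 * C * (1 / (m : ℝ) ^ 3) +
    25 * C * (4 / c) ^ (C / 2) * ((m : ℝ) ^ (⌈C / 2⌉₊ + 1) * ((1 / 2 : ℝ) ^ c) ^ m)

theorem lowGood_summable {c C : ℝ} (hc : 0 < c) : Summable (lowGoodG c C) := by
  have h1 : Summable (fun m : ℕ => 1 / (m : ℝ) ^ 3) :=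
    Real.summable_one_div_nat_pow.2 (by norm_num)
  have h0 : ‖(1 / 2 : ℝ) ^ c‖ < 1 := by
    rw [Real.norm_of_nonneg (by (clear * -; positivity))]
    exact Real.rpow_lt_one (by norm_num) (by norm_num) hc
  have h2 : Summable (fun m : ℕ => (m : ℝ) ^ (⌈C / 2⌉₊ + 1) * ((1 / 2 : ℝ) ^ c) ^ m) :=
    summable_pow_mul_geometric_of_norm_lt_one _ h0
  exact (h1.mul_left (25 * C)).add (h2.mul_left (25 * C * (4 / c) ^ (C / 2)))

theorem lowGood_term {c C ε : ℝ} (hc : 0 < c) (hC : 0 < C) (hε : 0 < ε) {m : ℕ} (hm : 1 ≤ m)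
    (h : 2 * √ε ≤ geRho m) :
    25 * 4 ^ m * ((C * Real.exp (-c * Real.sqrt (4 / c * Real.log m) ^ 2) +
          C * Real.sqrt (4 / c * Real.log m) ^ C * (ε / geRho m) ^ c) *
          Real.log (1 / geRho m) * geRho m ^ 2) ≤ lowGoodG c C m := by
  have hm1 : (1 : ℝ) ≤ m := by exact_mod_cast hm
  have hm0 : (0 : ℝ) < m := by linarith only [hm1]
  have hlog : 0 ≤ Real.log m := Real.log_nonneg hm1
  have hρ := geRho_pos m
  have hR : 0 ≤ 4 / c * Real.log m := by positivity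
  have e1 : Real.exp (-c * Real.sqrt (4 / c * Real.log m) ^ 2) = 1 / (m : ℝ) ^ 4 := by
    rw [Real.sq_sqrt hR]
    have : -c * (4 / c * Real.log m) = -(4 * Real.log m) := by
      field_simp
    rw [this, Real.exp_neg, one_div]
    congr 1
    rw [show (4 : ℝ) * Real.log m = ((4 : ℕ) : ℝ) * Real.log m by norm_num, Real.exp_nat_mul,
      Real.exp_log hm0]
  have e2 : Real.log (1 / geRho m) ≤ m := by
    unfold geRho
    rw [one_div, ← inv_pow, Real.log_pow]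
    have h2 : Real.log ((1 / 2 : ℝ)⁻¹) ≤ 1 := by
      have : ((1 / 2 : ℝ)⁻¹) = 2 := by norm_num
      rw [this]
      linarith only [Real.log_two_lt_d9]
    calc (m : ℝ) * Real.log ((1 / 2 : ℝ)⁻¹) ≤ m * 1 := by gcongr
      _ = m := mul_one _
  have e2' : 0 ≤ Real.log (1 / geRho m) := by
    apply Real.log_nonneg
    rw [le_div_iff₀ hρ, one_mul]
    unfold geRho
    exact pow_le_one₀ (by (clear * -; norm_num)) (by norm_num)
  have e3 : Real.sqrt (4 / c * Real.log m) ^ C ≤ (4 / c) ^ (C / 2) * (m : ℝ) ^ ⌈C / 2⌉₊ := by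
    have h1 : Real.log m ≤ m := (Real.log_le_sub_one_of_pos hm0).trans (by linarith only [])
    calc Real.sqrt (4 / c * Real.log m) ^ C ≤ Real.sqrt (4 / c * m) ^ C := by (clear * - h1 hc hC; gcongr)
      _ = (4 / c * m) ^ (C / 2) := by
          rw [Real.sqrt_eq_rpow, ← Real.rpow_mul (by positivity)]
          congr 1
          ring
      _ = (4 / c) ^ (C / 2) * (m : ℝ) ^ (C / 2) := Real.mul_rpow (by positivity) hm0.le
      _ ≤ (4 / c) ^ (C / 2) * (m : ℝ) ^ ⌈C / 2⌉₊ := by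
          gcongr
          rw [← Real.rpow_natCast]
          exact Real.rpow_le_rpow_of_exponent_le hm1 (Nat.le_ceil _)
  have e4 : (ε / geRho m) ^ c ≤ ((1 / 2 : ℝ) ^ c) ^ m := by
    have h1 : ε / geRho m ≤ geRho m := by
      rw [div_le_iff₀ hρ]
      have h2 : √ε ≤ geRho m := by linarith only [h, hρ]
      calc ε = √ε * √ε := (Real.mul_self_sqrt hε.le).symm
        _ ≤ geRho m * geRho m := mul_le_mul h2 h2 (Real.sqrt_nonneg _) hρ.le
    calc (ε / geRho m) ^ c ≤ (geRho m) ^ c := by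
          apply Real.rpow_le_rpow (by (clear * - hε hρ; positivity)) h1 hc.le
      _ = ((1 / 2 : ℝ) ^ c) ^ m := by
          unfold geRho
          rw [← Real.rpow_natCast, ← Real.rpow_natCast, ← Real.rpow_mul (by norm_num),
            ← Real.rpow_mul (by norm_num), mul_comm]
  have e5 : (4 : ℝ) ^ m * geRho m ^ 2 = 1 := by
    unfold geRho
    rw [← pow_mul, mul_comm m 2, pow_mul, ← mul_pow]
    norm_num
  have key : (C * (1 / (m : ℝ) ^ 4) + C * Real.sqrt (4 / c * Real.log m) ^ C * (ε / geRho m) ^ c) *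
      Real.log (1 / geRho m) ≤
      C * (1 / (m : ℝ) ^ 3) + C * (4 / c) ^ (C / 2) *
        ((m : ℝ) ^ (⌈C / 2⌉₊ + 1) * ((1 / 2 : ℝ) ^ c) ^ m) := by
    calc (C * (1 / (m : ℝ) ^ 4) + C * Real.sqrt (4 / c * Real.log m) ^ C * (ε / geRho m) ^ c) *
          Real.log (1 / geRho m)
        ≤ (C * (1 / (m : ℝ) ^ 4) + C * ((4 / c) ^ (C / 2) * (m : ℝ) ^ ⌈C / 2⌉₊) *
            ((1 / 2 : ℝ) ^ c) ^ m) * m := by
          (clear * - e3 hC e4 hε hρ hc hm e2 e2'; gcongr)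
      _ = _ := by
          field_simp
          ring
  rw [e1]
  calc 25 * 4 ^ m * ((C * (1 / (m : ℝ) ^ 4) +
          C * Real.sqrt (4 / c * Real.log m) ^ C * (ε / geRho m) ^ c) *
          Real.log (1 / geRho m) * geRho m ^ 2)
      = 25 * ((4 : ℝ) ^ m * geRho m ^ 2) * ((C * (1 / (m : ℝ) ^ 4) +
          C * Real.sqrt (4 / c * Real.log m) ^ C * (ε / geRho m) ^ c) *
          Real.log (1 / geRho m)) := by ring
    _ = 25 * ((C * (1 / (m : ℝ) ^ 4) +
          C * Real.sqrt (4 / c * Real.log m) ^ C * (ε / geRho m) ^ c) *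
          Real.log (1 / geRho m)) := by rw [e5, mul_one]
    _ ≤ 25 * (C * (1 / (m : ℝ) ^ 3) + C * (4 / c) ^ (C / 2) *
        ((m : ℝ) ^ (⌈C / 2⌉₊ + 1) * ((1 / 2 : ℝ) ^ c) ^ m)) :=
        mul_le_mul_of_nonneg_left key (by norm_num)
    _ = lowGoodG c C m := by
        unfold lowGoodG
        ring

/-- The sum of the errors over the scales: `25·4^m` balls at scale `m`, `R_m² = (4/c) log m`
(`≥ R₀²` for `m > m0` large), `log (1/geRho m) ≤ m`, and `ε/geRho m ≤ geRho m/4` (from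
`2√ε ≤ geRho m`), so the second error term is `≤ C m^{C'} 2^{-cm}`: both are tails of convergent
series which do not depend on `ε`. -/
theorem ge_sum8 {c C : ℝ} (hc : 0 < c) (hC : 0 < C) {a : ℝ} (ha : 0 < a) :
    ∃ M : ℕ, ∀ m0 N : ℕ, M ≤ m0 → ∀ ε : ℝ, 0 < ε →
      ∑ x ∈ geF8 ε m0 N, ENNReal.ofReal
        ((C * Real.exp (-c * Real.sqrt (4 / c * Real.log x.1) ^ 2) +
          C * Real.sqrt (4 / c * Real.log x.1) ^ C * (ε / geRho x.1) ^ c) *
          Real.log (1 / geRho x.1) * geRho x.1 ^ 2) ≤ ENNReal.ofReal a := by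
  obtain ⟨s, hs⟩ := summable_iff_vanishing_norm.1 (lowGood_summable (C := C) hc) a ha
  obtain ⟨M, hM⟩ : ∃ M : ℕ, ∀ i ∈ s, i < M := ⟨s.sup id + 1, fun i hi =>
    Nat.lt_succ_of_le (Finset.le_sup (f := id) hi)⟩
  refine ⟨M, fun m0 N hm0 ε hε => ?_⟩
  set F := (Finset.Ioo m0 N).filter (fun m => 2 * √ε ≤ geRho m) with hF
  have hpos : ∀ m : ℕ, 1 ≤ m → 0 ≤ lowGoodG c C m := fun m _ => by
    unfold lowGoodG
    (clear a ha s hs M hM m0 N hm0 ε hε F hF; positivity)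
  have hmem : ∀ m ∈ F, 1 ≤ m ∧ M ≤ m ∧ 2 * √ε ≤ geRho m := fun m hm => by
    rw [hF, Finset.mem_filter, Finset.mem_Ioo] at hm
    exact ⟨by (clear * - hm0 hm; omega), by omega, hm.2⟩
  calc ∑ x ∈ geF8 ε m0 N, ENNReal.ofReal
        ((C * Real.exp (-c * Real.sqrt (4 / c * Real.log x.1) ^ 2) +
          C * Real.sqrt (4 / c * Real.log x.1) ^ C * (ε / geRho x.1) ^ c) *
          Real.log (1 / geRho x.1) * geRho x.1 ^ 2)
      = ∑ m ∈ F, ((geIdx m).card : ℝ≥0∞) * ENNReal.ofReal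
        ((C * Real.exp (-c * Real.sqrt (4 / c * Real.log m) ^ 2) +
          C * Real.sqrt (4 / c * Real.log m) ^ C * (ε / geRho m) ^ c) *
          Real.log (1 / geRho m) * geRho m ^ 2) := by
        unfold geF8
        rw [Finset.sum_sigma]
        refine Finset.sum_congr rfl fun m _ => ?_
        dsimp only
        rw [Finset.sum_const, nsmul_eq_mul]
    _ ≤ ∑ m ∈ F, ENNReal.ofReal (lowGoodG c C m) := by
        refine Finset.sum_le_sum fun m hm => ?_
        obtain ⟨h1, -, h3⟩ := hmem m hm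
        rw [show ((geIdx m).card : ℝ≥0∞) = ENNReal.ofReal ((geIdx m).card : ℝ) by simp only [ENNReal.ofReal_natCast],
          ← ENNReal.ofReal_mul (Nat.cast_nonneg _)]
        refine ENNReal.ofReal_le_ofReal (le_trans ?_ (lowGood_term hc hC hε h1 h3))
        refine mul_le_mul_of_nonneg_right (geIdx_card m) ?_
        have hρ := geRho_pos m
        have e2' : 0 ≤ Real.log (1 / geRho m) := by
          apply Real.log_nonneg
          rw [le_div_iff₀ hρ, one_mul]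
          unfold geRho
          exact pow_le_one₀ (by norm_num) (by norm_num)
        (clear * - hC hε hρ e2'; positivity)
    _ = ENNReal.ofReal (∑ m ∈ F, lowGoodG c C m) :=
        (ENNReal.ofReal_sum_of_nonneg fun m hm => hpos m (hmem m hm).1).symm
    _ ≤ ENNReal.ofReal a := by
        refine ENNReal.ofReal_le_ofReal ?_
        have hd : Disjoint F s := by
          rw [Finset.disjoint_left]
          intro m hm hms
          exact absurd (hM m hms) (not_lt.2 (hmem m hm).2.1)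
        exact (le_abs_self _).trans (hs F hd).le

lemma LowGood_geF8_mem {ε : ℝ} {m0 N : ℕ} {x : Σ _ : ℕ, ℤ × ℤ} :
    x ∈ geF8 ε m0 N ↔ (m0 < x.1 ∧ x.1 < N ∧ 2 * √ε ≤ geRho x.1) ∧ x.2 ∈ geIdx x.1 := by
  unfold geF8
  rw [Finset.mem_sigma, Finset.mem_filter, Finset.mem_Ioo]
  (clear * -; tauto)

/-- `2√ε ≤ ρ ≤ 1/100` gives `ε ≤ ρ/8`. -/
lemma LowGood_eps_le {ε ρ : ℝ} (hε : 0 < ε) (h : 2 * √ε ≤ ρ) (hρ : ρ ≤ 1 / 100) : ε ≤ ρ / 8 := by
  have h1 := Real.sq_sqrt hε.le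
  have h2 := Real.sqrt_nonneg ε
  nlinarith

/-- The scales are eventually smaller than `2√ε`. -/
lemma LowGood_exists_N {ε : ℝ} (hε : 0 < ε) : ∃ N : ℕ, ∀ m ≥ N, geRho m < 2 * √ε := by
  have h0 : 0 < 2 * √ε := by (clear * - hε; positivity)
  obtain ⟨N, hN⟩ := exists_pow_lt_of_lt_one h0 (show (1 / 2 : ℝ) < 1 by norm_num)
  refine ⟨N, fun m hm => (geRho_anti hm).trans_lt ?_⟩
  exact hN

/-- The sum over the bad balls as a sum of indicators. -/
lemma LowGood_sum_bad {κ ε C K T : ℝ} {m0 N : ℕ} (W : ℝ → ℝ) :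
    ∑ x ∈ geBad8 κ ε C K T m0 N W, ENNReal.ofReal (mu κ ε W (geB x) 0 T) =
      ∑ x ∈ geF8 ε m0 N, {y : ℝ | geA κ C K x.1 ≤ y}.indicator ENNReal.ofReal
        (mu κ ε W (geB x) 0 T) := by
  unfold geBad8
  rw [Finset.sum_filter]
  refine Finset.sum_congr rfl fun x _ => ?_
  by_cases h : geA κ C K x.1 ≤ mu κ ε W (geB x) 0 T
  · rw [if_pos h, indicator_of_mem (by exact h)]
  · rw [if_neg h, indicator_of_notMem (by exact h)]

/-- Markov's inequality and the union bound for the good event. -/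
lemma LowGood_prob {Ω : Type*} [MeasurableSpace Ω] {P : Measure Ω} {c₁ c₂ : ℝ} (hc₁ : 0 < c₁)
    (hc₂ : 0 < c₂) {B : Ω → ℝ≥0∞} (hBm : Measurable B) {H : Set Ω}
    (hEB : ∫⁻ ω, B ω ∂P ≤ ENNReal.ofReal (c₁ * c₂ / 8)) (hH : ENNReal.ofReal c₂ ≤ P H) :
    ENNReal.ofReal (c₂ / 2) ≤ P ({ω | B ω < ENNReal.ofReal (c₁ / 2)} ∩ H) := by
  have hMk : P {ω | ENNReal.ofReal (c₁ / 2) ≤ B ω} ≤ ENNReal.ofReal (c₂ / 2) := by
    refine (meas_ge_le_lintegral_div hBm.aemeasurable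
      (by simpa only [ne_eq, ENNReal.ofReal_eq_zero, not_le, Nat.ofNat_pos, div_pos_iff_of_pos_right] using hc₁) ENNReal.ofReal_ne_top).trans ?_
    refine (ENNReal.div_le_div_right hEB _).trans ?_
    rw [← ENNReal.ofReal_div_of_pos (by (clear * - hc₁; positivity))]
    apply ENNReal.ofReal_le_ofReal
    rw [div_le_iff₀ (by positivity)]
    nlinarith [mul_pos hc₁ hc₂]
  have h2 : H ⊆ ({ω | B ω < ENNReal.ofReal (c₁ / 2)} ∩ H) ∪
      {ω | ENNReal.ofReal (c₁ / 2) ≤ B ω} := by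
    intro ω hω
    rcases lt_or_ge (B ω) (ENNReal.ofReal (c₁ / 2)) with h | h
    · exact Or.inl ⟨h, hω⟩
    · exact Or.inr h
  have h3 := (hH.trans (measure_mono h2)).trans (measure_union_le _ _)
  have h4 : ENNReal.ofReal c₂ = ENNReal.ofReal (c₂ / 2) + ENNReal.ofReal (c₂ / 2) := by
    rw [← ENNReal.ofReal_add (by positivity) (by positivity)]
    congr 1
    ring
  rw [h4] at h3
  exact (ENNReal.add_le_add_iff_right ENNReal.ofReal_ne_top).1
    (h3.trans (add_le_add_right hMk _))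

/-- The good event; it belongs to the past of time `TT8`. Proof as `good_event`: `mass_lower`,
`disc_bad` (`ε ≤ geRho m/8` because `ε ≤ geRho m ²/4`), `ge_sum8` with `a = c₁c₂/8`, Markov, and
`ge_det8`; measurability with respect to `past W TT8`: `discBad_mu_past`. -/
theorem good_event {κ : ℝ} (h0 : 0 < κ) (h8 : κ < 8) :
    ∃ c₁ C₃ δ₀ c₂ ε₀ : ℝ, 0 < c₁ ∧ 0 < C₃ ∧ 0 < δ₀ ∧ 0 < c₂ ∧ 0 < ε₀ ∧
      ∀ {Ω : Type*} [MeasurableSpace Ω] {P : Measure Ω} {W : ℝ → Ω → ℝ} (_ : IsDrv κ P W)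
      {ε : ℝ} (_ : 0 < ε) (_ : ε ≤ ε₀),
      ∃ G : Set Ω, MeasurableSet[past W TT8] G ∧ ENNReal.ofReal c₂ ≤ P G ∧
        ∀ ω ∈ G, GoodEv8 κ c₁ C₃ δ₀ ε (fun u => W u ω) TT8 := by
  obtain ⟨c₁, c₂, ε₀, hc₁, hc₂, hε₀, hmass⟩ := mass_lower h0 h8
  obtain ⟨c, C, R₀, hc, hC, hR₀, hdisc⟩ := disc_bad h0 h8
  have hx : 0 < xx κ := by unfold xx; linarith only [h8]
  have hT : 0 ≤ TT8 := by unfold TT8; positivity
  obtain ⟨M, hM⟩ := ge_sum8 hc hC (a := c₁ * c₂ / 8) (by positivity)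
  obtain ⟨K, hKdef⟩ : ∃ K : ℝ, K = 4 / c := ⟨_, rfl⟩
  rw [← hKdef] at hM
  have hK : 0 < K := by rw [hKdef]; positivity
  obtain ⟨n1, hn1⟩ := exists_nat_ge (Real.exp (R₀ ^ 2 / K))
  obtain ⟨m0, hm0def⟩ : ∃ m0 : ℕ, m0 = max 7 (max n1 M) := ⟨_, rfl⟩
  have hm0 : 7 ≤ m0 := hm0def ▸ le_max_left _ _
  have hm1 : Real.exp (R₀ ^ 2 / K) ≤ m0 :=
    hn1.trans (by rw [hm0def]; exact_mod_cast (le_max_left n1 M).trans (le_max_right _ _))
  have hm2 : M ≤ m0 := hm0def ▸ (le_max_right n1 M).trans (le_max_right _ _)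
  refine ⟨c₁, C * (2 * K) ^ (xx κ / 2) * 4 ^ dd κ, geRho (m0 + 2), c₂ / 2, ε₀, hc₁,
    by (clear * - hC hK; positivity), geRho_pos _, by positivity, hε₀, ?_⟩
  intro Ω _ P W hW ε hε hεle
  obtain ⟨N, hN⟩ := LowGood_exists_N hε
  have hYp : ∀ x : (Σ _ : ℕ, ℤ × ℤ),
      Measurable[past W TT8] (fun ω => mu κ ε (fun u => W u ω) (geB x) 0 TT8) := fun x =>
    discBad_mu_past hW le_rfl hT (geB x)
  have hind : ∀ x : (Σ _ : ℕ, ℤ × ℤ),
      Measurable ({y : ℝ | geA κ C K x.1 ≤ y}.indicator ENNReal.ofReal) := fun x =>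
    ENNReal.measurable_ofReal.indicator (measurableSet_le measurable_const measurable_id)
  obtain ⟨B, hB⟩ : ∃ B : Ω → ℝ≥0∞, B = fun ω => ∑ x ∈ geF8 ε m0 N,
      {y : ℝ | geA κ C K x.1 ≤ y}.indicator ENNReal.ofReal
        (mu κ ε (fun u => W u ω) (geB x) 0 TT8) := ⟨_, rfl⟩
  have hBp : Measurable[past W TT8] B := by
    rw [hB]
    exact Finset.measurable_fun_sum _ fun x _ => (hind x).comp (hYp x)
  have hBm : Measurable B := hBp.mono hW.past_le le_rfl
  have hBx : ∀ x : (Σ _ : ℕ, ℤ × ℤ), Measurable (fun ω =>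
      {y : ℝ | geA κ C K x.1 ≤ y}.indicator ENNReal.ofReal
        (mu κ ε (fun u => W u ω) (geB x) 0 TT8)) := fun x =>
    ((hind x).comp (hYp x)).mono hW.past_le le_rfl
  have hEB : ∫⁻ ω, B ω ∂P ≤ ENNReal.ofReal (c₁ * c₂ / 8) := by
    rw [hB]
    change ∫⁻ ω, ∑ x ∈ geF8 ε m0 N, {y : ℝ | geA κ C K x.1 ≤ y}.indicator ENNReal.ofReal
        (mu κ ε (fun u => W u ω) (geB x) 0 TT8) ∂P ≤ _
    rw [lintegral_finsetSum _ fun x _ => hBx x]
    refine le_trans (Finset.sum_le_sum fun x hx => ?_) (hM m0 N hm2 ε hε)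
    obtain ⟨⟨hx1, hx2, hx3⟩, hx4⟩ := LowGood_geF8_mem.1 hx
    have hx7 : 7 ≤ x.1 := by omega
    have hRR : R₀ ≤ Real.sqrt (K * Real.log x.1) := by
      apply Real.le_sqrt_of_sq_le
      have h1 : R₀ ^ 2 / K ≤ Real.log x.1 := by
        rw [Real.le_log_iff_exp_le (by
          have : (7 : ℝ) ≤ x.1 := by exact_mod_cast hx7
          linarith only [this])]
        have : (m0 : ℝ) ≤ x.1 := by exact_mod_cast hx1.le
        linarith only [hm1, this]
      rw [div_le_iff₀ hK] at h1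
      linarith only [h1]
    refine le_trans (le_of_eq ?_) (hdisc hW (z₀ := gePt x.1 x.2) (ρ := geRho x.1) (ε := ε)
      (R := Real.sqrt (K * Real.log x.1)) (T := TT8) (geRho_pos _) (geRho_seven hx7)
      (geIdx_dist hx4) hRR hε (LowGood_eps_le hε hx3 (geRho_seven hx7)) hT)
    have hms : MeasurableSet {ω | C * Real.sqrt (K * Real.log x.1) ^ xx κ * geRho x.1 ^ dd κ ≤
        mu κ ε (fun u => W u ω) (ball (gePt x.1 x.2) (geRho x.1)) 0 TT8} :=
      measurableSet_le measurable_const ((hYp x).mono hW.past_le le_rfl)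
    rw [← lintegral_indicator hms]
    rfl
  refine ⟨{ω | B ω < ENNReal.ofReal (c₁ / 2)} ∩
    {ω | c₁ ≤ mu κ ε (fun u => W u ω) (ball Complex.I (1 / 2)) 0 TT8}, ?_, ?_, ?_⟩
  · exact (measurableSet_lt hBp measurable_const).inter
      (measurableSet_le measurable_const (discBad_mu_past hW le_rfl hT _))
  · exact LowGood_prob hc₁ hc₂ hBm hEB (hmass hW hε hεle)
  · rintro ω ⟨hω1, hω2⟩
    refine ge_det8 h0 h8 hε hT hc₁ hC hK (hW.cont ω) hm0 hN ?_ hω2
    rw [LowGood_sum_bad]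
    refine le_trans (le_of_eq ?_) (le_of_lt hω1)
    rw [hB]

end Vale.Agent.P164.E8
end

section

/-!
# Y-LOW4, auxiliary file for `vis_pos`

The positivity argument for a general compact set `E` of the closed ball such that the points of
the ball outside any open neighbourhood of `E` eventually collect no content.
-/

namespace Vale.Agent.P164.E8

open Set Metric Filter Topology MeasureTheory ProbabilityTheory
open scoped NNReal ENNReal

lemma lowVisPosAux_sqrt_le {d : ℝ} (hd : 0 < d) :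
    ∀ᶠ n : ℕ in atTop, √(Real.exp (-(n : ℝ))) ≤ d := by
  have h1 : Tendsto (fun n : ℕ => Real.exp (-(n : ℝ))) atTop (𝓝 0) :=
    Real.tendsto_exp_neg_atTop_nhds_zero.comp tendsto_natCast_atTop_atTop
  filter_upwards [h1.eventually_le_const (show (0 : ℝ) < d ^ 2 by (clear * - hd; positivity))] with n hn
  exact (Real.sqrt_le_left hd.le).2 hn

theorem lowVisPosAux_main {κ : ℝ} (h0 : 0 < κ) (h8 : κ < 8) {h : ℝ → ℝ} (hh' : IsGauge h)
    {r₀ : ℝ} (hr₀ : 0 < r₀) (hhr : ∀ r, 0 < r → r < r₀ → h r = hh κ r) {c₁ C₃ δ₀ : ℝ}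
    (hc₁ : 0 < c₁) (hC₃ : 0 < C₃) (hδ₀ : 0 < δ₀) {W : ℝ → ℝ} (hW : Continuous W)
    {T : ℝ} (hT : 0 < T) {E : Set ℂ} (hEc : IsCompact E)
    (hyc : ∀ V : Set ℂ, IsOpen V → E ⊆ V → ∀ᶠ n : ℕ in atTop,
      ∀ z ∈ ball Complex.I (1 / 2), z ∉ V → yc κ (Real.exp (-n)) W z 0 T = 0)
    (hfreq : ∃ᶠ n : ℕ in atTop, GoodEv8 κ c₁ C₃ δ₀ (Real.exp (-n)) W T) :
    0 < gaugeMeasure h E := by
  rw [pos_iff_ne_zero]
  intro hzero
  -- constants
  set η : ℝ := c₁ / (8 * C₃) with hη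
  have hηpos : 0 < η := by positivity
  set δ : ℝ := min δ₀ r₀ / 4 with hδ
  have hδpos : 0 < δ := by
    have := lt_min hδ₀ hr₀
    positivity
  have hδ1 : 2 * δ ≤ δ₀ := by
    have := min_le_left δ₀ r₀
    rw [hδ]; linarith only [hδ₀, this]
  have hδ2 : 2 * δ < r₀ := by
    have := min_le_right δ₀ r₀
    rw [hδ]; linarith only [hr₀, this]
  -- the cover
  have hpre : pre h δ E < ENNReal.ofReal η :=
    lt_of_le_of_lt (pre_le_gaugeMeasure h hδpos E) (by rw [hzero]; exact ENNReal.ofReal_pos.2 hηpos)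
  obtain ⟨U, hU1, hU2, hU3⟩ := exists_cover hpre
  obtain ⟨ε, hεpos, hεsum⟩ := ENNReal.exists_pos_sum_of_countable
    (ENNReal.ofReal_pos.2 hηpos).ne' ℕ
  have hD : ∀ j, ∃ D' : ℝ, Metric.diam (U j) < D' ∧ D' ≤ Metric.diam (U j) + δ ∧
      h D' ≤ h (Metric.diam (U j)) + ε j := fun j =>
    hh'.enlarge Metric.diam_nonneg (by exact_mod_cast hεpos j) hδpos
  choose D' hD1 hD2 hD3 using hD
  set V : ℕ → Set ℂ := fun j => thickening ((D' j - Metric.diam (U j)) / 2) (U j) with hV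
  have hVo : ∀ j, IsOpen (V j) := fun j => isOpen_thickening
  have hVb : ∀ j, Bornology.IsBounded (V j) := fun j => (hU2 j).1.thickening
  have hVd : ∀ j, Metric.diam (V j) ≤ D' j := by
    intro j
    have h1 : 0 ≤ (D' j - Metric.diam (U j)) / 2 := by linarith only [hD1 j]
    refine (Metric.diam_thickening_le (U j) h1).trans ?_
    linarith only []
  have hVd2 : ∀ j, Metric.diam (V j) ≤ 2 * δ := fun j => by
    linarith only [hVd j, hD2 j, (hU2 j).2]
  have hUV : ∀ j, U j ⊆ V j := fun j => self_subset_thickening (by linarith only [hD1 j]) _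
  obtain ⟨J, hJ⟩ := hEc.elim_finite_subcover V hVo
    (hU1.trans (iUnion_mono hUV))
  set VV : Set ℂ := ⋃ j ∈ J, V j with hVV
  have hVVo : IsOpen VV := isOpen_biUnion fun j _ => hVo j
  -- choice of the level
  have hev : ∀ᶠ n : ℕ in atTop, ∀ z ∈ ball Complex.I (1 / 2), z ∉ VV →
      yc κ (Real.exp (-n)) W z 0 T = 0 := hyc VV hVVo hJ
  have hev2 : ∀ᶠ n : ℕ in atTop, ∀ j ∈ J, (V j).Nonempty →
      √(Real.exp (-(n : ℝ))) ≤ Metric.diam (V j) := by
    rw [Filter.eventually_all_finset]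
    intro j hj
    by_cases hne : (V j).Nonempty
    · obtain ⟨x, hx⟩ := hne
      filter_upwards [lowVisPosAux_sqrt_le (diam_pos_of_open (hVo j) (hVb j) hx)] with n hn
      exact fun _ => hn
    · exact Eventually.of_forall fun n hn => absurd hn hne
  obtain ⟨n, ⟨Ub, hUb, hmu1, hmu2, hmu3⟩, hn, hn2⟩ :=
    (hfreq.and_eventually (hev.and hev2)).exists
  set r : ℝ := Real.exp (-(n : ℝ)) with hr
  have hrpos : 0 < r := Real.exp_pos _
  classical
  set B : Set ℂ := ball Complex.I (1 / 2) with hB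
  have hBcl : B ⊆ closedBall Complex.I (1 / 2) := ball_subset_closedBall
  set J' : Finset ℕ := J.filter (fun j => ¬ (V j ∩ B ⊆ Ub)) with hJ'
  have key := mu_le_of_cover (κ := κ) (r := r) (W := W) (T := T) h0 h8 hrpos hW hT.le
    (B := B) (A := Ub) measurableSet_ball
    (fun z hz => by
      have := im_gt_of_mem_ball_I (hBcl hz)
      linarith only [this]) measure_ball_lt_top.ne hUb J' V (fun j _ => (hVo j).measurableSet)
    (fun z hzB hzA hzV => by
      refine hn z hzB ?_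
      intro hzVV
      obtain ⟨j, hj, hjz⟩ := mem_iUnion₂.1 hzVV
      by_cases hsub : V j ∩ B ⊆ Ub
      · exact hzA (hsub ⟨hjz, hzB⟩)
      · exact hzV j (Finset.mem_filter.2 ⟨hj, hsub⟩) hjz)
  have hterm : ∀ j ∈ J', mu κ r W (V j ∩ B) 0 T ≤ C₃ * (h (Metric.diam (U j)) + ε j) := by
    intro j hj
    obtain ⟨hjJ, hjU⟩ := Finset.mem_filter.1 hj
    obtain ⟨x, hx, -⟩ := Set.not_subset.1 hjU
    rcases hmu3 (V j) (hVo j).measurableSet (hVb j) (hn2 j hjJ ⟨x, hx.1⟩)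
      ((hVd2 j).trans hδ1) with h1 | h1
    · exact absurd h1 hjU
    · refine h1.trans (mul_le_mul_of_nonneg_left ?_ hC₃.le)
      have hpos := diam_pos_of_open (hVo j) (hVb j) hx.1
      rw [← hhr _ hpos (lt_of_le_of_lt (hVd2 j) hδ2)]
      refine le_trans ?_ (hD3 j)
      exact hh'.mono (mem_Ici.2 hpos.le) (mem_Ici.2 (hpos.le.trans (hVd j))) (hVd j)
  have hs1 : ∑ j ∈ J', h (Metric.diam (U j)) ≤ η := by
    have h1 : ENNReal.ofReal (∑ j ∈ J', h (Metric.diam (U j))) ≤ ENNReal.ofReal η := by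
      rw [ENNReal.ofReal_sum_of_nonneg fun j _ => hh'.nonneg Metric.diam_nonneg]
      exact (ENNReal.sum_le_tsum J').trans hU3.le
    exact (ENNReal.ofReal_le_ofReal_iff hηpos.le).1 h1
  have hs2 : ∑ j ∈ J', (ε j : ℝ) ≤ η := by
    have h1 : ENNReal.ofReal (∑ j ∈ J', (ε j : ℝ)) ≤ ENNReal.ofReal η := by
      rw [ENNReal.ofReal_sum_of_nonneg fun j _ => (ε j).coe_nonneg]
      simp_rw [ENNReal.ofReal_coe_nnreal]
      exact (ENNReal.sum_le_tsum J').trans hεsum.le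
    exact (ENNReal.ofReal_le_ofReal_iff hηpos.le).1 h1
  have hsum : ∑ j ∈ J', mu κ r W (V j ∩ B) 0 T ≤ C₃ * (2 * η) := by
    refine (Finset.sum_le_sum hterm).trans ?_
    rw [← Finset.mul_sum, Finset.sum_add_distrib]
    refine mul_le_mul_of_nonneg_left ?_ hC₃.le
    linarith only [hs1, hs2]
  have hCη : C₃ * (2 * η) = c₁ / 4 := by
    rw [hη]
    field_simp
    ring
  linarith only [hc₁, hmu1, hmu2, key, hsum, hCη]

end Vale.Agent.P164.E8
end

section

/-!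
# Y-LOW4. The visited set and the positivity of its gauge measure
-/

namespace Vale.Agent.P164.E8

open Set Metric Filter Topology MeasureTheory ProbabilityTheory
open scoped NNReal ENNReal

/-- The points of the upper half-plane which are visited during `[0,T]`. -/
def Vis (W : ℝ → ℝ) (T : ℝ) : Set ℂ :=
  {z | 0 < z.im ∧ ∀ v : ℝ, ∃ t ∈ Icc 0 T, z ∈ loewnerDomain W t ∧ Uf W z t < v}

/-- Limits of points with small `Υ` are visited. If not, there is `ρ > 0` with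
`log (20ρ) ≤ U_z(t)` at all alive times `t ≤ T`; for large `n`, `z_n ∈ ball z ρ`, and `low_far` gives
`U_{z_n}(t_n) ≥ log (ρ/2)`: contradiction. -/
theorem vis_limit {W : ℝ → ℝ} (hW : Continuous W) {T : ℝ} {z : ℂ} (hz : 0 < z.im)
    {zn : ℕ → ℂ} {tn : ℕ → ℝ} (hlim : Tendsto zn atTop (𝓝 z)) (htn : ∀ n, tn n ∈ Icc 0 T)
    (hal : ∀ n, zn n ∈ loewnerDomain W (tn n))
    (hU : Tendsto (fun n => Uf W (zn n) (tn n)) atTop atBot) : z ∈ Vis W T := by
  refine ⟨hz, fun v => ?_⟩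
  by_contra hcon
  push Not at hcon
  have hρ : 0 < Real.exp v / 20 := by positivity
  have hlog : Real.log (20 * (Real.exp v / 20)) = v := by
    rw [mul_div_cancel₀ _ (by norm_num : (20 : ℝ) ≠ 0), Real.log_exp]
  have h1 : ∀ᶠ n in atTop, zn n ∈ ball z (Real.exp v / 20) :=
    hlim.eventually (ball_mem_nhds z hρ)
  have h2 := hU.eventually_lt_atBot (Real.log (Real.exp v / 20 / 2))
  obtain ⟨n, hn1, hn2⟩ := (h1.and h2).exists
  have h3 := (low_far (T := T) hW hz hρ (fun t ht hzt => by rw [hlog]; exact hcon t ht hzt) hn1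
    (htn n) (hal n)).2
  exact absurd hn2 (not_lt.2 h3)

theorem lowVis_im {z : ℂ} (hz : z ∈ closedBall Complex.I (1 / 2)) : 0 < z.im := by
  have h1 : |(z - Complex.I).im| ≤ ‖z - Complex.I‖ := Complex.abs_im_le_norm _
  have h2 : ‖z - Complex.I‖ ≤ 1 / 2 := by
    rw [← dist_eq_norm]
    exact mem_closedBall.1 hz
  have h3 := (abs_le.1 (h1.trans h2)).1
  rw [Complex.sub_im, Complex.I_im] at h3
  linarith

/-- Relative closedness. -/
theorem vis_closed {W : ℝ → ℝ} (hW : Continuous W) (T : ℝ) :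
    IsCompact (Vis W T ∩ closedBall Complex.I (1 / 2)) := by
  refine (isCompact_closedBall Complex.I (1 / 2)).of_isClosed_subset ?_ inter_subset_right
  refine IsSeqClosed.isClosed ?_
  intro zn z hzn hlim
  have hzb : z ∈ closedBall Complex.I (1 / 2) :=
    isClosed_closedBall.mem_of_tendsto hlim (Eventually.of_forall fun n => (hzn n).2)
  have hex : ∀ n : ℕ, ∃ t ∈ Icc 0 T, zn n ∈ loewnerDomain W t ∧ Uf W (zn n) t < -(n : ℝ) :=
    fun n => (hzn n).1.2 _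
  choose tn htn hal hU using hex
  refine ⟨vis_limit hW (lowVis_im hzb) hlim htn hal ?_, hzb⟩
  refine tendsto_atBot_mono (fun n => (hU n).le) ?_
  exact tendsto_neg_atTop_atBot.comp tendsto_natCast_atTop_atTop

/-- If an open set contains the visited points of the closed ball, then for all small `ε` every
point of the ball outside it collects no content (`vis_limit`, compactness). -/
theorem vis_yc_zero {κ : ℝ} {W : ℝ → ℝ} (hW : Continuous W) {T : ℝ} (hT : 0 ≤ T) {V : Set ℂ}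
    (hV : IsOpen V) (hc : Vis W T ∩ closedBall Complex.I (1 / 2) ⊆ V) :
    ∀ᶠ n : ℕ in atTop, ∀ z ∈ ball Complex.I (1 / 2), z ∉ V →
      yc κ (Real.exp (-n)) W z 0 T = 0 := by
  by_contra hcon
  obtain ⟨φ, hφ, hφP⟩ := Filter.extraction_of_frequently_atTop (Filter.not_eventually.1 hcon)
  have hex : ∀ k : ℕ, ∃ z ∈ ball Complex.I (1 / 2), z ∉ V ∧ ∃ t ∈ Icc 0 T,
      z ∈ loewnerDomain W t ∧ Uf W z t < 1 - (φ k : ℝ) := by
    intro k
    have h1 := hφP k
    push Not at h1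
    obtain ⟨z, hz, hzV, hne⟩ := h1
    refine ⟨z, hz, hzV, ?_⟩
    by_contra hno
    push Not at hno
    apply hne
    have h2 : ∫ u in (0 : ℝ)..T, St (aR κ (Real.exp (-(φ k : ℝ)))) W z u =
        ∫ u in (0 : ℝ)..T, (0 : ℝ) := by
      refine intervalIntegral.integral_congr fun u hu => ?_
      rw [uIcc_of_le hT] at hu
      by_cases hd : z ∈ loewnerDomain W u
      · have h3 := hno u hu hd
        rw [St_of_mem hd, aR, Real.log_exp, phi_eq_zero (Or.inr (by linarith only [h3])), mul_zero,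
          zero_mul]
      · simp only [St, if_neg hd]
    rw [yc, h2]
    simp
  choose zn hzn hznV tn htn hal hU using hex
  obtain ⟨z, hz, ψ, hψ, hlim⟩ := (isCompact_closedBall Complex.I (1 / 2)).tendsto_subseq
    (fun k => ball_subset_closedBall (hzn k))
  have hUl : Tendsto (fun n => Uf W ((zn ∘ ψ) n) ((tn ∘ ψ) n)) atTop atBot := by
    refine tendsto_atBot_mono (fun n => (hU (ψ n)).le) ?_
    have h4 : Tendsto (fun n => ((φ (ψ n) : ℕ) : ℝ)) atTop atTop :=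
      tendsto_natCast_atTop_atTop.comp (hφ.tendsto_atTop.comp hψ.tendsto_atTop)
    have h5 := tendsto_atBot_add_const_left atTop (1 : ℝ) (tendsto_neg_atTop_atBot.comp h4)
    refine h5.congr fun n => ?_
    simp only [Function.comp]
    ring
  have hzVis : z ∈ Vis W T := vis_limit hW (lowVis_im hz) hlim (fun n => htn (ψ n))
    (fun n => hal (ψ n)) hUl
  have hzV : z ∈ V := hc ⟨hzVis, hz⟩
  obtain ⟨n, hn⟩ := (hlim.eventually (hV.mem_nhds hzV)).exists
  exact hznV (ψ n) hn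

/-- Positivity. As `pos_of_goodEv` (G/PosGood.lean), with `Vis W T ∩ closedBall I (1/2)` instead of
the trace, `vis_closed` for the finite subcover by bounded open sets `V_j` (with positive
diameters, so `√ε ≤ diam V_j` for small `ε`), `vis_yc_zero`, `mu_le_of_cover`. -/
theorem vis_pos {κ : ℝ} (h0 : 0 < κ) (h8 : κ < 8) {h : ℝ → ℝ} (hh' : IsGauge h)
    {r₀ : ℝ} (hr₀ : 0 < r₀) (hhr : ∀ r, 0 < r → r < r₀ → h r = hh κ r) {c₁ C₃ δ₀ : ℝ}
    (hc₁ : 0 < c₁) (hC₃ : 0 < C₃) (hδ₀ : 0 < δ₀) {W : ℝ → ℝ} (hW : Continuous W)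
    {T : ℝ} (hT : 0 < T)
    (hfreq : ∃ᶠ n : ℕ in atTop, GoodEv8 κ c₁ C₃ δ₀ (Real.exp (-n)) W T) :
    0 < gaugeMeasure h (Vis W T ∩ closedBall Complex.I (1 / 2)) :=
  lowVisPosAux_main h0 h8 hh' hr₀ hhr hc₁ hC₃ hδ₀ hW hT (vis_closed hW T)
    (fun _ hV hc => vis_yc_zero hW hT.le hV hc) hfreq

/-- Scaling of the visited set. -/
theorem vis_scale {W : ℝ → ℝ} (hW : Continuous W) {r T : ℝ} (hr : 0 < r) {z : ℂ}
    (hz : z ∈ Vis (scaleW r W) T) : (r : ℂ) * z ∈ Vis W (r ^ 2 * T) := by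
  obtain ⟨hz0, hv⟩ := hz
  refine ⟨?_, fun v => ?_⟩
  · rw [Complex.im_ofReal_mul]
    positivity
  · obtain ⟨t, ht, hd, hU⟩ := hv (v - Real.log r)
    refine ⟨r ^ 2 * t, ⟨by have := ht.1; (clear * - hr this; positivity),
      mul_le_mul_of_nonneg_left ht.2 (by positivity)⟩, (dom_scale hr ht.1).1 hd, ?_⟩
    rw [Uf_scale hW hr ht.1 hd]
    linarith

/-- The visited set of the restarted path is mapped into the trace: `z` is alive at `s`,
`Z_z(s) ∈ Vis (shiftW s W) u`. For every `v` there is `t' ≤ u` with `z` alive at `s + t'` and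
`U_z(s+t') = U_z(s) + U' - log Im Z_z(s)` small (`dom_shift`, `Uf_shift`), so (`le_exp_Uf`) the ball
`ball z r`, `r` small with `ball z r ⊆ loewnerDomain W s`, contains a point which is dead at
`s + t'`, and `trace_near_segment` gives a point of `γ '' Icc s (s+t')` in `ball z r`. Let
`r → 0`: `γ '' Icc s (s+u)` is compact. -/
theorem vis_trace {W : ℝ → ℝ} (hW : Continuous W) {γ : ℝ → ℂ} (hγ : IsTrace W γ) {s u : ℝ}
    (hs : 0 ≤ s) (hu : 0 ≤ u) {z : ℂ} (hz : z ∈ loewnerDomain W s)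
    (hv : Zf W z s ∈ Vis (shiftW s W) u) : z ∈ γ '' Icc s (s + u) := by
  have hK : IsClosed (γ '' Icc s (s + u)) := by
    refine (isCompact_Icc.image_of_continuousOn (hγ.cont.mono ?_)).isClosed
    intro x hx
    exact hs.trans hx.1
  rw [← hK.closure_eq, Metric.mem_closure_iff]
  intro ε hε
  obtain ⟨ρ, hρ, hρs⟩ := Metric.isOpen_iff.1 (isOpen_dom hW hs) z hz
  set r : ℝ := min ρ ε with hr
  have hr0 : 0 < r := lt_min hρ hε
  have hb : ball z r ⊆ loewnerDomain W s := (ball_subset_ball (min_le_left _ _)).trans hρs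
  obtain ⟨t, ht, hd, hU⟩ := hv.2 (Real.log (r / 4) - Uf W z s + Real.log (Zf W z s).im)
  have hd' : z ∈ loewnerDomain W (s + t) := (dom_shift hW hs ht.1 hz).2 hd
  have hU' : Uf W z (s + t) < Real.log (r / 4) := by
    rw [Uf_shift hW hs ht.1 hd']
    linarith only [hU]
  have hex : ∃ w ∈ ball z r, w ∉ loewnerDomain W (s + t) := by
    by_contra hcon
    push Not at hcon
    have h1 := le_exp_Uf hW (add_nonneg hs ht.1) hr0 hcon
    have h2 : Real.exp (Uf W z (s + t)) < r / 4 := by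
      rw [← Real.exp_log (by (clear * - hρ hε; positivity) : 0 < r / 4)]
      exact Real.exp_lt_exp.2 hU'
    linarith only [hr0, h1, h2]
  obtain ⟨w, hw, hw'⟩ := hex
  obtain ⟨p, hp, hpb⟩ := trace_near_segment hγ hs (by linarith only [ht.1] : s ≤ s + t) hd' hb hw hw'
  refine ⟨p, image_mono (Icc_subset_Icc le_rfl (by linarith only [ht.2])) hp, ?_⟩
  rw [dist_comm]
  exact (mem_ball.1 hpb).trans_le (min_le_right _ _)

/-- Preimages under the flow of subsets of compact sets: `F` is the image of the preimage under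
`Zf W · s`, which is Lipschitz on compact subsets of the domain (`flow_lipschitz`); the preimage
of `K` is compact (continuous inverse `invflow`, Koebe.lean); use `(setProp_zero hh).lip`. -/
theorem pre_pos {h : ℝ → ℝ} (hh' : IsGauge h) {W : ℝ → ℝ} (hW : Continuous W) {s : ℝ}
    (hs : 0 ≤ s) {K F : Set ℂ} (hK : IsCompact K) (hKim : ∀ z ∈ K, 0 < z.im) (hF : F ⊆ K)
    (hpos : 0 < gaugeMeasure h F) :
    0 < gaugeMeasure h {z | z ∈ loewnerDomain W s ∧ Zf W z s ∈ F} := by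
  rw [pos_iff_ne_zero]
  intro hzero
  have hWc : ContinuousOn W (Icc 0 s) := hW.continuousOn
  have hcont : ContinuousOn (invflow W s) K := fun w hw =>
    (hasDerivAt_invflow hs hWc (hKim w hw)).continuousAt.continuousWithinAt
  have hPK : IsCompact (invflow W s '' K) := hK.image_of_continuousOn hcont
  have hsub : invflow W s '' K ⊆ loewnerDomain W s := by
    rintro _ ⟨w, hw, rfl⟩
    exact invflow_mem hs hWc (hKim w hw)
  obtain ⟨L, hL⟩ := flow_lipschitz hs hWc hPK hsub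
  have hP : {z | z ∈ loewnerDomain W s ∧ Zf W z s ∈ F} ⊆ invflow W s '' K := by
    rintro z ⟨hz1, hz2⟩
    exact ⟨Zf W z s, hF hz2, invflow_flow hs hWc hz1⟩
  have h0 := (setProp_zero hh').lip (hL.mono hP) hzero
  have h1 : F ⊆ flow W s '' {z | z ∈ loewnerDomain W s ∧ Zf W z s ∈ F} := by
    intro w hw
    have him := hKim w (hF hw)
    refine ⟨invflow W s w, ⟨invflow_mem hs hWc him, ?_⟩, flow_invflow hs hWc him⟩
    have : Zf W (invflow W s w) s = w := flow_invflow hs hWc him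
    rw [this]
    exact hw
  have h2 : gaugeMeasure h F = 0 := (setProp_zero hh').mono h1 h0
  exact hpos.ne' h2

/-- Combination: positivity for a segment from positivity for the visited set of a rescaled
restarted path. `F = (r : ℂ) • (Vis ∩ closedBall)` has positive measure (Lipschitz), is contained
in the compact set `closedBall (r I) (r/2)` and in `Vis (shiftW s W) (r²T)` (`vis_scale`), then
`pre_pos`, `vis_trace`, monotonicity. -/
theorem seg_pos_of_vis {h : ℝ → ℝ} (hh' : IsGauge h) {W : ℝ → ℝ} (hW : Continuous W)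
    {γ : ℝ → ℂ} (hγ : IsTrace W γ) {s u r T : ℝ} (hs : 0 ≤ s) (hT : 0 ≤ T) (hr : 0 < r)
    (hru : r ^ 2 * T ≤ u)
    (hpos : 0 < gaugeMeasure h (Vis (scaleW r (shiftW s W)) T ∩ closedBall Complex.I (1 / 2))) :
    0 < gaugeMeasure h (γ '' Icc s (s + u)) := by
  have hWs : Continuous (shiftW s W) := by
    unfold shiftW
    exact (hW.comp (continuous_const.add continuous_id)).sub continuous_const
  set F₀ : Set ℂ := Vis (scaleW r (shiftW s W)) T ∩ closedBall Complex.I (1 / 2) with hF₀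
  set K : Set ℂ := (fun z : ℂ => (r : ℂ) * z) '' closedBall Complex.I (1 / 2) with hK
  set F : Set ℂ := (fun z : ℂ => (r : ℂ) * z) '' F₀ with hF
  have hKc : IsCompact K := (isCompact_closedBall _ _).image (continuous_const.mul continuous_id)
  have hKim : ∀ z ∈ K, 0 < z.im := by
    rintro _ ⟨z, hz, rfl⟩
    have h1 := im_gt_of_mem_ball_I hz
    rw [Complex.im_ofReal_mul]
    positivity
  have hFK : F ⊆ K := image_mono inter_subset_right
  have hrc : (r : ℂ) ≠ 0 := by exact_mod_cast hr.ne'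
  have hFpos : 0 < gaugeMeasure h F := by
    rw [pos_iff_ne_zero]
    intro h0
    have hlip : LipschitzOnWith (Real.toNNReal r⁻¹) (fun z : ℂ => ((r⁻¹ : ℝ) : ℂ) * z) F := by
      refine LipschitzOnWith.of_dist_le_mul fun x _ y _ => ?_
      rw [dist_eq_norm, dist_eq_norm, ← mul_sub, norm_mul, Complex.norm_real, Real.norm_eq_abs,
        abs_of_pos (inv_pos.2 hr), Real.coe_toNNReal _ (inv_pos.2 hr).le]
    have h1 := (setProp_zero hh').lip hlip h0
    have h2 : (fun z : ℂ => ((r⁻¹ : ℝ) : ℂ) * z) '' F = F₀ := by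
      rw [hF, image_image]
      convert image_id F₀ using 1
      refine image_congr fun z _ => ?_
      rw [id, ← mul_assoc, Complex.ofReal_inv, inv_mul_cancel₀ hrc, one_mul]
    rw [h2] at h1
    exact hpos.ne' h1
  have h3 := pre_pos hh' hW hs hKc hKim hFK hFpos
  refine h3.trans_le (gaugeMeasure_mono h ?_)
  rintro z ⟨hz1, w, hw, hwz⟩
  have h4 : (r : ℂ) * w ∈ Vis (shiftW s W) (r ^ 2 * T) := vis_scale hWs hr hw.1
  have hu : 0 ≤ r ^ 2 * T := by (clear * - hr hT; positivity)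
  have h5 : Zf W z s ∈ Vis (shiftW s W) (r ^ 2 * T) := by
    rw [← hwz]
    exact h4
  have h6 := vis_trace hW hγ hs hu hz1 h5
  exact image_mono (Icc_subset_Icc_right (by linarith only [hru])) h6

end Vale.Agent.P164.E8
end

section

/-!
# Y-LOW5. Positivity of all segments, almost surely
-/

namespace Vale.Agent.P164.E8

open Set Metric Filter Topology MeasureTheory ProbabilityTheory
open scoped NNReal ENNReal

/-- The past of the rescaled restarted process is a germ σ-field. -/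
theorem past_scale_shift_le {Ω : Type*} [MeasurableSpace Ω] {W : ℝ → Ω → ℝ} {s r T : ℝ}
    (hs : 0 ≤ s) (hr : 0 < r) (hT : 0 ≤ T) :
    past (scaleP r (shiftP s W)) T ≤ germ W s (r ^ 2 * T) := by
  refine iSup_le fun u => ?_
  have hu0 := u.2.1
  have hu1 := u.2.2
  have hr2 : 0 ≤ r ^ 2 := by positivity
  have h1 : Measurable[germ W s (r ^ 2 * T)] (fun ω => W (s + r ^ 2 * u) ω - W s ω) :=
    meas_germ (mul_nonneg hr2 hu0) (mul_le_mul_of_nonneg_left hu1 hr2)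
  exact (h1.const_mul r⁻¹).comap_le

theorem LowSeg_freq_eq {Ω : Type*} (A : ℕ → Set Ω) (K₀ : ℕ) :
    {ω | ∃ᶠ n : ℕ in atTop, ω ∈ A n} = ⋂ N : ℕ, ⋃ n : ℕ, A (n + N + K₀) := by
  ext ω
  simp only [mem_ofPred_eq, mem_iInter, mem_iUnion, frequently_atTop]
  constructor
  · intro h N
    obtain ⟨b, hb, hb'⟩ := h (N + K₀)
    refine ⟨b - (N + K₀), ?_⟩
    have e : b - (N + K₀) + N + K₀ = b := by omega
    rw [e]
    exact hb'
  · intro h a
    obtain ⟨n, hn⟩ := h a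
    exact ⟨n + a + K₀, by omega, hn⟩

theorem LowSeg_meas_freq {Ω : Type*} (m : MeasurableSpace Ω) {A : ℕ → Set Ω} (K₀ : ℕ)
    (hA : ∀ n, K₀ ≤ n → MeasurableSet[m] (A n)) :
    MeasurableSet[m] {ω | ∃ᶠ n : ℕ in atTop, ω ∈ A n} := by
  rw [LowSeg_freq_eq A K₀]
  exact MeasurableSet.iInter fun N => MeasurableSet.iUnion fun n => hA _ (by omega)

theorem LowSeg_freq_ge {Ω : Type*} [MeasurableSpace Ω] (P : Measure Ω) [IsFiniteMeasure P]
    {A : ℕ → Set Ω} (hA : ∀ n, MeasurableSet (A n)) {c : ℝ≥0∞} (K₀ : ℕ)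
    (hc : ∀ n, K₀ ≤ n → c ≤ P (A n)) : c ≤ P {ω | ∃ᶠ n : ℕ in atTop, ω ∈ A n} := by
  rw [LowSeg_freq_eq A K₀, Antitone.measure_iInter]
  · refine le_iInf fun N => ?_
    exact (hc (0 + N + K₀) (by omega)).trans
      (measure_mono (subset_iUnion (fun n : ℕ => A (n + N + K₀)) 0))
  · intro M N hMN
    refine iUnion_subset fun n => ?_
    have e : n + N + K₀ = (n + (N - M)) + M + K₀ := by omega
    change A (n + N + K₀) ⊆ _
    rw [e]
    exact subset_iUnion (fun n : ℕ => A (n + M + K₀)) (n + (N - M))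
  · exact fun N => (MeasurableSet.iUnion fun n => hA _).nullMeasurableSet
  · exact ⟨0, measure_ne_top _ _⟩

/-- For fixed `s`, almost surely for infinitely many `k` the good event occurs for infinitely many
`n` for the path rescaled by `2^{-k}`. `G_{k,n}` from `good_event` for
`scaleP (2^{-k}) (shiftP s W)` (`IsDrv.shift`, `IsDrv.scale`) with `ε = e^{-n}`;
`G_k = limsup_n G_{k,n}` has `P ≥ c₂` (reverse Fatou, `P` finite) and belongs to
`germ W s (4^{-k} TT8)`; `limsup_k G_k` has `P ≥ c₂`, belongs to all germ σ-fields, so it has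
probability one (`blumenthal`). -/
theorem good_frequently {κ : ℝ} (h0 : 0 < κ) (h8 : κ < 8) :
    ∃ c₁ C₃ δ₀ : ℝ, 0 < c₁ ∧ 0 < C₃ ∧ 0 < δ₀ ∧
      ∀ {Ω : Type*} [MeasurableSpace Ω] {P : Measure Ω} {W : ℝ → Ω → ℝ} (_ : IsDrv κ P W)
      {s : ℝ} (_ : 0 ≤ s), ∀ᵐ ω ∂P, ∃ᶠ k : ℕ in atTop, ∃ᶠ n : ℕ in atTop,
        GoodEv8 κ c₁ C₃ δ₀ (Real.exp (-n))
          (scaleW ((1 / 2) ^ k) (shiftW s (fun u => W u ω))) TT8 := by
  obtain ⟨c₁, C₃, δ₀, c₂, ε₀, hc₁, hC₃, hδ₀, hc₂, hε₀, hgood⟩ := good_event h0 h8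
  refine ⟨c₁, C₃, δ₀, hc₁, hC₃, hδ₀, ?_⟩
  intro Ω _ P W hW s hs
  have hprob := hW.prob
  have hr : ∀ k : ℕ, (0 : ℝ) < (1 / 2) ^ k := fun k => by positivity
  have hWk : ∀ k : ℕ, IsDrv κ P (scaleP ((1 / 2) ^ k) (shiftP s W)) :=
    fun k => (hW.shift hs).scale (hr k)
  have hT : (0 : ℝ) ≤ TT8 := by unfold TT8; norm_num
  -- small `ε`
  obtain ⟨N₀, hN₀⟩ : ∃ N₀ : ℕ, ∀ n : ℕ, N₀ ≤ n → Real.exp (-n) ≤ ε₀ := by
    have h1 : Tendsto (fun n : ℕ => Real.exp (-(n : ℝ))) atTop (𝓝 0) :=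
      Real.tendsto_exp_neg_atTop_nhds_zero.comp tendsto_natCast_atTop_atTop
    exact eventually_atTop.1 (h1.eventually (ge_mem_nhds hε₀))
  have hex : ∀ k n : ℕ, ∃ G : Set Ω,
      MeasurableSet[past (scaleP ((1 / 2) ^ k) (shiftP s W)) TT8] G ∧
      (N₀ ≤ n → ENNReal.ofReal c₂ ≤ P G) ∧
      ∀ ω ∈ G, GoodEv8 κ c₁ C₃ δ₀ (Real.exp (-n))
        (scaleW ((1 / 2) ^ k) (shiftW s (fun u => W u ω))) TT8 := by
    intro k n
    by_cases hn : N₀ ≤ n
    · obtain ⟨G, hG1, hG2, hG3⟩ := hgood (hWk k) (Real.exp_pos (-(n : ℝ))) (hN₀ n hn)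
      exact ⟨G, hG1, fun _ => hG2, hG3⟩
    · exact ⟨∅, @MeasurableSet.empty Ω (past (scaleP ((1 / 2) ^ k) (shiftP s W)) TT8),
        fun h => absurd h hn, fun ω hω => absurd hω (notMem_empty ω)⟩
  choose G hG1 hG2 hG3 using hex
  set H : ℕ → Set Ω := fun k => {ω | ∃ᶠ n : ℕ in atTop, ω ∈ G k n} with hH
  have hHm : ∀ k, MeasurableSet[past (scaleP ((1 / 2) ^ k) (shiftP s W)) TT8] (H k) :=
    fun k => LowSeg_meas_freq _ 0 fun n _ => hG1 k n
  have hHP : ∀ k, ENNReal.ofReal c₂ ≤ P (H k) := fun k =>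
    LowSeg_freq_ge P (fun n => (hWk k).past_le _ (hG1 k n)) N₀ (hG2 k)
  set F : Set Ω := {ω | ∃ᶠ k : ℕ in atTop, ω ∈ H k} with hF
  have hFP : ENNReal.ofReal c₂ ≤ P F :=
    LowSeg_freq_ge P (fun k => (hWk k).past_le _ (hHm k)) 0 fun k _ => hHP k
  have hFm : ∀ ε : ℝ, 0 < ε → MeasurableSet[germ W s ε] F := by
    intro ε hε
    have h1 : Tendsto (fun k : ℕ => (((1 : ℝ) / 2) ^ k) ^ 2 * TT8) atTop (𝓝 0) := by
      have h2 : Tendsto (fun k : ℕ => ((1 : ℝ) / 2) ^ k) atTop (𝓝 0) :=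
        tendsto_pow_atTop_nhds_zero_of_lt_one (by norm_num) (by norm_num)
      have h3 := (h2.pow 2).mul_const TT8
      simpa only [one_div, inv_pow, ne_eq, OfNat.ofNat_ne_zero, not_false_eq_true, zero_pow, zero_mul] using h3
    obtain ⟨K₀, hK₀⟩ := eventually_atTop.1 (h1.eventually (ge_mem_nhds hε))
    refine LowSeg_meas_freq _ K₀ fun k hk => ?_
    exact ((past_scale_shift_le hs (hr k) hT).trans (germ_mono (hK₀ k hk))) _ (hHm k)
  have hF1 : P F = 1 := by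
    rcases blumenthal hW hs hFm with h | h
    · rw [h] at hFP
      exact absurd (ENNReal.ofReal_pos.2 hc₂) (not_lt.2 hFP)
    · exact h
  have hFmeas : MeasurableSet F :=
    ((germ_le_past hs zero_le_one).trans hW.past_le) _ (hFm 1 one_pos)
  have hae : ∀ᵐ ω ∂P, ω ∈ F := by
    rw [ae_iff]
    exact (prob_compl_eq_zero_iff hFmeas).2 hF1
  filter_upwards [hae] with ω hω
  exact Frequently.mono hω fun k hk => Frequently.mono hk fun n hn => hG3 k n ω hn

/-- Positivity of all segments. For rational `s ≥ 0` and all `u > 0`: `good_frequently`,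
`vis_pos`, `seg_pos_of_vis` with `r = 2^{-k}`, `4^{-k} TT8 ≤ u`; for general `s < t` take a rational
`s' ∈ (s,t)` and use monotonicity. -/
theorem pos_segments {κ : ℝ} (h0 : 0 < κ) (h8 : κ < 8) {h : ℝ → ℝ} (hh' : IsGauge h)
    {r₀ : ℝ} (hr₀ : 0 < r₀) (hhr : ∀ r, 0 < r → r < r₀ → h r = hh κ r)
    {Ω : Type*} [MeasurableSpace Ω] {P : Measure Ω} {W : ℝ → Ω → ℝ} (hW : IsDrv κ P W)
    {γ : Ω → ℝ → ℂ} (hγ : ∀ᵐ ω ∂P, IsTrace (fun u => W u ω) (γ ω)) :
    ∀ᵐ ω ∂P, ∀ s t : ℝ, 0 ≤ s → s < t → 0 < gaugeMeasure h (γ ω '' Icc s t) := by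
  obtain ⟨c₁, C₃, δ₀, hc₁, hC₃, hδ₀, hgf⟩ := good_frequently h0 h8
  have hTT : 0 < TT8 := by
    have h4 : (0 : ℝ) < 4 * 10 ^ 7 := by norm_num
    exact h4
  have hall : ∀ᵐ ω ∂P, ∀ q : ℚ, 0 ≤ (q : ℝ) → ∃ᶠ k : ℕ in atTop, ∃ᶠ n : ℕ in atTop,
      GoodEv8 κ c₁ C₃ δ₀ (Real.exp (-n))
        (scaleW ((1 / 2) ^ k) (shiftW (q : ℝ) (fun u => W u ω))) TT8 := by
    rw [ae_all_iff]
    intro q
    by_cases hq : 0 ≤ (q : ℝ)
    · filter_upwards [hgf hW hq] with ω hω _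
      exact hω
    · exact Eventually.of_forall fun ω hq' => absurd hq' hq
  filter_upwards [hall, hγ] with ω hω hγω s t hs hst
  obtain ⟨q, hsq, hqt⟩ := exists_rat_btwn hst
  have hq0 : (0 : ℝ) ≤ q := hs.trans hsq.le
  have hu : 0 < t - (q : ℝ) := by linarith only [hqt]
  have hcont : Continuous (fun u => W u ω) := hW.cont ω
  -- eventually `4^{-k} TT8 ≤ t - q`
  have htend : Tendsto (fun k : ℕ => (((1 / 2 : ℝ) ^ k) ^ 2) * TT8) atTop (𝓝 0) := by
    have h1 : Tendsto (fun k : ℕ => (1 / 2 : ℝ) ^ k) atTop (𝓝 0) :=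
      tendsto_pow_atTop_nhds_zero_of_lt_one (by norm_num) (by norm_num)
    have h2 := (h1.pow 2).mul_const TT8
    simpa only [one_div, inv_pow, ne_eq, OfNat.ofNat_ne_zero, not_false_eq_true, zero_pow, zero_mul] using h2
  have hev : ∀ᶠ k : ℕ in atTop, (((1 / 2 : ℝ) ^ k) ^ 2) * TT8 ≤ t - q :=
    htend.eventually_le_const hu
  obtain ⟨k, hk, hku⟩ := ((hω q hq0).and_eventually hev).exists
  have hr : (0 : ℝ) < (1 / 2) ^ k := by positivity
  have hsc : Continuous (scaleW ((1 / 2) ^ k) (shiftW (q : ℝ) (fun u => W u ω))) := by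
    have hsh : Continuous (shiftW (q : ℝ) (fun u => W u ω)) :=
      (hcont.comp (continuous_const.add continuous_id)).sub continuous_const
    exact continuous_const.mul (hsh.comp (continuous_const.mul continuous_id))
  have hpos := vis_pos h0 h8 hh' hr₀ hhr hc₁ hC₃ hδ₀ hsc hTT hk
  have hseg := seg_pos_of_vis hh' hcont hγω hq0 hTT.le hr hku hpos
  refine hseg.trans_le (gaugeMeasure_mono h (image_mono ?_))
  rw [show (q : ℝ) + (t - q) = t by ring]
  exact Icc_subset_Icc_left hsq.le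

end Vale.Agent.P164.E8
end
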