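import Vale.Agent.P164.MathlibUsed
import Vale.Agent.P164.Bdl.B12
import Vale.Agent.P164.Bdl.B14
import Vale.Agent.P164.Bdl.B13
import Vale.Agent.P164.Bdl.B5
import Vale.Agent.P164.Bdl.B10

set_option linter.all false

section

/-!
# Counting the good steps (deterministic)
-/

namespace Vale.Agent.P164

open Set Metric Filter Topology MeasureTheory
open scoped NNReal ENNReal

/-- Restart at time `t₀` and rescale by `Y`. -/
lemma restart {W : ℝ → ℝ} {z : ℂ} {t₀ Y s : ℝ} (hW : Continuous W) (ht : 0 ≤ t₀) (hY : 0 < Y)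
    (hs : 0 ≤ s) (hz : z ∈ loewnerDomain W t₀)
    (h : (Y : ℂ)⁻¹ * Zf W z t₀ ∈ loewnerDomain (scaleW Y (shiftW t₀ W)) s) :
    z ∈ loewnerDomain W (t₀ + Y ^ 2 * s) ∧
      Zf W z (t₀ + Y ^ 2 * s) =
        (Y : ℂ) * Zf (scaleW Y (shiftW t₀ W)) ((Y : ℂ)⁻¹ * Zf W z t₀) s ∧
      Uf W z (t₀ + Y ^ 2 * s) = Uf W z t₀ +
        (Real.log Y + Uf (scaleW Y (shiftW t₀ W)) ((Y : ℂ)⁻¹ * Zf W z t₀) s -
          Real.log (Zf W z t₀).im) := by
  have hYc : (Y : ℂ) ≠ 0 := by exact_mod_cast hY.ne'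
  have hW' : Continuous (shiftW t₀ W) := by unfold shiftW; (clear * - hW; fun_prop)
  have e : (Y : ℂ) * ((Y : ℂ)⁻¹ * Zf W z t₀) = Zf W z t₀ := by (clear * - hYc; field_simp)
  have hYs : 0 ≤ Y ^ 2 * s := by (clear * - hY hs; positivity)
  have h1 := (dom_scale hY hs).1 h
  rw [e] at h1
  have h2 := (dom_shift hW ht hYs hz).2 h1
  have h3 := Zf_scale hW' hY hs h
  have h4 := Uf_scale hW' hY hs h
  rw [e] at h3 h4
  refine ⟨h2, ?_, ?_⟩
  · rw [Zf_shift hW ht hYs h2, h3]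
  · rw [Uf_shift hW ht hYs h2, h4]

/-- Going back in time by a short step. -/
lemma back_step {W : ℝ → ℝ} {z : ℂ} {t₁ t₂ c : ℝ} (hW : Continuous W) (h0 : 0 ≤ t₁)
    (h12 : t₁ ≤ t₂) (hz : z ∈ loewnerDomain W t₂) (hc : 0 < c) (him : c ≤ (Zf W z t₂).im) :
    z ∈ loewnerDomain W t₁ ∧ c ≤ (Zf W z t₁).im ∧
      ‖Zf W z t₁ - Zf W z t₂‖ ≤ |W t₂ - W t₁| + 2 / c * (t₂ - t₁) ∧
      Uf W z t₂ ≤ Uf W z t₁ ∧ Uf W z t₁ ≤ Uf W z t₂ + (2 / c) ^ 2 * (t₂ - t₁) := by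
  have hz1 := dom_mono h12 hz
  have hsub : Icc t₁ t₂ ⊆ Icc 0 t₂ := Icc_subset_Icc_left h0
  have him' : ∀ s ∈ Icc t₁ t₂, c ≤ (Zf W z s).im := fun s hs =>
    him.trans (im_le_of_le (h0.trans hs.1) hs.2 hz)
  refine ⟨hz1, him' t₁ ⟨le_rfl, h12⟩, ?_, Uf_le hW h0 h12 hz, ?_⟩
  · have hb : ∀ s ∈ Icc t₁ t₂, ‖2 / Zf W z s‖ ≤ 2 / c := by
      intro s hs
      rw [norm_div, RCLike.norm_ofNat]
      have h6 : c ≤ ‖Zf W z s‖ :=
        (him' s hs).trans ((le_abs_self _).trans (Complex.abs_im_le_norm _))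
      (clear * - hc h6; gcongr)
    have h5 := (convex_Icc t₁ t₂).norm_image_sub_le_of_norm_hasDerivWithin_le
      (f := gf W z) (fun s hs => (gf_hasDeriv hz (hsub hs)).mono hsub) hb
      (right_mem_Icc.2 h12) (left_mem_Icc.2 h12)
    rw [Real.norm_eq_abs, abs_sub_comm, abs_of_nonneg (sub_nonneg.2 h12)] at h5
    have e : Zf W z t₁ - Zf W z t₂ = (gf W z t₁ - gf W z t₂) + ((W t₂ - W t₁ : ℝ) : ℂ) := by
      rw [Zf_eq, Zf_eq]; push_cast; ring
    rw [e]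
    refine (norm_add_le _ _).trans ?_
    rw [Complex.norm_real, Real.norm_eq_abs]
    linarith only [h5]
  · have hb : ∀ s ∈ Icc t₁ t₂, ‖-rate (Zf W z s)‖ ≤ (2 / c) ^ 2 := by
      intro s hs
      rw [norm_neg, Real.norm_eq_abs, abs_of_nonneg (rate_nonneg _)]
      exact rate_le_of_im hc (him' s hs)
    have h5 := (convex_Icc t₁ t₂).norm_image_sub_le_of_norm_hasDerivWithin_le
      (f := Uf W z) (fun s hs => (Uf_hasDeriv hW hz (hsub hs)).mono hsub) hb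
      (right_mem_Icc.2 h12) (left_mem_Icc.2 h12)
    rw [Real.norm_eq_abs, Real.norm_eq_abs, abs_sub_comm t₁ t₂,
      abs_of_nonneg (sub_nonneg.2 h12)] at h5
    have := le_abs_self (Uf W z t₁ - Uf W z t₂)
    linarith only [h5, this]

/-- From the state of a visited point to the lattice points next to the reference point. -/
lemma good_of_state {K : ℝ} (hK : 1 ≤ K) :
    ∃ K₃ : ℝ, 1 ≤ K₃ ∧ ∀ {W : ℝ → ℝ} (_ : Continuous W) {t D q η : ℝ} (_ : 0 ≤ t) (_ : 0 < D)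
      (_ : 0 < q) {z ζ : ℂ} (_ : z ∈ loewnerDomain W t) (_ : ζ ∈ loewnerDomain W t)
      (_ : Zf W ζ t = (η : ℝ) * Complex.I) (_ : ‖Zf W z t‖ ≤ K * D) (_ : D / K ≤ (Zf W z t).im)
      (_ : D / K ≤ η) (_ : η ≤ K * D) (_ : q / K ≤ Real.exp (Uf W z t))
      (_ : Real.exp (Uf W z t) ≤ K * q),
      dist ζ z ≤ K₃ * q ∧ ∀ z' : ℂ, dist ζ z' ≤ q / (800 * K₃) →
        z' ∈ loewnerDomain W t ∧ dist (Zf W z' t) ((η : ℝ) * Complex.I) ≤ η / 10 ∧
          q / (40 * K₃) ≤ Real.exp (Uf W z' t) ∧ Real.exp (Uf W z' t) ≤ 40 * K₃ * q := by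
  have hK0 : 0 < K := by linarith only [hK]
  obtain ⟨CH, hCH, H⟩ := harnack_chain (A := 2 * K ^ 2) (by positivity)
  have hCH0 : 0 < CH := by linarith only [hCH]
  refine ⟨CH * K, one_le_mul_of_one_le_of_one_le hCH hK, ?_⟩
  intro W hW t D q η ht hD hq z ζ hz hζ hZζ hn him hη1 hη2 hU1 hU2
  have hη0 : 0 < η := lt_of_lt_of_le (by positivity) hη1
  have hζim : (Zf W ζ t).im = η := by rw [hZζ]; simp
  have hζn : ‖Zf W ζ t‖ = η := by
    rw [hZζ, norm_mul, Complex.norm_I, mul_one, Complex.norm_real, Real.norm_eq_abs,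
      abs_of_pos hη0]
  have hd : dist (Zf W ζ t) (Zf W z t) ≤ 2 * K ^ 2 * min (Zf W z t).im (Zf W ζ t).im := by
    rw [dist_eq_norm]
    refine (norm_sub_le _ _).trans ?_
    rw [hζn, hζim]
    have h1 : D / K ≤ min (Zf W z t).im η := le_min him hη1
    have h2 : 2 * K ^ 2 * (D / K) = 2 * (K * D) := by field_simp
    nlinarith only [hn, hη2, h2, mul_le_mul_of_nonneg_left h1 (by positivity : 0 ≤ 2 * K ^ 2)]
  obtain ⟨c1, c2, c3⟩ := H hW ht hz hζ hd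
  have eζ := Real.exp_pos (Uf W ζ t)
  have u1 : Real.exp (Uf W ζ t) ≤ CH * K * q := by
    calc Real.exp (Uf W ζ t) ≤ CH * Real.exp (Uf W z t) := c2
      _ ≤ CH * (K * q) := by gcongr
      _ = _ := by ring
  have u2 : q / (CH * K) ≤ Real.exp (Uf W ζ t) := by
    have h3 : q / K ≤ CH * Real.exp (Uf W ζ t) := hU1.trans c3
    rw [div_le_iff₀ (by (clear * - hCH hK; positivity))]
    rw [div_le_iff₀ hK0] at h3
    calc q ≤ CH * Real.exp (Uf W ζ t) * K := h3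
      _ = _ := by ring
  refine ⟨?_, fun z' hz' => ?_⟩
  · calc dist ζ z ≤ CH * Real.exp (Uf W z t) := c1
      _ ≤ CH * (K * q) := by (clear * - hU2 hCH; gcongr)
      _ = _ := by ring
  · have h4 : dist z' ζ ≤ Real.exp (Uf W ζ t) / 800 := by
      rw [dist_comm]
      refine hz'.trans ?_
      have : q / (800 * (CH * K)) = q / (CH * K) / 800 := by field_simp
      rw [this]
      (clear * - u2; gcongr)
    have h5 : dist z' ζ ≤ Real.exp (Uf W ζ t) / 20 := by linarith only [eζ, h4]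
    obtain ⟨p1, p2⟩ := pull_close hW ht hζ h5
    obtain ⟨-, p3⟩ := exp_Uf_ge hW ht hζ h5
    have h6 : dist ζ z' ≤ Real.exp (Uf W z' t) / 20 := by
      rw [dist_comm]
      linarith only [h4, p3]
    obtain ⟨-, p4⟩ := exp_Uf_ge hW ht p1 h6
    refine ⟨p1, ?_, ?_, ?_⟩
    · rw [hZζ] at p2
      refine p2.trans ?_
      have h7 : ((η : ℝ) * Complex.I : ℂ).im = η := by simp
      rw [h7]
      have h8 : dist z' ζ * Real.exp (-Uf W ζ t) ≤ 1 / 800 := by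
        rw [Real.exp_neg, ← div_eq_mul_inv, div_le_iff₀ eζ]
        linarith only [h4]
      calc 40 * η * dist z' ζ * Real.exp (-Uf W ζ t)
          = 40 * η * (dist z' ζ * Real.exp (-Uf W ζ t)) := by ring
        _ ≤ 40 * η * (1 / 800) := by (clear * - h8 hη0; gcongr)
        _ ≤ η / 10 := by linarith only [hη0]
    · have : q / (40 * (CH * K)) = q / (CH * K) / 40 := by field_simp
      rw [this]
      linarith only [u2, p3]
    · linarith only [u1, p4]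

/-- The grid time just before the visit of a low point. -/
lemma low_visit {κ C₀ C₁ τ₁ R Y a L r t₀ s : ℝ} {W w : ℝ → ℝ} {z : ℂ} {J : ℕ} (hκ : 0 < κ)
    (hC₀ : 1 ≤ C₀) (hC₁ : 1 ≤ C₁) (hW : Continuous W) (ht₀ : 0 ≤ t₀) (hY : 0 < Y) (hR : 0 < R)
    (ha : 0 < a) (hr : 0 < r) (hL : 1 ≤ L) (haL : L * a ≤ Y / R)
    (hJ : J * (a ^ 2 / κ) = τ₁ * Y ^ 2) (hτ : 0 < τ₁)
    (hwlip : ∀ u v, |w u - w v| ≤ R / Y * |u - v|)
    (htube : ∀ u ∈ Icc 0 (J * (a ^ 2 / κ)), |W (t₀ + u) - W t₀ - w u| ≤ L * a)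
    (hz : z ∈ loewnerDomain W t₀) (hi1 : Y / 64 ≤ (Zf W z t₀).im) (hi2 : (Zf W z t₀).im ≤ Y)
    (hU1 : r / (3 * C₁) ≤ Real.exp (Uf W z t₀)) (hU2 : Real.exp (Uf W z t₀) ≤ C₁ * r)
    (hs : s ∈ Icc 0 τ₁)
    (h1 : (Y : ℂ)⁻¹ * Zf W z t₀ ∈ loewnerDomain (scaleW Y (shiftW t₀ W)) s)
    (h2 : |(Zf (scaleW Y (shiftW t₀ W)) ((Y : ℂ)⁻¹ * Zf W z t₀) s).re| ≤ C₀ / R)
    (h3 : 1 / (C₀ * R) ≤ (Zf (scaleW Y (shiftW t₀ W)) ((Y : ℂ)⁻¹ * Zf W z t₀) s).im)
    (h4 : (Zf (scaleW Y (shiftW t₀ W)) ((Y : ℂ)⁻¹ * Zf W z t₀) s).im ≤ C₀ / R)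
    (h5 : |Uf (scaleW Y (shiftW t₀ W)) ((Y : ℂ)⁻¹ * Zf W z t₀) s + Real.log R| ≤ C₀) :
    ∃ j < J, z ∈ loewnerDomain W (t₀ + j * (a ^ 2 / κ)) ∧
      ‖Zf W z (t₀ + j * (a ^ 2 / κ))‖ ≤ (2 * C₀ + 2 + 1 / κ + 2 * C₀ / κ) * (Y / R) ∧
      Y / R / C₀ ≤ (Zf W z (t₀ + j * (a ^ 2 / κ))).im ∧
      r / R / (3 * C₁ * Real.exp C₀) ≤ Real.exp (Uf W z (t₀ + j * (a ^ 2 / κ))) ∧
      Real.exp (Uf W z (t₀ + j * (a ^ 2 / κ))) ≤
        64 * C₁ * Real.exp (C₀ + 4 * C₀ ^ 2 / κ) * (r / R) := by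
  obtain ⟨p1, p2, p3⟩ := restart hW ht₀ hY hs.1 hz h1
  set ζ := Zf (scaleW Y (shiftW t₀ W)) ((Y : ℂ)⁻¹ * Zf W z t₀) s with hζ
  set Us := Uf (scaleW Y (shiftW t₀ W)) ((Y : ℂ)⁻¹ * Zf W z t₀) s with hUs
  set D : ℝ := Y / R with hD
  have hD0 : 0 < D := by (clear * - hY hR; positivity)
  set dt : ℝ := a ^ 2 / κ with hdt
  have hdt0 : 0 < dt := by positivity
  have haD : a ≤ D := by nlinarith only [ha, hL, haL]
  have hdtD : dt ≤ D ^ 2 / κ := by
    rw [hdt]; (clear * - ha haD hκ; gcongr)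
  -- the index
  set u₂ : ℝ := Y ^ 2 * s with hu2
  have hu20 : 0 ≤ u₂ := by have := hs.1; (clear * - hY this; positivity)
  have hu2J : u₂ ≤ J * dt := by
    rw [hJ, hu2, mul_comm]
    have := hs.2
    (clear * - this hY; gcongr)
  have hJ0 : 0 < J := by
    rcases Nat.eq_zero_or_pos J with h0 | h0
    · rw [h0, Nat.cast_zero, zero_mul] at hJ
      have : 0 < τ₁ * Y ^ 2 := by positivity
      linarith only [hJ, this]
    · exact h0
  obtain ⟨j, hjJ, hj1, hj2⟩ : ∃ j < J, j * dt ≤ u₂ ∧ u₂ ≤ (j + 1) * dt := by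
    refine ⟨⌈u₂ / dt⌉₊ - 1, ?_, ?_, ?_⟩
    · have h6 : ⌈u₂ / dt⌉₊ ≤ J := Nat.ceil_le.2 (by rwa [div_le_iff₀ hdt0])
      omega
    · rcases Nat.eq_zero_or_pos ⌈u₂ / dt⌉₊ with h0 | h0
      · rw [h0]; simpa only [zero_tsub, CharP.cast_eq_zero, zero_mul] using hu20
      · rw [Nat.cast_sub h0, Nat.cast_one]
        have h6 := Nat.ceil_lt_add_one (by (clear * - hu20 ha hκ; positivity) : 0 ≤ u₂ / dt)
        have h7 : ((⌈u₂ / dt⌉₊ : ℝ) - 1) ≤ u₂ / dt := by linarith only [h6]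
        rwa [le_div_iff₀ hdt0] at h7
    · have h6 := Nat.le_ceil (u₂ / dt)
      rw [div_le_iff₀ hdt0] at h6
      refine h6.trans ?_
      have h7 : (⌈u₂ / dt⌉₊ : ℝ) ≤ ((⌈u₂ / dt⌉₊ - 1 : ℕ) : ℝ) + 1 := by
        have : ⌈u₂ / dt⌉₊ ≤ (⌈u₂ / dt⌉₊ - 1) + 1 := by (clear * -; omega)
        exact_mod_cast this
      (clear * - h7 ha hκ; gcongr)
  have hj0 : 0 ≤ (j : ℝ) * dt := by (clear * - ha hκ; positivity)
  have hjJ' : (j : ℝ) * dt ≤ J * dt := hj1.trans hu2J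
  -- heights at the visit
  have q1 : D / C₀ ≤ (Zf W z (t₀ + u₂)).im := by
    rw [p2, Complex.im_ofReal_mul]
    have : D / C₀ = Y * (1 / (C₀ * R)) := by rw [hD]; field_simp
    rw [this]
    (clear * - h3 hY; gcongr)
  have q2 : ‖Zf W z (t₀ + u₂)‖ ≤ 2 * C₀ * D := by
    rw [p2, norm_mul, Complex.norm_real, Real.norm_eq_abs, abs_of_pos hY]
    have h6 := Complex.norm_le_abs_re_add_abs_im ζ
    have h7 : 0 ≤ ζ.im := le_trans (by positivity) h3
    rw [abs_of_nonneg h7] at h6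
    have h8 : ‖ζ‖ ≤ 2 * (C₀ / R) := by linarith only [h2, h4, h6]
    calc Y * ‖ζ‖ ≤ Y * (2 * (C₀ / R)) := by (clear * - h8 hY; gcongr)
      _ = _ := by rw [hD]; ring
  obtain ⟨b1, b2, b3, b4, b5⟩ := back_step hW (by linarith only [ht₀, hj0] : 0 ≤ t₀ + j * dt)
    (by linarith only [hj1] : t₀ + j * dt ≤ t₀ + u₂) p1 (by positivity : 0 < D / C₀) q1
  have hdiff : (t₀ + u₂) - (t₀ + j * dt) ≤ dt := by linarith only [hj2]
  have hdiff0 : 0 ≤ (t₀ + u₂) - (t₀ + j * dt) := by linarith only [hj1]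
  have hΔW : |W (t₀ + u₂) - W (t₀ + j * dt)| ≤ 2 * D + D / κ := by
    have e1 := htube u₂ ⟨hu20, hu2J⟩
    have e2 := htube (j * dt) ⟨hj0, hjJ'⟩
    have e3 := hwlip u₂ (j * dt)
    have e4 : |u₂ - j * dt| ≤ dt := by
      rw [abs_of_nonneg (by linarith only [hj1])]; linarith only [hj2]
    have e5 : R / Y * |u₂ - j * dt| ≤ D / κ := by
      calc R / Y * |u₂ - j * dt| ≤ R / Y * (D ^ 2 / κ) := by
            gcongr; exact e4.trans hdtD
        _ = D / κ := by rw [hD]; (clear * - hκ hY hR; field_simp)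
    rw [abs_le] at e1 e2 e3 ⊢
    constructor <;> linarith only [haL, e1, e2, e3, e5]
  have h2c : 2 / (D / C₀) * ((t₀ + u₂) - (t₀ + j * dt)) ≤ 2 * C₀ / κ * D := by
    calc 2 / (D / C₀) * ((t₀ + u₂) - (t₀ + j * dt)) ≤ 2 / (D / C₀) * (D ^ 2 / κ) := by
          gcongr; exact hdiff.trans hdtD
      _ = _ := by (clear * - hκ hC₀ hD0; field_simp)
  have h2c2 : (2 / (D / C₀)) ^ 2 * ((t₀ + u₂) - (t₀ + j * dt)) ≤ 4 * C₀ ^ 2 / κ := by
    calc (2 / (D / C₀)) ^ 2 * ((t₀ + u₂) - (t₀ + j * dt)) ≤ (2 / (D / C₀)) ^ 2 * (D ^ 2 / κ) := by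
          gcongr; exact hdiff.trans hdtD
      _ = _ := by field_simp; norm_num
  -- exp U at the visit
  have hi0 : 0 < (Zf W z t₀).im := lt_of_lt_of_le (by positivity) hi1
  have hexp : Real.exp (Uf W z (t₀ + u₂)) =
      Real.exp (Uf W z t₀) * (Y / (Zf W z t₀).im) * Real.exp Us := by
    rw [p3, Real.exp_add, Real.exp_sub, Real.exp_add, Real.exp_log hY, Real.exp_log hi0]
    ring
  have hYi1 : 1 ≤ Y / (Zf W z t₀).im := by rw [le_div_iff₀ hi0]; linarith only [hi2]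
  have hYi2 : Y / (Zf W z t₀).im ≤ 64 := by rw [div_le_iff₀ hi0]; linarith only [hi1]
  have hUs1 : Real.exp (-C₀) / R ≤ Real.exp Us := by
    have : -C₀ - Real.log R ≤ Us := by linarith only [(abs_le.1 h5).1]
    have h6 := Real.exp_le_exp.2 this
    rwa [Real.exp_sub, Real.exp_log hR] at h6
  have hUs2 : Real.exp Us ≤ Real.exp C₀ / R := by
    have : Us ≤ C₀ - Real.log R := by linarith only [(abs_le.1 h5).2]
    have h6 := Real.exp_le_exp.2 this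
    rwa [Real.exp_sub, Real.exp_log hR] at h6
  refine ⟨j, hjJ, b1, ?_, b2, ?_, ?_⟩
  · have h6 : ‖Zf W z (t₀ + j * dt)‖ ≤ ‖Zf W z (t₀ + j * dt) - Zf W z (t₀ + u₂)‖ +
        ‖Zf W z (t₀ + u₂)‖ := by
      have := norm_add_le (Zf W z (t₀ + j * dt) - Zf W z (t₀ + u₂)) (Zf W z (t₀ + u₂))
      rwa [sub_add_cancel] at this
    have e : (2 * C₀ + 2 + 1 / κ + 2 * C₀ / κ) * D = 2 * D + D / κ + 2 * C₀ / κ * D +
        2 * C₀ * D := by ring
    rw [e]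
    linarith only [q2, b3, hΔW, h2c, h6]
  · have h6 := Real.exp_le_exp.2 b4
    refine le_trans ?_ h6
    rw [hexp]
    have e : r / R / (3 * C₁ * Real.exp C₀) = r / (3 * C₁) * 1 * (Real.exp (-C₀) / R) := by
      rw [Real.exp_neg]; (clear * - hC₁ hR hr; field_simp)
    rw [e]
    (clear * - hU1 hYi1 hUs1 hR hY hi0; gcongr)
  · have h6 := Real.exp_le_exp.2 (b5.trans (add_le_add_right h2c2 _))
    rw [Real.exp_add, hexp] at h6
    refine h6.trans ?_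
    have e : 64 * C₁ * Real.exp (C₀ + 4 * C₀ ^ 2 / κ) * (r / R) =
        C₁ * r * 64 * (Real.exp C₀ / R) * Real.exp (4 * C₀ ^ 2 / κ) := by
      rw [Real.exp_add]; ring
    rw [e]
    (clear * - hU2 hYi2 hY hi0 hC₁ hr hUs2; gcongr)

/-- Counting by area: discs centred at `ζ j` of radius `ρ` covering a disc of radius `ρ'`. -/
lemma card_of_cover {I : Finset ℕ} {ζ : ℕ → ℂ} {c : ℂ} {ρ ρ' : ℝ} (hρ : 0 < ρ)
    (h : ball c ρ' ⊆ ⋃ j ∈ I, closedBall (ζ j) ρ) (hρ' : 0 < ρ') :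
    (ρ' / ρ) ^ 2 ≤ (I.card : ℝ) := by
  have h1 : volume (ball c ρ') ≤ ∑ j ∈ I, volume (closedBall (ζ j) ρ) :=
    (measure_mono h).trans (measure_biUnion_finset_le _ _)
  simp only [Complex.volume_ball, Complex.volume_closedBall] at h1
  rw [Finset.sum_const, nsmul_eq_mul, ← mul_assoc] at h1
  have hpi : (NNReal.pi : ℝ≥0∞) ≠ 0 := by
    simpa using NNReal.pi_ne_zero
  have hpi' : (NNReal.pi : ℝ≥0∞) ≠ ⊤ := ENNReal.coe_ne_top
  have h2 := (ENNReal.mul_le_mul_iff_left hpi hpi').1 h1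
  rw [← ENNReal.ofReal_pow hρ'.le, ← ENNReal.ofReal_pow hρ.le, ← ENNReal.ofReal_natCast,
    ← ENNReal.ofReal_mul (by (clear * -; positivity)), ENNReal.ofReal_le_ofReal_iff (by (clear * - hρ; positivity))] at h2
  rw [div_pow, div_le_iff₀ (by positivity)]
  exact h2

/-- The state of the centre at the end. -/
lemma high_end {C₀ τ₁ Y r t₀ : ℝ} {W : ℝ → ℝ} {z : ℂ}
    (hC₀ : 1 ≤ C₀) (hW : Continuous W) (ht₀ : 0 ≤ t₀) (hY : 0 < Y) (hτ : 0 < τ₁)
    (hz : z ∈ loewnerDomain W t₀) (hi2 : (Zf W z t₀).im ≤ 2 * Y) (hi0 : 0 < (Zf W z t₀).im)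
    (hU1 : Real.log r - 1 ≤ Uf W z t₀)
    (h1 : (Y : ℂ)⁻¹ * Zf W z t₀ ∈ loewnerDomain (scaleW Y (shiftW t₀ W)) τ₁)
    (h2 : |(Zf (scaleW Y (shiftW t₀ W)) ((Y : ℂ)⁻¹ * Zf W z t₀) τ₁).re| ≤ C₀)
    (h3 : 1 / C₀ ≤ (Zf (scaleW Y (shiftW t₀ W)) ((Y : ℂ)⁻¹ * Zf W z t₀) τ₁).im)
    (h4 : -C₀ ≤ Uf (scaleW Y (shiftW t₀ W)) ((Y : ℂ)⁻¹ * Zf W z t₀) τ₁) :
    z ∈ loewnerDomain W (t₀ + τ₁ * Y ^ 2) ∧
      1 / (2 * C₀ ^ 2) ≤ sn (Zf W z (t₀ + τ₁ * Y ^ 2)) ∧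
      Real.log r - (C₀ + 2) ≤ Uf W z (t₀ + τ₁ * Y ^ 2) := by
  obtain ⟨p1, p2, p3⟩ := restart hW ht₀ hY hτ.le hz h1
  set ζ := Zf (scaleW Y (shiftW t₀ W)) ((Y : ℂ)⁻¹ * Zf W z t₀) τ₁ with hζ
  rw [mul_comm τ₁]
  have hC0 : 0 < C₀ := by linarith only [hC₀]
  have hζi : 0 < ζ.im := lt_of_lt_of_le (by positivity) h3
  have hζn : 0 < ‖ζ‖ := norm_pos_iff.2 fun h => by rw [h] at hζi; simp at hζi
  refine ⟨p1, ?_, ?_⟩
  · rw [p2, sn, Complex.im_ofReal_mul, norm_mul, Complex.norm_real, Real.norm_eq_abs,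
      abs_of_pos hY, mul_div_mul_left _ _ hY.ne', div_le_div_iff₀ (by positivity) hζn]
    have h6 := Complex.norm_le_abs_re_add_abs_im ζ
    rw [abs_of_pos hζi] at h6
    rw [div_le_iff₀ hC0] at h3
    have h7 : C₀ ≤ ζ.im * C₀ ^ 2 := by nlinarith only [hC₀, h3]
    have h8 : ζ.im ≤ ζ.im * C₀ ^ 2 := by nlinarith only [hC₀, h3, hζi]
    nlinarith only [h2, h6, h7, h8]
  · rw [p3]
    have h6 : Real.log (Zf W z t₀).im ≤ 1 + Real.log Y := by
      have h7 := Real.log_le_log hi0 hi2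
      rw [Real.log_mul (by norm_num) hY.ne'] at h7
      have := Real.log_two_lt_d9
      linarith only [h7, this]
    linarith only [hU1, h4, h6]

/-- `C₁` is a constant in the Harnack chain lemma for `A = 80`. -/
def HarnackConst (C₁ : ℝ) : Prop :=
  ∀ {W : ℝ → ℝ} (_ : Continuous W) {t : ℝ} (_ : 0 ≤ t) {z z' : ℂ}
    (_ : z ∈ loewnerDomain W t) (_ : z' ∈ loewnerDomain W t)
    (_ : dist (Zf W z' t) (Zf W z t) ≤ 80 * min (Zf W z t).im (Zf W z' t).im),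
    dist z' z ≤ C₁ * Real.exp (Uf W z t) ∧
      Real.exp (Uf W z' t) ≤ C₁ * Real.exp (Uf W z t) ∧
        Real.exp (Uf W z t) ≤ C₁ * Real.exp (Uf W z' t)

/-- Comparison of the centre with the low points. -/
lemma comp_low {C₁ X Y r t₀ : ℝ} {W : ℝ → ℝ} {z z' : ℂ} (hC₁ : 1 ≤ C₁) (HC : HarnackConst C₁)
    (hW : Continuous W) (ht₀ : 0 ≤ t₀) (hY : 0 < Y) (hr : 0 < r)
    (hz : z ∈ loewnerDomain W t₀) (hdz : dist (Zf W z t₀) (X + Y * Complex.I) ≤ Y / 16)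
    (hU1 : Real.log r - 1 ≤ Uf W z t₀) (hU2 : Uf W z t₀ ≤ Real.log r)
    (hz' : z' ∈ loewnerDomain W t₀)
    (hd : dist (Zf W z' t₀) (X + ((1 / 16 * Y : ℝ) : ℂ) * Complex.I) ≤ 1 / 64 * Y) :
    (Y / 64 ≤ (Zf W z' t₀).im ∧ (Zf W z' t₀).im ≤ Y) ∧ dist z' z ≤ C₁ * r ∧
      r / (3 * C₁) ≤ Real.exp (Uf W z' t₀) ∧ Real.exp (Uf W z' t₀) ≤ C₁ * r := by
  have hC₁' : 0 < C₁ := by linarith only [hC₁]
  have hez1 : r / 3 ≤ Real.exp (Uf W z t₀) := by
    have h1 := Real.exp_le_exp.2 hU1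
    rw [Real.exp_sub, Real.exp_log hr] at h1
    refine le_trans ?_ h1
    have := Real.exp_one_lt_d9
    gcongr
    linarith only [this]
  have hez2 : Real.exp (Uf W z t₀) ≤ r := by
    have h1 := Real.exp_le_exp.2 hU2
    rwa [Real.exp_log hr] at h1
  have hzim : 15 / 16 * Y ≤ (Zf W z t₀).im ∧ (Zf W z t₀).im ≤ 17 / 16 * Y := by
    rw [dist_eq_norm] at hdz
    have h1 := (Complex.abs_im_le_norm _).trans hdz
    have e : (Zf W z t₀ - (X + Y * Complex.I)).im = (Zf W z t₀).im - Y := by simp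
    rw [e, abs_le] at h1
    constructor <;> linarith only [h1]
  have h1 : 3 / 64 * Y ≤ (Zf W z' t₀).im ∧ (Zf W z' t₀).im ≤ 5 / 64 * Y := by
    rw [dist_eq_norm] at hd
    have h1 := (Complex.abs_im_le_norm _).trans hd
    have e : (Zf W z' t₀ - (X + ((1 / 16 * Y : ℝ) : ℂ) * Complex.I)).im =
        (Zf W z' t₀).im - 1 / 16 * Y := by simp only [one_div, Complex.ofReal_mul, Complex.ofReal_inv, Complex.ofReal_ofNat, Complex.sub_im, Complex.add_im, Complex.ofReal_im, Complex.mul_im, Complex.mul_re, Complex.inv_re, Complex.re_ofNat, Complex.normSq_ofNat, div_self_mul_self', Complex.ofReal_re, Complex.inv_im, Complex.im_ofNat, neg_zero, zero_div, mul_zero, sub_zero, Complex.I_im, mul_one, zero_mul, add_zero, Complex.I_re, zero_add]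
    rw [e, abs_le] at h1
    constructor <;> linarith only [h1]
  have h2 : dist (Zf W z' t₀) (Zf W z t₀) ≤ 80 * min (Zf W z t₀).im (Zf W z' t₀).im := by
    have h3 : 3 / 64 * Y ≤ min (Zf W z t₀).im (Zf W z' t₀).im := le_min (by linarith only [hY, hzim]) h1.1
    have h4 : dist ((X : ℂ) + ((1 / 16 * Y : ℝ) : ℂ) * Complex.I) (X + Y * Complex.I) ≤ Y := by
      rw [dist_eq_norm]
      have e : (X : ℂ) + ((1 / 16 * Y : ℝ) : ℂ) * Complex.I - (X + Y * Complex.I) =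
          ((-(15 / 16) * Y : ℝ) : ℂ) * Complex.I := by push_cast; ring
      rw [e, norm_mul, Complex.norm_I, mul_one, Complex.norm_real, Real.norm_eq_abs, abs_mul,
        abs_of_pos hY]
      norm_num
      linarith only [hY]
    have h5 := dist_triangle (Zf W z' t₀) ((X : ℂ) + ((1 / 16 * Y : ℝ) : ℂ) * Complex.I)
      (Zf W z t₀)
    have h6 := dist_triangle ((X : ℂ) + ((1 / 16 * Y : ℝ) : ℂ) * Complex.I)
      (X + Y * Complex.I) (Zf W z t₀)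
    rw [dist_comm (X + Y * Complex.I) (Zf W z t₀)] at h6
    linarith only [hY, hdz, hd, h3, h4, h5, h6]
  obtain ⟨c1, c2, c3⟩ := HC hW ht₀ hz hz' h2
  refine ⟨⟨by linarith only [hY, h1], by linarith only [hY, h1]⟩, ?_, ?_, ?_⟩
  · refine c1.trans ?_; (clear * - hez2 hC₁; gcongr)
  · rw [div_le_iff₀ (by positivity)]
    have : r / 3 ≤ C₁ * Real.exp (Uf W z' t₀) := hez1.trans c3
    linarith only [hez1, c3]
  · refine c2.trans ?_; (clear * - hez2 hC₁; gcongr)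

/-- Points close to a low reference point are low. -/
lemma low_of_close {C₁ X Y r t₀ : ℝ} {W : ℝ → ℝ} {ζ₀ z' : ℂ} (hC₁ : 1 ≤ C₁)
    (hW : Continuous W) (ht₀ : 0 ≤ t₀) (hY : 0 < Y)
    (hζ₀ : ζ₀ ∈ loewnerDomain W t₀)
    (hζ₀' : Zf W ζ₀ t₀ = (X : ℂ) + ((1 / 16 * Y : ℝ) : ℂ) * Complex.I)
    (e3 : r / (3 * C₁) ≤ Real.exp (Uf W ζ₀ t₀)) (hz' : dist z' ζ₀ ≤ r / (480 * C₁)) :
    z' ∈ loewnerDomain W t₀ ∧
      dist (Zf W z' t₀) (X + ((1 / 16 * Y : ℝ) : ℂ) * Complex.I) ≤ 1 / 64 * Y := by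
  have hC₁' : 0 < C₁ := by linarith only [hC₁]
  have hd1 : dist z' ζ₀ ≤ Real.exp (Uf W ζ₀ t₀) / 160 := by
    refine hz'.trans ?_
    have : r / (480 * C₁) = r / (3 * C₁) / 160 := by field_simp; ring
    rw [this]
    (clear * - e3; gcongr)
  have he0 := Real.exp_pos (Uf W ζ₀ t₀)
  obtain ⟨p1, p2⟩ := pull_close hW ht₀ hζ₀ (hd1.trans (by linarith only [he0]))
  refine ⟨p1, ?_⟩
  rw [hζ₀'] at p2
  refine p2.trans ?_
  have e5 : ((X : ℂ) + ((1 / 16 * Y : ℝ) : ℂ) * Complex.I).im = 1 / 16 * Y := by simp only [one_div, Complex.ofReal_mul, Complex.ofReal_inv, Complex.ofReal_ofNat, Complex.add_im, Complex.ofReal_im, Complex.mul_im, Complex.mul_re, Complex.inv_re, Complex.re_ofNat, Complex.normSq_ofNat, div_self_mul_self', Complex.ofReal_re, Complex.inv_im, Complex.im_ofNat, neg_zero, zero_div, mul_zero, sub_zero, Complex.I_im, mul_one, zero_mul, add_zero, Complex.I_re, zero_add]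
  rw [e5]
  have e6 : dist z' ζ₀ * Real.exp (-Uf W ζ₀ t₀) ≤ 1 / 160 := by
    rw [Real.exp_neg, ← div_eq_mul_inv, div_le_iff₀ he0]
    linarith only [hd1]
  calc 40 * (1 / 16 * Y) * dist z' ζ₀ * Real.exp (-Uf W ζ₀ t₀)
      = 40 * (1 / 16 * Y) * (dist z' ζ₀ * Real.exp (-Uf W ζ₀ t₀)) := by ring
    _ ≤ 40 * (1 / 16 * Y) * (1 / 160) := by gcongr
    _ = 1 / 64 * Y := by ring

/-- `K₃` is a constant in `good_of_state` for `K`. -/
def StateConst (K K₃ : ℝ) : Prop :=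
  ∀ {W : ℝ → ℝ} (_ : Continuous W) {t D q η : ℝ} (_ : 0 ≤ t) (_ : 0 < D)
      (_ : 0 < q) {z ζ : ℂ} (_ : z ∈ loewnerDomain W t) (_ : ζ ∈ loewnerDomain W t)
      (_ : Zf W ζ t = (η : ℝ) * Complex.I) (_ : ‖Zf W z t‖ ≤ K * D) (_ : D / K ≤ (Zf W z t).im)
      (_ : D / K ≤ η) (_ : η ≤ K * D) (_ : q / K ≤ Real.exp (Uf W z t))
      (_ : Real.exp (Uf W z t) ≤ K * q),
      dist ζ z ≤ K₃ * q ∧ ∀ z' : ℂ, dist ζ z' ≤ q / (800 * K₃) →
        z' ∈ loewnerDomain W t ∧ dist (Zf W z' t) ((η : ℝ) * Complex.I) ≤ η / 10 ∧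
          q / (40 * K₃) ≤ Real.exp (Uf W z' t) ∧ Real.exp (Uf W z' t) ≤ 40 * K₃ * q

/-- From the state at a grid time to a good step. -/
lemma good_at {K K₃ C D q r R a ch C₁ t : ℝ} {W : ℝ → ℝ} {z z' ζ : ℂ} {Λ : Finset ℂ}
    {Q : Finset ℝ} (GS : StateConst K K₃) (hK₃ : 1 ≤ K₃) (hC₁ : 1 ≤ C₁)
    (hW : Continuous W) (ht : 0 ≤ t) (hD0 : 0 < D) (hq : q = r / R)
    (hr : 0 < r) (hR : 1 ≤ R) (hCK : 800 * K₃ + (C₁ + 1) ≤ C) (hz1 : dist z' z ≤ C₁ * r)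
    (m1 : z' ∈ loewnerDomain W t) (hζ1 : ζ ∈ loewnerDomain W t)
    (hζ2 : Zf W ζ t = ((ch * a : ℝ) : ℂ) * Complex.I)
    (m2 : ‖Zf W z' t‖ ≤ K * D) (m3 : D / K ≤ (Zf W z' t).im)
    (ha1 : D / K ≤ ch * a) (ha2 : ch * a ≤ K * D)
    (m4 : q / K ≤ Real.exp (Uf W z' t)) (m5 : Real.exp (Uf W z' t) ≤ K * q)
    (hΛ : ∀ p ∈ ball z (C * r), ∃ z' ∈ Λ, dist p z' ≤ r / (C * R))
    (hQ : ∀ v : ℝ, r / (C * R) ≤ v → v ≤ C * r / R → ∃ q ∈ Q, q / 2 ≤ v ∧ v ≤ 2 * q) :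
    dist ζ z' ≤ K₃ * q ∧ ∃ z'' q', GoodStep ch a Λ Q W t z'' q' := by
  have hR0 : 0 < R := by linarith only [hR]
  have hq0 : 0 < q := by rw [hq]; (clear * - hr hR; positivity)
  have hK₃' : 0 < K₃ := by linarith only [hK₃]
  have hC0 : 0 < C := by linarith only [hK₃, hC₁, hCK]
  obtain ⟨g1, g2⟩ := GS hW ht hD0 hq0 m1 hζ1 hζ2 m2 m3 ha1 ha2 m4 m5
  refine ⟨g1, ?_⟩
  have hζz : dist ζ z < C * r := by
    have h6 := dist_triangle ζ z' z
    have h7 : K₃ * q ≤ K₃ * r := by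
      have : q ≤ r := by rw [hq]; exact div_le_self hr.le hR
      (clear * - this hK₃; gcongr)
    have h8 : (800 * K₃ + (C₁ + 1)) * r ≤ C * r := by (clear * - hCK hr; gcongr)
    have h10 : 0 < K₃ * r := by positivity
    nlinarith only [hr, hz1, g1, h6, h7, h8, h10]
  obtain ⟨z'', hz''Λ, hz''d⟩ := hΛ ζ (mem_ball.2 hζz)
  have h800 : r / (C * R) ≤ q / (800 * K₃) := by
    rw [hq, div_div]
    have : 800 * K₃ ≤ C := by linarith only [hC₁, hCK]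
    rw [mul_comm C R]
    (clear * - hr hR hK₃ this; gcongr)
  obtain ⟨t1, t2, t3, t4⟩ := g2 z'' (hz''d.trans h800)
  obtain ⟨q', hqQ, hq1, hq2⟩ := hQ (Real.exp (Uf W z'' t))
    (by
      refine le_trans ?_ t3
      rw [hq, div_div]
      have : 40 * K₃ ≤ C := by linarith only [hK₃, hC₁, hCK]
      rw [mul_comm C R]
      (clear * - hr hR hK₃ this; gcongr))
    (by
      refine t4.trans ?_
      have : 40 * K₃ ≤ C := by linarith only [hK₃, hC₁, hCK]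
      rw [hq]
      calc 40 * K₃ * (r / R) ≤ C * (r / R) := by (clear * - this hr hR; gcongr)
        _ = C * r / R := by ring)
  have he2 := Real.exp_pos (Uf W z'' t)
  have hq0' : 0 < q' := by linarith only [hq2, he2]
  refine ⟨z'', q', hz''Λ, hqQ, t1, t2, ?_, ?_⟩
  · rw [Real.log_le_iff_le_exp (by (clear * - hq0'; positivity))]; exact hq1
  · rw [Real.le_log_iff_exp_le (by (clear * - hq0'; positivity))]; exact hq2

lemma scaled_dist {X Y c ρ : ℝ} {p : ℂ} (hY : 0 < Y)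
    (hp : dist p (X + ((c * Y : ℝ) : ℂ) * Complex.I) ≤ ρ * Y) :
    dist ((Y : ℂ)⁻¹ * p) ((X / Y : ℝ) + (c : ℝ) * Complex.I) ≤ ρ := by
  have hYc : (Y : ℂ) ≠ 0 := by exact_mod_cast hY.ne'
  rw [dist_eq_norm] at hp ⊢
  have e : (Y : ℂ)⁻¹ * p - ((X / Y : ℝ) + (c : ℝ) * Complex.I) =
      (Y : ℂ)⁻¹ * (p - (X + ((c * Y : ℝ) : ℂ) * Complex.I)) := by
    push_cast; (clear * - hYc; field_simp)
  rw [e, norm_mul, norm_inv, Complex.norm_real, Real.norm_eq_abs, abs_of_pos hY]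
  calc Y⁻¹ * ‖p - (X + ((c * Y : ℝ) : ℂ) * Complex.I)‖ ≤ Y⁻¹ * (ρ * Y) := by gcongr
    _ = ρ := by field_simp

lemma scaled_driver {κ Y R a L τ₁ t₀ : ℝ} {J : ℕ} {W w' : ℝ → ℝ} (hY : 0 < Y)
    (hJ : J * (a ^ 2 / κ) = τ₁ * Y ^ 2) (ha1 : L * a ≤ Y / R)
    (htube : ∀ u ∈ Icc 0 (J * (a ^ 2 / κ)), |W (t₀ + u) - W t₀ - Y * w' (u / Y ^ 2)| ≤ L * a) :
    ∀ u ∈ Icc 0 τ₁, |scaleW Y (shiftW t₀ W) u - w' u| ≤ 1 / R := by
  intro u hu
  have h1 : Y ^ 2 * u ∈ Icc 0 (J * (a ^ 2 / κ)) := by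
    refine ⟨by have := hu.1; (clear * - hY this; positivity), ?_⟩
    rw [hJ, mul_comm]
    have := hu.2
    gcongr
  have h2 := htube _ h1
  have e : scaleW Y (shiftW t₀ W) u - w' u =
      Y⁻¹ * (W (t₀ + Y ^ 2 * u) - W t₀ - Y * w' (Y ^ 2 * u / Y ^ 2)) := by
    have e1 : Y ^ 2 * u / Y ^ 2 = u := by (clear * - hY; field_simp)
    rw [e1]
    simp only [scaleW, shiftW]
    (clear * - hY; field_simp)
  rw [e, abs_mul, abs_of_pos (by positivity)]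
  calc Y⁻¹ * |W (t₀ + Y ^ 2 * u) - W t₀ - Y * w' (Y ^ 2 * u / Y ^ 2)| ≤ Y⁻¹ * (Y / R) := by
        gcongr; exact h2.trans ha1
    _ = 1 / R := by field_simp

lemma scaled_lip {Y R : ℝ} {w' : ℝ → ℝ} (hY : 0 < Y)
    (hwlip : ∀ u v, |w' u - w' v| ≤ R * |u - v|) (u v : ℝ) :
    |Y * w' (u / Y ^ 2) - Y * w' (v / Y ^ 2)| ≤ R / Y * |u - v| := by
  rw [← mul_sub, abs_mul, abs_of_pos hY]
  calc Y * |w' (u / Y ^ 2) - w' (v / Y ^ 2)| ≤ Y * (R * |u / Y ^ 2 - v / Y ^ 2|) := by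
        gcongr; exact hwlip _ _
    _ = R / Y * |u - v| := by
        rw [← sub_div, abs_div, abs_of_pos (by positivity : 0 < Y ^ 2)]
        (clear * - hY; field_simp)

/-- From the visit of a low point to a good step. -/
lemma visit_good {κ C₀ C₁ K K₃ C τ₁ R Y a ch lam r t₀ s : ℝ} {W w : ℝ → ℝ} {z z' : ℂ} {J : ℕ}
    {ζ : ℕ → ℂ} {Λ : Finset ℂ} {Q : Finset ℝ} (hκ : 0 < κ) (hC₀ : 1 ≤ C₀) (hC₁ : 1 ≤ C₁)
    (hK1 : 1 ≤ K) (hK₃ : 1 ≤ K₃) (GS : StateConst K K₃) (hch : 0 < ch) (hlam : 1 ≤ lam)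
    (k1 : 64 * C₁ * Real.exp (C₀ + 4 * C₀ ^ 2 / κ) ≤ K)
    (k2 : 2 * C₀ + 2 + 1 / κ + 2 * C₀ / κ ≤ K) (k3 : ch ≤ K) (k4 : 2 * (lam + 4) / ch ≤ K)
    (k5 : C₀ ≤ K) (k6 : 3 * C₁ * Real.exp C₀ ≤ K) (l1 : 800 * K₃ + (C₁ + 1) ≤ C)
    (hW : Continuous W) (ht₀ : 0 ≤ t₀) (hY : 0 < Y) (hR : 1 ≤ R)
    (ha : 0 < a) (hr : 0 < r) (ha1 : (lam + 4) * a ≤ Y / R) (ha2 : Y / R ≤ 2 * ((lam + 4) * a))
    (hJ : J * (a ^ 2 / κ) = τ₁ * Y ^ 2) (hτ : 0 < τ₁)
    (hwlip : ∀ u v, |w u - w v| ≤ R / Y * |u - v|)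
    (htube : ∀ u ∈ Icc 0 (J * (a ^ 2 / κ)), |W (t₀ + u) - W t₀ - w u| ≤ (lam + 4) * a)
    (hζ1 : ∀ j : ℕ, ζ j ∈ loewnerDomain W (t₀ + j * (a ^ 2 / κ)))
    (hζ2 : ∀ j : ℕ, Zf W (ζ j) (t₀ + j * (a ^ 2 / κ)) = ((ch * a : ℝ) : ℂ) * Complex.I)
    (hz' : z' ∈ loewnerDomain W t₀) (hi1 : Y / 64 ≤ (Zf W z' t₀).im)
    (hi2 : (Zf W z' t₀).im ≤ Y) (hdz : dist z' z ≤ C₁ * r)
    (hU1 : r / (3 * C₁) ≤ Real.exp (Uf W z' t₀)) (hU2 : Real.exp (Uf W z' t₀) ≤ C₁ * r)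
    (hs : s ∈ Icc 0 τ₁)
    (h1 : (Y : ℂ)⁻¹ * Zf W z' t₀ ∈ loewnerDomain (scaleW Y (shiftW t₀ W)) s)
    (h2 : |(Zf (scaleW Y (shiftW t₀ W)) ((Y : ℂ)⁻¹ * Zf W z' t₀) s).re| ≤ C₀ / R)
    (h3 : 1 / (C₀ * R) ≤ (Zf (scaleW Y (shiftW t₀ W)) ((Y : ℂ)⁻¹ * Zf W z' t₀) s).im)
    (h4 : (Zf (scaleW Y (shiftW t₀ W)) ((Y : ℂ)⁻¹ * Zf W z' t₀) s).im ≤ C₀ / R)
    (h5 : |Uf (scaleW Y (shiftW t₀ W)) ((Y : ℂ)⁻¹ * Zf W z' t₀) s + Real.log R| ≤ C₀)
    (hΛ : ∀ p ∈ ball z (C * r), ∃ z' ∈ Λ, dist p z' ≤ r / (C * R))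
    (hQ : ∀ v : ℝ, r / (C * R) ≤ v → v ≤ C * r / R → ∃ q ∈ Q, q / 2 ≤ v ∧ v ≤ 2 * q) :
    ∃ j : ℕ, j < J ∧ dist (ζ j) z' ≤ K₃ * (r / R) ∧
      ∃ z'' q, GoodStep ch a Λ Q W (t₀ + j * (a ^ 2 / κ)) z'' q := by
  have hR0 : 0 < R := by linarith only [hR]
  have hK0 : 0 < K := by linarith only [hK1]
  have hC₀' : 0 < C₀ := by linarith only [hC₀]
  have hC₁' : 0 < C₁ := by linarith only [hC₁]
  have hD0 : 0 < Y / R := by positivity
  have hrR : 0 < r / R := by positivity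
  obtain ⟨j, hjJ, m1, m2, m3, m4, m5⟩ := low_visit hκ hC₀ hC₁ hW ht₀ hY hR0 ha hr
    (by linarith only [hlam] : 1 ≤ lam + 4) ha1 hJ hτ hwlip htube hz' hi1 hi2 hU1 hU2 hs h1 h2 h3 h4 h5
  have htj : 0 ≤ t₀ + j * (a ^ 2 / κ) := by (clear * - ht₀ ha hκ; positivity)
  have r1 : ‖Zf W z' (t₀ + j * (a ^ 2 / κ))‖ ≤ K * (Y / R) :=
    m2.trans (mul_le_mul_of_nonneg_right k2 hD0.le)
  have r2 : Y / R / K ≤ (Zf W z' (t₀ + j * (a ^ 2 / κ))).im :=
    (div_le_div_of_nonneg_left hD0.le hC₀' k5).trans m3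
  have r3 : Y / R / K ≤ ch * a := by
    rw [div_le_iff₀ hK0]
    have e : 2 * ((lam + 4) * a) = (2 * (lam + 4) / ch) * (ch * a) := by (clear * - hch ha hlam; field_simp)
    have h6 : (2 * (lam + 4) / ch) * (ch * a) ≤ K * (ch * a) :=
      mul_le_mul_of_nonneg_right k4 (by (clear * - hch ha; positivity))
    linarith only [ha2, e, h6]
  have r4 : ch * a ≤ K * (Y / R) := by
    have h6 : a ≤ Y / R := by nlinarith only [hlam, ha1, hD0]
    calc ch * a ≤ K * a := mul_le_mul_of_nonneg_right k3 ha.le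
      _ ≤ K * (Y / R) := mul_le_mul_of_nonneg_left h6 hK0.le
  have r5 : r / R / K ≤ Real.exp (Uf W z' (t₀ + j * (a ^ 2 / κ))) :=
    (div_le_div_of_nonneg_left hrR.le (by positivity) k6).trans m4
  have r6 : Real.exp (Uf W z' (t₀ + j * (a ^ 2 / κ))) ≤ K * (r / R) :=
    m5.trans (mul_le_mul_of_nonneg_right k1 hrR.le)
  obtain ⟨g1, g2⟩ := good_at @GS hK₃ hC₁ hW htj hD0 rfl hr hR l1 hdz m1 (hζ1 j) (hζ2 j) r1 r2
    r3 r4 r5 r6 hΛ hQ
  exact ⟨j, hjJ, g1, g2⟩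

theorem count_steps {κ : ℝ} (hκ : 0 < κ) (A₀ : ℝ) {ch lam : ℝ} (hch : 0 < ch) (hlam : 1 ≤ lam) :
    ∃ τ₁ C R₀ : ℝ, 0 < τ₁ ∧ 1 ≤ C ∧ 1 ≤ R₀ ∧ ∀ {Y X R : ℝ} (_ : 0 < Y) (_ : |X| ≤ A₀ * Y)
      (_ : R₀ ≤ R),
      ∃ w : ℝ → ℝ, w 0 = 0 ∧ (∀ u v, |w u - w v| ≤ R / Y * |u - v|) ∧
        ∀ {W : ℝ → ℝ} (_ : Continuous W) {z : ℂ} {t₀ r a : ℝ} {J : ℕ} (_ : 0 ≤ t₀) (_ : 0 < r)
          (_ : 0 < a) (_ : (lam + 4) * a ≤ Y / R) (_ : Y / R ≤ 2 * ((lam + 4) * a))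
          (_ : J * (a ^ 2 / κ) = τ₁ * Y ^ 2)
          (_ : z ∈ loewnerDomain W t₀) (_ : dist (Zf W z t₀) (X + Y * Complex.I) ≤ Y / 16)
          (_ : Real.log r - 1 ≤ Uf W z t₀) (_ : Uf W z t₀ ≤ Real.log r)
          (_ : ∀ u ∈ Icc 0 (J * (a ^ 2 / κ)), |W (t₀ + u) - W t₀ - w u| ≤ (lam + 4) * a)
          {Λ : Finset ℂ} (_ : ∀ p ∈ ball z (C * r), ∃ z' ∈ Λ, dist p z' ≤ r / (C * R))
          {Q : Finset ℝ} (_ : ∀ v : ℝ, r / (C * R) ≤ v → v ≤ C * r / R →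
            ∃ q ∈ Q, q / 2 ≤ v ∧ v ≤ 2 * q),
          (z ∈ loewnerDomain W (t₀ + τ₁ * Y ^ 2) ∧ 1 / C ≤ sn (Zf W z (t₀ + τ₁ * Y ^ 2)) ∧
            Real.log r - C ≤ Uf W z (t₀ + τ₁ * Y ^ 2)) ∧
          ∃ I : Finset ℕ, (∀ j ∈ I, j < J) ∧ R ^ 2 / C ≤ I.card ∧
            ∀ j ∈ I, ∃ z' q, GoodStep ch a Λ Q W (t₀ + j * (a ^ 2 / κ)) z' q := by
  obtain ⟨τ₁, C₀, R₀, hτ, hC₀, hR₀, ZZ⟩ := zigzag A₀
  obtain ⟨C₁, hC₁, HC⟩ := harnack_chain (A := 80) (by norm_num)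
  have hC₀' : 0 < C₀ := by linarith
  have hC₁' : 0 < C₁ := by linarith
  have hlam' : 0 < lam + 4 := by linarith
  -- the constant `K`
  obtain ⟨E, hE⟩ : ∃ E, E = Real.exp (C₀ + 4 * C₀ ^ 2 / κ) := ⟨_, rfl⟩
  have hE0 : Real.exp C₀ ≤ E := by
    rw [hE]; apply Real.exp_le_exp.2
    have : 0 ≤ 4 * C₀ ^ 2 / κ := by positivity
    linarith only [this]
  have hE1 : 1 ≤ E := (Real.one_le_exp (by linarith only [hC₀])).trans hE0
  have hEp : 0 < E := by linarith only [hE1]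
  obtain ⟨K, hK⟩ : ∃ K, K = 64 * C₁ * E + (2 * C₀ + 2 + 1 / κ + 2 * C₀ / κ) + ch +
    2 * (lam + 4) / ch := ⟨_, rfl⟩
  have n1 : 64 ≤ 64 * C₁ * E := by nlinarith only [mul_le_mul hC₁ hE1 (by norm_num) (by linarith)]
  have n2 : 0 ≤ 1 / κ + 2 * C₀ / κ := by positivity
  have n3 : 0 ≤ 2 * (lam + 4) / ch := by positivity
  have hK1 : 1 ≤ K := by rw [hK]; linarith only [hch, hC₀, n1, n2, n3]
  have hK0 : 0 < K := by linarith only [hch, hC₀, hK, n1, n2, n3]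
  have k1 : 64 * C₁ * E ≤ K := by rw [hK]; linarith only [hch, hC₀, n2, n3]
  have k2 : 2 * C₀ + 2 + 1 / κ + 2 * C₀ / κ ≤ K := by rw [hK]; linarith only [hch, n1, n3]
  have k3 : ch ≤ K := by rw [hK]; linarith only [hC₀, n1, n2, n3]
  have k4 : 2 * (lam + 4) / ch ≤ K := by rw [hK]; linarith only [hch, hC₀, n1, n2]
  have k5 : C₀ ≤ K := by rw [hK]; linarith only [hch, hC₀, n1, n2, n3]
  have k6 : 3 * C₁ * Real.exp C₀ ≤ K := by
    refine le_trans ?_ k1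
    have : C₁ * Real.exp C₀ ≤ C₁ * E := by (clear * - hE0 hC₁; gcongr)
    nlinarith only [n1, this]
  obtain ⟨K₃, hK₃, GS⟩ := good_of_state hK1
  have hK₃' : 0 < K₃ := by linarith only [hK₃]
  obtain ⟨c₂, hc₂⟩ : ∃ c₂, c₂ = 1 / (480 * C₁) := ⟨_, rfl⟩
  have hc₂0 : 0 < c₂ := by rw [hc₂]; positivity
  obtain ⟨C, hC⟩ : ∃ C, C = 800 * K₃ + (C₁ + 1) + 2 * C₀ ^ 2 + (C₀ + 2) + (K₃ / c₂) ^ 2 :=
    ⟨_, rfl⟩
  have s1 : 0 ≤ 2 * C₀ ^ 2 := by positivity
  have s2 : 0 ≤ (K₃ / c₂) ^ 2 := by (clear * - hK₃ hc₂0; positivity)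
  have hC1 : 1 ≤ C := by rw [hC]; linarith only [hC₀, hC₁, hK₃, s1, s2]
  have hC0 : 0 < C := by linarith only [hC₀, hC₁, hK₃, hC, s1, s2]
  have l1 : 800 * K₃ + (C₁ + 1) ≤ C := by rw [hC]; linarith only [hC₀, s1, s2]
  have l2 : 2 * C₀ ^ 2 ≤ C := by rw [hC]; linarith only [hC₀, hC₁, hK₃, s2]
  have l3 : C₀ + 2 ≤ C := by rw [hC]; linarith only [hC₁, hK₃, s1, s2]
  have l4 : (K₃ / c₂) ^ 2 ≤ C := by rw [hC]; linarith only [hC₀, hC₁, hK₃, s1]
  clear hC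
  refine ⟨τ₁, C, R₀, hτ, hC1, hR₀, ?_⟩
  intro Y X R hY hX hR
  have hR0 : 0 < R := by linarith only [hR₀, hR]
  have hR1 : 1 ≤ R := by linarith only [hR₀, hR]
  have hX' : |X / Y| ≤ A₀ := by
    rw [abs_div, abs_of_pos hY, div_le_iff₀ hY]; exact hX
  obtain ⟨w', hw0, hwlip, HZ⟩ := ZZ (X / Y) hX' R hR
  refine ⟨fun u => Y * w' (u / Y ^ 2), by simp [hw0], scaled_lip hY hwlip, ?_⟩
  intro W hW z t₀ r a J ht₀ hr ha ha1 ha2 hJ hz hdz hU1 hU2 htube Λ hΛ Q hQ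
  -- the rescaled driver
  have hV : Continuous (scaleW Y (shiftW t₀ W)) := by unfold scaleW shiftW; fun_prop
  have hV0 : scaleW Y (shiftW t₀ W) 0 = 0 := by simp [scaleW, shiftW]
  obtain ⟨F1, F2⟩ := HZ _ hV hV0 (scaled_driver hY hJ ha1 htube)
  have hzim0 : 0 < (Zf W z t₀).im := Zf_im_pos ht₀ hz
  constructor
  · have hzim : (Zf W z t₀).im ≤ 17 / 16 * Y := by
      rw [dist_eq_norm] at hdz
      have h1 := (Complex.abs_im_le_norm _).trans hdz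
      have e : (Zf W z t₀ - (X + Y * Complex.I)).im = (Zf W z t₀).im - Y := by simp
      rw [e, abs_le] at h1
      linarith only [h1]
    have hd1 : dist ((Y : ℂ)⁻¹ * Zf W z t₀) (((X / Y : ℝ) : ℂ) + Complex.I) ≤ 1 / 16 := by
      have h1 := scaled_dist (X := X) (c := 1) (ρ := 1 / 16) (p := Zf W z t₀) hY (by
        rw [one_mul]
        refine hdz.trans (by linarith only))
      rwa [Complex.ofReal_one, one_mul] at h1
    obtain ⟨g1, g2, g3, g4⟩ := F2 _ hd1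
    obtain ⟨f1, f2, f3⟩ := high_end (r := r) hC₀ hW ht₀ hY hτ hz (by linarith only [hY, hzim]) hzim0 hU1
      g1 g2 g3 g4
    refine ⟨f1, le_trans ?_ f2, by linarith only [l3, f3]⟩
    (clear * - hC₀ l2; gcongr)
  · -- the counting
    classical
    have hYim : 0 < ((X : ℂ) + ((1 / 16 * Y : ℝ) : ℂ) * Complex.I).im := by
      simp only [one_div, Complex.ofReal_mul, Complex.ofReal_inv, Complex.ofReal_ofNat, Complex.add_im, Complex.ofReal_im, Complex.mul_im, Complex.mul_re, Complex.inv_re, Complex.re_ofNat, Complex.normSq_ofNat, div_self_mul_self', Complex.ofReal_re, Complex.inv_im, Complex.im_ofNat, neg_zero, zero_div, mul_zero, sub_zero, Complex.I_im, mul_one, zero_mul, add_zero, Complex.I_re, zero_add, inv_pos, Nat.ofNat_pos, mul_pos_iff_of_pos_left]; positivity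
    obtain ⟨ζ₀, hζ₀, hζ₀'⟩ := Zf_surj hW ht₀ hYim
    -- reference points at the grid times
    have hη0 : 0 < ch * a := by positivity
    have href : ∀ j : ℕ, ∃ ζ : ℂ, ζ ∈ loewnerDomain W (t₀ + j * (a ^ 2 / κ)) ∧
        Zf W ζ (t₀ + j * (a ^ 2 / κ)) = ((ch * a : ℝ) : ℂ) * Complex.I := by
      intro j
      obtain ⟨ζ, h1, h2⟩ := Zf_surj hW (by (clear * - ht₀ ha hκ; positivity) : 0 ≤ t₀ + j * (a ^ 2 / κ))
        (w := ((ch * a : ℝ) : ℂ) * Complex.I) (by simpa only [Complex.ofReal_mul, Complex.mul_im, Complex.mul_re, Complex.ofReal_re, Complex.ofReal_im,     mul_zero, sub_zero, Complex.I_im, mul_one, zero_mul, add_zero, Complex.I_re] using hη0)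
      exact ⟨ζ, h1, h2⟩
    choose ζ hζ1 hζ2 using href
    obtain ⟨-, -, e3, -⟩ := comp_low hC₁ @HC hW ht₀ hY hr hz hdz hU1 hU2 hζ₀
      (by rw [hζ₀', dist_self]; (clear * - hY; positivity))
    -- key claim
    have key : ∀ z' ∈ ball ζ₀ (c₂ * r), ∃ j : ℕ, j < J ∧ dist (ζ j) z' ≤ K₃ * (r / R) ∧
        ∃ z'' q, GoodStep ch a Λ Q W (t₀ + j * (a ^ 2 / κ)) z'' q := by
      intro z' hz'
      have hzd : dist z' ζ₀ ≤ r / (480 * C₁) := by
        refine (mem_ball.1 hz').le.trans (le_of_eq ?_)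
        rw [hc₂]; ring
      obtain ⟨p1, hlow⟩ := low_of_close hC₁ hW ht₀ hY hζ₀ hζ₀' e3 hzd
      obtain ⟨⟨i1, i2⟩, i3, i4, i5⟩ := comp_low hC₁ @HC hW ht₀ hY hr hz hdz hU1 hU2 p1 hlow
      obtain ⟨s, hs, v1, v2, v3, v4, v5⟩ := F1 _ (scaled_dist hY hlow)
      exact visit_good (w := fun u => Y * w' (u / Y ^ 2)) hκ hC₀ hC₁ hK1 hK₃ @GS hch hlam
        (by rw [← hE]; exact k1) k2 k3 k4 k5 k6 l1 hW ht₀ hY hR1 ha hr ha1 ha2 hJ hτ
        (scaled_lip hY hwlip) htube hζ1 hζ2 p1 i1 i2 i3 i4 i5 hs v1 v2 v3 v4 v5 hΛ hQ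
    refine ⟨(Finset.range J).filter fun j : ℕ =>
      ∃ z' q, GoodStep ch a Λ Q W (t₀ + j * (a ^ 2 / κ)) z' q, ?_, ?_, ?_⟩
    · intro j hj
      exact Finset.mem_range.1 (Finset.mem_filter.1 hj).1
    · have hcov : ball ζ₀ (c₂ * r) ⊆ ⋃ j ∈ (Finset.range J).filter fun j : ℕ =>
          ∃ z' q, GoodStep ch a Λ Q W (t₀ + j * (a ^ 2 / κ)) z' q,
            closedBall (ζ j) (K₃ * (r / R)) := by
        intro z' hz'
        obtain ⟨j, hjJ, hd, hg⟩ := key z' hz'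
        rw [mem_iUnion₂]
        refine ⟨j, Finset.mem_filter.2 ⟨Finset.mem_range.2 hjJ, hg⟩, ?_⟩
        rw [mem_closedBall, dist_comm]
        exact hd
      have hcard := card_of_cover (by (clear * - hK₃ hr hR0; positivity)) hcov (by (clear * - hc₂0 hr; positivity))
      refine le_trans ?_ hcard
      have e : c₂ * r / (K₃ * (r / R)) = R / (K₃ / c₂) := by (clear * - hr hR0 hK₃ hc₂0; field_simp)
      rw [e, div_pow]
      have h0 : 0 < (K₃ / c₂) ^ 2 := by positivity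
      (clear * - hR0 hK₃ hc₂0 l4; gcongr)
    · intro j hj
      exact (Finset.mem_filter.1 hj).2

end Vale.Agent.P164
end

section

/-!
# The scale lemma (U-SCALE)
-/

namespace Vale.Agent.P164

open Set Metric Filter Topology MeasureTheory ProbabilityTheory
open scoped NNReal ENNReal

/-- Additivity of `mu` in time. -/
lemma scale_mu_add {κ r : ℝ} {W : ℝ → ℝ} {D : Set ℂ} {s t T : ℝ} (h0 : 0 < κ) (h8 : κ < 8)
    (hr : 0 < r) (hW : Continuous W) (hD : MeasurableSet D) (hDim : ∀ z ∈ D, 0 < z.im)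
    (hDv : volume D ≠ ⊤) (hs : 0 ≤ s) (hst : s ≤ t) (htT : t ≤ T) :
    mu κ r W D s t + mu κ r W D t T = mu κ r W D s T := by
  unfold mu
  rw [← integral_add (yc_integrableOn h0 h8 hr hW hD hDim hDv hs hst)
    (yc_integrableOn h0 h8 hr hW hD hDim hDv (hs.trans hst) htT)]
  exact setIntegral_congr_fun hD fun z hz => yc_add h0 h8 hr hW (hDim z hz) hs hst htT

/-- Monotonicity of `mu` in the set. -/
lemma scale_mu_mono {κ r : ℝ} {W : ℝ → ℝ} {A B : Set ℂ} {s t : ℝ} (h0 : 0 < κ) (h8 : κ < 8)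
    (hr : 0 < r) (hW : Continuous W) (hB : MeasurableSet B) (hBim : ∀ z ∈ B, 0 < z.im)
    (hBv : volume B ≠ ⊤) (hs : 0 ≤ s) (hst : s ≤ t) (hAB : A ⊆ B) :
    mu κ r W A s t ≤ mu κ r W B s t := by
  unfold mu
  exact setIntegral_mono_set (yc_integrableOn h0 h8 hr hW hB hBim hBv hs hst)
    (Eventually.of_forall fun z => yc_nonneg hs hst) hAB.eventuallyLE

/-- The content collected during `J` steps. -/
lemma scale_mu_sum {κ r : ℝ} {W : ℝ → ℝ} {D : Set ℂ} {t₀ δ : ℝ} (h0 : 0 < κ) (h8 : κ < 8)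
    (hr : 0 < r) (hW : Continuous W) (hD : MeasurableSet D) (hDim : ∀ z ∈ D, 0 < z.im)
    (hDv : volume D ≠ ⊤) (ht₀ : 0 ≤ t₀) (hδ : 0 ≤ δ) (J : ℕ) :
    ∑ j ∈ Finset.range J, mu κ r W D (t₀ + j * δ) (t₀ + (j + 1) * δ) =
      mu κ r W D t₀ (t₀ + J * δ) := by
  induction J with
  | zero =>
    simp only [Finset.range_zero, mu, yc, Finset.sum_empty, CharP.cast_eq_zero, zero_mul, add_zero, intervalIntegral.integral_same, integral_zero]
  | succ n ih =>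
    have hn : (0 : ℝ) ≤ n * δ := by (clear * - hδ; positivity)
    rw [Finset.sum_range_succ, ih, scale_mu_add h0 h8 hr hW hD hDim hDv ht₀ (by linarith only [hn])
      (by nlinarith only [hδ])]
    push_cast
    rfl

/-- Finite nets of compact sets. -/
lemma scale_net {E : Type*} [PseudoMetricSpace E] {K : Set E} (hK : IsCompact K) {e : ℝ}
    (he : 0 < e) :
    ∃ N : Finset E, (∀ z ∈ N, z ∈ K) ∧ ∀ p ∈ K, ∃ z' ∈ N, dist p z' < e := by
  obtain ⟨t, htK, htf, hcov⟩ := hK.finite_cover_balls he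
  refine ⟨htf.toFinset, fun z hz => htK (htf.mem_toFinset.1 hz), fun p hp => ?_⟩
  have h1 := hcov hp
  simp only [mem_iUnion, mem_ball] at h1
  obtain ⟨y, hy, hd⟩ := h1
  exact ⟨y, htf.mem_toFinset.2 hy, hd⟩

/-- The choice of `J` and `a`. -/
lemma scale_param {κ τ₁ lam Y R : ℝ} (h0 : 0 < κ) (hτ : 0 < τ₁) (hlam : 1 ≤ lam)
    (hlam' : 8 / κ ≤ lam) (hY : 0 < Y) (hR : 1 ≤ R)
    (hR' : 1 ≤ τ₁ * κ * (lam + 4) ^ 2 * R ^ 2) :
    ∃ (J : ℕ) (a : ℝ), 0 < a ∧ J * (a ^ 2 / κ) = τ₁ * Y ^ 2 ∧ (lam + 4) * a ≤ Y / R ∧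
      Y / R ≤ 2 * ((lam + 4) * a) ∧ R / Y ≤ κ / (8 * a) ∧
      (J : ℝ) ≤ 2 * τ₁ * κ * (lam + 4) ^ 2 * R ^ 2 := by
  set x : ℝ := τ₁ * κ * (lam + 4) ^ 2 * R ^ 2 with hx
  have hR0 : 0 < R := by linarith only [hR]
  have hJ1 : x ≤ (⌈x⌉₊ : ℝ) := Nat.le_ceil x
  have hJ2 : (⌈x⌉₊ : ℝ) ≤ 2 * x := by
    have := (Nat.ceil_lt_add_one (show 0 ≤ x by linarith only [hR'])).le
    linarith only [hR', this]
  have hJ0 : (0 : ℝ) < (⌈x⌉₊ : ℝ) := by linarith only [hR', hJ1]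
  set J : ℕ := ⌈x⌉₊ with hJ
  have hq0 : 0 < τ₁ * κ / J := by positivity
  set a : ℝ := Y * Real.sqrt (τ₁ * κ / J) with ha
  have ha0 : 0 < a := mul_pos hY (Real.sqrt_pos.2 hq0)
  have ha2 : a ^ 2 = Y ^ 2 * (τ₁ * κ / J) := by
    rw [ha, mul_pow, Real.sq_sqrt hq0.le]
  have hsq : ((lam + 4) * a * R) ^ 2 = Y ^ 2 * (x / J) := by
    rw [mul_pow, mul_pow, ha2, hx]
    field_simp
  have h1 : (lam + 4) * a * R ≤ Y := by
    refine (pow_le_pow_iff_left₀ (by positivity) hY.le two_ne_zero).1 ?_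
    rw [hsq]
    have : x / J ≤ 1 := by
      rw [div_le_one hJ0]
      exact hJ1
    nlinarith only [this]
  have h2 : Y ≤ 2 * ((lam + 4) * a * R) := by
    refine (pow_le_pow_iff_left₀ hY.le (by positivity) two_ne_zero).1 ?_
    rw [mul_pow, hsq]
    have : 1 / 2 ≤ x / J := by
      rw [div_le_div_iff₀ (by norm_num) hJ0]
      linarith only [hJ2]
    nlinarith only [this]
  refine ⟨J, a, ha0, ?_, ?_, ?_, ?_, by rw [hx] at hJ2; linarith only [hJ2]⟩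
  · rw [ha2]
    field_simp
  · rw [le_div_iff₀ hR0]
    exact h1
  · rw [div_le_iff₀ hR0]
    linarith only [h2]
  · rw [div_le_div_iff₀ hY (by positivity)]
    have h3 : 8 ≤ κ * lam := by
      rw [div_le_iff₀ h0] at hlam'
      linarith only [hlam']
    have h4 : 8 * (a * R) ≤ κ * (lam + 4) * (a * R) := by
      refine mul_le_mul_of_nonneg_right (by nlinarith only [h0, h3]) (by positivity)
    have h5 : κ * ((lam + 4) * a * R) ≤ κ * Y := mul_le_mul_of_nonneg_left h1 h0.le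
    nlinarith only [h4, h5]

end Vale.Agent.P164
end

section

/-!
# The mass after the recovery of the angle
-/

namespace Vale.Agent.P164

open Set Metric Filter Topology MeasureTheory ProbabilityTheory
open scoped NNReal ENNReal

/-- The content is monotone in the set and in the time interval. -/
lemma Rec_mu_mono {κ r s t T : ℝ} (h0 : 0 < κ) (h8 : κ < 8) (hr : 0 < r) {W : ℝ → ℝ}
    (hW : Continuous W) (hs : 0 ≤ s) (hst : s ≤ t) (htT : t ≤ T) {A B : Set ℂ}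
    (hB : MeasurableSet B) (hBim : ∀ z ∈ B, 0 < z.im) (hBv : volume B ≠ ⊤) (hAB : A ⊆ B) :
    mu κ r W A s t ≤ mu κ r W B 0 T := by
  have h1 : mu κ r W A s t ≤ mu κ r W B s t := by
    unfold mu
    exact setIntegral_mono_set (yc_integrableOn h0 h8 hr hW hB hBim hBv hs hst)
      (Eventually.of_forall fun z => yc_nonneg hs hst) hAB.eventuallyLE
  refine h1.trans ?_
  unfold mu
  refine setIntegral_mono_on (yc_integrableOn h0 h8 hr hW hB hBim hBv hs hst)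
    (yc_integrableOn h0 h8 hr hW hB hBim hBv le_rfl (hs.trans (hst.trans htT))) hB fun z hz => ?_
  have e1 := yc_add h0 h8 hr hW (hBim z hz) le_rfl hs hst
  have e2 := yc_add h0 h8 hr hW (hBim z hz) le_rfl (hs.trans hst) htT
  have e3 := yc_nonneg (κ := κ) (r := r) (W := W) (z := z) le_rfl hs
  have e4 := yc_nonneg (κ := κ) (r := r) (W := W) (z := z) (hs.trans hst) htT
  linarith only [e1, e2, e3, e4]

/-- `Fst` restricted to alive points. -/
def RecE {Ω : Type*} (δ u : ℝ) (W : ℝ → Ω → ℝ) (z : ℂ) (l : ℕ) : Set Ω :=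
  {ω | z ∈ loewnerDomain (fun u => W u ω) (l * δ)} ∩ Fst δ u W z l

lemma RecE_meas {κ : ℝ} {Ω : Type*} [MeasurableSpace Ω] {P : Measure Ω} {W : ℝ → Ω → ℝ}
    (hW : IsDrv κ P W) {δ u : ℝ} (hδ : 0 < δ) (z : ℂ) (l : ℕ) :
    MeasurableSet[past W (l * δ)] (RecE δ u W z l) := by
  have e : RecE δ u W z l = {ω | z ∈ loewnerDomain (fun u => W u ω) (l * δ) ∧
      (Zf (fun u => W u ω) z (l * δ), Uf (fun u => W u ω) z (l * δ)) ∈
        {p : ℂ × ℝ | p.2 ≤ u}} ∩ ⋂ i ∈ Finset.range l,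
        {ω | z ∈ loewnerDomain (fun u => W u ω) (i * δ) ∧
      (Zf (fun u => W u ω) z (i * δ), Uf (fun u => W u ω) z (i * δ)) ∈
        {p : ℂ × ℝ | u < p.2}} := by
    ext ω
    simp only [RecE, Fst, mem_inter_iff, mem_ofPred_eq, Finset.mem_range, mem_iInter]
    constructor
    · rintro ⟨h1, h2, h3⟩
      refine ⟨⟨h1, h2⟩, fun i hi => ⟨dom_mono ?_ h1, h3 i hi⟩⟩
      have : (i : ℝ) ≤ l := by exact_mod_cast hi.le
      exact mul_le_mul_of_nonneg_right this hδ.le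
    · rintro ⟨⟨h1, h2⟩, h3⟩
      exact ⟨h1, h2, fun i hi => (h3 i hi).2⟩
  rw [e]
  refine @MeasurableSet.inter Ω (past W (l * δ)) _ _ (Z_past hW.cont hW.meas (by (clear * - hδ; positivity)) z
    (measurableSet_le measurable_snd measurable_const)) ?_
  refine @Finset.measurableSet_biInter Ω ℕ (past W (l * δ)) _ _ fun i hi => ?_
  have hi' : (i : ℝ) ≤ l := by exact_mod_cast (Finset.mem_range.1 hi).le
  exact past_mono (mul_le_mul_of_nonneg_right hi' hδ.le) _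
    (Z_past hW.cont hW.meas (by positivity) z (measurableSet_lt measurable_const measurable_snd))

lemma RecE_disj {Ω : Type*} {δ u : ℝ} {W : ℝ → Ω → ℝ} {z : ℂ} {i j : ℕ} (h : i ≠ j) :
    Disjoint (RecE δ u W z i) (RecE δ u W z j) := by
  rw [Set.disjoint_left]
  rintro ω ⟨_, h1, h2⟩ ⟨_, h3, h4⟩
  rcases lt_or_gt_of_ne h with h5 | h5
  · exact absurd (h4 i h5) (not_lt.2 h1)
  · exact absurd (h2 j h5) (not_lt.2 h3)

/-- Optional stopping with one more event. -/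
lemma Rec_stop {Ω : Type*} [MeasurableSpace Ω] {P : Measure Ω} {A S : Set Ω} {N m₀ : ℕ}
    {V : ℕ → Ω → ℝ≥0∞} {E : ℕ → Set Ω} {m : ℕ → MeasurableSpace Ω} (hA : MeasurableSet[m 0] A)
    (hm : Monotone m) (hle : ∀ i, m i ≤ ‹MeasurableSpace Ω›)
    (hE : ∀ i, MeasurableSet[m i] (E i)) (hdisj : ∀ i j, i ≠ j → Disjoint (E i) (E j))
    (hS : MeasurableSet[m m₀] S) (hSA : S ⊆ A) (hSE : ∀ i ≤ m₀, Disjoint S (E i)) (hN : m₀ ≤ N)
    (hV : ∀ i, ∀ S, MeasurableSet[m i] S → ∫⁻ ω in S, V (i + 1) ω ∂P ≤ ∫⁻ ω in S, V i ω ∂P) :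
    ∑ i ∈ Finset.range (N + 1), ∫⁻ ω in (A \ S) ∩ E i, V i ω ∂P + ∫⁻ ω in S, V m₀ ω ∂P ≤
      ∫⁻ ω in A, V 0 ω ∂P := by
  classical
  set F : ℕ → Set Ω := fun i => if i < m₀ then E i else if i = m₀ then E i ∪ S else E i \ S
    with hF
  have hFE : ∀ i, MeasurableSet[m i] (F i) := by
    intro i
    simp only [hF]
    split_ifs with h1 h2
    · exact hE i
    · subst h2
      exact @MeasurableSet.union Ω (m i) _ _ (hE i) hS
    · exact @MeasurableSet.diff Ω (m i) _ _ (hE i) (hm (by omega) _ hS)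
  have hsub : ∀ i, F i ⊆ E i ∪ S := by
    intro i
    simp only [hF]
    split_ifs
    · exact subset_union_left
    · exact le_rfl
    · exact sdiff_subset.trans subset_union_left
  have hFne : ∀ i, i ≠ m₀ → Disjoint S (F i) := by
    intro i hi
    simp only [hF]
    split_ifs with h1
    · exact hSE i h1.le
    · exact disjoint_sdiff_right
  have hFE' : ∀ i, F i \ S ⊆ E i := by
    intro i ω hω
    rcases hsub i hω.1 with h | h
    · exact h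
    · exact absurd h hω.2
  have hFd : Pairwise fun i j => Disjoint (F i) (F j) := by
    intro i j hij
    rw [Set.disjoint_left]
    intro ω h1 h2
    by_cases hωS : ω ∈ S
    · by_cases hi : i = m₀
      · exact Set.disjoint_left.1 (hFne j (by omega)) hωS h2
      · exact Set.disjoint_left.1 (hFne i hi) hωS h1
    · exact Set.disjoint_left.1 (hdisj i j hij) (hFE' i ⟨h1, hωS⟩) (hFE' j ⟨h2, hωS⟩)
  have key := optional_stopping (P := P) (N := N) hA hm hle hFE hFd hV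
  refine le_trans ?_ key
  have hSm : MeasurableSet S := hle _ _ hS
  have hAEF : ∀ i, (A \ S) ∩ E i ⊆ A ∩ F i := by
    intro i ω hω
    refine ⟨hω.1.1, ?_⟩
    simp only [hF]
    split_ifs
    · exact hω.2
    · exact Or.inl hω.2
    · exact ⟨hω.2, hω.1.2⟩
  have hm0 : m₀ ∈ Finset.range (N + 1) := Finset.mem_range.2 (by omega)
  rw [← Finset.add_sum_erase _ _ hm0, ← Finset.add_sum_erase (Finset.range (N + 1))
    (fun i => ∫⁻ ω in A ∩ F i, V i ω ∂P) hm0, add_right_comm]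
  refine add_le_add ?_ (Finset.sum_le_sum fun i _ => lintegral_mono_set (hAEF i))
  have h1 : ∫⁻ ω in (A ∩ F m₀) ∩ S, V m₀ ω ∂P + ∫⁻ ω in (A ∩ F m₀) \ S, V m₀ ω ∂P =
      ∫⁻ ω in A ∩ F m₀, V m₀ ω ∂P := lintegral_inter_add_sdiff _ _ hSm
  rw [← h1, add_comm]
  refine add_le_add (lintegral_mono_set ?_) (lintegral_mono_set ?_)
  · intro ω hω
    refine ⟨⟨hSA hω, ?_⟩, hω⟩
    simp only [hF]
    rw [if_neg (lt_irrefl _), if_pos trivial]
    exact Or.inr hω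
  · intro ω hω
    exact ⟨hAEF m₀ hω, hω.1.2⟩

lemma Rec_val {d x L R C C₁ u v : ℝ} (hd : 0 < d) (hR : 0 < R) (hC₁ : 0 < C₁) (hC : 0 < C)
    (hv : u - L - 1 ≤ v) (c2 : C₁ * Real.exp (d * (L + 1)) ≤ C) :
    R ^ x * Real.exp (d * u) / C ≤ R ^ x * Real.exp v ^ d / C₁ := by
  rw [← Real.exp_mul, div_le_div_iff₀ hC hC₁]
  have h0 : Real.exp (d * u) ≤ Real.exp (v * d) * Real.exp (d * (L + 1)) := by
    rw [← Real.exp_add, Real.exp_le_exp]
    have := mul_le_mul_of_nonneg_left hv hd.le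
    linarith only [this]
  have h1 : Real.exp (d * u) * C₁ ≤ Real.exp (v * d) * C := by
    calc Real.exp (d * u) * C₁ ≤ (Real.exp (v * d) * Real.exp (d * (L + 1))) * C₁ :=
          mul_le_mul_of_nonneg_right h0 hC₁.le
      _ = Real.exp (v * d) * (C₁ * Real.exp (d * (L + 1))) := by ring
      _ ≤ Real.exp (v * d) * C := mul_le_mul_of_nonneg_left c2 (Real.exp_pos _).le
  have h2 : 0 ≤ R ^ x := (Real.rpow_pos_of_pos hR _).le
  calc R ^ x * Real.exp (d * u) * C₁ = R ^ x * (Real.exp (d * u) * C₁) := by ring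
    _ ≤ R ^ x * (Real.exp (v * d) * C) := mul_le_mul_of_nonneg_left h1 h2
    _ = R ^ x * Real.exp (v * d) * C := by ring

lemma Rec_enn {X Y T : ℝ≥0∞} {q : ℝ} (hq0 : 0 ≤ q) (hY : Y ≠ ⊤)
    (h1 : X + T ≤ Y) (h2 : ENNReal.ofReal q * Y ≤ T) : X ≤ ENNReal.ofReal (1 - q) * Y := by
  have h3 : X + ENNReal.ofReal q * Y ≤ Y := (add_le_add le_rfl h2).trans h1
  have h4 : ENNReal.ofReal (1 - q) * Y = Y - ENNReal.ofReal q * Y := by
    rw [ENNReal.ofReal_sub _ hq0, ENNReal.ofReal_one, ENNReal.sub_mul fun _ _ => hY, one_mul]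
  rw [h4]
  exact ENNReal.le_sub_of_add_le_right (ENNReal.mul_ne_top ENNReal.ofReal_ne_top hY) h3

lemma Rec_q {x b C C₁ R v : ℝ} (hC₁ : 0 < C₁) (hC : 0 < C) (hCC : C₁ ≤ C)
    (c3 : C₁ ^ b * Real.exp x ≤ C) :
    Real.exp (-C * R ^ 2) / C * Real.exp (-x * (v - 1)) ≤
      Real.exp (-x * v) * (1 / C₁) ^ b * Real.exp (-C₁ * R ^ 2) := by
  have h1 : Real.exp (-C * R ^ 2) ≤ Real.exp (-C₁ * R ^ 2) := by
    rw [Real.exp_le_exp]
    nlinarith only [hCC]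
  have h2 : Real.exp (-x * (v - 1)) = Real.exp (-x * v) * Real.exp x := by
    rw [← Real.exp_add]; congr 1; ring
  have h3 : (1 / C₁) ^ b = (C₁ ^ b)⁻¹ := by
    rw [one_div, Real.inv_rpow hC₁.le]
  have h4 : 0 < C₁ ^ b := Real.rpow_pos_of_pos hC₁ _
  have h5 : Real.exp x / C ≤ (C₁ ^ b)⁻¹ := by
    rw [div_le_iff₀ hC, inv_mul_eq_div, le_div_iff₀ h4]
    linarith only [c3]
  rw [h2, h3]
  calc Real.exp (-C * R ^ 2) / C * (Real.exp (-x * v) * Real.exp x) =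
        Real.exp (-C * R ^ 2) * (Real.exp (-x * v) * (Real.exp x / C)) := by ring
    _ ≤ Real.exp (-C₁ * R ^ 2) * (Real.exp (-x * v) * (C₁ ^ b)⁻¹) := by
        refine mul_le_mul h1 (mul_le_mul_of_nonneg_left h5 (Real.exp_pos _).le) ?_
          (Real.exp_pos _).le
        have := (Real.exp_pos x).le
        positivity
    _ = _ := by ring

/-- The mass of the set `S` of recovered paths. -/
lemma Rec_mass {κ : ℝ} (h0 : 0 < κ) (h8 : κ < 8) {Ω : Type*} [MeasurableSpace Ω] {P : Measure Ω}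
    {W : ℝ → Ω → ℝ} (hW : IsDrv κ P W) {z : ℂ} {C C₁ R v s t : ℝ} (hC₁ : 0 < C₁)
    (hCC : C₁ ≤ C) (c3 : C₁ ^ be κ * Real.exp (xx κ) ≤ C) (hs : 0 ≤ s) (hst : s ≤ t)
    {A S : Set Ω} (hAm : MeasurableSet A) (hSm : MeasurableSet S) (hSA : S ⊆ A)
    (hSP : ENNReal.ofReal (Real.exp (-C₁ * R ^ 2)) * P A ≤ P S)
    (hA : ∀ ω ∈ A, z ∈ loewnerDomain (fun u => W u ω) s ∧
      v - 1 ≤ Uf (fun u => W u ω) z s ∧ Uf (fun u => W u ω) z s ≤ v)
    (hS : ∀ ω ∈ S, z ∈ loewnerDomain (fun u => W u ω) t ∧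
      1 / C₁ ≤ sn (Zf (fun u => W u ω) z t)) :
    (∫⁻ ω in A, ENNReal.ofReal (St (MM κ) (fun v => W v ω) z s) ∂P ≠ ⊤) ∧
    ENNReal.ofReal (Real.exp (-C * R ^ 2) / C) *
      ∫⁻ ω in A, ENNReal.ofReal (St (MM κ) (fun v => W v ω) z s) ∂P ≤
      ∫⁻ ω in S, ENNReal.ofReal (St (MM κ) (fun v => W v ω) z t) ∂P := by
  have hprob := hW.prob
  have hx := xx_pos h8
  have hbe := be_nonneg h0 h8
  have hC : 0 < C := by linarith only [hC₁, hCC]
  have hY : ∫⁻ ω in A, ENNReal.ofReal (St (MM κ) (fun v => W v ω) z s) ∂P ≤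
      ENNReal.ofReal (Real.exp (-xx κ * (v - 1))) * P A := by
    rw [← setLIntegral_const]
    refine setLIntegral_mono' hAm fun ω hω => ENNReal.ofReal_le_ofReal ?_
    obtain ⟨a1, a2, _⟩ := hA ω hω
    rw [St_of_mem a1]
    unfold MM
    have him := Zf_im_pos hs a1
    have h1 : sn (Zf (fun u => W u ω) z s) ^ be κ ≤ 1 :=
      Real.rpow_le_one (sn_pos him).le (sn_le_one _) hbe
    have h2 : Real.exp (-xx κ * Uf (fun u => W u ω) z s) ≤ Real.exp (-xx κ * (v - 1)) := by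
      rw [Real.exp_le_exp]
      have := mul_le_mul_of_nonneg_left a2 hx.le
      linarith only [this]
    calc Real.exp (-xx κ * Uf (fun u => W u ω) z s) * sn (Zf (fun u => W u ω) z s) ^ be κ ≤
        Real.exp (-xx κ * (v - 1)) * 1 :=
          mul_le_mul h2 h1 (Real.rpow_nonneg (sn_pos him).le _) (Real.exp_pos _).le
      _ = _ := mul_one _
  have hT : ENNReal.ofReal (Real.exp (-xx κ * v) * (1 / C₁) ^ be κ) * P S ≤
      ∫⁻ ω in S, ENNReal.ofReal (St (MM κ) (fun v => W v ω) z t) ∂P := by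
    rw [← setLIntegral_const]
    refine setLIntegral_mono' hSm fun ω hω => ENNReal.ofReal_le_ofReal ?_
    obtain ⟨a1, a2⟩ := hS ω hω
    obtain ⟨_, _, a3⟩ := hA ω (hSA hω)
    rw [St_of_mem a1]
    unfold MM
    have h1 : (1 / C₁) ^ be κ ≤ sn (Zf (fun u => W u ω) z t) ^ be κ :=
      Real.rpow_le_rpow (by positivity) a2 hbe
    have h2 : Real.exp (-xx κ * v) ≤ Real.exp (-xx κ * Uf (fun u => W u ω) z t) := by
      rw [Real.exp_le_exp]
      have h3 := Uf_le (hW.cont ω) hs hst a1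
      have := mul_le_mul_of_nonneg_left (h3.trans a3) hx.le
      linarith only [this]
    exact mul_le_mul h2 h1 (Real.rpow_nonneg (by positivity) _) (Real.exp_pos _).le
  refine ⟨(lt_of_le_of_lt hY (ENNReal.mul_lt_top ENNReal.ofReal_lt_top (measure_lt_top _ _))).ne,
    ?_⟩
  calc ENNReal.ofReal (Real.exp (-C * R ^ 2) / C) *
      ∫⁻ ω in A, ENNReal.ofReal (St (MM κ) (fun v => W v ω) z s) ∂P ≤
      ENNReal.ofReal (Real.exp (-C * R ^ 2) / C) *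
        (ENNReal.ofReal (Real.exp (-xx κ * (v - 1))) * P A) := mul_le_mul_right hY _
    _ = ENNReal.ofReal (Real.exp (-C * R ^ 2) / C * Real.exp (-xx κ * (v - 1))) * P A := by
        rw [← mul_assoc, ← ENNReal.ofReal_mul (by positivity)]
    _ ≤ ENNReal.ofReal (Real.exp (-xx κ * v) * (1 / C₁) ^ be κ * Real.exp (-C₁ * R ^ 2)) * P A :=
        mul_le_mul_left (ENNReal.ofReal_le_ofReal (Rec_q hC₁ hC hCC c3)) _
    _ = ENNReal.ofReal (Real.exp (-xx κ * v) * (1 / C₁) ^ be κ) *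
        (ENNReal.ofReal (Real.exp (-C₁ * R ^ 2)) * P A) := by
        rw [← mul_assoc, ← ENNReal.ofReal_mul (by positivity)]
    _ ≤ ENNReal.ofReal (Real.exp (-xx κ * v) * (1 / C₁) ^ be κ) * P S := mul_le_mul_right hSP _
    _ ≤ _ := hT

end Vale.Agent.P164
end

section

/-!
# The one-scale inequality
-/

namespace Vale.Agent.P164

open Set Metric Filter Topology MeasureTheory ProbabilityTheory
open scoped NNReal ENNReal

/-! ### Measurability -/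

lemma oneScale_meas_rate : Measurable (Function.uncurry fun (Z : ℂ) (_ : ℝ) => rate Z) := by
  unfold rate sn Function.uncurry
  fun_prop

lemma oneScale_meas_sn : Measurable sn := by
  unfold sn
  fun_prop

lemma oneScale_Uf {Ω : Type*} [mΩ : MeasurableSpace Ω] {κ : ℝ} {P : Measure Ω}
    {W : ℝ → Ω → ℝ} (hW : IsDrv κ P W) {t : ℝ} (ht : 0 ≤ t) (z : ℂ) :
    Measurable[past W t] (fun ω => Uf (fun v => W v ω) z t) := by
  have h1 : (fun ω => Uf (fun v => W v ω) z t) =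
      fun ω => Real.log z.im - ∫ s in (0 : ℝ)..t, St (fun Z _ => rate Z) (fun v => W v ω) z s := by
    funext ω
    rw [Uf_eq]
    congr 1
    refine intervalIntegral.integral_congr (fun s _ => ?_)
    by_cases h : z ∈ loewnerDomain (fun v => W v ω) s
    · rw [St_of_mem h]
    · simp only [St_of_not_mem h, Zf_of_not_mem h]
      simp [rate]
  rw [h1]
  exact measurable_const.sub (timeint_past hW.cont hW.meas oneScale_meas_rate le_rfl ht z)

lemma oneScale_Zf {Ω : Type*} [mΩ : MeasurableSpace Ω] {κ : ℝ} {P : Measure Ω}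
    {W : ℝ → Ω → ℝ} (hW : IsDrv κ P W) {t : ℝ} (ht : 0 ≤ t) (z : ℂ) :
    Measurable[past W t] (fun ω => Zf (fun v => W v ω) z t) := by
  have h1 : (fun ω => Zf (fun v => W v ω) z t) =
      fun ω => ((St (fun Z _ => Z.re) (fun v => W v ω) z t : ℝ) : ℂ) +
        ((St (fun Z _ => Z.im) (fun v => W v ω) z t : ℝ) : ℂ) * Complex.I := by
    funext ω
    by_cases h : z ∈ loewnerDomain (fun v => W v ω) t
    · rw [St_of_mem h, St_of_mem h, Complex.re_add_im]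
    · rw [St_of_not_mem h, St_of_not_mem h, Zf_of_not_mem h]
      simp
  rw [h1]
  have m1 : Measurable (Function.uncurry fun (Z : ℂ) (_ : ℝ) => Z.re) := by
    unfold Function.uncurry
    fun_prop
  have m2 : Measurable (Function.uncurry fun (Z : ℂ) (_ : ℝ) => Z.im) := by
    unfold Function.uncurry
    fun_prop
  have h2 := St_past hW.cont hW.meas m1 ht z
  have h3 := St_past hW.cont hW.meas m2 ht z
  exact (Complex.measurable_ofReal.comp h2).add ((Complex.measurable_ofReal.comp h3).mul_const _)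

lemma oneScale_state {Ω : Type*} [mΩ : MeasurableSpace Ω] {κ : ℝ} {P : Measure Ω}
    {W : ℝ → Ω → ℝ} (hW : IsDrv κ P W) {t : ℝ} (ht : 0 ≤ t) (z : ℂ) :
    Measurable[past W t] (fun ω => (Zf (fun v => W v ω) z t, Uf (fun v => W v ω) z t)) :=
  (oneScale_Zf hW ht z).prodMk (oneScale_Uf hW ht z)

lemma oneScale_Fst {Ω : Type*} [mΩ : MeasurableSpace Ω] {κ : ℝ} {P : Measure Ω}
    {W : ℝ → Ω → ℝ} (hW : IsDrv κ P W) {δ : ℝ} (hδ : 0 ≤ δ) (u : ℝ) (z : ℂ) (l : ℕ) :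
    MeasurableSet[past W (l * δ)] (Fst δ u W z l) := by
  have h1 : Fst δ u W z l = {ω | Uf (fun v => W v ω) z (l * δ) ≤ u} ∩
      ⋂ (i : ℕ) (_ : i < l), {ω | u < Uf (fun v => W v ω) z (i * δ)} := by
    ext ω
    simp only [Fst, mem_ofPred_eq, mem_inter_iff, mem_iInter]
  rw [h1]
  refine MeasurableSet.inter (oneScale_Uf hW (by (clear * - hδ; positivity)) z measurableSet_Iic)
    (MeasurableSet.iInter fun i => MeasurableSet.iInter fun hi => ?_)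
  have h2 : past W (i * δ) ≤ past W (l * δ) := past_mono (by gcongr)
  exact h2 _ (oneScale_Uf hW (by positivity) z measurableSet_Ioi)

lemma oneScale_NK {Ω : Type*} [mΩ : MeasurableSpace Ω] {κ : ℝ} {P : Measure Ω}
    {W : ℝ → Ω → ℝ} (hW : IsDrv κ P W) {δ : ℝ} (hδ : 0 ≤ δ) (ϰ c : ℝ) (z : ℂ) (l : ℕ) :
    MeasurableSet[past W (l * δ)] (NK ϰ c δ W z l) := by
  have h1 : NK ϰ c δ W z l = (⋂ (i : ℕ) (_ : i ≤ l), ({ω | z ∈ loewnerDomain (fun u => W u ω) (i * δ)}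
      ∩ {ω | (Zf (fun v => W v ω) z (i * δ), Uf (fun v => W v ω) z (i * δ)) ∈
        {p : ℂ × ℝ | ϰ ≤ p.1.im ∧ ‖p.1‖ ≤ 1 / ϰ ∧ -(1 / ϰ) ≤ p.2}})) ∩
      ⋂ (i : ℕ) (_ : i < l), {ω | osc W (i * δ) δ ω ≤ c} := by
    ext ω
    simp only [NK, one_div, mem_ofPred_eq, mem_inter_iff, mem_iInter]
  have hS : MeasurableSet {p : ℂ × ℝ | ϰ ≤ p.1.im ∧ ‖p.1‖ ≤ 1 / ϰ ∧ -(1 / ϰ) ≤ p.2} := by
    refine (measurableSet_le measurable_const
      (Complex.measurable_im.comp measurable_fst)).inter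
      ((measurableSet_le measurable_fst.norm measurable_const).inter
        (measurableSet_le measurable_const measurable_snd))
  rw [h1]
  refine MeasurableSet.inter (MeasurableSet.iInter fun i => MeasurableSet.iInter fun hi => ?_)
    (MeasurableSet.iInter fun i => MeasurableSet.iInter fun hi => ?_)
  · have h2 : past W (i * δ) ≤ past W (l * δ) := past_mono (by gcongr)
    exact h2 _ (MeasurableSet.inter (alive_past hW.cont hW.meas (by (clear * - hδ; positivity)) z)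
      (oneScale_state hW (by (clear * - hδ; positivity)) z hS))
  · have h2 : past W (i * δ + δ) ≤ past W (l * δ) := past_mono (by
      have : ((i : ℝ) + 1) ≤ l := by exact_mod_cast hi
      nlinarith only [hδ, this])
    exact h2 _ (tthm_meas_osc hW (by (clear * - hδ; positivity)) hδ c)

lemma oneScale_Rho {Ω : Type*} [mΩ : MeasurableSpace Ω] {κ : ℝ} {P : Measure Ω}
    {W : ℝ → Ω → ℝ} (hW : IsDrv κ P W) {δ : ℝ} (hδ : 0 ≤ δ) (v : ℝ) (z : ℂ) (i l : ℕ) :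
    MeasurableSet[past W (l * δ)] (Rho δ v W z i l) := by
  have h1 : Rho δ v W z i l = ({_ω | i ≤ l} ∩
      {ω | (Zf (fun v => W v ω) z (l * δ), Uf (fun v => W v ω) z (l * δ)) ∈
        {p : ℂ × ℝ | 1 / 2 ≤ sn p.1 ^ 2 ∨ p.2 ≤ v}}) ∩
      ⋂ (j : ℕ) (_ : i ≤ j) (_ : j < l),
        {ω | (Zf (fun v => W v ω) z (j * δ), Uf (fun v => W v ω) z (j * δ)) ∈
        {p : ℂ × ℝ | sn p.1 ^ 2 < 1 / 2 ∧ v < p.2}} := by
    ext ω
    simp only [Rho, one_div, mem_ofPred_eq, mem_inter_iff, mem_iInter, and_assoc]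
  have hS1 : MeasurableSet {p : ℂ × ℝ | 1 / 2 ≤ sn p.1 ^ 2 ∨ p.2 ≤ v} :=
    (measurableSet_le measurable_const ((oneScale_meas_sn.comp measurable_fst).pow_const 2)).union
      (measurableSet_le measurable_snd measurable_const)
  have hS2 : MeasurableSet {p : ℂ × ℝ | sn p.1 ^ 2 < 1 / 2 ∧ v < p.2} :=
    (measurableSet_lt ((oneScale_meas_sn.comp measurable_fst).pow_const 2) measurable_const).inter
      (measurableSet_lt measurable_const measurable_snd)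
  rw [h1]
  refine MeasurableSet.inter (MeasurableSet.inter (MeasurableSet.const _)
    (oneScale_state hW (by (clear * - hδ; positivity)) z hS1))
    (MeasurableSet.iInter fun j => MeasurableSet.iInter fun _ => MeasurableSet.iInter fun hj => ?_)
  have h2 : past W (j * δ) ≤ past W (l * δ) := past_mono (by gcongr)
  exact h2 _ (oneScale_state hW (by (clear * - hδ; positivity)) z hS2)

/-! ### Sums over pieces -/

lemma oneScale_cover {Ω ι : Type*} [MeasurableSpace Ω] {P : Measure Ω} (s : Finset ι)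
    (S : ι → Set Ω) (V : Ω → ℝ≥0∞) {X : Set Ω} (hX : X ⊆ ⋃ j ∈ s, S j) :
    ∫⁻ ω in X, V ω ∂P ≤ ∑ j ∈ s, ∫⁻ ω in S j, V ω ∂P := by
  classical
  refine (lintegral_mono_set hX).trans ?_
  clear hX
  induction s using Finset.induction_on with
  | empty => simp only [Finset.notMem_empty, iUnion_of_empty, iUnion_empty, Measure.restrict_empty, lintegral_zero_measure, Finset.sum_empty, Std.le_refl]
  | insert a s ha ih =>
    rw [Finset.sum_insert ha, Finset.set_biUnion_insert]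
    exact (lintegral_union_le _ _ _).trans (add_le_add le_rfl ih)

lemma oneScale_split {Ω : Type*} [MeasurableSpace Ω] {P : Measure Ω} {B : Set Ω}
    {f : Ω → ℕ × ℤ × ℤ} (hf : ∀ q, MeasurableSet (B ∩ {ω | f ω = q})) {N : ℕ}
    {G : ℕ → Set Ω} {V : ℕ → Ω → ℝ≥0∞} {V0 : Ω → ℝ≥0∞} {a : ℝ≥0∞}
    (h : ∀ q, ∑ l ∈ Finset.range (N + 1), ∫⁻ ω in B ∩ {ω | f ω = q} ∩ G l, V l ω ∂P ≤
      a * ∫⁻ ω in B ∩ {ω | f ω = q}, V0 ω ∂P) :
    ∑ l ∈ Finset.range (N + 1), ∫⁻ ω in B ∩ G l, V l ω ∂P ≤ a * ∫⁻ ω in B, V0 ω ∂P := by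
  have hB : B = ⋃ q, B ∩ {ω | f ω = q} := by
    ext ω
    simp only [mem_iUnion, mem_inter_iff, mem_ofPred_eq, exists_and_left, ↓existsAndEq, and_true]
  have hd : Pairwise (Function.onFun Disjoint fun q => B ∩ {ω | f ω = q}) := by
    intro q q' hq
    refine Set.disjoint_left.2 ?_
    rintro ω ⟨_, h1⟩ ⟨_, h2⟩
    exact hq (h1.symm.trans h2)
  have h1 : ∀ l, ∫⁻ ω in B ∩ G l, V l ω ∂P ≤
      ∑' q, ∫⁻ ω in B ∩ {ω | f ω = q} ∩ G l, V l ω ∂P := by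
    intro l
    refine le_trans (lintegral_mono_set ?_) (lintegral_iUnion_le _ _)
    rw [← iUnion_inter, ← hB]
  calc ∑ l ∈ Finset.range (N + 1), ∫⁻ ω in B ∩ G l, V l ω ∂P
      ≤ ∑ l ∈ Finset.range (N + 1), ∑' q, ∫⁻ ω in B ∩ {ω | f ω = q} ∩ G l, V l ω ∂P :=
        Finset.sum_le_sum fun l _ => h1 l
    _ = ∑' q, ∑ l ∈ Finset.range (N + 1), ∫⁻ ω in B ∩ {ω | f ω = q} ∩ G l, V l ω ∂P :=
        (Summable.tsum_finsetSum fun _ _ => ENNReal.summable).symm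
    _ ≤ ∑' q, a * ∫⁻ ω in B ∩ {ω | f ω = q}, V0 ω ∂P := ENNReal.tsum_le_tsum h
    _ = a * ∫⁻ ω in B, V0 ω ∂P := by
        rw [ENNReal.tsum_mul_left]
        conv_rhs => rw [hB]
        rw [lintegral_iUnion hf hd]

/-! ### The cells -/

/-- The index of the cell which contains the state. -/
noncomputable def oneScale_idx (τ δ : ℝ) (p : ℂ × ℝ) : ℕ × ℤ × ℤ :=
  (⌊τ * p.1.im ^ 2 / δ⌋₊,
    ⌊32 * p.1.re / √((⌊τ * p.1.im ^ 2 / δ⌋₊ : ℝ) * δ / τ) + 1 / 2⌋, ⌈p.2⌉)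

/-- The centre of the cell. -/
noncomputable def oneScale_ctr (τ δ : ℝ) (q : ℕ × ℤ × ℤ) : ℂ :=
  ⟨(q.2.1 : ℝ) * √((q.1 : ℝ) * δ / τ) / 32, √((q.1 : ℝ) * δ / τ)⟩

lemma oneScale_idx_meas (τ δ : ℝ) : Measurable (oneScale_idx τ δ) := by
  unfold oneScale_idx
  have h1 : Measurable fun p : ℂ × ℝ => ⌊τ * p.1.im ^ 2 / δ⌋₊ :=
    Nat.measurable_floor.comp (by fun_prop)
  have h2 : Measurable fun p : ℂ × ℝ => (⌊τ * p.1.im ^ 2 / δ⌋₊ : ℝ) :=
    measurable_from_nat.comp h1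
  have h3 : Measurable fun p : ℂ × ℝ =>
      ⌊32 * p.1.re / √((⌊τ * p.1.im ^ 2 / δ⌋₊ : ℝ) * δ / τ) + 1 / 2⌋ := by
    refine Int.measurable_floor.comp ?_
    refine Measurable.add_const (Measurable.div (by fun_prop) ?_) _
    exact ((h2.mul_const _).div_const _).sqrt
  have h4 : Measurable fun p : ℂ × ℝ => ⌈p.2⌉ := Int.measurable_ceil.comp measurable_snd
  exact h1.prodMk (h3.prodMk h4)

lemma oneScale_cell {τ δ ϰ : ℝ} (hτ : 0 < τ) (hδ : 0 < δ) (hϰ : 0 < ϰ)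
    (hδ1 : δ ≤ τ * ϰ ^ 2 / 1000) {Z : ℂ} (hZ : ϰ ≤ Z.im) (hsn : 1 / 2 ≤ sn Z ^ 2) {U : ℝ}
    {q : ℕ × ℤ × ℤ} (hq : oneScale_idx τ δ (Z, U) = q) :
    0 < (oneScale_ctr τ δ q).im ∧ |(oneScale_ctr τ δ q).re| ≤ 2 * (oneScale_ctr τ δ q).im ∧
      τ * (oneScale_ctr τ δ q).im ^ 2 = q.1 * δ ∧
      dist Z (oneScale_ctr τ δ q) ≤ (oneScale_ctr τ δ q).im / 16 ∧
      (q.2.2 : ℝ) - 1 ≤ U ∧ U ≤ q.2.2 := by
  obtain ⟨m, k, w⟩ := q
  simp only [oneScale_idx, Prod.mk.injEq] at hq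
  obtain ⟨hm, hk, hw⟩ := hq
  rw [hm] at hk
  simp only [oneScale_ctr]
  have hY : 0 < Z.im := hϰ.trans_le hZ
  have h1 : (m : ℝ) ≤ τ * Z.im ^ 2 / δ := by
    rw [← hm]
    exact Nat.floor_le (by (clear * - hτ hY hδ; positivity))
  have h2 : τ * Z.im ^ 2 / δ < m + 1 := by
    rw [← hm]
    exact Nat.lt_floor_add_one _
  rw [le_div_iff₀ hδ] at h1
  rw [div_lt_iff₀ hδ] at h2
  have hsq : √((m : ℝ) * δ / τ) ^ 2 = (m : ℝ) * δ / τ := Real.sq_sqrt (by (clear * - hδ hτ; positivity))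
  set y : ℝ := √((m : ℝ) * δ / τ) with hy
  have hy0 : 0 ≤ y := Real.sqrt_nonneg _
  have hty : τ * y ^ 2 = m * δ := by
    rw [hsq]
    field_simp
  have hyY : y ≤ Z.im := by
    refine abs_le_of_sq_le_sq' ?_ hY.le |>.2
    have : τ * y ^ 2 ≤ τ * Z.im ^ 2 := by rw [hty]; exact h1
    exact le_of_mul_le_mul_left this hτ
  have hyY2 : 999 / 1000 * Z.im ≤ y := by
    refine abs_le_of_sq_le_sq' ?_ hy0 |>.2
    have h3 : τ * Z.im ^ 2 < τ * y ^ 2 + τ * ϰ ^ 2 / 1000 := by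
      rw [hty]
      linarith only [hδ1, h2]
    have h4 : Z.im ^ 2 < y ^ 2 + ϰ ^ 2 / 1000 := by
      have : τ * Z.im ^ 2 < τ * (y ^ 2 + ϰ ^ 2 / 1000) := by linarith only [hδ1, h2, hty]
      exact lt_of_mul_lt_mul_left this hτ.le
    have h5 : ϰ ^ 2 ≤ Z.im ^ 2 := by gcongr
    nlinarith only [h4, h5]
  have hypos : 0 < y := by linarith only [hϰ, hZ, hyY2]
  -- the real part
  have hX : |Z.re| ≤ Z.im := by
    have hn : 0 < ‖Z‖ := norm_pos_iff.2 (fun h => by simp [h] at hY)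
    have h3 : ‖Z‖ ^ 2 = Z.re * Z.re + Z.im * Z.im := by
      rw [Complex.sq_norm, Complex.normSq_apply]
    rw [sn, div_pow, le_div_iff₀ (by (clear * - hn; positivity)), h3] at hsn
    refine abs_le_of_sq_le_sq ?_ hY.le
    nlinarith only [hsn]
  have hk1 : (k : ℝ) ≤ 32 * Z.re / y + 1 / 2 := by
    rw [← hk]
    exact Int.floor_le _
  have hk2 : 32 * Z.re / y + 1 / 2 < k + 1 := by
    rw [← hk]
    exact Int.lt_floor_add_one _
  have hre : |Z.re - (k : ℝ) * y / 32| ≤ y / 64 := by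
    have e : Z.re = (32 * Z.re / y) * y / 32 := by
      (clear * - hypos; field_simp)
    rw [e, show 32 * Z.re / y * y / 32 - (k : ℝ) * y / 32 = (32 * Z.re / y - k) * (y / 32) by ring,
      abs_mul, abs_of_pos (by (clear * - hypos; positivity) : 0 < y / 32)]
    have h5 : |32 * Z.re / y - k| ≤ 1 / 2 := abs_le.2 ⟨by linarith only [hk1], by linarith only [hk2]⟩
    calc |32 * Z.re / y - k| * (y / 32) ≤ 1 / 2 * (y / 32) := by (clear * - h5 hypos; gcongr)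
      _ = y / 64 := by ring
  refine ⟨hypos, ?_, hty, ?_, ?_, ?_⟩
  · have h6 : |(k : ℝ) * y / 32| ≤ |Z.re| + |Z.re - (k : ℝ) * y / 32| := by
      have := abs_sub_abs_le_abs_sub ((k : ℝ) * y / 32) Z.re
      rw [abs_sub_comm] at this
      linarith only [this]
    linarith only [hyY2, hypos, hX, hre, h6]
  · rw [dist_eq_norm]
    refine (Complex.norm_le_abs_re_add_abs_im _).trans ?_
    simp only [Complex.sub_re, Complex.sub_im]
    rw [abs_of_nonneg (by linarith only [hyY] : 0 ≤ Z.im - y)]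
    linarith only [hyY2, hypos, hre]
  · have := Int.ceil_lt_add_one U
    rw [hw] at this
    linarith only [this]
  · rw [← hw]
    exact Int.le_ceil U

/-! ### Geometry of the stopping index -/

lemma oneScale_window {κ : ℝ} {Ω : Type*} [MeasurableSpace Ω] {P : Measure Ω} {W : ℝ → Ω → ℝ}
    (hW : IsDrv κ P W) {z : ℂ} {δ ϰ c u L : ℝ} (hδ : 0 < δ) (hϰ : 0 < ϰ)
    (hδ2 : δ ≤ ϰ ^ 2 / 16) (hL : 0 ≤ L) {i j : ℕ} {ω : Ω} (h1 : ω ∈ NK ϰ c δ W z j)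
    (h2 : ω ∈ Rho δ (u - L) W z i j) (h3 : u - 1 / 4 ≤ Uf (fun v => W v ω) z (i * δ))
    (h4 : Uf (fun v => W v ω) z (i * δ) ≤ u) :
    u - L - 1 ≤ Uf (fun v => W v ω) z (j * δ) ∧ Uf (fun v => W v ω) z (j * δ) ≤ u := by
  have hij : i ≤ j := h2.1
  have hal := (h1.1 j le_rfl).1
  have him := (h1.1 j le_rfl).2.1
  have hle : ∀ k ≤ j, Uf (fun v => W v ω) z (j * δ) ≤ Uf (fun v => W v ω) z (k * δ) := fun k hk =>
    Uf_le (hW.cont ω) (by (clear * - hδ; positivity)) (by (clear * - hk hδ; gcongr)) hal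
  refine ⟨?_, (hle i hij).trans h4⟩
  rcases hij.eq_or_lt with h | h
  · rw [← h]
    linarith only [hL, h3]
  · obtain ⟨k, rfl⟩ : ∃ k, j = k + 1 := ⟨j - 1, by omega⟩
    have h5 := (h2.2.2 k (by omega) (by omega)).2
    have hk : (k : ℝ) * δ ≤ ((k + 1 : ℕ) : ℝ) * δ := by gcongr; omega
    have h6 := Uf_sub (hW.cont ω) (by (clear * - hδ; positivity)) hk hal
    have h7 : ‖∫ s in ((k : ℝ) * δ)..(((k + 1 : ℕ) : ℝ) * δ), rate (Zf (fun v => W v ω) z s)‖ ≤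
        4 / ϰ ^ 2 * |((k + 1 : ℕ) : ℝ) * δ - (k : ℝ) * δ| := by
      refine intervalIntegral.norm_integral_le_of_norm_le_const fun s hs => ?_
      rw [uIoc_of_le hk] at hs
      have hs0 : 0 ≤ s := le_trans (by (clear * - hδ; positivity)) hs.1.le
      have hals := dom_mono hs.2 hal
      have hims : ϰ ≤ (Zf (fun v => W v ω) z s).im :=
        him.trans (im_le_of_le hs0 hs.2 hal)
      rw [Real.norm_eq_abs, abs_of_nonneg (rate_nonneg _), rate]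
      have hn : ϰ ≤ ‖Zf (fun v => W v ω) z s‖ :=
        hims.trans ((le_abs_self _).trans (Complex.abs_im_le_norm _))
      have hs1 : sn (Zf (fun v => W v ω) z s) ^ 2 ≤ 1 := by
        have a1 := sn_pos (hϰ.trans_le hims)
        have a2 := sn_le_one (Zf (fun v => W v ω) z s)
        nlinarith only [a1, a2]
      calc 4 * sn (Zf (fun v => W v ω) z s) ^ 2 / ‖Zf (fun v => W v ω) z s‖ ^ 2
          ≤ 4 * 1 / ϰ ^ 2 := by (clear * - hs1 hϰ hn; gcongr)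
        _ = 4 / ϰ ^ 2 := by ring
    have h8 : |((k + 1 : ℕ) : ℝ) * δ - (k : ℝ) * δ| = δ := by
      push_cast
      rw [show ((k : ℝ) + 1) * δ - k * δ = δ by ring, abs_of_pos hδ]
    rw [h8, ← h6, Real.norm_eq_abs] at h7
    have h9 : 4 / ϰ ^ 2 * δ ≤ 1 / 4 := by
      rw [div_mul_eq_mul_div, div_le_iff₀ (by positivity)]
      linarith only [hδ2]
    have h10 := (abs_le.1 (h7.trans h9)).2
    linarith only [h5, h10]

lemma oneScale_NG {κ C R ε u : ℝ} (h0 : 0 < κ) (h8 : κ < 8) {Ω : Type*} [MeasurableSpace Ω]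
    {P : Measure Ω} {W : ℝ → Ω → ℝ} (hW : IsDrv κ P W) {z : ℂ} (hC : 1 ≤ C)
    (hz : 2 * C * Real.exp u < z.im) (hR : 0 < R) (hε : 0 < ε) {t : ℝ} (ht : 0 ≤ t) :
    NG κ (2 * C) R ε u W z t ⊆ NG κ C R ε u W z t := by
  intro ω hω
  simp only [NG, mem_ofPred_eq] at hω ⊢
  have heu := Real.exp_pos u
  have h1 : mu κ ε (fun v => W v ω) (ball z (C * Real.exp u)) 0 t ≤
      mu κ ε (fun v => W v ω) (ball z (2 * C * Real.exp u)) 0 t := by
    unfold mu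
    refine setIntegral_mono_set (yc_integrableOn h0 h8 hε (hW.cont ω) measurableSet_ball ?_
      measure_ball_lt_top.ne le_rfl ht) (Eventually.of_forall fun z => yc_nonneg le_rfl ht)
      (ball_subset_ball (by nlinarith only [hC, heu])).eventuallyLE
    intro x hx
    have h2 : |(x - z).im| ≤ ‖x - z‖ := Complex.abs_im_le_norm _
    rw [mem_ball, dist_eq_norm] at hx
    rw [Complex.sub_im] at h2
    have h3 := (abs_le.1 (h2.trans hx.le)).1
    linarith only [hz, h3]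
  have h2 : R ^ xx κ * Real.exp (dd κ * u) / (2 * C) ≤ R ^ xx κ * Real.exp (dd κ * u) / C := by
    gcongr
    linarith only [hC]
  exact h1.trans_lt (hω.trans_le h2)

lemma oneScale_arith {q : ℝ} (hq0 : 0 ≤ q) (hq1 : q ≤ 1) {DD BB I J : ℝ≥0∞}
    (h1 : DD + BB ≤ I) (h2 : DD ≤ ENNReal.ofReal (1 / 2) * I + J) :
    DD + ENNReal.ofReal (1 - q) * BB ≤ ENNReal.ofReal (1 - q / 2) * I + J := by
  have e1 : ENNReal.ofReal q + ENNReal.ofReal (1 - q) = 1 := by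
    rw [← ENNReal.ofReal_add hq0 (by linarith only [hq1])]
    simp
  have e2 : ENNReal.ofReal q * ENNReal.ofReal (1 / 2) + ENNReal.ofReal (1 - q) =
      ENNReal.ofReal (1 - q / 2) := by
    rw [← ENNReal.ofReal_mul hq0, ← ENNReal.ofReal_add (by linarith only [hq0]) (by linarith only [hq1])]
    congr 1
    ring
  calc DD + ENNReal.ofReal (1 - q) * BB
      = (ENNReal.ofReal q + ENNReal.ofReal (1 - q)) * DD + ENNReal.ofReal (1 - q) * BB := by
        rw [e1, one_mul]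
    _ = ENNReal.ofReal q * DD + ENNReal.ofReal (1 - q) * (DD + BB) := by ring
    _ ≤ ENNReal.ofReal q * (ENNReal.ofReal (1 / 2) * I + J) + ENNReal.ofReal (1 - q) * I := by
        (clear * - h2 h1; gcongr)
    _ = (ENNReal.ofReal q * ENNReal.ofReal (1 / 2) + ENNReal.ofReal (1 - q)) * I +
          ENNReal.ofReal q * J := by ring
    _ ≤ ENNReal.ofReal (1 - q / 2) * I + J := by
        rw [e2]
        gcongr
        calc ENNReal.ofReal q * J ≤ 1 * J := by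
              gcongr
              exact ENNReal.ofReal_le_one.2 hq1
          _ = J := one_mul J

end Vale.Agent.P164
end

section

/-!
# The functional used for the recovery of the angle (`0 < κ < 8`)
-/

namespace Vale.Agent.P164.E8

open Set Metric Filter Topology MeasureTheory ProbabilityTheory
open scoped NNReal ENNReal

/-- The recovery functional. -/
noncomputable def FR (κ u : ℝ) (Z : ℂ) (U : ℝ) : ℝ :=
  MM κ Z U * (Real.log (1 + Real.exp (u - U)) + 2 * cs Z ^ 2)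

/-- The algebra of the generator. -/
lemma Recover_alg {κ β x E L σ s2 k2 : ℝ} (h0 : 0 < κ) (hβ : κ * β = 8 - κ)
    (hx : x = 1 - κ / 8) (hsk : s2 + k2 = 1) (S N : ℝ) :
    S / N * (E * (L + 2) * ((κ / 2 * β * (β + 2) - 4 * β) * k2 - κ / 2 * β - 2 * β + 2 * β)
        - 4 * s2 * (-x * E * (L + 2) - E * σ)) +
      S * s2 / N * (-(2) * E * ((κ / 2 * (β + 2) * (β + 2 + 2) - 4 * (β + 2)) * k2
        - κ / 2 * (β + 2) - 2 * (β + 2) + 2 * (β + 2)) - 4 * s2 * (-x * (-(2) * E))) =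
      S * s2 / N * E * (4 * σ + 2 * κ - (16 + 4 * κ) * k2) := by
  have e1 : κ / 2 * β * (β + 2) - 4 * β = 4 - κ / 2 := by
    have : κ / 2 * β * (β + 2) - 4 * β = (κ * β) * β / 2 + κ * β - 4 * β := by ring
    rw [this, hβ]
    have : (8 - κ) * β / 2 + (8 - κ) - 4 * β = (8 - κ) - κ * β / 2 := by ring
    rw [this, hβ]
    ring
  have e2 : κ / 2 * β = 4 - κ / 2 := by linarith only [hβ]
  have e3 : κ / 2 * (β + 2) = 4 + κ / 2 := by linarith only [hβ]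
  have e4 : κ / 2 * (β + 2) * (β + 2 + 2) - 4 * (β + 2) = 12 + 3 * κ / 2 := by
    rw [e3]
    have : (4 + κ / 2) * (β + 2 + 2) - 4 * (β + 2) = κ * β / 2 + 8 + 2 * κ := by ring
    rw [this, hβ]
    ring
  rw [e1, e4, e2, e3, hx]
  have hs : s2 = 1 - k2 := by linarith only [hsk]
  rw [hs]
  field_simp
  ring

theorem FR_reg {κ : ℝ} (h0 : 0 < κ) (u : ℝ) :
    ∃ FX FXX FY FU : ℂ → ℝ → ℝ, Reg (FR κ u) FX FXX FY FU ∧
      ∀ (Z : ℂ) (U : ℝ), 0 < Z.im → sn Z ^ 2 ≤ 1 / 2 → gen κ FX FXX FY FU Z U ≤ 0 := by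
  have dE : ∀ U, HasDerivAt (fun U => Real.exp (-xx κ * U)) (-xx κ * Real.exp (-xx κ * U)) U := by
    intro U
    have h1 : HasDerivAt (fun U : ℝ => -xx κ * U) (-xx κ) U := by
      simpa using (hasDerivAt_id U).const_mul (-xx κ)
    exact h1.exp.congr_deriv (mul_comm _ _)
  have dL : ∀ U, HasDerivAt (fun U => Real.log (1 + Real.exp (u - U)))
      (-(Real.exp (u - U) / (1 + Real.exp (u - U)))) U := by
    intro U
    have h1 : HasDerivAt (fun U : ℝ => u - U) (-1) U := by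
      simpa using (hasDerivAt_id U).const_sub u
    have h2 : HasDerivAt (fun U : ℝ => 1 + Real.exp (u - U)) (Real.exp (u - U) * (-1)) U :=
      h1.exp.const_add 1
    have h3 : (1 + Real.exp (u - U)) ≠ 0 := by positivity
    refine (h2.log h3).congr_deriv ?_
    ring
  have d1 : ∀ U, HasDerivAt
      (fun U => Real.exp (-xx κ * U) * (Real.log (1 + Real.exp (u - U)) + 2))
      (-xx κ * Real.exp (-xx κ * U) * (Real.log (1 + Real.exp (u - U)) + 2) -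
        Real.exp (-xx κ * U) * (Real.exp (u - U) / (1 + Real.exp (u - U)))) U := by
    intro U
    refine ((dE U).mul ((dL U).add_const (2))).congr_deriv ?_
    ring
  have cEu : Continuous fun U : ℝ => 1 + Real.exp (u - U) := by fun_prop
  have cLu : Continuous fun U : ℝ => Real.log (1 + Real.exp (u - U)) :=
    cEu.log fun U => by positivity
  have cQ : Continuous fun U : ℝ => Real.exp (u - U) / (1 + Real.exp (u - U)) := by
    refine Continuous.div (by fun_prop) cEu fun U => by positivity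
  have c1 : Continuous fun U =>
      (-xx κ * Real.exp (-xx κ * U) * (Real.log (1 + Real.exp (u - U)) + 2) -
        Real.exp (-xx κ * U) * (Real.exp (u - U) / (1 + Real.exp (u - U)))) := by
    refine Continuous.sub (Continuous.mul (by fun_prop) (cLu.add continuous_const))
      (Continuous.mul (by fun_prop) cQ)
  have d2 : ∀ U, HasDerivAt (fun U => -(2) * Real.exp (-xx κ * U))
      (-xx κ * (-(2) * Real.exp (-xx κ * U))) U := by
    intro U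
    refine ((dE U).const_mul (-(2))).congr_deriv ?_
    ring
  have c2 : Continuous fun U => (-xx κ * (-(2) * Real.exp (-xx κ * U))) := by fun_prop
  have hr := (reg_pow d1 c1 (be κ) (be κ)).add (reg_pow d2 c2 (be κ + 2) (be κ + 2))
  refine ⟨_, _, _, _, Recover_congr hr ?_, ?_⟩
  · intro Z U hZ
    have hZ0 : Z ≠ 0 := fun h => by simp [h] at hZ
    have hk : cs Z ^ 2 = 1 - sn Z ^ 2 := by
      have := sn_sq_add_cs_sq hZ0
      linarith only [this]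
    have hs := sn_pos hZ
    have h2 : sn Z ^ (be κ + 2) = sn Z ^ be κ * sn Z ^ 2 := by
      rw [Real.rpow_add hs]
      norm_num
    rw [hY_sn hZ, hY_sn hZ, h2, FR, MM, hk]
    ring
  · intro Z U hZ hsn
    have hZ0 : Z ≠ 0 := fun h => by simp [h] at hZ
    have hsk := sn_sq_add_cs_sq hZ0
    have hs := sn_pos hZ
    have h2 : sn Z ^ (be κ + 2) = sn Z ^ be κ * sn Z ^ 2 := by
      rw [Real.rpow_add hs]
      norm_num
    have hβ : κ * be κ = 8 - κ := by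
      unfold be
      (clear * - h0; field_simp)
    rw [gen_add, gen_pow κ _ _ _ _ hZ, gen_pow κ _ _ _ _ hZ, hY_sn hZ, hY_sn hZ, h2,
      Recover_alg h0 hβ (rfl : xx κ = 1 - κ / 8) hsk]
    have h3 : Real.exp (u - U) / (1 + Real.exp (u - U)) ≤ 1 := by
      rw [div_le_one (by positivity)]
      linarith only []
    have hk : 1 / 2 ≤ cs Z ^ 2 := by linarith only [hsn, hsk]
    have h7 : 4 * (Real.exp (u - U) / (1 + Real.exp (u - U))) + 2 * κ -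
        (16 + 4 * κ) * cs Z ^ 2 ≤ 0 := by
      nlinarith only [hsn, hsk, h3, h0]
    refine mul_nonpos_of_nonneg_of_nonpos ?_ h7
    have h8 : 0 ≤ sn Z ^ be κ := Real.rpow_nonneg hs.le _
    (clear * - hs hZ0; positivity)

end Vale.Agent.P164.E8
end

section

/-!
# Recovery of the angle before `U` drops (`0 < κ < 8`)
-/

namespace Vale.Agent.P164.E8

open Set Metric Filter Topology MeasureTheory ProbabilityTheory
open scoped NNReal ENNReal

/-- The drop in `U` allowed before the angle is recovered. -/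
noncomputable def LL (κ : ℝ) : ℝ := 2 * (1 + 2)

lemma Drop_FR_nonneg {κ : ℝ} (h0 : 0 < κ) (u : ℝ) (Z : ℂ) (U : ℝ) (hZ : 0 < Z.im) :
    0 ≤ FR κ u Z U := by
  unfold FR MM
  have h1 := sn_pos hZ
  have h2 : 0 ≤ Real.log (1 + Real.exp (u - U)) :=
    Real.log_nonneg (by linarith [Real.exp_pos (u - U)])
  (clear * - h1 h2; positivity)

/-- One step of the recovery functional. -/
lemma Drop_step {κ : ℝ} (h0 : 0 < κ) (u : ℝ) {z : ℂ} {ϰ : ℝ} (hϰ : 0 < ϰ) (v : ℝ) :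
    ∃ c₀ > 0, ∃ δ₀ > 0, ∃ err : ℝ → ℝ, Tendsto err (𝓝[>] 0) (𝓝 0) ∧
      ∀ {Ω : Type*} [MeasurableSpace Ω] {P : Measure Ω} {W : ℝ → Ω → ℝ} (_ : IsDrv κ P W)
        (t δ : ℝ) (_ : 0 ≤ t) (_ : 0 < δ) (_ : δ ≤ δ₀) (B : Set Ω)
        (_ : MeasurableSet[past W t] B) (_ : B ⊆ inK W z (Drop_K ϰ z ∩ Drop_S v) t),
        ∫⁻ ω in B ∩ {ω | osc W t δ ω ≤ c₀},
            ENNReal.ofReal (St (FR κ u) (fun u => W u ω) z (t + δ)) ∂P ≤
          ∫⁻ ω in B, ENNReal.ofReal (St (FR κ u) (fun u => W u ω) z t) ∂P +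
            ENNReal.ofReal (δ * |err δ|) * P B := by
  obtain ⟨FX, FXX, FY, FU, hr, hgen⟩ := FR_reg h0 u
  have ha : ContinuousOn (Function.uncurry (fun (_ : ℂ) (_ : ℝ) => (0 : ℝ)))
      ({Z : ℂ | 0 < Z.im} ×ˢ univ) := continuousOn_const
  obtain ⟨c₀, hc₀, δ₀, hδ₀, err, herr, H⟩ := T_step h0 hr ha (Drop_K_compact ϰ z)
    (fun x hx => hϰ.trans_le hx.1)
  refine ⟨c₀, hc₀, δ₀, hδ₀, err, herr, ?_⟩
  intro Ω mΩ P W hW t δ ht hδ hδ₀' B hB hBsub
  have hprob := hW.prob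
  obtain ⟨-, g2, g3⟩ := H hW z t δ ht hδ hδ₀' B hB (fun ω hω => by
    have h1 := hBsub hω
    have h2 : 0 < (Zf (fun u => W u ω) z t).im := Zf_im_pos ht h1.1
    refine ⟨h1.1, h1.2.1, ?_⟩
    have := hgen _ (Uf (fun u => W u ω) z t) h2 h1.2.2.1.le
    simpa only [add_zero, ge_iff_le] using this)
  have hz : ∀ ω, ∫ u in t..(t + δ), St (fun (_ : ℂ) (_ : ℝ) => (0 : ℝ)) (fun u => W u ω) z u
      = 0 := by
    intro ω
    have : ∀ s, St (fun (_ : ℂ) (_ : ℝ) => (0 : ℝ)) (fun u => W u ω) z s = 0 := by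
      intro s
      unfold St
      split_ifs <;> rfl
    simp [this]
  simp only [hz, add_zero] at g2 g3
  have hF0 := Drop_FR_nonneg h0 u
  have hX0 : ∀ ω, 0 ≤ St (FR κ u) (fun u => W u ω) z (t + δ) := fun ω =>
    St_nonneg' (fun Z U hZ => hF0 Z U hZ) (by linarith only [ht, hδ])
  have hFm : Measurable (fun ω => St (FR κ u) (fun u => W u ω) z t) :=
    (St_past' hW hr.cF ht z).mono hW.past_le le_rfl
  rw [← ofReal_integral_eq_lintegral_ofReal g2 (Eventually.of_forall hX0)]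
  refine (ENNReal.ofReal_le_ofReal g3).trans (ENNReal.ofReal_add_le.trans ?_)
  refine add_le_add ?_ ?_
  · rw [integral_eq_lintegral_of_nonneg_ae
      (Eventually.of_forall fun ω => St_nonneg' (fun Z U hZ => hF0 Z U hZ) ht)
      hFm.aestronglyMeasurable]
    exact ENNReal.ofReal_toReal_le
  · have hp0 : 0 ≤ (P B).toReal := ENNReal.toReal_nonneg
    calc ENNReal.ofReal (δ * err δ * (P B).toReal)
        ≤ ENNReal.ofReal (δ * |err δ| * (P B).toReal) := by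
          refine ENNReal.ofReal_le_ofReal ?_
          gcongr
          exact le_abs_self _
      _ = ENNReal.ofReal (δ * |err δ|) * P B := by
          rw [ENNReal.ofReal_mul (by (clear * - hδ; positivity)), ENNReal.ofReal_toReal (measure_ne_top P B)]

/-- The inequality along the grid. -/
lemma Drop_grid {κ : ℝ} (h0 : 0 < κ) {u : ℝ} {z : ℂ} {ϰ v c c₀ δ e : ℝ}
    {Ω : Type*} [MeasurableSpace Ω] {P : Measure Ω} {W : ℝ → Ω → ℝ} (hW : IsDrv κ P W)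
    (hc : c ≤ c₀) (hδ : 0 < δ)
    (hstep : ∀ t, 0 ≤ t → ∀ B : Set Ω, MeasurableSet[past W t] B →
      B ⊆ inK W z (Drop_K ϰ z ∩ Drop_S v) t →
        ∫⁻ ω in B ∩ {ω | osc W t δ ω ≤ c₀},
            ENNReal.ofReal (St (FR κ u) (fun u => W u ω) z (t + δ)) ∂P ≤
          ∫⁻ ω in B, ENNReal.ofReal (St (FR κ u) (fun u => W u ω) z t) ∂P +
            ENNReal.ofReal e * P B)
    (i : ℕ) {A : Set Ω} (hA : MeasurableSet[past W (i * δ)] A) (k : ℕ) :
    ∫⁻ ω in Hset W z (Drop_K ϰ z ∩ Drop_S v) (i * δ) δ c A k,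
        ENNReal.ofReal (St (FR κ u) (fun u => W u ω) z (i * δ + k * δ)) ∂P +
      ∑ j ∈ Finset.range (k + 1), ∫⁻ ω in A ∩ NK ϰ c δ W z (i + j) ∩ Rho δ v W z i (i + j),
        ENNReal.ofReal (St (FR κ u) (fun u => W u ω) z (i * δ + j * δ)) ∂P ≤
      ∫⁻ ω in A, ENNReal.ofReal (St (FR κ u) (fun u => W u ω) z (i * δ)) ∂P +
        k * (ENNReal.ofReal e * P A) := by
  have hKm : MeasurableSet (Drop_K ϰ z ∩ Drop_S v) :=
    (Drop_K_compact ϰ z).measurableSet.inter (Drop_S_meas v)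
  have hs : (0 : ℝ) ≤ i * δ := by (clear * - hδ; positivity)
  have hHm := fun k => Hset_meas (z := z) (ϰ := c) hW hKm hs hδ.le hA k
  have hHm' := fun k => hW.past_le _ (hHm k)
  have ht : ∀ k : ℕ, (i : ℝ) * δ + k * δ = ((i + k : ℕ) : ℝ) * δ := fun k => by
    push_cast; ring
  -- the recovered sets avoid the grid event
  have hdisj : ∀ k : ℕ, Disjoint (A ∩ NK ϰ c δ W z (i + k) ∩ Rho δ v W z i (i + k))
      (Hset W z (Drop_K ϰ z ∩ Drop_S v) (i * δ) δ c A k) := by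
    intro k
    rw [Set.disjoint_left]
    rintro ω ⟨_, hR⟩ hH
    have h1 := (Hset_sub k hH).2.2
    rw [ht k] at h1
    rcases hR.2.1 with h2 | h2
    · exact absurd h1.1 (not_lt.2 h2)
    · exact absurd h1.2 (not_lt.2 h2)
  have hHA : ∀ k, Hset W z (Drop_K ϰ z ∩ Drop_S v) (i * δ) δ c A k ⊆ A := by
    intro k
    induction k with
    | zero => exact inter_subset_left
    | succ k ih => exact fun ω hω => ih hω.1.1
  induction k with
  | zero =>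
    simp only [Nat.cast_zero, zero_mul, add_zero, zero_add, Finset.range_one,
      Finset.sum_singleton]
    have hd := hdisj 0
    simp only [add_zero] at hd
    rw [add_comm, ← lintegral_union (hHm' 0) hd]
    exact lintegral_mono_set (union_subset (fun ω hω => hω.1.1) (hHA 0))
  | succ k ih =>
    have hk0 : (0 : ℝ) ≤ i * δ + k * δ := by (clear * - hδ; positivity)
    have h1 := hstep (i * δ + k * δ) hk0 _ (hHm k) (Hset_sub k)
    have h2 : (i : ℝ) * δ + k * δ + δ = i * δ + (k + 1 : ℕ) * δ := by push_cast; ring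
    rw [h2] at h1
    have hsub : (A ∩ NK ϰ c δ W z (i + (k + 1)) ∩ Rho δ v W z i (i + (k + 1))) ∪
        Hset W z (Drop_K ϰ z ∩ Drop_S v) (i * δ) δ c A (k + 1) ⊆
        Hset W z (Drop_K ϰ z ∩ Drop_S v) (i * δ) δ c A k ∩
          {ω | osc W (i * δ + k * δ) δ ω ≤ c₀} := by
      rintro ω (⟨⟨hωA, hNK⟩, hR⟩ | hH)
      · refine ⟨Drop_mem hωA k (fun j hj => ?_) (fun j hj => ?_), ?_⟩
        · rw [ht j]
          obtain ⟨a1, a2⟩ := Drop_inK hW.cont hδ hNK (show i + j ≤ i + (k + 1) by (clear * - hj; omega))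
          exact ⟨a1, a2, hR.2.2 (i + j) (by omega) (by omega)⟩
        · rw [ht j]
          exact hNK.2 (i + j) (by omega)
        · rw [ht k]
          exact (hNK.2 (i + k) (by omega)).trans hc
      · exact ⟨hH.1.1, (show osc W (i * δ + k * δ) δ ω ≤ c from hH.1.2).trans hc⟩
    have h3 := (lintegral_mono_set hsub (μ := P)
      (f := fun ω => ENNReal.ofReal (St (FR κ u) (fun u => W u ω) z (i * δ + (k + 1 : ℕ) * δ)))).trans
        h1
    rw [lintegral_union (hHm' (k + 1)) (hdisj (k + 1))] at h3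
    rw [Finset.sum_range_succ]
    have hPA : P (Hset W z (Drop_K ϰ z ∩ Drop_S v) (i * δ) δ c A k) ≤ P A :=
      measure_mono (hHA k)
    calc ∫⁻ ω in Hset W z (Drop_K ϰ z ∩ Drop_S v) (i * δ) δ c A (k + 1),
          ENNReal.ofReal (St (FR κ u) (fun u => W u ω) z (i * δ + (k + 1 : ℕ) * δ)) ∂P +
        (∑ j ∈ Finset.range (k + 1), ∫⁻ ω in A ∩ NK ϰ c δ W z (i + j) ∩ Rho δ v W z i (i + j),
          ENNReal.ofReal (St (FR κ u) (fun u => W u ω) z (i * δ + j * δ)) ∂P +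
        ∫⁻ ω in A ∩ NK ϰ c δ W z (i + (k + 1)) ∩ Rho δ v W z i (i + (k + 1)),
          ENNReal.ofReal (St (FR κ u) (fun u => W u ω) z (i * δ + (k + 1 : ℕ) * δ)) ∂P)
        = (∫⁻ ω in A ∩ NK ϰ c δ W z (i + (k + 1)) ∩ Rho δ v W z i (i + (k + 1)),
          ENNReal.ofReal (St (FR κ u) (fun u => W u ω) z (i * δ + (k + 1 : ℕ) * δ)) ∂P +
          ∫⁻ ω in Hset W z (Drop_K ϰ z ∩ Drop_S v) (i * δ) δ c A (k + 1),
          ENNReal.ofReal (St (FR κ u) (fun u => W u ω) z (i * δ + (k + 1 : ℕ) * δ)) ∂P) +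
        ∑ j ∈ Finset.range (k + 1), ∫⁻ ω in A ∩ NK ϰ c δ W z (i + j) ∩ Rho δ v W z i (i + j),
          ENNReal.ofReal (St (FR κ u) (fun u => W u ω) z (i * δ + j * δ)) ∂P := by ring
      _ ≤ (∫⁻ ω in Hset W z (Drop_K ϰ z ∩ Drop_S v) (i * δ) δ c A k,
            ENNReal.ofReal (St (FR κ u) (fun u => W u ω) z (i * δ + k * δ)) ∂P +
          ENNReal.ofReal e * P A) +
        ∑ j ∈ Finset.range (k + 1), ∫⁻ ω in A ∩ NK ϰ c δ W z (i + j) ∩ Rho δ v W z i (i + j),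
          ENNReal.ofReal (St (FR κ u) (fun u => W u ω) z (i * δ + j * δ)) ∂P := by
          exact add_le_add (h3.trans (add_le_add le_rfl (mul_le_mul' le_rfl hPA))) le_rfl
      _ = (∫⁻ ω in Hset W z (Drop_K ϰ z ∩ Drop_S v) (i * δ) δ c A k,
            ENNReal.ofReal (St (FR κ u) (fun u => W u ω) z (i * δ + k * δ)) ∂P +
        ∑ j ∈ Finset.range (k + 1), ∫⁻ ω in A ∩ NK ϰ c δ W z (i + j) ∩ Rho δ v W z i (i + j),
          ENNReal.ofReal (St (FR κ u) (fun u => W u ω) z (i * δ + j * δ)) ∂P) +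
          ENNReal.ofReal e * P A := by ring
      _ ≤ (∫⁻ ω in A, ENNReal.ofReal (St (FR κ u) (fun u => W u ω) z (i * δ)) ∂P +
        k * (ENNReal.ofReal e * P A)) + ENNReal.ofReal e * P A := by (clear * - ih; gcongr)
      _ = _ := by push_cast; ring

theorem drop {κ : ℝ} (h0 : 0 < κ) {Ω : Type*} [MeasurableSpace Ω] {P : Measure Ω}
    {W : ℝ → Ω → ℝ} (hW : IsDrv κ P W) {z : ℂ} (hz : 0 < z.im) {T u ϰ η : ℝ} (hT : 0 < T)
    (hϰ : 0 < ϰ) (hη : 0 < η) :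
    ∃ c₀ > 0, ∃ δ₀ > 0, ∀ c, 0 < c → c ≤ c₀ → ∀ δ, 0 < δ → δ ≤ δ₀ → ∀ N : ℕ, N * δ ≤ T →
      ∀ i ≤ N, ∀ A : Set Ω, MeasurableSet[past W (i * δ)] A → A ⊆ NK ϰ c δ W z i →
      (∀ ω ∈ A, u - 1 / 4 ≤ Uf (fun v => W v ω) z (i * δ)) →
      ∑ l ∈ Finset.range (N + 1),
        ∫⁻ ω in A ∩ NK ϰ c δ W z l ∩ Rho δ (u - LL κ) W z i l ∩
            {ω | sn (Zf (fun v => W v ω) z (l * δ)) ^ 2 < 1 / 2},
          ENNReal.ofReal (St (MM κ) (fun v => W v ω) z (l * δ)) ∂P ≤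
        ENNReal.ofReal (1 / 2) *
          ∫⁻ ω in A, ENNReal.ofReal (St (MM κ) (fun v => W v ω) z (i * δ)) ∂P +
        ENNReal.ofReal η * P A := by
  obtain ⟨c₀, hc₀, δ₁, hδ₁, err, herr, H⟩ := Drop_step h0 u (z := z) hϰ (u - LL κ)
  obtain ⟨FX, FXX, FY, FU, hr, -⟩ := FR_reg h0 u
  have hLL : 0 < LL κ := by unfold LL; positivity
  -- choice of the mesh
  have hev : ∀ᶠ δ in 𝓝[>] (0 : ℝ), |err δ| < η * LL κ / T := by
    have h1 : Tendsto (fun δ => |err δ|) (𝓝[>] 0) (𝓝 |0|) := herr.abs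
    rw [abs_zero] at h1
    exact h1.eventually (gt_mem_nhds (by (clear * - hη hLL hT; positivity)))
  rw [eventually_nhdsWithin_iff, Metric.eventually_nhds_iff] at hev
  obtain ⟨d, hd, hd2⟩ := hev
  refine ⟨c₀, hc₀, min δ₁ (d / 2), by positivity, ?_⟩
  intro c hc hcc δ hδ hδ' N hN i hi A hA hAsub hAU
  have hδ1 : δ ≤ δ₁ := hδ'.trans (min_le_left _ _)
  have herrδ : |err δ| ≤ η * LL κ / T := by
    refine (hd2 (y := δ) ?_ hδ).le
    have : δ ≤ d / 2 := hδ'.trans (min_le_right _ _)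
    rw [Real.dist_eq, sub_zero, abs_of_pos hδ]
    linarith only [hδ, this]
  have hAm : MeasurableSet A := hW.past_le _ hA
  have key := Drop_grid (ϰ := ϰ) (v := u - LL κ) (e := δ * |err δ|) h0 hW hcc hδ
    (fun t ht B hB hBs => H hW t δ ht hδ hδ1 B hB hBs) i hA (N - i)
  have ht : ∀ k : ℕ, (i : ℝ) * δ + k * δ = ((i + k : ℕ) : ℝ) * δ := fun k => by
    push_cast; ring
  simp only [ht] at key
  -- the left side
  have hleft : ENNReal.ofReal (LL κ) * ∑ l ∈ Finset.range (N + 1),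
        ∫⁻ ω in A ∩ NK ϰ c δ W z l ∩ Rho δ (u - LL κ) W z i l ∩
            {ω | sn (Zf (fun v => W v ω) z (l * δ)) ^ 2 < 1 / 2},
          ENNReal.ofReal (St (MM κ) (fun v => W v ω) z (l * δ)) ∂P ≤
      ∑ j ∈ Finset.range (N - i + 1), ∫⁻ ω in A ∩ NK ϰ c δ W z (i + j) ∩
          Rho δ (u - LL κ) W z i (i + j),
        ENNReal.ofReal (St (FR κ u) (fun u => W u ω) z ((i + j : ℕ) * δ)) ∂P := by
    have e1 : N + 1 = i + (N - i + 1) := by omega
    rw [e1, Finset.sum_range_add]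
    have e2 : ∑ l ∈ Finset.range i,
        ∫⁻ ω in A ∩ NK ϰ c δ W z l ∩ Rho δ (u - LL κ) W z i l ∩
            {ω | sn (Zf (fun v => W v ω) z (l * δ)) ^ 2 < 1 / 2},
          ENNReal.ofReal (St (MM κ) (fun v => W v ω) z (l * δ)) ∂P = 0 := by
      refine Finset.sum_eq_zero fun l hl => ?_
      have : A ∩ NK ϰ c δ W z l ∩ Rho δ (u - LL κ) W z i l ∩
            {ω | sn (Zf (fun v => W v ω) z (l * δ)) ^ 2 < 1 / 2} = ∅ := by
        ext ω
        simp only [mem_inter_iff, mem_empty_iff_false, iff_false]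
        rintro ⟨⟨_, hR⟩, _⟩
        have := hR.1
        rw [Finset.mem_range] at hl
        omega
      rw [this]
      simp only [Measure.restrict_empty, lintegral_zero_measure]
    rw [e2, zero_add, Finset.mul_sum]
    refine Finset.sum_le_sum fun j _ => ?_
    have hm1 : Measurable fun ω => ENNReal.ofReal
        (St (FR κ u) (fun u => W u ω) z ((i + j : ℕ) * δ)) :=
      ((St_past' hW hr.cF (by (clear * - hδ; positivity)) z).mono hW.past_le le_rfl).ennreal_ofReal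
    rw [← lintegral_const_mul' _ _ ENNReal.ofReal_ne_top]
    refine (setLIntegral_mono hm1 ?_).trans (lintegral_mono_set inter_subset_left)
    rintro ω ⟨⟨⟨_, hNK⟩, hR⟩, hsn⟩
    have halive := (hNK.1 (i + j) le_rfl).1
    have hZ := Zf_im_pos (by (clear * - hδ; positivity) : (0 : ℝ) ≤ ((i + j : ℕ) : ℝ) * δ) halive
    rw [← ENNReal.ofReal_mul hLL.le, St_of_mem halive, St_of_mem halive]
    refine ENNReal.ofReal_le_ofReal ?_
    have hU : Uf (fun u => W u ω) z ((i + j : ℕ) * δ) ≤ u - LL κ := by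
      rcases hR.2.1 with h | h
      · exact absurd hsn (not_lt.2 h)
      · exact h
    have hM := Drop_MM_nonneg κ hZ (Uf (fun u => W u ω) z ((i + j : ℕ) * δ))
    have hlog : LL κ ≤ Real.log (1 + Real.exp (u - Uf (fun u => W u ω) z ((i + j : ℕ) * δ))) := by
      rw [Real.le_log_iff_exp_le (by positivity)]
      have h1 : Real.exp (LL κ) ≤ Real.exp (u - Uf (fun u => W u ω) z ((i + j : ℕ) * δ)) :=
        Real.exp_le_exp.2 (by linarith only [hU])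
      linarith only [h1]
    unfold FR
    have h5 : 0 ≤ 2 * cs (Zf (fun u => W u ω) z ((i + j : ℕ) * δ)) ^ 2 := by (clear * -; positivity)
    rw [mul_comm (LL κ)]
    exact mul_le_mul_of_nonneg_left (by linarith only [hlog, h5]) hM
  -- the right side
  have hright : ∫⁻ ω in A, ENNReal.ofReal (St (FR κ u) (fun u => W u ω) z (i * δ)) ∂P ≤
      ENNReal.ofReal (LL κ / 2) *
        ∫⁻ ω in A, ENNReal.ofReal (St (MM κ) (fun v => W v ω) z (i * δ)) ∂P := by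
    rw [← lintegral_const_mul' _ _ ENNReal.ofReal_ne_top]
    refine setLIntegral_mono' hAm fun ω hω => ?_
    have halive := ((hAsub hω).1 i le_rfl).1
    have hZ := Zf_im_pos (by (clear * - hδ; positivity) : (0 : ℝ) ≤ (i : ℝ) * δ) halive
    rw [← ENNReal.ofReal_mul (by positivity), St_of_mem halive, St_of_mem halive]
    refine ENNReal.ofReal_le_ofReal ?_
    have hM := Drop_MM_nonneg κ hZ (Uf (fun u => W u ω) z (i * δ))
    have hU := hAU ω hω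
    have hlog : Real.log (1 + Real.exp (u - Uf (fun u => W u ω) z (i * δ))) ≤ 1 := by
      rw [Real.log_le_iff_le_exp (by positivity)]
      have h1 : Real.exp (u - Uf (fun u => W u ω) z (i * δ)) ≤ Real.exp (1 / 4) :=
        Real.exp_le_exp.2 (by linarith only [hU])
      have h2 : Real.exp (1 / 4) ≤ 1.3 := by
        have h3 : Real.exp (1 / 4) ^ 4 = Real.exp 1 := by
          rw [← Real.exp_nat_mul]; norm_num
        have h4' := Real.exp_one_lt_d9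
        by_contra hcon
        push Not at hcon
        have h5 : (1.3 : ℝ) ^ 4 < Real.exp (1 / 4) ^ 4 := by (clear * - hcon; gcongr)
        rw [h3] at h5
        norm_num at h5
        linarith only [h4', h5]
      have h3 := Real.exp_one_gt_d9
      linarith only [h1, h2, h3]
    have hcs : cs (Zf (fun u => W u ω) z (i * δ)) ^ 2 ≤ 1 := by
      have h1 := sn_sq_add_cs_sq (Zf_ne_zero (by (clear * - hδ; positivity) : (0 : ℝ) ≤ (i : ℝ) * δ) halive)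
      nlinarith only [h1]
    unfold FR
    have h6 : 2 * cs (Zf (fun u => W u ω) z (i * δ)) ^ 2 ≤ 2 * 1 :=
      mul_le_mul_of_nonneg_left hcs (by positivity)
    rw [mul_comm (LL κ / 2)]
    refine mul_le_mul_of_nonneg_left ?_ hM
    unfold LL
    linarith only [hlog, hcs]
  -- the error
  have herr2 : ((N - i : ℕ) : ℝ≥0∞) * (ENNReal.ofReal (δ * |err δ|) * P A) ≤
      ENNReal.ofReal (η * LL κ) * P A := by
    rw [← mul_assoc]
    refine mul_le_mul_left ?_ _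
    rw [← ENNReal.ofReal_natCast, ← ENNReal.ofReal_mul (Nat.cast_nonneg _)]
    refine ENNReal.ofReal_le_ofReal ?_
    have h1 : ((N - i : ℕ) : ℝ) * δ ≤ T := by
      refine le_trans ?_ hN
      have : ((N - i : ℕ) : ℝ) ≤ N := by exact_mod_cast Nat.sub_le N i
      (clear * - this hδ; gcongr)
    calc ((N - i : ℕ) : ℝ) * (δ * |err δ|) = (((N - i : ℕ) : ℝ) * δ) * |err δ| := by ring
      _ ≤ T * (η * LL κ / T) := by (clear * - h1 herrδ hT; gcongr)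
      _ = η * LL κ := by field_simp
  have htot : ENNReal.ofReal (LL κ) * ∑ l ∈ Finset.range (N + 1),
        ∫⁻ ω in A ∩ NK ϰ c δ W z l ∩ Rho δ (u - LL κ) W z i l ∩
            {ω | sn (Zf (fun v => W v ω) z (l * δ)) ^ 2 < 1 / 2},
          ENNReal.ofReal (St (MM κ) (fun v => W v ω) z (l * δ)) ∂P ≤
      ENNReal.ofReal (LL κ / 2) *
        ∫⁻ ω in A, ENNReal.ofReal (St (MM κ) (fun v => W v ω) z (i * δ)) ∂P +
        ENNReal.ofReal (η * LL κ) * P A := by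
    refine hleft.trans ((le_add_left le_rfl).trans (key.trans ?_))
    exact add_le_add hright herr2
  have hfin := mul_le_mul_right htot (ENNReal.ofReal (LL κ)⁻¹)
  rw [← mul_assoc, ← ENNReal.ofReal_mul (by (clear * - hLL; positivity)), inv_mul_cancel₀ hLL.ne',
    ENNReal.ofReal_one, one_mul, mul_add, ← mul_assoc, ← mul_assoc,
    ← ENNReal.ofReal_mul (by positivity), ← ENNReal.ofReal_mul (by positivity)] at hfin
  have e3 : (LL κ)⁻¹ * (LL κ / 2) = 1 / 2 := by (clear * - hLL; field_simp)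
  have e4 : (LL κ)⁻¹ * (η * LL κ) = η := by (clear * - hLL hη; field_simp)
  rw [e3, e4] at hfin
  exact hfin

end Vale.Agent.P164.E8
end
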