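import Vale.Agent.P164.MathlibUsed
import Vale.Agent.P164.Bdl.B2
import Vale.Agent.P164.Bdl.B5
import Vale.Agent.P164.Bdl.B3
import Vale.Agent.P164.Bdl.B12
import Vale.Agent.P164.Bdl.B10
import Vale.Agent.P164.Bdl.B8
import Vale.Agent.P164.Bdl.B9
import Vale.Agent.P164.Bdl.B14

set_option linter.all false

section

/-!
# More on gauge measures
-/

namespace Vale.Agent.P164

open Set Metric Filter Topology MeasureTheory
open scoped NNReal ENNReal

/-- Countable subadditivity. -/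
theorem gaugeMeasure_iUnion_le {h : ℝ → ℝ} (hh : IsGauge h) {ι : Type*} [Countable ι]
    (E : ι → Set ℂ) : gaugeMeasure h (⋃ i, E i) ≤ ∑' i, gaugeMeasure h (E i) := by
  classical
  by_cases hfin : ∑' i, gaugeMeasure h (E i) = ⊤
  · rw [hfin]; exact le_top
  have hne : ∀ i, gaugeMeasure h (E i) ≠ ⊤ := fun i => ENNReal.ne_top_of_tsum_ne_top hfin i
  refine gaugeMeasure_le fun δ hδ => ?_
  refine ENNReal.le_of_forall_pos_le_add fun ε hε _ => ?_
  obtain ⟨ε', hε'0, hε'⟩ := ENNReal.exists_pos_sum_of_countable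
    (ENNReal.coe_pos.2 hε).ne' ι
  have hc : ∀ i, pre h δ (E i) < gaugeMeasure h (E i) + ε' i := fun i =>
    lt_of_le_of_lt (pre_le_gaugeMeasure h hδ (E i))
      (ENNReal.lt_add_right (hne i) (ENNReal.coe_pos.2 (hε'0 i)).ne')
  choose U hU1 hU2 hU3 using fun i => exists_cover (hc i)
  let _ : Encodable ι := Encodable.ofCountable ι
  have h1 := pre_le_tsum hh.zero hδ.le (E := ⋃ i, E i) (fun p : ι × ℕ => U p.1 p.2) ?_ ?_
  · refine h1.trans ?_
    rw [ENNReal.tsum_prod (f := fun i n => ENNReal.ofReal (h (Metric.diam (U i n))))]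
    calc ∑' i, ∑' n, ENNReal.ofReal (h (Metric.diam (U i n)))
        ≤ ∑' i, (gaugeMeasure h (E i) + ε' i) := ENNReal.tsum_le_tsum fun i => (hU3 i).le
      _ = ∑' i, gaugeMeasure h (E i) + ∑' i, (ε' i : ℝ≥0∞) := ENNReal.tsum_add
      _ ≤ _ := by (clear * - hε'; gcongr)
  · intro x hx
    obtain ⟨i, hi⟩ := mem_iUnion.1 hx
    obtain ⟨n, hn⟩ := mem_iUnion.1 (hU1 i hi)
    exact mem_iUnion.2 ⟨(i, n), hn⟩
  · exact fun p => hU2 p.1 p.2

/-- Bounded real segments are null for gauges of order smaller than `r`. -/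
theorem gaugeMeasure_real {h : ℝ → ℝ} (hh : IsGauge h)
    (hlim : ∀ ε : ℝ, 0 < ε → ∃ δ : ℝ, 0 < δ ∧ ∀ r : ℝ, 0 < r → r ≤ δ → h r ≤ ε * r) (A : ℝ) :
    gaugeMeasure h {z : ℂ | z.im = 0 ∧ |z.re| ≤ A} = 0 := by
  classical
  rcases lt_or_ge A 0 with hA | hA
  · have : {z : ℂ | z.im = 0 ∧ |z.re| ≤ A} = ∅ := by
      ext z
      simp only [mem_setOf_eq, mem_empty_iff_false, iff_false, not_and, not_le]
      intro _
      exact hA.trans_le (abs_nonneg _)
    rw [this]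
    refine le_antisymm (gaugeMeasure_le fun δ hδ => ?_) zero_le
    have h1 := pre_le_tsum hh.zero hδ.le (E := (∅ : Set ℂ)) (fun p : Empty => (∅ : Set ℂ))
      (empty_subset _) (fun p => p.elim)
    simpa only [nonpos_iff_eq_zero, diam_empty, tsum_empty] using h1
  refine le_antisymm (gaugeMeasure_le fun δ hδ => ?_) zero_le
  refine ENNReal.le_of_forall_pos_le_add fun ε hε _ => ?_
  rw [zero_add]
  set ε₁ : ℝ := (ε : ℝ) / (4 * (A + 1)) with hε₁
  have hε₁0 : 0 < ε₁ := div_pos (by exact_mod_cast hε) (by (clear * - hA; linarith))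
  obtain ⟨δ₁, hδ₁, H⟩ := hlim ε₁ hε₁0
  obtain ⟨N, hN⟩ := exists_nat_gt (max (A + 1) (2 * (A + 1) / min δ δ₁))
  have hmin : 0 < min δ δ₁ := lt_min hδ hδ₁
  have hN3 : A + 1 < N := (le_max_left _ _).trans_lt hN
  have hN1 : (1 : ℝ) < N := by linarith only [hA, hN3]
  have hN0 : (0 : ℝ) < N := by linarith only [hA, hN3]
  have hN2 : 2 * (A + 1) / N < min δ δ₁ := by
    have := (le_max_right _ _).trans_lt hN
    rw [div_lt_iff₀ hmin] at this
    rw [div_lt_iff₀ hN0]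
    linarith only [this]
  set w : ℝ := 2 * (A + 1) / N with hw
  have hw0 : 0 < w := by (clear * - hA hN1; positivity)
  set V : Fin (N + 1) → Set ℂ := fun i =>
    {z : ℂ | z.im = 0 ∧ |z.re - (-A + w * i)| ≤ w / 2} with hV
  have hdiam : ∀ i, Bornology.IsBounded (V i) ∧ Metric.diam (V i) ≤ w := by
    intro i
    have hd : ∀ x ∈ V i, ∀ y ∈ V i, dist x y ≤ w := by
      intro x hx y hy
      have e : x - y = ((x.re - y.re : ℝ) : ℂ) := by
        apply Complex.ext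
        · simp
        · simp [hx.1, hy.1]
      rw [dist_eq_norm, e, Complex.norm_real, Real.norm_eq_abs]
      have h1 := abs_le.1 hx.2
      have h2 := abs_le.1 hy.2
      rw [abs_le]
      constructor <;> linarith
    exact ⟨Metric.isBounded_iff.2 ⟨w, fun x hx y hy => hd x hx y hy⟩,
      Metric.diam_le_of_forall_dist_le hw0.le hd⟩
  have h1 := pre_le_tsum hh.zero hδ.le (E := {z : ℂ | z.im = 0 ∧ |z.re| ≤ A}) V ?_ ?_
  · refine h1.trans ?_
    rw [tsum_fintype]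
    calc ∑ i, ENNReal.ofReal (h (Metric.diam (V i)))
        ≤ ∑ _i : Fin (N + 1), ENNReal.ofReal (ε₁ * w) := by
          refine Finset.sum_le_sum fun i _ => ENNReal.ofReal_le_ofReal ?_
          refine (hh.mono (mem_Ici.2 Metric.diam_nonneg) (mem_Ici.2 hw0.le) (hdiam i).2).trans ?_
          exact H w hw0 (hN2.le.trans (min_le_right _ _))
      _ = (N + 1 : ℕ) * ENNReal.ofReal (ε₁ * w) := by
          rw [Finset.sum_const, Finset.card_univ, Fintype.card_fin, nsmul_eq_mul]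
      _ = ENNReal.ofReal ((N + 1 : ℕ) * (ε₁ * w)) := by
          rw [ENNReal.ofReal_mul (Nat.cast_nonneg (N + 1)), ENNReal.ofReal_natCast]
      _ ≤ ENNReal.ofReal ε := by
          apply ENNReal.ofReal_le_ofReal
          rw [hε₁, hw]
          push_cast
          have e1 : ((N : ℝ) + 1) * ((ε : ℝ) / (4 * (A + 1)) * (2 * (A + 1) / N)) =
              ε * (((N : ℝ) + 1) / (2 * N)) := by
            field_simp
            ring
          rw [e1]
          have e2 : ((N : ℝ) + 1) / (2 * N) ≤ 1 := by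
            rw [div_le_one (by (clear * - hN1; positivity))]
            linarith only [hA, hN3]
          have e3 : (0 : ℝ) ≤ ε := ε.2
          nlinarith only [e2]
      _ = ε := ENNReal.ofReal_coe_nnreal
  · intro z hz
    have hz2 := abs_le.1 hz.2
    set k : ℕ := ⌊(z.re + A) / w + 1 / 2⌋₊ with hk
    have hpos : 0 ≤ (z.re + A) / w + 1 / 2 := by
      have : 0 ≤ (z.re + A) / w := div_nonneg (by linarith only [hz2]) hw0.le
      (clear * - this; linarith)
    have hk1 : (k : ℝ) ≤ (z.re + A) / w + 1 / 2 := Nat.floor_le hpos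
    have hk2 : (z.re + A) / w + 1 / 2 < k + 1 := Nat.lt_floor_add_one _
    have hkN : k < N + 1 := by
      have h3 : (k : ℝ) ≤ N := by
        refine hk1.trans ?_
        have h4 : (z.re + A) / w ≤ N - 1 / 2 := by
          rw [div_le_iff₀ hw0, hw]
          have : ((N : ℝ) - 1 / 2) * (2 * (A + 1) / N) = 2 * (A + 1) - (A + 1) / N := by
            (clear * - hN1 hA; field_simp)
          rw [this]
          have h5 : (A + 1) / N ≤ 1 := by rw [div_le_one hN0]; exact hN3.le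
          linarith only [hz2, h5]
        linarith only [h4]
      have : k ≤ N := by exact_mod_cast h3
      omega
    refine mem_iUnion.2 ⟨⟨k, hkN⟩, hz.1, ?_⟩
    have h6 : (z.re + A) / w * w = z.re + A := div_mul_cancel₀ _ hw0.ne'
    rw [abs_le]
    constructor
    · nlinarith only [h6, hw0, hk1]
    · nlinarith only [h6, hw0, hk2]
  · exact fun i => ⟨(hdiam i).1, (hdiam i).2.trans (hN2.le.trans (min_le_left _ _))⟩

end Vale.Agent.P164
end

section

/-!
# Paths which are alive at time `T` are not killed on fine grids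
-/

namespace Vale.Agent.P164

open Set Metric Filter Topology MeasureTheory ProbabilityTheory
open scoped NNReal ENNReal

/-- Markov's inequality for the fourth moment of the oscillation. -/
lemma nklim_osc {κ : ℝ} (hκ : 0 < κ) {Ω : Type*} [MeasurableSpace Ω] {P : Measure Ω}
    {W : ℝ → Ω → ℝ} (hW : IsDrv κ P W) :
    ∃ C : ℝ, 0 < C ∧ ∀ t δ c : ℝ, 0 ≤ t → 0 ≤ δ → 0 < c →
      P {ω | c < osc W t δ ω} ≤ ENNReal.ofReal (C * δ ^ 2 / c ^ 4) := by
  obtain ⟨C, hC, H⟩ := osc_moment κ hκ 4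
  refine ⟨C, hC, fun t δ c ht hδ hc => ?_⟩
  have := hW.prob
  obtain ⟨hi, hle⟩ := H hW t δ ht hδ
  have h1 := mul_meas_ge_le_integral_of_nonneg
    (ae_of_all P fun ω => pow_nonneg (hW.osc_nonneg (t := t) hδ ω) 4) hi (c ^ 4)
  have h4 : √δ ^ 4 = δ ^ 2 := by
    rw [show (4 : ℕ) = 2 * 2 from rfl, pow_mul, Real.sq_sqrt hδ]
  rw [h4] at hle
  have h2 : P.real {ω | c ^ 4 ≤ osc W t δ ω ^ 4} ≤ C * δ ^ 2 / c ^ 4 := by
    rw [le_div_iff₀ (by (clear * - hc; positivity)), mul_comm]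
    exact h1.trans hle
  have hs : {ω | c < osc W t δ ω} ⊆ {ω | c ^ 4 ≤ osc W t δ ω ^ 4} := by
    intro ω h
    have h' : c < osc W t δ ω := h
    exact pow_le_pow_left₀ hc.le h'.le 4
  calc P {ω | c < osc W t δ ω} ≤ P {ω | c ^ 4 ≤ osc W t δ ω ^ 4} := measure_mono hs
    _ = ENNReal.ofReal (P.real {ω | c ^ 4 ≤ osc W t δ ω ^ 4}) :=
        (ofReal_measureReal (measure_ne_top _ _)).symm
    _ ≤ _ := ENNReal.ofReal_le_ofReal h2

/-- A path which is alive at time `T`, with bounds at time `T`, stays in a compact set. -/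
lemma nklim_det {w : ℝ → ℝ} (hw : Continuous w) {z : ℂ} (hz : 0 < z.im) {T m : ℝ}
    (hm : 0 < m) (hd : z ∈ loewnerDomain w T) (h1 : 1 / m ≤ (Zf w z T).im)
    (h2 : -m ≤ Uf w z T) (h3 : ∀ t ∈ Icc 0 T, |w t| ≤ m) {t : ℝ} (ht : t ∈ Icc 0 T) :
    z ∈ loewnerDomain w t ∧ 1 / m ≤ (Zf w z t).im ∧ ‖Zf w z t‖ ≤ ‖z‖ + 2 * m * T + m ∧
      -m ≤ Uf w z t := by
  have hT : 0 ≤ T := ht.1.trans ht.2
  have him : ∀ s ∈ Icc 0 T, 1 / m ≤ (Zf w z s).im := fun s hs =>
    h1.trans (im_le_of_le hs.1 hs.2 hd)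
  refine ⟨dom_mono ht.2 hd, him t ht, ?_, h2.trans (Uf_le hw ht.1 ht.2 hd)⟩
  have hb : ∀ s ∈ Icc 0 T, ‖(2 : ℂ) / Zf w z s‖ ≤ 2 * m := by
    intro s hs
    have h5 : 1 / m ≤ ‖Zf w z s‖ :=
      (him s hs).trans ((le_abs_self _).trans (Complex.abs_im_le_norm _))
    have h6 : 0 < ‖Zf w z s‖ := lt_of_lt_of_le (by positivity) h5
    rw [norm_div, Complex.norm_ofNat, div_le_iff₀ h6]
    rw [div_le_iff₀ hm] at h5
    nlinarith only [h5]
  have hmv := (convex_Icc (0 : ℝ) T).norm_image_sub_le_of_norm_hasDerivWithin_le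
    (f := gf w z) (f' := fun s => 2 / Zf w z s) (fun s hs => gf_hasDeriv hd hs) hb
    (⟨le_rfl, hT⟩ : (0 : ℝ) ∈ Icc 0 T) ht
  rw [gf_zero hz, sub_zero, Real.norm_eq_abs, abs_of_nonneg ht.1] at hmv
  have h7 : ‖gf w z t‖ ≤ ‖z‖ + 2 * m * T := by
    have h8 : gf w z t = z + (gf w z t - z) := by ring
    rw [h8]
    refine (norm_add_le _ _).trans ?_
    have h9 : 2 * m * t ≤ 2 * m * T := mul_le_mul_of_nonneg_left ht.2 (by positivity)
    linarith only [hmv, h9]
  rw [Zf_eq]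
  refine (norm_sub_le _ _).trans ?_
  rw [Complex.norm_real, Real.norm_eq_abs]
  have := h3 t ht
  linarith only [h7, this]

end Vale.Agent.P164
end

section

/-!
# The lower bound: the gauge measure is positive
-/

namespace Vale.Agent.P164

open Set Metric Filter Topology MeasureTheory ProbabilityTheory
open scoped NNReal ENNReal

end Vale.Agent.P164
end

section

/-!
# The expected content of a disc
-/

namespace Vale.Agent.P164

open Set Metric Filter Topology MeasureTheory ProbabilityTheory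
open scoped NNReal ENNReal

end Vale.Agent.P164
end

section

/-!
# Deterministic covering estimate (`0 < κ < 8`)
-/

namespace Vale.Agent.P164.E8

open Set Metric Filter Topology MeasureTheory
open scoped NNReal ENNReal

/-- The centre `a + i`. -/
def ctr (a : ℝ) : ℂ := (a : ℂ) + Complex.I

@[simp] theorem ctr_im (a : ℝ) : (ctr a).im = 1 := by simp only [ctr, Complex.add_im, Complex.ofReal_im, Complex.I_im, zero_add]

/-- The lattice around `a + i`. -/
def lattA (a e : ℝ) : Set ℂ := (fun z => z + (a : ℂ)) '' latt e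

theorem lattA_finite (a : ℝ) {e : ℝ} (he : 0 < e) : (lattA a e).Finite :=
  (latt_finite he).image _

theorem lattA_card (a : ℝ) {e : ℝ} (he : 0 < e) (he1 : e ≤ 1) :
    ((lattA a e).ncard : ℝ) ≤ 100 / e ^ 2 := by
  refine le_trans ?_ (latt_card he he1)
  exact_mod_cast ncard_image_le (latt_finite he)

theorem lattA_dist {a e : ℝ} {z : ℂ} (hz : z ∈ lattA a e) : dist z (ctr a) ≤ 7 / 10 := by
  obtain ⟨w, hw, rfl⟩ := hz
  rw [ctr, add_comm (a : ℂ), dist_add_right]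
  exact hw.2

theorem lattA_im {a e : ℝ} {z : ℂ} (hz : z ∈ lattA a e) : 3 / 10 ≤ z.im ∧ z.im ≤ 17 / 10 := by
  have h1 := lattA_dist hz
  rw [dist_eq_norm] at h1
  have h2 := (Complex.abs_im_le_norm (z - ctr a)).trans h1
  rw [Complex.sub_im, ctr_im, abs_le] at h2
  constructor <;> linarith only [h2]

theorem lattA_near {a e : ℝ} (he : 0 < e) (he1 : e ≤ 1 / 10) {p : ℂ}
    (hp : dist p (ctr a) ≤ 3 / 5) : ∃ z ∈ lattA a e, dist p z ≤ e := by
  have h1 : dist (p - a) Complex.I ≤ 3 / 5 := by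
    have e1 : p = (p - a) + a := by ring
    rw [e1, ctr, add_comm (a : ℂ), dist_add_right] at hp
    exact hp
  obtain ⟨z, hz, hd⟩ := latt_near he he1 h1
  refine ⟨z + a, ⟨z, hz, rfl⟩, ?_⟩
  have e1 : p = (p - a) + a := by ring
  rw [e1, dist_add_right]
  exact hd

/-- Points of the trace are close to a point which had small `U` while it was alive. -/
lemma cover_near {W : ℝ → ℝ} {γ : ℝ → ℂ} (hW : Continuous W) (hγ : IsTrace W γ) {T : ℝ}
    (_hT : 0 < T) {p : ℂ} (hp : p ∈ γ '' Icc 0 T) {z : ℂ} {e u : ℝ}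
    (hz : Real.exp u / 10 ≤ z.im) (hpz : dist p z ≤ e) (he : e < Real.exp u / 10) :
    ∃ t ∈ Icc 0 T, z ∈ loewnerDomain W t ∧ Uf W z t < u := by
  obtain ⟨t, ht, rfl⟩ := hp
  obtain ⟨s, hs, h1, w, hw, h2⟩ := trace_cover hW hγ ht.1 (r := Real.exp u / 10) hz
    (mem_ball.2 (hpz.trans_lt he))
  refine ⟨s, ⟨hs.1, hs.2.trans ht.2⟩, h1, ?_⟩
  by_contra hcon
  push Not at hcon
  refine h2 (ball_subset_dom hW hs.1 h1 (ball_subset_ball ?_ hw))
  have := Real.exp_le_exp.2 hcon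
  linarith only [this]

/-- Deterministic covering estimate. `uf` is the finest scale, `u₀ - b k` the scales used. -/
theorem cover {κ : ℝ} (h0 : 0 < κ) (h4 : κ < 8) {b C : ℝ} (hb : 1 ≤ b) (hC : 1 ≤ C) :
    ∃ C' : ℝ, 1 ≤ C' ∧ ∀ {h : ℝ → ℝ} (_ : IsGauge h) {W : ℝ → ℝ} {γ : ℝ → ℂ} (_ : Continuous W)
      (_ : IsTrace W γ) {a T u₀ R ε Ch : ℝ} {K : ℕ} (_ : 0 < T)
      (_ : C' * Real.exp u₀ ≤ 1 / 100) (_ : 1 ≤ R) (_ : 0 < ε) (_ : 0 < Ch)
      (_ : ∀ r, 0 < r → r ≤ C' * Real.exp u₀ → Real.exp (u₀ - b * K) ≤ r →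
        h r ≤ Ch * R ^ xx κ * r ^ dd κ),
      pre h (C' * Real.exp u₀) (γ '' Icc 0 T ∩ closedBall (ctr a) (3 / 5)) ≤
        ENNReal.ofReal (C' * Ch * mu κ ε W (ball (ctr a) (3 / 4)) 0 T) +
        ({z ∈ lattA a (Real.exp (u₀ - b * K - 1) / 20) |
          (∃ t ∈ Icc 0 T, z ∈ loewnerDomain W t ∧ Uf W z t < u₀ - b * K - 1) ∧
          ∀ k < K, mu κ ε W (ball z (C * Real.exp (u₀ - b * k))) 0 T <
            R ^ xx κ * Real.exp (dd κ * (u₀ - b * k)) / C}).encard *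
          ENNReal.ofReal (h (Real.exp (u₀ - b * K))) := by
  classical
  set D : ℝ := C * (10 * C) ^ dd κ with hD
  have hC0 : 0 < C := by linarith
  have hD0 : 0 < D := by (clear * - hC; positivity)
  refine ⟨10 * C + D, by linarith only [hC, hD0], ?_⟩
  intro h hh W γ hW hγ a T u₀ R ε Ch K hT hu₀ hR hε hCh hhr
  set uK : ℝ := u₀ - b * K with huK
  set e : ℝ := Real.exp (uK - 1) / 20 with he
  have he0 : 0 < e := by positivity
  have hKnn : (0 : ℝ) ≤ K := Nat.cast_nonneg _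
  have huK0 : uK ≤ u₀ := by
    rw [huK]
    nlinarith only [hb]
  have hexpK : Real.exp uK ≤ Real.exp u₀ := Real.exp_le_exp.2 huK0
  have hexp1 : Real.exp (uK - 1) ≤ Real.exp uK := Real.exp_le_exp.2 (by linarith only [])
  have hexppos : 0 < Real.exp u₀ := Real.exp_pos _
  have hsmall : 10 * C * Real.exp u₀ ≤ 1 / 100 := by
    have : 0 < D * Real.exp u₀ := by positivity
    linarith only [hu₀, this]
  have hsmall1 : Real.exp u₀ ≤ 1 / 1000 := by
    have : Real.exp u₀ ≤ C * Real.exp u₀ := le_mul_of_one_le_left hexppos.le hC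
    (clear * - hsmall this; linarith)
  have he1 : e ≤ 1 / 10 := by
    rw [he]
    linarith only [hexpK, hexp1, hsmall1]
  have heK : e ≤ Real.exp uK := by
    rw [he]
    (clear * - he he0 hexp1; linarith [Real.exp_pos uK])
  -- the bad and the good lattice points
  set Λ : Set ℂ := lattA a e with hΛ
  have hΛf : Λ.Finite := lattA_finite a he0
  set Bad : Set ℂ := {z ∈ Λ |
          (∃ t ∈ Icc 0 T, z ∈ loewnerDomain W t ∧ Uf W z t < uK - 1) ∧
          ∀ k < K, mu κ ε W (ball z (C * Real.exp (u₀ - b * k))) 0 T <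
            R ^ xx κ * Real.exp (dd κ * (u₀ - b * k)) / C} with hBad
  have hBadf : Bad.Finite := hΛf.subset fun z hz => hz.1
  set Gd : Set ℂ := {z ∈ Λ | ∃ k < K, R ^ xx κ * Real.exp (dd κ * (u₀ - b * k)) / C ≤
    mu κ ε W (ball z (C * Real.exp (u₀ - b * k))) 0 T} with hGd
  have hGdf : Gd.Finite := hΛf.subset fun z hz => hz.1
  have hk : ∀ z : ℂ, ∃ k : ℕ, z ∈ Gd → k < K ∧ R ^ xx κ * Real.exp (dd κ * (u₀ - b * k)) / C ≤
    mu κ ε W (ball z (C * Real.exp (u₀ - b * k))) 0 T := by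
    intro z
    by_cases hz : z ∈ Gd
    · obtain ⟨k, hk1, hk2⟩ := hz.2
      exact ⟨k, fun _ => ⟨hk1, hk2⟩⟩
    · exact ⟨0, fun hz' => absurd hz' hz⟩
  choose k hk using hk
  set ρ : ℂ → ℝ := fun z => C * Real.exp (u₀ - b * k z) with hρ
  have hρ0 : ∀ z, 0 < ρ z := fun z => by
    show 0 < C * Real.exp (u₀ - b * k z)
    positivity
  have hρle : ∀ z, ρ z ≤ C * Real.exp u₀ := by
    intro z
    show C * Real.exp (u₀ - b * k z) ≤ C * Real.exp u₀
    have h1 : (0 : ℝ) ≤ k z := Nat.cast_nonneg _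
    have h2 : u₀ - b * k z ≤ u₀ := by nlinarith only [hb]
    have := Real.exp_le_exp.2 h2
    (clear * - this hC; gcongr)
  have hρge : ∀ z ∈ Gd, Real.exp uK ≤ ρ z := by
    intro z hz
    show Real.exp uK ≤ C * Real.exp (u₀ - b * k z)
    have h1 : (k z : ℝ) ≤ K := by exact_mod_cast (hk z hz).1.le
    have h2 : uK ≤ u₀ - b * k z := by
      rw [huK]
      nlinarith only [h1, hb]
    calc Real.exp uK ≤ Real.exp (u₀ - b * k z) := Real.exp_le_exp.2 h2
      _ ≤ C * Real.exp (u₀ - b * k z) := le_mul_of_one_le_left (Real.exp_pos _).le hC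
  -- Vitali
  obtain ⟨V, hVG, hVd, hVc⟩ := Vitali.exists_disjoint_subfamily_covering_enlargement_closedBall Gd
    (fun z : ℂ => z) ρ (C * Real.exp u₀) (fun z _ => hρle z) 5 (by norm_num)
  have hVf : V.Finite := hGdf.subset hVG
  have hδ0 : 0 ≤ (10 * C + D) * Real.exp u₀ := by positivity
  have hpre := cover_two_families hh hδ0 (E := γ '' Icc 0 T ∩ closedBall (ctr a) (3 / 5))
    hVf.toFinset hBadf.toFinset (fun z => 5 * ρ z) (fun _ => e) (fun z _ => by
      have := hρ0 z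
      positivity) (fun _ _ => he0.le) (fun z _ => by
      have h1 := hρle z
      have h2 : 0 < D * Real.exp u₀ := by positivity
      have h3 : (10 * C + D) * Real.exp u₀ = 10 * (C * Real.exp u₀) + D * Real.exp u₀ := by ring
      rw [h3]
      linarith only [h1, h2]) (fun _ _ => by
      have h2 : 0 < D * Real.exp u₀ := by positivity
      have h3 : (10 * C + D) * Real.exp u₀ = 10 * (C * Real.exp u₀) + D * Real.exp u₀ := by ring
      have h5 : Real.exp u₀ ≤ C * Real.exp u₀ := le_mul_of_one_le_left hexppos.le hC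
      rw [h3]
      linarith only [he, he0, hexpK, hexp1, h2, h5]) (by
      rintro p ⟨hpγ, hpI⟩
      rw [mem_closedBall] at hpI
      obtain ⟨z, hz, hpz⟩ := lattA_near he0 he1 hpI
      have hU : ∃ t ∈ Icc 0 T, z ∈ loewnerDomain W t ∧ Uf W z t < uK - 1 := by
        refine cover_near hW hγ hT hpγ ?_ hpz ?_
        · have h1 := lattA_im hz
          have h2 : Real.exp (uK - 1) ≤ 1 / 10 := by linarith only [hexpK, hexp1, hsmall1]
          linarith only [hexpK, hexp1, hsmall1, h1]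
        · rw [he]
          linarith only [he, he0]
      by_cases hzG : z ∈ Gd
      · left
        obtain ⟨z', hz', hsub⟩ := hVc z hzG
        refine ⟨z', hVf.mem_toFinset.2 hz', hsub ?_⟩
        rw [mem_closedBall]
        exact hpz.trans (heK.trans (hρge z hzG))
      · right
        refine ⟨z, hBadf.mem_toFinset.2 ⟨hz, hU, fun k hkK => ?_⟩, mem_closedBall.2 hpz⟩
        by_contra hcon
        push Not at hcon
        exact hzG ⟨hz, k, hkK, hcon⟩)
  refine hpre.trans (add_le_add ?_ ?_)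
  · -- the good part
    have hdd0 : 0 < dd κ := by unfold dd; linarith only [h0]
    have hterm : ∀ z ∈ hVf.toFinset, h (2 * (5 * ρ z)) ≤
        D * Ch * mu κ ε W (ball z (ρ z)) 0 T := by
      intro z hz
      have hzG : z ∈ Gd := hVG (hVf.mem_toFinset.1 hz)
      have h1 := (hk z hzG).2
      have h2 := hhr (2 * (5 * ρ z)) (by have := hρ0 z; positivity) (by
        have h1 := hρle z
        have h2 : 0 < D * Real.exp u₀ := by positivity
        have h3 : (10 * C + D) * Real.exp u₀ = 10 * (C * Real.exp u₀) + D * Real.exp u₀ := by ring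
        rw [h3]
        linarith only [h1, h2]) (by
        have h3 := hρge z hzG
        have h4 := hρ0 z
        linarith only [he, he0, hexp1, h3])
      refine h2.trans ?_
      have e1 : (2 * (5 * ρ z)) ^ dd κ = (10 * C) ^ dd κ * Real.exp (dd κ * (u₀ - b * k z)) := by
        have : 2 * (5 * ρ z) = (10 * C) * Real.exp (u₀ - b * k z) := by
          show 2 * (5 * (C * Real.exp (u₀ - b * k z))) = _
          ring
        rw [this, Real.mul_rpow (by positivity) (Real.exp_pos _).le, ← Real.exp_mul]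
        congr 2
        ring
      rw [e1]
      have h5 : R ^ xx κ * Real.exp (dd κ * (u₀ - b * k z)) ≤
          C * mu κ ε W (ball z (ρ z)) 0 T := by
        rw [div_le_iff₀ hC0] at h1
        calc R ^ xx κ * Real.exp (dd κ * (u₀ - b * k z)) ≤ _ := h1
          _ = C * mu κ ε W (ball z (ρ z)) 0 T := mul_comm _ _
      calc Ch * R ^ xx κ * ((10 * C) ^ dd κ * Real.exp (dd κ * (u₀ - b * k z)))
          = Ch * (10 * C) ^ dd κ * (R ^ xx κ * Real.exp (dd κ * (u₀ - b * k z))) := by ring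
        _ ≤ Ch * (10 * C) ^ dd κ * (C * mu κ ε W (ball z (ρ z)) 0 T) := by (clear * - h5 hCh hC; gcongr)
        _ = D * Ch * mu κ ε W (ball z (ρ z)) 0 T := by rw [hD]; ring
    have hmu0 : ∀ z, 0 ≤ mu κ ε W (ball z (ρ z)) 0 T := fun z => mu_nonneg le_rfl hT.le
    have hballsub : ∀ z ∈ hVf.toFinset, ball z (ρ z) ⊆ ball (ctr a) (3 / 4) := by
      intro z hz
      have hzΛ : z ∈ Λ := (hVG (hVf.mem_toFinset.1 hz)).1
      refine ball_subset_ball' ?_
      have h1 : dist z (ctr a) ≤ 7 / 10 := lattA_dist hzΛ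
      have h2 := hρle z
      linarith only [hsmall, h1, h2]
    have him : ∀ z ∈ ball (ctr a) (3 / 4), 0 < z.im := by
      intro z hz
      rw [mem_ball, dist_eq_norm] at hz
      have h1 := (Complex.abs_im_le_norm (z - (ctr a))).trans hz.le
      rw [Complex.sub_im, ctr_im, abs_le] at h1
      linarith only [h1]
    have hint : IntegrableOn (fun z => yc κ ε W z 0 T) (ball (ctr a) (3 / 4)) :=
      yc_integrableOn h0 (by linarith only [h4]) hε hW measurableSet_ball him measure_ball_lt_top.ne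
        le_rfl hT.le
    have hsum : ∑ z ∈ hVf.toFinset, mu κ ε W (ball z (ρ z)) 0 T ≤
        mu κ ε W (ball (ctr a) (3 / 4)) 0 T := by
      unfold mu
      rw [← integral_biUnion_finset (f := fun z => yc κ ε W z 0 T) (μ := volume) hVf.toFinset
        (s := fun z => ball z (ρ z)) (fun _ _ => measurableSet_ball) ?_
        (fun z hz => hint.mono_set (hballsub z hz))]
      · refine setIntegral_mono_set hint (Eventually.of_forall fun z => yc_nonneg le_rfl hT.le) ?_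
        refine HasSubset.Subset.eventuallyLE ?_
        exact iUnion₂_subset hballsub
      · intro x hx y hy hxy
        have hx' : x ∈ V := hVf.mem_toFinset.1 hx
        have hy' : y ∈ V := hVf.mem_toFinset.1 hy
        exact (hVd hx' hy' hxy).mono ball_subset_closedBall ball_subset_closedBall
    calc ∑ z ∈ hVf.toFinset, ENNReal.ofReal (h (2 * (5 * ρ z)))
        ≤ ∑ z ∈ hVf.toFinset, ENNReal.ofReal (D * Ch * mu κ ε W (ball z (ρ z)) 0 T) :=
          Finset.sum_le_sum fun z hz => ENNReal.ofReal_le_ofReal (hterm z hz)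
      _ = ENNReal.ofReal (∑ z ∈ hVf.toFinset, D * Ch * mu κ ε W (ball z (ρ z)) 0 T) :=
          (ENNReal.ofReal_sum_of_nonneg fun z _ => by
            have := hmu0 z
            (clear * - hC hCh this; positivity)).symm
      _ ≤ ENNReal.ofReal ((10 * C + D) * Ch * mu κ ε W (ball (ctr a) (3 / 4)) 0 T) := by
          refine ENNReal.ofReal_le_ofReal ?_
          rw [← Finset.mul_sum]
          have h6 : 0 ≤ mu κ ε W (ball (ctr a) (3 / 4)) 0 T := mu_nonneg le_rfl hT.le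
          calc D * Ch * ∑ z ∈ hVf.toFinset, mu κ ε W (ball z (ρ z)) 0 T
              ≤ D * Ch * mu κ ε W (ball (ctr a) (3 / 4)) 0 T := by (clear * - hVf hsum hC hCh; gcongr)
            _ ≤ (10 * C + D) * Ch * mu κ ε W (ball (ctr a) (3 / 4)) 0 T := by
                gcongr
                linarith only [hC]
  · -- the bad part
    rw [hBadf.encard_eq_coe_toFinset_card, ENat.toENNReal_coe, Finset.sum_const, nsmul_eq_mul]
    gcongr
    refine hh.mono (mem_Ici.2 (by positivity)) (mem_Ici.2 (Real.exp_pos _).le) ?_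
    rw [he]
    linarith only [he, he0, hexp1]

end Vale.Agent.P164.E8
end

section

/-!
# Small angles (`0 < κ < 8`)
-/

namespace Vale.Agent.P164.E8

open Set Metric Filter Topology MeasureTheory ProbabilityTheory
open scoped NNReal ENNReal

/-- `MM` is a supermartingale along deterministic times. Proof: as `MM_super` in H/SmallAngle.lean
(`reg_MM`, `gen = 0`; only `κ > 0` is needed). -/
theorem MM_super {κ : ℝ} (h0 : 0 < κ) {Ω : Type*} [MeasurableSpace Ω]
    {P : Measure Ω} {W : ℝ → Ω → ℝ} (hW : IsDrv κ P W) (z : ℂ) {s t : ℝ} (hs : 0 ≤ s)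
    (hst : s ≤ t) {A : Set Ω} (hA : MeasurableSet[past W s] A) :
    ∫⁻ ω in A, ENNReal.ofReal (St (MM κ) (fun u => W u ω) z t) ∂P ≤
      ∫⁻ ω in A, ENNReal.ofReal (St (MM κ) (fun u => W u ω) z s) ∂P := by
  have d1 : ∀ U : ℝ, HasDerivAt (fun U : ℝ => Real.exp (-xx κ * U))
      (-xx κ * Real.exp (-xx κ * U)) U := by
    intro U
    have := ((hasDerivAt_id U).const_mul (-xx κ)).exp
    refine this.congr_deriv ?_
    simp only [id_eq, neg_mul, mul_one, mul_neg, neg_inj]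
    ring
  have c1 : Continuous fun U : ℝ => -xx κ * Real.exp (-xx κ * U) := by fun_prop
  have hr := reg_pow d1 c1 (be κ) (be κ)
  have key := SmallAngle_super h0 hr (fun Z U hZ => by
    have := hY_pos (be κ) (be κ) Z
    positivity) (fun Z U hZ => by
      rw [gen_pow _ _ _ _ _ hZ]
      have hN := norm_pos_of_im hZ
      have hq : cs Z ^ 2 = 1 - sn Z ^ 2 := by
        have := sn_sq_add_cs_sq (norm_pos_iff.1 hN)
        linarith only [this]
      have hκβ : κ * be κ = 8 - κ := by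
        unfold be
        (clear * - h0; field_simp)
      have e1 : κ / 2 * be κ * (be κ + 2) - 4 * be κ = 4 - κ / 2 := by
        have : κ / 2 * be κ * (be κ + 2) - 4 * be κ =
          (κ * be κ) * be κ / 2 + κ * be κ - 4 * be κ := by ring
        rw [this, hκβ]
        have : (8 - κ) * be κ / 2 + (8 - κ) - 4 * be κ = (8 - κ) - κ * be κ / 2 := by ring
        rw [this, hκβ]
        ring
      have e2 : κ / 2 * be κ = 4 - κ / 2 := by linarith only [hκβ]
      rw [e1, e2, hq, xx]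
      refine le_of_eq (mul_eq_zero_of_right _ ?_)
      ring) hW z hs hst hA
  have e : ∀ v : ℝ, 0 ≤ v → ∀ ω, St (fun Z U => Real.exp (-xx κ * U) * hY (be κ) (be κ) Z)
      (fun u => W u ω) z v = St (MM κ) (fun u => W u ω) z v := by
    intro v hv ω
    by_cases h : z ∈ loewnerDomain (fun u => W u ω) v
    · rw [St_of_mem h, St_of_mem h, hY_sn (Zf_im_pos hv h), MM]
    · rw [St_of_not_mem h, St_of_not_mem h]
  simp only [e t (hs.trans hst), e s hs] at key
  exact key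

/-- `pa κ > 0`. -/
lemma Small_pa_pos {κ : ℝ} (h0 : 0 < κ) (h8 : κ < 8) : 0 < pa κ := by
  have : 1 < 8 / κ := by rw [lt_div_iff₀ h0]; linarith only [h8]
  unfold pa be
  exact lt_min one_pos (by linarith only [this])

/-- `pa κ ≤ 1`. -/
lemma Small_pa_le_one (κ : ℝ) : pa κ ≤ 1 := min_le_left _ _

/-- `pa κ < be κ`. -/
lemma Small_pa_lt_be {κ : ℝ} (h0 : 0 < κ) (h8 : κ < 8) : pa κ < be κ := by
  have h1 : 0 < pa κ := Small_pa_pos h0 h8
  have h2 : pa κ ≤ be κ / 2 := min_le_right _ _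
  linarith

/-- The coefficient of the generator of `sn^p` is bounded away from zero. -/
lemma Small_coeff {κ p m q b : ℝ} (hκβ : κ * b = 8 - κ) (hq0 : 0 ≤ q) (hq1 : q ≤ 1)
    (hm1 : m ≤ κ / 2 * p) (hm2 : m ≤ κ * p / 2 * (b - p)) :
    (κ / 2 * p * (p + 2) - 4 * p) * q - κ / 2 * p ≤ -m := by
  have e1 : κ * p / 2 * (b - p) = p / 2 * (8 - κ) - κ * p ^ 2 / 2 := by
    rw [← hκβ]; ring
  rw [e1] at hm2
  have e2 : (κ / 2 * p * (p + 2) - 4 * p) * q - κ / 2 * p =
      -((1 - q) * (κ / 2 * p)) - q * (p / 2 * (8 - κ) - κ * p ^ 2 / 2) := by ring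
  rw [e2]
  have h3 := mul_le_mul_of_nonneg_left hm1 (show 0 ≤ 1 - q by linarith only [hq1])
  have h4 := mul_le_mul_of_nonneg_left hm2 hq0
  (clear * - h3 h4; linarith)

/-- From a small angle `U` is unlikely to drop, along any finite set of times, `p = pa κ`.
Proof: as `small_angle` (H/SmallAngle.lean) with
`F = sn^p + c · ee(2 (U - u + 1))`, `p = pa κ < β`, `p ≤ 1`; `ee(2(U-u+1)) = 1` for `U ≤ u - 1`, `= 0` for
`U ≥ u - 1/2`. Generator of `sn^p`: `sn^p/|Z|² {-(κp/2)(β-p) + (…) sn²}`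
(`gen_pow`: `(κ/2 p(p+2) - 4p) cs² - (κ/2) p`, at `cs² = 1`: `-(κp/2)(β-p)`, and in general
`= -(κp/2)(β - p) - (κ/2 p(p+2) - 4p) sn²`, where the second term is `≤ 4 p sn²`). Generator of
`c·ee(2(U-u+1))`: `-4 (sn²/|Z|²) · c · (-2 phi(...)) = 8 c phi sn²/|Z|² ≤ 12 c sn²/|Z|²`. Write
`F = ‹sn^p + b·(1 - sn^2-type correction)›`: the problem is `4p sn²·sn^p` for `sn` not small. As in
the file `H/SmallAngle.lean`, check how it was done for `p = 1`; in general
`(κ/2 p(p+2) - 4p) cs² - (κ/2)p ≤ 0` for ALL angles: it is linear in `cs² ∈ [0,1]`, equal to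
`-(κ/2)p < 0` at `cs² = 0` and `-(κp/2)(β-p) < 0` at `cs² = 1`; so it is `≤ -m`,
`m = min((κ/2)p, (κp/2)(β-p)) > 0`. Hence with `c = m/12`:
`gen F ≤ (1/|Z|²)(-m sn^p + 12 c sn²) ≤ 0` since `sn² ≤ sn^p` (`p ≤ 2`, `sn ≤ 1`). `F ≥ c` when
`U ≤ u - 1`, `F(s) ≤ θ^p` on `A` (`ee = 0` as `U ≥ u - 1/4`). The maximal version over a finite
set of times: lemma `maximal` of G/Approach.lean as in the proof of `approach`. -/
theorem small_angle {κ : ℝ} (h0 : 0 < κ) (h8 : κ < 8) :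
    ∃ C : ℝ, 0 < C ∧ ∀ {Ω : Type*} [MeasurableSpace Ω] {P : Measure Ω} {W : ℝ → Ω → ℝ}
      (_ : IsDrv κ P W) {z : ℂ} {s u θ : ℝ} (_ : 0 ≤ s) (_ : 0 ≤ θ) {A : Set Ω}
      (_ : MeasurableSet[past W s] A)
      (_ : ∀ ω ∈ A, z ∈ loewnerDomain (fun u => W u ω) s ∧ sn (Zf (fun u => W u ω) z s) ≤ θ ∧
        u - 1 / 4 ≤ Uf (fun u => W u ω) z s) (S : Finset ℝ) (_ : ∀ t ∈ S, s ≤ t),
      P (A ∩ {ω | ∃ t ∈ S, z ∈ loewnerDomain (fun u => W u ω) t ∧
          Uf (fun u => W u ω) z t ≤ u - 1}) ≤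
        ENNReal.ofReal (C * θ ^ pa κ) * P A := by
  have hp0 := Small_pa_pos h0 h8
  have hp1 := Small_pa_le_one κ
  have hpb := Small_pa_lt_be h0 h8
  set p := pa κ with hp
  set m := min (κ / 2 * p) (κ * p / 2 * (be κ - p)) with hm
  have hm0 : 0 < m := lt_min (by positivity) (mul_pos (by positivity) (by linarith only [hpb]))
  have hm1 : m ≤ κ / 2 * p := min_le_left _ _
  have hm2 : m ≤ κ * p / 2 * (be κ - p) := min_le_right _ _
  have hκβ : κ * be κ = 8 - κ := by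
    unfold be
    (clear * - h0; field_simp)
  set c := m / 12 with hc
  have hc0 : 0 < c := by positivity
  refine ⟨1 / c, by positivity, ?_⟩
  intro Ω _ P W hW z s u θ hs hθ A hA hAU S hS
  have d0 : ∀ U : ℝ, HasDerivAt (fun _ : ℝ => (1 : ℝ)) ((fun _ : ℝ => (0 : ℝ)) U) U :=
    fun U => hasDerivAt_const _ _
  have d1 : ∀ U : ℝ, HasDerivAt (fun U : ℝ => c * ee (2 * (U - u + 1)))
      (c * (-phi (2 * (U - u + 1)) * 2)) U := by
    intro U
    have h1 : HasDerivAt (fun U : ℝ => 2 * (U - u + 1)) 2 U := by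
      simpa using (((hasDerivAt_id U).sub_const u).add_const 1).const_mul 2
    exact (((ee_hasDeriv (2 * (U - u + 1))).comp U h1)).const_mul c
  have c1 : Continuous fun U : ℝ => c * (-phi (2 * (U - u + 1)) * 2) := by
    have := phi_continuous
    fun_prop
  have hr := (reg_pow d0 continuous_const p p).add (reg_U d1 c1)
  set F : ℂ → ℝ → ℝ := fun Z U => 1 * hY p p Z + c * ee (2 * (U - u + 1)) with hF
  have hsup : ∀ s' t', s ≤ s' → s' ≤ t' → ∀ B, MeasurableSet[past W s'] B →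
      ∫⁻ ω in B, ENNReal.ofReal (St F (fun u => W u ω) z t') ∂P ≤
        ∫⁻ ω in B, ENNReal.ofReal (St F (fun u => W u ω) z s') ∂P := by
    intro s' t' hs' hst' B hB
    exact SmallAngle_super h0 hr (fun Z U hZ => by
      have h1 := hY_pos p p Z
      have h2 := ee_nonneg (2 * (U - u + 1))
      (clear * - h1 h0 hp0 hpb h2; positivity)) (fun Z U hZ => by
        rw [gen_add, gen_pow _ _ _ _ _ hZ, gen_U, hY_sn hZ]
        have hN := norm_pos_of_im hZ
        have hσ := sn_pos hZ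
        have hσ1 := sn_le_one Z
        have hq : cs Z ^ 2 = 1 - sn Z ^ 2 := by
          have := sn_sq_add_cs_sq (norm_pos_iff.1 hN)
          linarith only [this]
        have hq0 : 0 ≤ cs Z ^ 2 := by (clear * -; positivity)
        have hq1 : cs Z ^ 2 ≤ 1 := by rw [hq]; nlinarith only []
        have hφ0 := phi_nonneg (2 * (U - u + 1))
        have hφ := phi_le (2 * (U - u + 1))
        have h1 : (κ / 2 * p * (p + 2) - 4 * p) * cs Z ^ 2 - κ / 2 * p ≤ -m :=
          Small_coeff hκβ hq0 hq1 hm1 hm2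
        have hpow : sn Z ^ 2 ≤ sn Z ^ p := by
          have := Real.rpow_le_rpow_of_exponent_ge hσ hσ1 (show p ≤ ((2 : ℕ) : ℝ) by
            push_cast; linarith only [hp1])
          rwa [Real.rpow_natCast] at this
        have hσp : 0 ≤ sn Z ^ p := Real.rpow_nonneg hσ.le _
        have h3 : 8 * c * phi (2 * (U - u + 1)) ≤ m := by
          have := mul_le_mul_of_nonneg_left hφ (show 0 ≤ 8 * c by positivity)
          have h5 : 8 * c * (3 / 2) = m := by rw [hc]; ring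
          linarith only [hc, this]
        have h2 : 8 * c * phi (2 * (U - u + 1)) * sn Z ^ 2 ≤ m * sn Z ^ p :=
          mul_le_mul h3 hpow (by (clear * - hσ; positivity)) hm0.le
        have h4 : sn Z ^ p * ((κ / 2 * p * (p + 2) - 4 * p) * cs Z ^ 2 - κ / 2 * p) ≤
            sn Z ^ p * (-m) := mul_le_mul_of_nonneg_left h1 hσp
        have e3 : sn Z ^ p / ‖Z‖ ^ 2 * (1 * ((κ / 2 * p * (p + 2) - 4 * p) * cs Z ^ 2 -
              κ / 2 * p - 2 * p + 2 * p) - 4 * sn Z ^ 2 * 0) +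
            -(4 * sn Z ^ 2 / ‖Z‖ ^ 2 * (c * (-phi (2 * (U - u + 1)) * 2))) =
            1 / ‖Z‖ ^ 2 * (sn Z ^ p * ((κ / 2 * p * (p + 2) - 4 * p) * cs Z ^ 2 - κ / 2 * p) +
              8 * c * phi (2 * (U - u + 1)) * sn Z ^ 2) := by
          field_simp
          ring
        rw [e3]
        exact mul_nonpos_of_nonneg_of_nonpos (by (clear * - hN; positivity)) (by linarith only [h2, h4])) hW z
      (hs.trans hs') hst' hB
  set V : ℝ → Ω → ℝ≥0∞ := fun t ω => ENNReal.ofReal (St F (fun u => W u ω) z t) with hV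
  set E : ℝ → Set Ω := fun t => {ω | z ∈ loewnerDomain (fun u => W u ω) t ∧
    Uf (fun u => W u ω) z t ≤ u - 1} with hE
  have hEm : ∀ t, s ≤ t → MeasurableSet[past W t] (E t) := by
    intro t ht
    have h1 := Z_past hW.cont hW.meas (hs.trans ht) z (S := {x : ℂ × ℝ | x.2 ≤ u - 1})
      (measurableSet_le measurable_snd measurable_const)
    exact h1
  have hlow : ∀ t, s ≤ t → ∀ ω ∈ E t, ENNReal.ofReal c ≤ V t ω := by
    intro t ht ω hω
    apply ENNReal.ofReal_le_ofReal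
    obtain ⟨h1, h2⟩ := hω
    rw [St_of_mem h1]
    have h3 := hY_pos p p (Zf (fun u => W u ω) z t)
    have h5 : ee (2 * (Uf (fun u => W u ω) z t - u + 1)) = 1 := ee_of_nonpos (by linarith only [h2])
    simp only [hF]
    rw [h5]
    linarith only [h3]
  have hup : ∀ ω ∈ A, V s ω ≤ ENNReal.ofReal (θ ^ p) := by
    intro ω hω
    obtain ⟨h1, h2, h3⟩ := hAU ω hω
    apply ENNReal.ofReal_le_ofReal
    rw [St_of_mem h1]
    have hZ := Zf_im_pos hs h1
    have h5 : ee (2 * (Uf (fun u => W u ω) z s - u + 1)) = 0 := ee_of_one_le (by linarith only [h3])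
    simp only [hF]
    rw [h5, hY_sn hZ]
    have h6 := Real.rpow_le_rpow (sn_pos hZ).le h2 hp0.le
    linarith only [h6]
  obtain ⟨T, hT⟩ : ∃ T, s ≤ T ∧ ∀ t ∈ S, t ≤ T := by
    obtain ⟨b, hb⟩ := S.bddAbove
    exact ⟨max b s, le_max_right _ _, fun t ht => (hb ht).trans (le_max_left _ _)⟩
  have key := maximal (V := V) (m := past W) (P := P) (fun _ _ h => past_mono h)
    (fun t => hW.past_le) hEm hsup hlow hA S hS T hT.1 hT.2
  have key2 : ENNReal.ofReal c * P (A ∩ {ω | ∃ t ∈ S, ω ∈ E t}) ≤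
      ENNReal.ofReal (θ ^ p) * P A := by
    refine (le_self_add.trans key).trans ?_
    rw [← setLIntegral_const]
    exact setLIntegral_mono' (hW.past_le _ hA) hup
  have hθc : θ ^ p = c * (1 / c * θ ^ p) := by (clear * - hc0; field_simp)
  rw [hθc, ENNReal.ofReal_mul hc0.le, mul_assoc (ENNReal.ofReal _)] at key2
  have hc' : ENNReal.ofReal c ≠ 0 := by
    rw [Ne, ENNReal.ofReal_eq_zero, not_le]
    exact hc0
  exact (ENNReal.mul_le_mul_iff_right hc' ENNReal.ofReal_ne_top).1 key2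

end Vale.Agent.P164.E8
end

section

/-!
# Paths on which `U` gets small are not killed before on fine grids (no aliveness assumption)
-/

namespace Vale.Agent.P164.E8

open Set Metric Filter Topology MeasureTheory ProbabilityTheory
open scoped NNReal ENNReal

/-- A path on which `U` gets small is alive at the end of a short interval at the beginning of which
`U` is small. -/
lemma nklim_interval {w : ℝ → ℝ} (hw : Continuous w) {z : ℂ} {T u t : ℝ} (hT : 0 < T)
    (ht : t ∈ Icc 0 T) (hd : z ∈ loewnerDomain w t) (hu : Uf w z t < u) :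
    ∃ a b : ℝ, 0 ≤ a ∧ a < b ∧ b ≤ T ∧ z ∈ loewnerDomain w b ∧ Uf w z a < u := by
  rcases lt_or_eq_of_le ht.2 with h | h
  · obtain ⟨d, hd0, hext⟩ := dom_extend hw ht.1 hd
    exact ⟨t, min (t + d) T, ht.1, lt_min (by linarith) h, min_le_right _ _,
      dom_mono (min_le_left _ _) hext, hu⟩
  · subst h
    have hc := Uf_cont hw hd t ⟨ht.1, le_rfl⟩
    have h1 : ∀ᶠ s in 𝓝[Icc 0 t] t, Uf w z s < u := hc.eventually_lt_const hu
    rw [eventually_nhdsWithin_iff, Metric.eventually_nhds_iff] at h1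
    obtain ⟨ε, hε, H⟩ := h1
    refine ⟨max 0 (t - ε / 2), t, le_max_left _ _, max_lt hT (by linarith only [hε]), le_rfl, hd,
      H ?_ ⟨le_max_left _ _, max_le hT.le (by linarith)⟩⟩
    rw [Real.dist_eq, abs_lt]
    constructor
    · have := le_max_right 0 (t - ε / 2)
      linarith only [hε, this]
    · have : max 0 (t - ε / 2) ≤ t := max_le hT.le (by linarith)
      linarith only [hε, this]

/-- Dyadic points in an interval. -/
lemma nklim_dyadic {T a b : ℝ} (hT : 0 < T) (ha : 0 ≤ a) (hab : a < b) (hb : b ≤ T) :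
    ∃ n₀ : ℕ, ∀ n ≥ n₀, ∃ k : ℕ, k < 2 ^ n ∧ a ≤ (k : ℝ) * (T / 2 ^ n) ∧ ((k : ℝ) + 1) * (T / 2 ^ n) ≤ b := by
  obtain ⟨n₀, hn₀⟩ := exists_nat_gt (2 * T / (b - a))
  refine ⟨n₀, fun n hn => ?_⟩
  have hba : 0 < b - a := by linarith only [hab]
  have h2 : (n₀ : ℝ) < 2 ^ n := by
    calc (n₀ : ℝ) ≤ n := by exact_mod_cast hn
      _ < 2 ^ n := by exact_mod_cast Nat.lt_two_pow_self
  have hs0 : 0 < T / 2 ^ n := by positivity
  have hs : 2 * (T / 2 ^ n) < b - a := by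
    rw [div_lt_iff₀ hba] at hn₀
    rw [← mul_div_assoc, div_lt_iff₀ (by positivity)]
    nlinarith only [hn₀, hab, h2]
  set s : ℝ := T / 2 ^ n with hsdef
  have hk1 : a ≤ ⌈a / s⌉₊ * s := by
    rw [← div_le_iff₀ hs0]
    exact Nat.le_ceil _
  have hk2 : (⌈a / s⌉₊ : ℝ) * s < a + s := by
    have := Nat.ceil_lt_add_one (show 0 ≤ a / s by (clear * - ha hT; positivity))
    calc (⌈a / s⌉₊ : ℝ) * s < (a / s + 1) * s := mul_lt_mul_of_pos_right this hs0
      _ = a + s := by field_simp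
  have hk3 : ((⌈a / s⌉₊ : ℝ) + 1) * s ≤ b := by
    rw [add_mul, one_mul]
    linarith only [hs, hk2]
  refine ⟨⌈a / s⌉₊, ?_, hk1, hk3⟩
  have h5 : ((⌈a / s⌉₊ : ℝ) + 1) * s ≤ 2 ^ n * s := by
    refine hk3.trans (hb.trans ?_)
    rw [hsdef]
    field_simp
    exact le_rfl
  have h6 : (⌈a / s⌉₊ : ℝ) + 1 ≤ 2 ^ n := le_of_mul_le_mul_right h5 hs0
  have h7 : (⌈a / s⌉₊ : ℝ) < 2 ^ n := by linarith only [h6]
  exact_mod_cast h7

/-- The event that a dyadic time sees the path alive with bounds and with small `U`. -/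
def nklimS {Ω : Type*} (W : ℝ → Ω → ℝ) (z : ℂ) (T u : ℝ) (n : ℕ) : Set Ω :=
  ⋃ k ∈ Finset.range (2 ^ n),
    ({ω | z ∈ loewnerDomain (fun v => W v ω) (((k : ℝ) + 1) * (T / 2 ^ n)) ∧
      (Zf (fun v => W v ω) z (((k : ℝ) + 1) * (T / 2 ^ n)),
        Uf (fun v => W v ω) z (((k : ℝ) + 1) * (T / 2 ^ n))) ∈
        {p : ℂ × ℝ | 1 / ((n : ℝ) + 1) ≤ p.1.im ∧ -((n : ℝ) + 1) ≤ p.2}} ∩
    {ω | z ∈ loewnerDomain (fun v => W v ω) ((k : ℝ) * (T / 2 ^ n)) ∧
      (Zf (fun v => W v ω) z ((k : ℝ) * (T / 2 ^ n)),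
        Uf (fun v => W v ω) z ((k : ℝ) * (T / 2 ^ n))) ∈ {p : ℂ × ℝ | p.2 < u}} ∩
    {ω | osc W 0 T ω ≤ (n : ℝ) + 1})

lemma nklimS_meas {κ : ℝ} {Ω : Type*} [MeasurableSpace Ω] {P : Measure Ω}
    {W : ℝ → Ω → ℝ} (hW : IsDrv κ P W) (z : ℂ) {T u : ℝ} (hT : 0 < T) (n : ℕ) :
    MeasurableSet (nklimS W z T u n) := by
  refine MeasurableSet.biUnion (Finset.countable_toSet _) fun k _ => ?_
  refine (MeasurableSet.inter ?_ ?_).inter ?_
  · refine hW.past_le _ (Z_past hW.cont hW.meas (by positivity) z ?_)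
    refine MeasurableSet.inter ?_ ?_
    · exact measurableSet_le measurable_const (Complex.measurable_im.comp measurable_fst)
    · exact measurableSet_le measurable_const measurable_snd
  · refine hW.past_le _ (Z_past hW.cont hW.meas (by positivity) z ?_)
    exact measurableSet_lt measurable_snd measurable_const
  · exact measurableSet_le ((hW.meas_osc (t := 0) hT.le).mono hW.fut_le le_rfl) measurable_const

/-- Every path on which `U` gets small is in all the late dyadic events. -/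
lemma nklimS_eventually {κ : ℝ} {Ω : Type*} [MeasurableSpace Ω] {P : Measure Ω}
    {W : ℝ → Ω → ℝ} (hW : IsDrv κ P W) {z : ℂ} {T u : ℝ} (hT : 0 < T) {ω : Ω}
    (hω : ∃ t ∈ Icc 0 T, z ∈ loewnerDomain (fun v => W v ω) t ∧ Uf (fun v => W v ω) z t < u) :
    ∃ n₀ : ℕ, ∀ n ≥ n₀, ω ∈ nklimS W z T u n := by
  obtain ⟨t, ht, hd, hu⟩ := hω
  obtain ⟨a, b, ha, hab, hb, hdb, hua⟩ := nklim_interval (hW.cont ω) hT ht hd hu
  obtain ⟨n0, hn0⟩ := nklim_dyadic hT ha hab hb
  have hb0 : 0 ≤ b := ha.trans hab.le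
  have him : 0 < (Zf (fun u => W u ω) z b).im := Zf_im_pos hb0 hdb
  obtain ⟨n1, hn1⟩ := exists_nat_gt (1 / (Zf (fun u => W u ω) z b).im)
  obtain ⟨n2, hn2⟩ := exists_nat_gt (-(Uf (fun u => W u ω) z b))
  obtain ⟨n3, hn3⟩ := exists_nat_gt (osc W 0 T ω)
  refine ⟨max n0 (max n1 (max n2 n3)), fun n hn => ?_⟩
  have hn' := hn
  simp only [ge_iff_le, max_le_iff] at hn'
  obtain ⟨e0, e1, e2, e3⟩ := hn'
  have c1 : (n1 : ℝ) ≤ n := by exact_mod_cast e1
  have c2 : (n2 : ℝ) ≤ n := by exact_mod_cast e2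
  have c3 : (n3 : ℝ) ≤ n := by exact_mod_cast e3
  obtain ⟨k, hk, hka, hkb⟩ := hn0 n e0
  have hs0 : 0 < T / 2 ^ n := by positivity
  have hk0 : (0 : ℝ) ≤ (k : ℝ) * (T / 2 ^ n) := by (clear * - hT; positivity)
  have hk1 : (k : ℝ) * (T / 2 ^ n) ≤ ((k : ℝ) + 1) * (T / 2 ^ n) :=
    mul_le_mul_of_nonneg_right (by linarith only []) hs0.le
  have hdk1 : z ∈ loewnerDomain (fun v => W v ω) (((k : ℝ) + 1) * (T / 2 ^ n)) :=
    dom_mono hkb hdb
  have hdk : z ∈ loewnerDomain (fun v => W v ω) ((k : ℝ) * (T / 2 ^ n)) := dom_mono hk1 hdk1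
  unfold nklimS
  rw [mem_iUnion₂]
  refine ⟨k, Finset.mem_range.2 hk, ⟨⟨hdk1, ?_, ?_⟩, hdk, ?_⟩, ?_⟩
  · change 1 / ((n : ℝ) + 1) ≤ (Zf (fun v => W v ω) z (((k : ℝ) + 1) * (T / 2 ^ n))).im
    refine le_trans ?_ (im_le_of_le (hk0.trans hk1) hkb hdb)
    rw [div_le_iff₀ (by (clear * -; positivity))]
    rw [div_lt_iff₀ him] at hn1
    nlinarith only [hn1, c1]
  · change -((n : ℝ) + 1) ≤ Uf (fun v => W v ω) z (((k : ℝ) + 1) * (T / 2 ^ n))
    refine le_trans ?_ (Uf_le (hW.cont ω) (hk0.trans hk1) hkb hdb)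
    linarith only [hn2, c2]
  · change Uf (fun v => W v ω) z ((k : ℝ) * (T / 2 ^ n)) < u
    exact lt_of_le_of_lt (Uf_le (hW.cont ω) ha hka hdk) hua
  · change osc W 0 T ω ≤ (n : ℝ) + 1
    linarith only [hn3, c3]

/-- The dyadic events approximate the event. -/
lemma nklimS_limit {κ : ℝ} {Ω : Type*} [MeasurableSpace Ω] {P : Measure Ω}
    {W : ℝ → Ω → ℝ} (hW : IsDrv κ P W) (z : ℂ) {T u : ℝ} (hT : 0 < T) {ε : ℝ≥0∞} (hε : 0 < ε) :
    ∃ n : ℕ, P ({ω | ∃ t ∈ Icc 0 T, z ∈ loewnerDomain (fun v => W v ω) t ∧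
      Uf (fun v => W v ω) z t < u} \ nklimS W z T u n) ≤ ε := by
  have := hW.prob
  set S : Set Ω := {ω | ∃ t ∈ Icc 0 T, z ∈ loewnerDomain (fun v => W v ω) t ∧
      Uf (fun v => W v ω) z t < u} with hS
  -- the complement of the late events in their lower limit
  set L : Set Ω := ⋃ n, ⋂ k, nklimS W z T u (n + k) with hL
  have hLm : MeasurableSet L := MeasurableSet.iUnion fun n => MeasurableSet.iInter fun k =>
    nklimS_meas hW z hT _
  have hSL : S ⊆ L := by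
    intro ω hω
    obtain ⟨n₀, hn₀⟩ := nklimS_eventually hW hT hω
    exact mem_iUnion.2 ⟨n₀, mem_iInter.2 fun k => hn₀ _ (Nat.le_add_right _ _)⟩
  have hanti : Antitone fun n => L \ ⋂ k, nklimS W z T u (n + k) := by
    intro n m hnm
    refine sdiff_subset_sdiff_right fun ω hω => ?_
    rw [mem_iInter] at hω ⊢
    intro k
    have := hω (m - n + k)
    rwa [show n + (m - n + k) = m + k by omega] at this
  have hinter : ⋂ n, L \ ⋂ k, nklimS W z T u (n + k) = ∅ := by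
    rw [eq_empty_iff_forall_notMem]
    intro ω hω
    rw [mem_iInter] at hω
    obtain ⟨n, hn⟩ := mem_iUnion.1 (hω 0).1
    exact (hω n).2 hn
  have hlim : Tendsto (fun n => P (L \ ⋂ k, nklimS W z T u (n + k))) atTop (𝓝 0) := by
    have h := tendsto_measure_iInter_atTop (μ := P)
      (s := fun n => L \ ⋂ k, nklimS W z T u (n + k))
      (fun n => (hLm.diff (MeasurableSet.iInter fun k => nklimS_meas hW z hT _)).nullMeasurableSet)
      hanti ⟨0, measure_ne_top _ _⟩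
    rwa [hinter, measure_empty] at h
  obtain ⟨n, hn⟩ := (hlim.eventually (gt_mem_nhds hε)).exists
  refine ⟨n, (measure_mono fun ω hω => ?_).trans hn.le⟩
  refine ⟨hSL hω.1, fun h => hω.2 ?_⟩
  have := mem_iInter.1 h 0
  rwa [add_zero] at this

/-- Proof. Let `S = {∃ t ∈ [0,T], z alive at t, U_t < u}`. For `ω ∈ S` there are `t < t + h ≤ T` with `z`
alive at `t + h` and `U_t < u` (a living path lives a bit longer; if only `t = T` is available use the
continuity of `U` from the left). For `n : ℕ` let `S'_n` be the (measurable) event that for some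
`k < 2^n`: `z` is alive at `(k+1) T 2^{-n}`, the height there is `≥ 1/(n+1)`, `U` there is `≥ -(n+1)`,
`U` at time `k T 2^{-n}` is `< u`, and `osc W 0 T ≤ n + 1`. Every `ω ∈ S` is in `S'_n` for all large `n`
(the height and `U` are monotone, so bounded below on `[0,t+h]`), `S` is measurable (countable
union over rational times), so with the antitone sets `S \ ⋂_{m ≥ n} S'_m` (empty intersection)
`P(S \ S'_n) ≤ η/2` for some `n`. Fix this `n`, `m = n + 1`, `M = ‖z‖ + 2 m T + m`,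
`ϰ = min (1/m) (1/M)`, `δ₁ ≤ T 2^{-n}` and such that `N · P(osc > c) ≤ η/2` as in `nk_limit` of
H/NKLim.lean (`nklim_osc`). For `ω ∈ S'_n` with index `k` there is `l` with
`l δ ∈ [k T 2^{-n}, (k+1) T 2^{-n}]` (`δ ≤ T 2^{-n}`), `l ≤ N` because `l δ ≤ T < (N+1) δ`; `U(lδ) ≤ u` by
monotonicity, and the states at the grid times `≤ l δ` are in the compact set by `nklim_det`
applied on `[0, (k+1) T 2^{-n}]`. -/
theorem nk_limit {κ : ℝ} (hκ : 0 < κ) {Ω : Type*} [MeasurableSpace Ω] {P : Measure Ω}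
    {W : ℝ → Ω → ℝ} (hW : IsDrv κ P W) {z : ℂ} (hz : 0 < z.im) {T η : ℝ} (u : ℝ) (hT : 0 < T)
    (hη : 0 < η) :
    ∃ ϰ > 0, ∀ c, 0 < c → ∃ δ₁ > 0, ∀ δ, 0 < δ → δ ≤ δ₁ → ∀ N : ℕ, N * δ ≤ T →
      T < (N + 1) * δ →
      P ({ω | ∃ t ∈ Icc 0 T, z ∈ loewnerDomain (fun v => W v ω) t ∧
          Uf (fun v => W v ω) z t < u} \
        ⋃ l ∈ Finset.range (N + 1),
          (NK ϰ c δ W z l ∩ {ω | Uf (fun v => W v ω) z (l * δ) ≤ u})) ≤ ENNReal.ofReal η := by
  classical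
  have := hW.prob
  obtain ⟨C, hC, hosc⟩ := nklim_osc hκ hW
  have hη2 : (0 : ℝ≥0∞) < ENNReal.ofReal (η / 2) := by
    rw [ENNReal.ofReal_pos]
    positivity
  obtain ⟨n, hn⟩ := nklimS_limit hW z (u := u) hT hη2
  set m : ℝ := (n : ℝ) + 1 with hm
  have hm0 : 0 < m := by (clear * -; positivity)
  set M : ℝ := ‖z‖ + 2 * m * T + m with hM
  have hM0 : 0 < M := by (clear * - hT; positivity)
  refine ⟨min (1 / m) (1 / M), by (clear * - hT; positivity), fun c hc => ?_⟩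
  have k1 : m ≤ 1 / min (1 / m) (1 / M) := by
    rw [le_div_iff₀ (by (clear * - hT; positivity))]
    calc m * min (1 / m) (1 / M) ≤ m * (1 / m) :=
          mul_le_mul_of_nonneg_left (min_le_left _ _) hm0.le
      _ = 1 := by field_simp
  have k2 : M ≤ 1 / min (1 / m) (1 / M) := by
    rw [le_div_iff₀ (by (clear * - hT; positivity))]
    calc M * min (1 / m) (1 / M) ≤ M * (1 / M) :=
          mul_le_mul_of_nonneg_left (min_le_right _ _) hM0.le
      _ = 1 := by field_simp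
  have hs0 : 0 < T / 2 ^ n := by positivity
  refine ⟨min (η * c ^ 4 / (2 * C * T)) (T / 2 ^ n), by positivity,
    fun δ hδ hδ1' N hN hN' => ?_⟩
  have hδ1 : δ ≤ η * c ^ 4 / (2 * C * T) := hδ1'.trans (min_le_left _ _)
  have hδ2 : δ ≤ T / 2 ^ n := hδ1'.trans (min_le_right _ _)
  set S : Set Ω := {ω | ∃ t ∈ Icc 0 T, z ∈ loewnerDomain (fun v => W v ω) t ∧
      Uf (fun v => W v ω) z t < u} with hS
  have hsub : (S \ ⋃ l ∈ Finset.range (N + 1), (NK (min (1 / m) (1 / M)) c δ W z l ∩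
        {ω | Uf (fun v => W v ω) z (l * δ) ≤ u})) ⊆
      (S \ nklimS W z T u n) ∪ ⋃ i ∈ Finset.range N, {ω | c < osc W (i * δ) δ ω} := by
    intro ω hω
    by_contra hcon
    rw [mem_union, not_or] at hcon
    obtain ⟨hc1, hc2⟩ := hcon
    have hωB : ω ∈ nklimS W z T u n := by
      by_contra h
      exact hc1 ⟨hω.1, h⟩
    unfold nklimS at hωB
    rw [mem_iUnion₂] at hωB
    obtain ⟨k, hk, ⟨⟨g1, g2, g3⟩, g5, g6⟩, g4⟩ := hωB
    have hk' : k < 2 ^ n := Finset.mem_range.1 hk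
    have g3' : -m ≤ Uf (fun v => W v ω) z (((k : ℝ) + 1) * (T / 2 ^ n)) := g3
    have g4' : osc W 0 T ω ≤ m := g4
    have g6' : Uf (fun v => W v ω) z ((k : ℝ) * (T / 2 ^ n)) < u := g6
    have hk0 : (0 : ℝ) ≤ (k : ℝ) * (T / 2 ^ n) := by (clear * - hT; positivity)
    have hkT : ((k : ℝ) + 1) * (T / 2 ^ n) ≤ T := by
      have h1 : (k : ℝ) + 1 ≤ 2 ^ n := by exact_mod_cast hk'
      calc ((k : ℝ) + 1) * (T / 2 ^ n) ≤ 2 ^ n * (T / 2 ^ n) :=
            mul_le_mul_of_nonneg_right h1 hs0.le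
        _ = T := by (clear * - hT; field_simp)
    set l : ℕ := ⌈(k : ℝ) * (T / 2 ^ n) / δ⌉₊ with hl
    have hl1 : (k : ℝ) * (T / 2 ^ n) ≤ l * δ := by
      rw [← div_le_iff₀ hδ]
      exact Nat.le_ceil _
    have hl2 : (l : ℝ) * δ ≤ ((k : ℝ) + 1) * (T / 2 ^ n) := by
      have h1 := Nat.ceil_lt_add_one (show 0 ≤ (k : ℝ) * (T / 2 ^ n) / δ by (clear * - hT hδ; positivity))
      have h2 : (l : ℝ) * δ < ((k : ℝ) * (T / 2 ^ n) / δ + 1) * δ :=
        mul_lt_mul_of_pos_right h1 hδ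
      have h3 : ((k : ℝ) * (T / 2 ^ n) / δ + 1) * δ = (k : ℝ) * (T / 2 ^ n) + δ := by
        (clear * - hδ hT; field_simp)
      rw [h3] at h2
      have h4 : ((k : ℝ) + 1) * (T / 2 ^ n) = (k : ℝ) * (T / 2 ^ n) + T / 2 ^ n := by ring
      rw [h4]
      linarith only [hδ2, h2]
    have hlN : l < N + 1 := by
      have h1 : (l : ℝ) * δ < ((N : ℝ) + 1) * δ := lt_of_le_of_lt (hl2.trans hkT) hN'
      have h2 : (l : ℝ) < (N : ℝ) + 1 := lt_of_mul_lt_mul_right h1 hδ.le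
      exact_mod_cast h2
    refine hω.2 ?_
    rw [mem_iUnion₂]
    refine ⟨l, Finset.mem_range.2 hlN, ⟨fun i hi => ?_, fun i hi => ?_⟩, ?_⟩
    · have hil : (i : ℝ) ≤ l := by exact_mod_cast hi
      have hit : (i : ℝ) * δ ∈ Icc 0 (((k : ℝ) + 1) * (T / 2 ^ n)) :=
        ⟨by (clear * - hδ; positivity), (mul_le_mul_of_nonneg_right hil hδ.le).trans hl2⟩
      obtain ⟨r1, r2, r3, r4⟩ := nklim_det (hW.cont ω) hz hm0 g1 g2 g3'
        (fun t ht => by
          have h5 := hW.le_osc (t := 0) (δ := T) ω (u := t) ⟨ht.1, by linarith only [hkT, ht.2]⟩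
          rw [hW.zero ω, sub_zero] at h5
          exact h5.trans g4') hit
      have hM' : ‖z‖ + 2 * m * (((k : ℝ) + 1) * (T / 2 ^ n)) + m ≤ M := by
        have h7 := mul_le_mul_of_nonneg_left hkT (show (0 : ℝ) ≤ 2 * m by (clear * -; positivity))
        rw [hM]
        linarith only [h7]
      exact ⟨r1, (min_le_left _ _).trans r2, (r3.trans hM').trans k2, (neg_le_neg k1).trans r4⟩
    · by_contra h
      push Not at h
      refine hc2 ?_
      rw [mem_iUnion₂]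
      exact ⟨i, Finset.mem_range.2 (by (clear * - hlN hi; omega)), h⟩
    · have hdl : z ∈ loewnerDomain (fun v => W v ω) (l * δ) := dom_mono hl2 g1
      exact (Uf_le (hW.cont ω) hk0 hl1 hdl).trans g6'.le
  refine (measure_mono hsub).trans ((measure_union_le _ _).trans ?_)
  have hsum : P (⋃ i ∈ Finset.range N, {ω | c < osc W (i * δ) δ ω}) ≤ ENNReal.ofReal (η / 2) := by
    refine (measure_biUnion_finset_le _ _).trans ?_
    calc ∑ i ∈ Finset.range N, P {ω | c < osc W (i * δ) δ ω}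
        ≤ ∑ _i ∈ Finset.range N, ENNReal.ofReal (C * δ ^ 2 / c ^ 4) :=
          Finset.sum_le_sum fun i _ => hosc _ _ _ (by (clear * - hδ; positivity)) hδ.le hc
      _ = ENNReal.ofReal (N * (C * δ ^ 2 / c ^ 4)) := by
          rw [Finset.sum_const, Finset.card_range, nsmul_eq_mul,
            ENNReal.ofReal_mul (by (clear * -; positivity)), ENNReal.ofReal_natCast]
      _ ≤ ENNReal.ofReal (η / 2) := by
          apply ENNReal.ofReal_le_ofReal
          rw [le_div_iff₀ (by positivity)] at hδ1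
          calc N * (C * δ ^ 2 / c ^ 4) = (N * δ) * (C * δ / c ^ 4) := by ring
            _ ≤ T * (C * δ / c ^ 4) := mul_le_mul_of_nonneg_right hN (by (clear * - hC hδ hc; positivity))
            _ = (T * C * δ) / c ^ 4 := by ring
            _ ≤ η / 2 := by
              rw [div_le_iff₀ (by positivity)]
              nlinarith only [hδ1]
  calc P (S \ nklimS W z T u n) + P (⋃ i ∈ Finset.range N, {ω | c < osc W (i * δ) δ ω})
      ≤ ENNReal.ofReal (η / 2) + ENNReal.ofReal (η / 2) := add_le_add hn hsum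
    _ = ENNReal.ofReal η := by
      rw [← ENNReal.ofReal_add (by positivity) (by positivity), add_halves]

end Vale.Agent.P164.E8
end

section

/-!
# Choice of the parameters (`0 < κ < 8`)
-/

namespace Vale.Agent.P164.E8

open Set Metric Filter Topology

/-- The angle threshold at level `n`. -/
noncomputable def thp (κ : ℝ) (n : ℕ) : ℝ := ((1 / 4 : ℝ) ^ n) ^ (1 / pa κ)

theorem pa_pos {κ : ℝ} (h0 : 0 < κ) (h8 : κ < 8) : 0 < pa κ := by
  have : 0 < be κ := by
    unfold be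
    have : 1 < 8 / κ := by rw [lt_div_iff₀ h0]; linarith
    linarith only [this]
  exact lt_min one_pos (by linarith only [this])

theorem thp_pos (κ : ℝ) (n : ℕ) : 0 < thp κ n := by unfold thp; positivity

theorem thp_le_one {κ : ℝ} (h0 : 0 < κ) (h8 : κ < 8) (n : ℕ) : thp κ n ≤ 1 :=
  Real.rpow_le_one (by positivity) (pow_le_one₀ (by norm_num) (by norm_num))
    (one_div_nonneg.2 (pa_pos h0 h8).le)

theorem thp_pow {κ : ℝ} (h0 : 0 < κ) (h8 : κ < 8) (n : ℕ) : thp κ n ^ pa κ = (1 / 4 : ℝ) ^ n := by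
  unfold thp
  rw [← Real.rpow_mul (by positivity), one_div_mul_cancel (pa_pos h0 h8).ne', Real.rpow_one]

theorem thp_pow_neg (κ : ℝ) (n : ℕ) :
    thp κ n ^ (-be κ) = ((1 / 4 : ℝ) ^ n) ^ (-(be κ / pa κ)) := by
  unfold thp
  rw [← Real.rpow_mul (by (clear * -; positivity))]
  congr 1
  ring

theorem param_tendsto {κ : ℝ} (h0 : 0 < κ) (h8 : κ < 8) {b C : ℝ} (hC : 1 ≤ C) :
    ∃ c₃ : ℝ, 0 < c₃ ∧ Tendsto (fun n : ℕ => ((n : ℝ) + 1) *
      (C * thp κ n ^ (-be κ) * (1 - Real.exp (-C * √(c₃ * n) ^ 2) / C) ^ (2 ^ n) +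
        C * thp κ n ^ pa κ * (b * 2 ^ n + b * 2 ^ n + 1))) atTop (𝓝 0) := by
  have hl2 : 0 < Real.log 2 := Real.log_pos (by norm_num)
  refine ⟨Real.log 2 / (2 * C), by positivity, ?_⟩
  have h := (param_first (a := be κ / pa κ) hC).add (param_second (b := b) (C := C))
  rw [add_zero] at h
  refine h.congr fun n => ?_
  rw [thp_pow h0 h8, thp_pow_neg]
  ring

theorem hh_upper {κ : ℝ} (h0 : 0 < κ) (h4 : κ < 8) {b C' c₃ : ℝ} (hb : 1 ≤ b) (hC' : 1 ≤ C')
    (hc₃ : 0 < c₃) :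
    ∃ Ch : ℝ, 0 < Ch ∧ ∀ᶠ n : ℕ in atTop,
      (∀ r, 0 < r → r ≤ C' * Real.exp (-(b * 2 ^ n)) →
        Real.exp (-(b * 2 ^ n) - b * 2 ^ n) ≤ r →
          hh κ r ≤ Ch * √(c₃ * n) ^ xx κ * r ^ dd κ) ∧
      hh κ (Real.exp (-(b * 2 ^ n) - b * 2 ^ n)) ≤
        Ch * ((n : ℝ) + 1) * Real.exp (dd κ * (-(b * 2 ^ n) - b * 2 ^ n)) := by
  have hx1 : 0 < xx κ := by unfold xx; linarith
  have hx2 : xx κ < 1 := by unfold xx; linarith only [h0]
  set C₁ : ℝ := Real.log (2 * b) + Real.log 2 with hC₁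
  have hC₁0 : 0 < C₁ := by
    have h1 : 0 ≤ Real.log (2 * b) := Real.log_nonneg (by linarith only [hb])
    have h2 : 0 < Real.log 2 := Real.log_pos (by norm_num)
    linarith only [h1, h2]
  have hCh1 : 0 < (C₁ / c₃) ^ (xx κ / 2) := by (clear * - hC₁0 hc₃; positivity)
  refine ⟨(C₁ / c₃) ^ (xx κ / 2) + (1 + C₁), by (clear * - hC₁0 hc₃; positivity), ?_⟩
  have hev : ∀ᶠ n : ℕ in atTop, 1 + Real.log C' ≤ b * 2 ^ n := by
    have h1 : Tendsto (fun n : ℕ => b * (2 : ℝ) ^ n) atTop atTop :=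
      (tendsto_pow_atTop_atTop_of_one_lt (by norm_num : (1 : ℝ) < 2)).const_mul_atTop (by linarith only [hb])
    exact h1.eventually_ge_atTop _
  filter_upwards [hev, eventually_ge_atTop 1] with n hn1 hn2
  have hn' : (1 : ℝ) ≤ n := by exact_mod_cast hn2
  have hlC : 0 ≤ Real.log C' := Real.log_nonneg hC'
  refine ⟨fun r hr hr1 hr2 => ?_, ?_⟩
  · have hL1 : 1 ≤ Real.log (1 / r) := by
      rw [one_div, Real.log_inv]
      have h1 := Real.log_le_log hr hr1
      rw [Real.log_mul (by (clear * - hC'; positivity)) (Real.exp_pos _).ne', Real.log_exp] at h1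
      linarith only [hn1, h1]
    have hL2 : Real.log (1 / r) ≤ b * 2 ^ n + b * 2 ^ n := by
      rw [one_div, Real.log_inv]
      have h1 := Real.log_le_log (Real.exp_pos _) hr2
      rw [Real.log_exp] at h1
      linarith only [h1]
    obtain ⟨g1, g2⟩ := param_hh_aux (c₃ := c₃) hb hn2 hL1 hL2
    have e1 : √(c₃ * n) ^ xx κ = (c₃ * n) ^ (xx κ / 2) := by
      rw [Real.sqrt_eq_rpow, ← Real.rpow_mul (by (clear * - hc₃ hn2; positivity))]
      congr 1; ring
    have e2 : Real.log (Real.log (1 / r)) ^ (xx κ / 2) ≤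
        (C₁ / c₃) ^ (xx κ / 2) * √(c₃ * n) ^ xx κ := by
      rw [e1, ← Real.mul_rpow (by (clear * - hC₁0 hc₃; positivity)) (by positivity)]
      apply Real.rpow_le_rpow g1 _ (by linarith only [hx1])
      refine g2.trans (le_of_eq ?_)
      rw [← hC₁]
      (clear * - hc₃ hn2 hC₁0; field_simp)
    have hrd : 0 ≤ r ^ dd κ := by (clear * - hr; positivity)
    have hsq : 0 ≤ √(c₃ * n) ^ xx κ := by positivity
    unfold hh
    calc r ^ dd κ * Real.log (Real.log (1 / r)) ^ (xx κ / 2)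
        ≤ r ^ dd κ * ((C₁ / c₃) ^ (xx κ / 2) * √(c₃ * n) ^ xx κ) :=
          mul_le_mul_of_nonneg_left e2 hrd
      _ ≤ ((C₁ / c₃) ^ (xx κ / 2) + (1 + C₁)) * √(c₃ * n) ^ xx κ * r ^ dd κ := by
          have : 0 ≤ (1 + C₁) * (√(c₃ * n) ^ xx κ * r ^ dd κ) := by positivity
          nlinarith only [this]
  · have e0 : Real.log (1 / Real.exp (-(b * 2 ^ n) - b * 2 ^ n)) = b * 2 ^ n + b * 2 ^ n := by
      rw [one_div, Real.log_inv, Real.log_exp]; ring
    have hL1 : 1 ≤ b * 2 ^ n + b * 2 ^ n := by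
      have : (0:ℝ) ≤ b * 2 ^ n := by positivity
      linarith only [hn1, hlC]
    obtain ⟨g1, g2⟩ := param_hh_aux (c₃ := c₃) hb hn2 hL1 le_rfl
    unfold hh
    rw [e0]
    have e1 : Real.exp (-(b * 2 ^ n) - b * 2 ^ n) ^ dd κ =
        Real.exp (dd κ * (-(b * 2 ^ n) - b * 2 ^ n)) := by
      rw [← Real.exp_mul, mul_comm]
    rw [e1]
    have e2 : Real.log (b * 2 ^ n + b * 2 ^ n) ^ (xx κ / 2) ≤ (1 + C₁) * (n + 1) := by
      have h1 : Real.log (b * 2 ^ n + b * 2 ^ n) ≤ 1 + C₁ * n := by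
        rw [← hC₁] at g2; linarith only [g2]
      have h2 : Real.log (b * 2 ^ n + b * 2 ^ n) ^ (xx κ / 2) ≤ (1 + C₁ * n) ^ (xx κ / 2) :=
        Real.rpow_le_rpow g1 h1 (by linarith only [hx1])
      have h3 : (1 + C₁ * (n : ℝ)) ^ (xx κ / 2) ≤ (1 + C₁ * (n : ℝ)) ^ (1 : ℝ) := by
        apply Real.rpow_le_rpow_of_exponent_le
        · have : 0 ≤ C₁ * (n : ℝ) := by (clear * - hC₁0 hn2; positivity)
          linarith only [g1, g2]
        · linarith only [hx2]
      rw [Real.rpow_one] at h3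
      nlinarith only [hC₁0, h2, h3]
    calc Real.exp (dd κ * (-(b * 2 ^ n) - b * 2 ^ n)) *
          Real.log (b * 2 ^ n + b * 2 ^ n) ^ (xx κ / 2)
        ≤ Real.exp (dd κ * (-(b * 2 ^ n) - b * 2 ^ n)) * ((1 + C₁) * (n + 1)) :=
          mul_le_mul_of_nonneg_left e2 (Real.exp_pos _).le
      _ ≤ _ := by
          have h1 : 0 ≤ (C₁ / c₃) ^ (xx κ / 2) * ((n : ℝ) + 1) *
            Real.exp (dd κ * (-(b * 2 ^ n) - b * 2 ^ n)) := by (clear * - hC₁0 hc₃ hn2; positivity)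
          nlinarith only [h1]

end Vale.Agent.P164.E8
end

section

/-!
# Finiteness of the gauge measure of the trace: the Whitney sum
-/

set_option linter.all false

namespace Vale.Agent.P164.E8

open Set Metric Filter Topology MeasureTheory ProbabilityTheory
open scoped NNReal ENNReal

lemma FiniteSum_hh_le {κ : ℝ} (h0 : 0 < κ) (h8 : κ < 8) {r : ℝ} (hr : 0 < r)
    (hr1 : r ≤ Real.exp (-Real.exp 1)) : hh κ r ≤ 16 / κ * r ^ (κ / 16) * r := by
  have hL : Real.exp 1 ≤ Real.log (1 / r) := by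
    have h1 := Real.log_le_log hr hr1
    rw [Real.log_exp] at h1
    rw [one_div, Real.log_inv]
    linarith only [h1]
  have hL0 : 0 < Real.log (1 / r) := lt_of_lt_of_le (Real.exp_pos 1) hL
  have hLL : 1 ≤ Real.log (Real.log (1 / r)) := (Real.le_log_iff_exp_le hL0).2 hL
  have e1 : Real.log (Real.log (1 / r)) ^ (xx κ / 2) ≤ Real.log (1 / r) := by
    calc Real.log (Real.log (1 / r)) ^ (xx κ / 2) ≤ Real.log (Real.log (1 / r)) ^ (1 : ℝ) :=
          Real.rpow_le_rpow_of_exponent_le hLL (by unfold xx; linarith only [h0])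
      _ = Real.log (Real.log (1 / r)) := Real.rpow_one _
      _ ≤ Real.log (1 / r) - 1 := Real.log_le_sub_one_of_pos hL0
      _ ≤ Real.log (1 / r) := by linarith only []
  have e2 : Real.log (1 / r) ≤ (1 / r) ^ (κ / 16) / (κ / 16) :=
    Real.log_le_rpow_div (by positivity) (by positivity)
  have e3 : (1 / r) ^ (κ / 16) = r ^ (-(κ / 16)) := by
    rw [one_div, Real.inv_rpow hr.le, Real.rpow_neg hr.le]
  have e4 : r ^ (1 + κ / 8) * r ^ (-(κ / 16)) = r ^ (κ / 16) * r := by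
    rw [← Real.rpow_add hr, ← Real.rpow_add_one hr.ne']
    congr 1
    ring
  have e5 : 0 ≤ r ^ (1 + κ / 8) := (Real.rpow_pos_of_pos hr _).le
  calc hh κ r = r ^ (1 + κ / 8) * Real.log (Real.log (1 / r)) ^ (xx κ / 2) := by rw [hh, dd]
    _ ≤ r ^ (1 + κ / 8) * (r ^ (-(κ / 16)) / (κ / 16)) :=
        mul_le_mul_of_nonneg_left (by rw [← e3]; exact e1.trans e2) e5
    _ = (r ^ (1 + κ / 8) * r ^ (-(κ / 16))) * (16 / κ) := by
        have : κ ≠ 0 := h0.ne'
        field_simp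
    _ = 16 / κ * r ^ (κ / 16) * r := by rw [e4]; ring

lemma FiniteSum_lim {κ : ℝ} (h0 : 0 < κ) (h8 : κ < 8) {h : ℝ → ℝ} {r₀ : ℝ} (hr₀ : 0 < r₀)
    (hhr : ∀ r, 0 < r → r < r₀ → h r = hh κ r) :
    ∀ ε : ℝ, 0 < ε → ∃ δ : ℝ, 0 < δ ∧ ∀ r : ℝ, 0 < r → r ≤ δ → h r ≤ ε * r := by
  intro ε hε
  have hb : 0 < ε * κ / 16 := by positivity
  have hk : κ ≠ 0 := h0.ne'
  refine ⟨min (r₀ / 2) (min (Real.exp (-Real.exp 1)) ((ε * κ / 16) ^ (16 / κ))),
    lt_min (half_pos hr₀) (lt_min (Real.exp_pos _) (Real.rpow_pos_of_pos hb _)),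
    fun r hr hr' => ?_⟩
  have a1 : r ≤ r₀ / 2 := hr'.trans (min_le_left _ _)
  have a2 : r ≤ Real.exp (-Real.exp 1) := hr'.trans ((min_le_right _ _).trans (min_le_left _ _))
  have a3 : r ≤ (ε * κ / 16) ^ (16 / κ) :=
    hr'.trans ((min_le_right _ _).trans (min_le_right _ _))
  rw [hhr r hr (by linarith only [hr, a1])]
  refine (FiniteSum_hh_le h0 h8 hr a2).trans ?_
  have a4 : r ^ (κ / 16) ≤ ε * κ / 16 := by
    calc r ^ (κ / 16) ≤ ((ε * κ / 16) ^ (16 / κ)) ^ (κ / 16) :=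
          Real.rpow_le_rpow hr.le a3 (by positivity)
      _ = ε * κ / 16 := by
          rw [← Real.rpow_mul hb.le, show 16 / κ * (κ / 16) = 1 by field_simp, Real.rpow_one]
  have a5 : 16 / κ * r ^ (κ / 16) ≤ ε := by
    calc 16 / κ * r ^ (κ / 16) ≤ 16 / κ * (ε * κ / 16) :=
          mul_le_mul_of_nonneg_left a4 (by positivity)
      _ = ε := by field_simp
  exact mul_le_mul_of_nonneg_right a5 hr.le

lemma FiniteSum_union {h : ℝ → ℝ} (hh' : IsGauge h) (E F : Set ℂ) :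
    gaugeMeasure h (E ∪ F) ≤ gaugeMeasure h E + gaugeMeasure h F := by
  have h1 := gaugeMeasure_iUnion_le hh' (fun b : Bool => cond b E F)
  rw [tsum_bool, ← union_eq_iUnion, add_comm] at h1
  exact h1

/-- The index type of the Whitney boxes. -/
abbrev FiniteSum_I : Type := Σ j : ℕ, Fin (2 ^ (j + 3) + 1)

/-- The horizontal position. -/
def FiniteSum_k (p : FiniteSum_I) : ℤ := ((p.2 : ℕ) : ℤ) - 2 ^ (p.1 + 2)

lemma FiniteSum_exists (j : ℕ) (k : ℤ) (hk : |k| ≤ 2 ^ (j + 2)) :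
    ∃ i : Fin (2 ^ (j + 3) + 1), FiniteSum_k ⟨j, i⟩ = k := by
  obtain ⟨h1, h2⟩ := abs_le.1 hk
  have h3 : (2 : ℤ) ^ (j + 3) = 2 * 2 ^ (j + 2) := by ring
  have h4 : ((k + 2 ^ (j + 2)).toNat : ℤ) = k + 2 ^ (j + 2) := Int.toNat_of_nonneg (by linarith only [h1])
  refine ⟨⟨(k + 2 ^ (j + 2)).toNat, ?_⟩, ?_⟩
  · have h5 : ((k + 2 ^ (j + 2)).toNat : ℤ) < ((2 ^ (j + 3) + 1 : ℕ) : ℤ) := by
      rw [h4]
      push_cast
      linarith only [h2, h3]
    exact_mod_cast h5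
  · simp only [FiniteSum_k]
    rw [h4]
    ring

lemma FiniteSum_tsum (f : ℕ → ℝ≥0∞) :
    ∑' p : FiniteSum_I, f p.1 = ∑' j : ℕ, ((2 ^ (j + 3) + 1 : ℕ) : ℝ≥0∞) * f j := by
  rw [ENNReal.tsum_sigma']
  refine tsum_congr fun j => ?_
  rw [tsum_fintype]
  change ∑ _b : Fin (2 ^ (j + 3) + 1), f j = _
  rw [Finset.sum_const, Finset.card_univ, Fintype.card_fin, nsmul_eq_mul]

lemma FiniteSum_card_le (j : ℕ) : ((2 ^ (j + 3) + 1 : ℕ) : ℝ≥0∞) ≤ ENNReal.ofReal (16 * 2 ^ j) := by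
  rw [← ENNReal.ofReal_natCast]
  apply ENNReal.ofReal_le_ofReal
  push_cast
  have h1 : (1 : ℝ) ≤ 2 ^ j := one_le_pow₀ (by norm_num)
  have h2 : (2 : ℝ) ^ (j + 3) = 8 * 2 ^ j := by ring
  linarith only [h1, h2]

lemma FiniteSum_two : ∑' p : FiniteSum_I, (2⁻¹ : ℝ≥0∞) ^ (3 * p.1) ≠ ⊤ := by
  rw [FiniteSum_tsum (fun j => (2⁻¹ : ℝ≥0∞) ^ (3 * j))]
  have hs : Summable fun j : ℕ => (16 : ℝ) * (1 / 4) ^ j :=
    (summable_geometric_of_lt_one (by norm_num) (by norm_num)).mul_left _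
  refine ne_top_of_le_ne_top hs.tsum_ofReal_ne_top (ENNReal.tsum_le_tsum fun j => ?_)
  have e1 : (2⁻¹ : ℝ≥0∞) ^ (3 * j) = ENNReal.ofReal ((1 / 2) ^ (3 * j)) := by
    rw [ENNReal.ofReal_pow (by norm_num), ENNReal.ofReal_div_of_pos (by norm_num)]
    simp only [ENNReal.ofReal_one, ENNReal.ofReal_ofNat, one_div]
  rw [e1]
  calc ((2 ^ (j + 3) + 1 : ℕ) : ℝ≥0∞) * ENNReal.ofReal ((1 / 2) ^ (3 * j))
      ≤ ENNReal.ofReal (16 * 2 ^ j) * ENNReal.ofReal ((1 / 2) ^ (3 * j)) := by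
        gcongr
        exact FiniteSum_card_le j
    _ = ENNReal.ofReal (16 * (1 / 4) ^ j) := by
        rw [← ENNReal.ofReal_mul (by positivity)]
        congr 1
        rw [pow_mul, mul_assoc, ← mul_pow]
        norm_num

lemma FiniteSum_one {A d : ℝ} (hA : 0 < A) (hd : 1 < d) :
    ∑' p : FiniteSum_I, (((2 * (A / 2 ^ p.1) ^ d).toNNReal : ℝ≥0) : ℝ≥0∞) *
      (1 + ((3 * p.1 : ℕ) : ℝ≥0∞)) ≠ ⊤ := by
  rw [FiniteSum_tsum (fun j => (((2 * (A / 2 ^ j) ^ d).toNNReal : ℝ≥0) : ℝ≥0∞) *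
      (1 + ((3 * j : ℕ) : ℝ≥0∞)))]
  set q : ℝ := 2 ^ (1 - d) with hq
  have hq0 : 0 < q := Real.rpow_pos_of_pos (by norm_num) _
  have hq1 : q < 1 := Real.rpow_lt_one_of_one_lt_of_neg (by norm_num) (by linarith)
  have hqn : ‖q‖ < 1 := by rw [Real.norm_eq_abs, abs_of_pos hq0]; exact hq1
  have hs : Summable fun j : ℕ => (32 * A ^ d) * (q ^ j + 3 * ((j : ℝ) ^ 1 * q ^ j)) :=
    ((summable_geometric_of_lt_one hq0.le hq1).add
      ((summable_pow_mul_geometric_of_norm_lt_one 1 hqn).mul_left 3)).mul_left _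
  refine ne_top_of_le_ne_top hs.tsum_ofReal_ne_top (ENNReal.tsum_le_tsum fun j => ?_)
  have hAd : 0 < A ^ d := Real.rpow_pos_of_pos hA _
  have hy : 0 ≤ 2 * (A / 2 ^ j) ^ d := by positivity
  have e1 : (((2 * (A / 2 ^ j) ^ d).toNNReal : ℝ≥0) : ℝ≥0∞) =
      ENNReal.ofReal (2 * (A / 2 ^ j) ^ d) := rfl
  have e2 : (1 + ((3 * j : ℕ) : ℝ≥0∞)) = ENNReal.ofReal (1 + 3 * j) := by
    rw [ENNReal.ofReal_add (by norm_num) (by (clear * -; positivity)), ENNReal.ofReal_one,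
      show (3 * (j : ℝ)) = ((3 * j : ℕ) : ℝ) by push_cast; rfl, ENNReal.ofReal_natCast]
  rw [e1, e2]
  calc ((2 ^ (j + 3) + 1 : ℕ) : ℝ≥0∞) *
        (ENNReal.ofReal (2 * (A / 2 ^ j) ^ d) * ENNReal.ofReal (1 + 3 * j))
      ≤ ENNReal.ofReal (16 * 2 ^ j) *
        (ENNReal.ofReal (2 * (A / 2 ^ j) ^ d) * ENNReal.ofReal (1 + 3 * j)) := by
        gcongr
        exact FiniteSum_card_le j
    _ = ENNReal.ofReal ((32 * A ^ d) * (q ^ j + 3 * ((j : ℝ) ^ 1 * q ^ j))) := by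
        rw [← ENNReal.ofReal_mul hy, ← ENNReal.ofReal_mul (by positivity)]
        congr 1
        have e3 : (A / 2 ^ j) ^ d = A ^ d * ((2 : ℝ) ^ (-d)) ^ j := by
          rw [Real.div_rpow hA.le (by positivity), ← Real.rpow_natCast, ← Real.rpow_natCast,
            ← Real.rpow_mul (by norm_num), ← Real.rpow_mul (by norm_num), div_eq_mul_inv,
            ← Real.rpow_neg (by norm_num)]
          congr 2
          ring
        have e4 : (2 : ℝ) ^ j * ((2 : ℝ) ^ (-d)) ^ j = q ^ j := by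
          rw [← mul_pow, hq]
          congr 1
          rw [show (1 - d) = 1 + -d by ring, Real.rpow_add (by norm_num), Real.rpow_one]
        rw [e3, ← e4]
        ring

/-- The sum over the Whitney boxes. -/
theorem FiniteSum_box {κ : ℝ} (h0 : 0 < κ) (h8 : κ < 8) {h : ℝ → ℝ} (hh' : IsGauge h)
    {r₀ : ℝ} (hr₀ : 0 < r₀) (hhr : ∀ r, 0 < r → r < r₀ → h r = hh κ r)
    {Ω : Type*} [MeasurableSpace Ω] {P : Measure Ω} [IsProbabilityMeasure P] {γ : Ω → ℝ → ℂ}
    {A T : ℝ} (hA : 0 < A) (him : ∀ᵐ ω ∂P, ∀ t, 0 ≤ t → 0 ≤ (γ ω t).im)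
    {C : ℝ} (hC : 0 < C)
    (hbox : ∀ (a y : ℝ), 0 < y → ∀ M : ℝ, 0 < M →
      P {ω | ENNReal.ofReal (2 * y ^ dd κ * M) <
        gaugeMeasure h (γ ω '' Icc 0 T ∩ closedBall ((y : ℂ) * ctr a) (3 / 5 * y))} ≤
        ENNReal.ofReal (C / M))
    (hwh : ∀ z : ℂ, 0 < z.im → z.im ≤ A → |z.re| ≤ A → ∃ (j : ℕ) (k : ℤ), |k| ≤ 2 ^ (j + 2) ∧
      z ∈ closedBall (((A / 2 ^ j : ℝ) : ℂ) * ctr (k / 2)) (3 / 5 * (A / 2 ^ j))) :
    ∀ᵐ ω ∂P, gaugeMeasure h (γ ω '' Icc 0 T ∩ {z : ℂ | z.im ≤ A ∧ |z.re| ≤ A}) < ⊤ := by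
  set E : FiniteSum_I → Ω → Set ℂ := fun p ω => γ ω '' Icc 0 T ∩
    closedBall (((A / 2 ^ p.1 : ℝ) : ℂ) * ctr ((FiniteSum_k p : ℝ) / 2)) (3 / 5 * (A / 2 ^ p.1))
    with hE
  have hd : 1 < dd κ := by unfold dd; linarith only [h0]
  have hsum : ∀ᵐ ω ∂P, ∑' p : FiniteSum_I, gaugeMeasure h (E p ω) < ⊤ := by
    refine weak_sum (a := fun p : FiniteSum_I => (2 * (A / 2 ^ p.1) ^ dd κ).toNNReal)
      (k := fun p : FiniteSum_I => 3 * p.1) (C := C.toNNReal) ?_ (FiniteSum_one hA hd)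
      FiniteSum_two
    intro p n
    have hy : 0 < A / 2 ^ p.1 := by positivity
    have h1 := hbox ((FiniteSum_k p : ℝ) / 2) (A / 2 ^ p.1) hy (2 ^ n) (by positivity)
    have e1 : ENNReal.ofReal (2 * (A / 2 ^ p.1) ^ dd κ * 2 ^ n) =
        2 ^ n * (((2 * (A / 2 ^ p.1) ^ dd κ).toNNReal : ℝ≥0) : ℝ≥0∞) := by
      rw [ENNReal.ofReal_mul (by positivity), mul_comm, ENNReal.ofReal_pow (by norm_num)]
      simp [ENNReal.ofReal]
    have e2 : ENNReal.ofReal (C / 2 ^ n) = ((C.toNNReal : ℝ≥0) : ℝ≥0∞) * 2⁻¹ ^ n := by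
      rw [ENNReal.ofReal_div_of_pos (by positivity), ENNReal.ofReal_pow (by norm_num),
        div_eq_mul_inv, ENNReal.inv_pow]
      simp only [ENNReal.ofReal, Real.toNNReal_ofNat, ENNReal.coe_ofNat]
    rw [e1, e2] at h1
    exact h1
  filter_upwards [him, hsum] with ω h1 h2
  have hsub : γ ω '' Icc 0 T ∩ {z : ℂ | z.im ≤ A ∧ |z.re| ≤ A} ⊆
      {z : ℂ | z.im = 0 ∧ |z.re| ≤ A} ∪ ⋃ p : FiniteSum_I, E p ω := by
    rintro z ⟨hz, hz1, hz2⟩
    have hz0 : 0 ≤ z.im := by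
      obtain ⟨t, ht, rfl⟩ := hz
      exact h1 t ht.1
    rcases eq_or_lt_of_le hz0 with h3 | h3
    · exact Or.inl ⟨h3.symm, hz2⟩
    · right
      obtain ⟨j, k, hk, hzb⟩ := hwh z h3 hz1 hz2
      obtain ⟨i, hi⟩ := FiniteSum_exists j k hk
      refine mem_iUnion.2 ⟨⟨j, i⟩, hz, ?_⟩
      rw [hi]
      exact hzb
  refine lt_of_le_of_lt ((gaugeMeasure_mono h hsub).trans (FiniteSum_union hh' _ _)) ?_
  rw [gaugeMeasure_real hh' (FiniteSum_lim h0 h8 hr₀ hhr), zero_add]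
  exact lt_of_le_of_lt (gaugeMeasure_iUnion_le hh' _) h2

/-- From integer boxes and times to all times. -/
theorem FiniteSum_all {h : ℝ → ℝ} {g : ℝ → ℂ} (hc : ContinuousOn g (Ici 0))
    (hn : ∀ n : ℕ, gaugeMeasure h (g '' Icc 0 ((n : ℝ) + 1) ∩
      {z : ℂ | z.im ≤ (n : ℝ) + 1 ∧ |z.re| ≤ (n : ℝ) + 1}) < ⊤) (T : ℝ) :
    gaugeMeasure h (g '' Icc 0 T) < ⊤ := by
  have hcomp : IsCompact (g '' Icc 0 T) :=
    isCompact_Icc.image_of_continuousOn (hc.mono Icc_subset_Ici_self)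
  obtain ⟨R, hR⟩ := hcomp.isBounded.exists_norm_le
  obtain ⟨n, hn1⟩ := exists_nat_ge (max R T)
  have hRn : R ≤ n := (le_max_left _ _).trans hn1
  have hTn : T ≤ n := (le_max_right _ _).trans hn1
  refine lt_of_le_of_lt (gaugeMeasure_mono h ?_) (hn n)
  intro z hz
  have h1 := hR z hz
  refine ⟨image_mono (Icc_subset_Icc_right (by linarith)) hz, ?_, ?_⟩
  · have := (le_abs_self z.im).trans (Complex.abs_im_le_norm z)
    linarith only [hRn, h1, this]
  · have := Complex.abs_re_le_norm z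
    linarith

end Vale.Agent.P164.E8
end
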