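import Vale.Agent.P164.MathlibUsed
import Vale.Agent.P164.Bdl.B16
import Vale.Agent.P164.Bdl.B17
import Vale.Agent.P164.Bdl.B12
import Vale.Agent.P164.Bdl.B9
import Vale.Agent.P164.Bdl.B14
import Vale.Agent.P164.Bdl.B15
import Vale.Agent.P164.Bdl.B2
import Vale.Agent.P164.Bdl.B5
import Vale.Agent.P164.X.Defs8
import Vale.Agent.P164.Bdl.B10

set_option linter.all false

section

/-!
# Iteration over the scales
-/

namespace Vale.Agent.P164

open Set Metric Filter Topology MeasureTheory ProbabilityTheory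
open scoped NNReal ENNReal

/-- Common constants for finitely many scales. -/
lemma iterate_min {K : ℕ} {Q : ℕ → ℝ → ℝ → Prop}
    (h : ∀ k < K, ∃ c₀ > 0, ∃ δ₀ > 0, ∀ c, 0 < c → c ≤ c₀ → ∀ δ, 0 < δ → δ ≤ δ₀ → Q k c δ) :
    ∃ c₀ > 0, ∃ δ₀ > 0, ∀ c, 0 < c → c ≤ c₀ → ∀ δ, 0 < δ → δ ≤ δ₀ → ∀ k < K, Q k c δ := by
  induction K with
  | zero => exact ⟨1, one_pos, 1, one_pos, fun _ _ _ _ _ _ k hk => absurd hk (Nat.not_lt_zero k)⟩
  | succ K ih =>
    obtain ⟨c1, hc1, d1, hd1, H1⟩ := ih fun k hk => h k (by omega)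
    obtain ⟨c2, hc2, d2, hd2, H2⟩ := h K (by omega)
    refine ⟨min c1 c2, lt_min hc1 hc2, min d1 d2, lt_min hd1 hd2, ?_⟩
    intro c hc hcc δ hδ hδd k hk
    rcases Nat.lt_succ_iff_lt_or_eq.1 hk with hk | rfl
    · exact H1 c hc (hcc.trans (min_le_left _ _)) δ hδ (hδd.trans (min_le_left _ _)) k hk
    · exact H2 c hc (hcc.trans (min_le_right _ _)) δ hδ (hδd.trans (min_le_right _ _))

/-- `U` as an integral of a function of the state. -/
lemma iterate_Uf_int (w : ℝ → ℝ) (z : ℂ) {t : ℝ} :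
    Uf w z t = Real.log z.im - ∫ s in (0 : ℝ)..t, St (fun Z _ => rate Z) w z s := by
  rw [Uf_eq]
  congr 1
  refine intervalIntegral.integral_congr fun s _ => ?_
  change rate (Zf w z s) = St (fun Z _ => rate Z) w z s
  by_cases h : z ∈ loewnerDomain w s
  · rw [St_of_mem h]
  · rw [St_of_not_mem h, Zf_of_not_mem h]
    simp [rate]

lemma iterate_rate_meas : Measurable (Function.uncurry fun (Z : ℂ) (_ : ℝ) => rate Z) := by
  have h1 : Measurable fun p : ℂ × ℝ => sn p.1 := by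
    unfold sn
    exact (Complex.measurable_im.comp measurable_fst).div measurable_fst.norm
  have h2 : Measurable fun p : ℂ × ℝ => 4 * sn p.1 ^ 2 / ‖p.1‖ ^ 2 :=
    ((h1.pow_const 2).const_mul 4).div (measurable_fst.norm.pow_const 2)
  exact h2

section

variable {Ω : Type*} [mΩ : MeasurableSpace Ω] {P : Measure Ω} {W : ℝ → Ω → ℝ} {κ : ℝ}

lemma iterate_Uf_meas (hW : IsDrv κ P W) {t : ℝ} (ht : 0 ≤ t) (z : ℂ) :
    Measurable[past W t] fun ω => Uf (fun u => W u ω) z t := by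
  have h := timeint_past hW.cont hW.meas iterate_rate_meas le_rfl ht z
  have e : (fun ω => Uf (fun u => W u ω) z t) = fun ω =>
      Real.log z.im - ∫ s in (0 : ℝ)..t, St (fun Z _ => rate Z) (fun u => W u ω) z s := by
    funext ω
    exact iterate_Uf_int _ _
  rw [e]
  exact h.const_sub _

lemma iterate_Uf_le_meas (hW : IsDrv κ P W) {t : ℝ} (ht : 0 ≤ t) (z : ℂ) (u : ℝ) :
    MeasurableSet[past W t] {ω | Uf (fun u => W u ω) z t ≤ u} :=
  iterate_Uf_meas hW ht z measurableSet_Iic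

lemma iterate_lt_Uf_meas (hW : IsDrv κ P W) {t : ℝ} (ht : 0 ≤ t) (z : ℂ) (u : ℝ) :
    MeasurableSet[past W t] {ω | u < Uf (fun u => W u ω) z t} :=
  iterate_Uf_meas hW ht z measurableSet_Ioi

lemma iterate_Fst_meas (hW : IsDrv κ P W) {δ : ℝ} (hδ : 0 ≤ δ) (u : ℝ) (z : ℂ) (l : ℕ) :
    MeasurableSet[past W (l * δ)] (Fst δ u W z l) := by
  have e : Fst δ u W z l = {ω | Uf (fun v => W v ω) z (l * δ) ≤ u} ∩
      ⋂ i ∈ Finset.range l, {ω | u < Uf (fun v => W v ω) z (i * δ)} := by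
    ext ω
    simp only [Fst, mem_ofPred_eq, Finset.mem_range, mem_inter_iff, mem_iInter]
  rw [e]
  refine @MeasurableSet.inter Ω (past W (l * δ)) _ _ (iterate_Uf_le_meas hW (by positivity) z u) ?_
  refine @Finset.measurableSet_biInter Ω ℕ (past W (l * δ)) _ _ fun i hi => ?_
  have hi' : (i : ℝ) ≤ l := by exact_mod_cast (Finset.mem_range.1 hi).le
  exact past_mono (mul_le_mul_of_nonneg_right hi' hδ) _
    (iterate_lt_Uf_meas hW (by (clear * - hδ; positivity)) z u)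

lemma iterate_NK_meas (hW : IsDrv κ P W) {ϰ c δ : ℝ} (hδ : 0 ≤ δ) (z : ℂ) (l : ℕ) :
    MeasurableSet[past W (l * δ)] (NK ϰ c δ W z l) := by
  have hS : MeasurableSet {x : ℂ × ℝ | ϰ ≤ x.1.im ∧ ‖x.1‖ ≤ 1 / ϰ ∧ -(1 / ϰ) ≤ x.2} :=
    (measurableSet_le measurable_const (Complex.measurable_im.comp measurable_fst)).inter
      ((measurableSet_le measurable_fst.norm measurable_const).inter
        (measurableSet_le measurable_const measurable_snd))
  have e : NK ϰ c δ W z l = (⋂ i ∈ Finset.range (l + 1),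
      {ω | z ∈ loewnerDomain (fun u => W u ω) (i * δ) ∧
        (Zf (fun u => W u ω) z (i * δ), Uf (fun u => W u ω) z (i * δ)) ∈
          {x : ℂ × ℝ | ϰ ≤ x.1.im ∧ ‖x.1‖ ≤ 1 / ϰ ∧ -(1 / ϰ) ≤ x.2}}) ∩
      ⋂ i ∈ Finset.range l, {ω | osc W (i * δ) δ ω ≤ c} := by
    ext ω
    simp only [NK, one_div, mem_ofPred_eq, Finset.mem_range, Order.lt_add_one_iff, mem_inter_iff, mem_iInter]
  rw [e]
  refine @MeasurableSet.inter Ω (past W (l * δ)) _ _ ?_ ?_
  · refine @Finset.measurableSet_biInter Ω ℕ (past W (l * δ)) _ _ fun i hi => ?_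
    have hi' : (i : ℝ) ≤ l := by exact_mod_cast Nat.lt_succ_iff.1 (Finset.mem_range.1 hi)
    exact past_mono (mul_le_mul_of_nonneg_right hi' hδ) _
      (Z_past hW.cont hW.meas (by (clear * - hδ; positivity)) z hS)
  · refine @Finset.measurableSet_biInter Ω ℕ (past W (l * δ)) _ _ fun i hi => ?_
    have hi' : (i : ℝ) + 1 ≤ l := by exact_mod_cast Nat.succ_le_iff.2 (Finset.mem_range.1 hi)
    refine past_mono ?_ _ (tthm_meas_osc hW (t := i * δ) (by (clear * - hδ; positivity)) hδ c)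
    calc (i : ℝ) * δ + δ = (i + 1) * δ := by ring
      _ ≤ l * δ := mul_le_mul_of_nonneg_right hi' hδ

lemma iterate_NG_meas (hW : IsDrv κ P W) {C R ε u t : ℝ} (ht : 0 ≤ t) (z : ℂ) :
    MeasurableSet[past W t] (NG κ C R ε u W z t) := by
  have h := fieldint_past' hW.cont hW.meas (aR_measurable κ ε) le_rfl ht
    (ball z (C * Real.exp u))
  exact h measurableSet_Iio

omit mΩ in
lemma iterate_NK_anti {ϰ c δ : ℝ} {z : ℂ} {i l : ℕ} (h : i ≤ l) :
    NK ϰ c δ W z l ⊆ NK ϰ c δ W z i := fun _ hω =>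
  ⟨fun j hj => hω.1 j (hj.trans h), fun j hj => hω.2 j (lt_of_lt_of_le hj h)⟩

omit mΩ in
lemma iterate_Fst_eq {δ u : ℝ} {z : ℂ} {l l' : ℕ} {ω : Ω} (h : ω ∈ Fst δ u W z l)
    (h' : ω ∈ Fst δ u W z l') : l = l' := by
  rcases lt_trichotomy l l' with hl | hl | hl
  · exact absurd h.1 (not_le.2 (h'.2 l hl))
  · exact hl
  · exact absurd h'.1 (not_le.2 (h.2 l' hl))

omit mΩ in
lemma iterate_Fst_exists {δ u : ℝ} {z : ℂ} {l : ℕ} {ω : Ω}
    (h : Uf (fun v => W v ω) z (l * δ) ≤ u) : ∃ l' ≤ l, ω ∈ Fst δ u W z l' := by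
  classical
  have hex : ∃ l : ℕ, Uf (fun v => W v ω) z (l * δ) ≤ u := ⟨l, h⟩
  exact ⟨Nat.find hex, Nat.find_min' hex h, Nat.find_spec hex,
    fun i hi => not_le.1 (Nat.find_min hex hi)⟩

/-- One step of the grid changes `U` by at most `1/4`. -/
lemma iterate_step (hW : IsDrv κ P W) {ϰ c δ : ℝ} (hϰ : 0 < ϰ) (hδ : 0 ≤ δ)
    (hδϰ : δ ≤ ϰ ^ 2 / 16) {z : ℂ} {l : ℕ} {ω : Ω} (h : ω ∈ NK ϰ c δ W z (l + 1)) :
    Uf (fun v => W v ω) z (l * δ) - 1 / 4 ≤ Uf (fun v => W v ω) z ((l + 1 : ℕ) * δ) := by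
  obtain ⟨ha, him, -, -⟩ := h.1 (l + 1) le_rfl
  set w : ℝ → ℝ := fun v => W v ω with hw
  have hwc : Continuous w := hW.cont ω
  have h0 : 0 ≤ (l : ℝ) * δ := by (clear * - hδ; positivity)
  have hle : (l : ℝ) * δ ≤ ((l + 1 : ℕ) : ℝ) * δ := by
    push_cast; nlinarith only [hδ]
  have h1 := Uf_sub hwc h0 hle ha
  have h2 : ∫ u in ((l : ℝ) * δ)..((l + 1 : ℕ) : ℝ) * δ, rate (Zf w z u) ≤
      ∫ u in ((l : ℝ) * δ)..((l + 1 : ℕ) : ℝ) * δ, 4 / ϰ ^ 2 := by
    refine intervalIntegral.integral_mono_on hle ?_ intervalIntegrable_const fun u hu => ?_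
    · refine ContinuousOn.intervalIntegrable ?_
      rw [uIcc_of_le hle]
      exact (rate_cont hwc (h0.trans hle) ha).mono (Icc_subset_Icc_left h0)
    · have h3 : (Zf w z (((l + 1 : ℕ) : ℝ) * δ)).im ≤ (Zf w z u).im :=
        im_le_of_le (h0.trans hu.1) hu.2 ha
      have h4 : ϰ ≤ ‖Zf w z u‖ :=
        (him.trans h3).trans ((le_abs_self _).trans (Complex.abs_im_le_norm _))
      have h5 : 0 < ‖Zf w z u‖ := lt_of_lt_of_le hϰ h4
      have h6 : 0 ≤ sn (Zf w z u) := (sn_pos (lt_of_lt_of_le hϰ (him.trans h3))).le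
      have h7 := sn_le_one (Zf w z u)
      unfold rate
      have h8 : 4 * sn (Zf w z u) ^ 2 ≤ 4 := by nlinarith only [h6, h7]
      calc 4 * sn (Zf w z u) ^ 2 / ‖Zf w z u‖ ^ 2 ≤ 4 / ‖Zf w z u‖ ^ 2 := by (clear * - h8 h5; gcongr)
        _ ≤ 4 / ϰ ^ 2 := by (clear * - hϰ h4; gcongr)
  rw [intervalIntegral.integral_const, smul_eq_mul] at h2
  have h3 : (((l + 1 : ℕ) : ℝ) * δ - (l : ℝ) * δ) * (4 / ϰ ^ 2) ≤ 1 / 4 := by
    push_cast
    have : ((l : ℝ) + 1) * δ - l * δ = δ := by ring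
    rw [this, mul_div_assoc', div_le_iff₀ (by (clear * - hϰ; positivity))]
    linarith only [hδϰ]
  linarith

omit mΩ in
/-- union bound for the lower integral over finitely many sets -/
lemma iterate_lintegral_biUnion_le [MeasurableSpace Ω] {P : Measure Ω} (f : Ω → ℝ≥0∞) (s : Finset ℕ)
    (B : ℕ → Set Ω) : ∫⁻ ω in ⋃ i ∈ s, B i, f ω ∂P ≤ ∑ i ∈ s, ∫⁻ ω in B i, f ω ∂P := by
  classical
  induction s using Finset.induction_on with
  | empty => simp only [Finset.notMem_empty, iUnion_of_empty, iUnion_empty, Measure.restrict_empty, lintegral_zero_measure, Finset.sum_empty, Std.le_refl]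
  | insert a s ha ih =>
    rw [Finset.sum_insert ha, Finset.set_biUnion_insert]
    exact (lintegral_union_le f _ _).trans (by (clear * - ih; gcongr))

omit mΩ in
/-- decomposition of a sum of integrals -/
lemma iterate_decomp [MeasurableSpace Ω] {P : Measure Ω} (f : ℕ → Ω → ℝ≥0∞) (N : ℕ)
    (S B : ℕ → Set Ω) (h : ∀ l ≤ N, S l ⊆ ⋃ i ∈ Finset.range (N + 1), B i) :
    ∑ l ∈ Finset.range (N + 1), ∫⁻ ω in S l, f l ω ∂P ≤
      ∑ i ∈ Finset.range (N + 1), ∑ l ∈ Finset.range (N + 1), ∫⁻ ω in B i ∩ S l, f l ω ∂P := by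
  rw [Finset.sum_comm]
  refine Finset.sum_le_sum fun l hl => ?_
  refine le_trans ?_ (iterate_lintegral_biUnion_le (f l) (Finset.range (N + 1))
    fun i => B i ∩ S l)
  refine lintegral_mono_set fun ω hω => ?_
  have := h l (Nat.lt_succ_iff.1 (Finset.mem_range.1 hl)) hω
  simp only [mem_iUnion] at this ⊢
  obtain ⟨i, hi, hi'⟩ := this
  exact ⟨i, hi, hi', hω⟩

end

end Vale.Agent.P164
end

section

/-!
# Probability that a cell is visited and has no good scale
-/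

namespace Vale.Agent.P164

open Set Metric Filter Topology MeasureTheory ProbabilityTheory
open scoped NNReal ENNReal

/-- One step change of `U`. -/
lemma badCell_step {W : ℝ → ℝ} (hW : Continuous W) {z : ℂ} {s t ϰ : ℝ} (hs : 0 ≤ s)
    (hst : s ≤ t) (h : z ∈ loewnerDomain W t) (hϰ : 0 < ϰ) (him : ϰ ≤ (Zf W z t).im) :
    Uf W z s - Uf W z t ≤ 4 * (t - s) / ϰ ^ 2 := by
  rw [Uf_sub hW hs hst h]
  have h1 : ∫ u in s..t, rate (Zf W z u) ≤ ∫ _u in s..t, 4 / ϰ ^ 2 := by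
    refine intervalIntegral.integral_mono_on hst ?_ intervalIntegrable_const ?_
    · apply ContinuousOn.intervalIntegrable
      rw [uIcc_of_le hst]
      exact (rate_cont hW (hs.trans hst) h).mono (Icc_subset_Icc_left hs)
    · intro u hu
      have hu0 : 0 ≤ u := hs.trans hu.1
      have hdu := dom_mono hu.2 h
      have hY : ϰ ≤ (Zf W z u).im := him.trans (im_le_of_le hu0 hu.2 h)
      have hn : ϰ ≤ ‖Zf W z u‖ := hY.trans ((le_abs_self _).trans (Complex.abs_im_le_norm _))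
      have hsn0 := (sn_pos (Zf_im_pos hu0 hdu)).le
      have hsn1 := sn_le_one (Zf W z u)
      unfold rate
      refine div_le_div₀ (by norm_num) ?_ (by positivity) (pow_le_pow_left₀ hϰ.le hn 2)
      nlinarith only [hsn0, hsn1]
  refine h1.trans (le_of_eq ?_)
  rw [intervalIntegral.integral_const, smul_eq_mul]
  ring

/-- The content increases in time. -/
lemma badCell_mu_time {κ r : ℝ} (h0 : 0 < κ) (h8 : κ < 8) (hr : 0 < r) {W : ℝ → ℝ}
    (hW : Continuous W) {s t : ℝ} (hs : 0 ≤ s) (hst : s ≤ t) {D : Set ℂ} (hD : MeasurableSet D)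
    (hDim : ∀ z ∈ D, 0 < z.im) (hDv : volume D ≠ ⊤) : mu κ r W D 0 s ≤ mu κ r W D 0 t := by
  unfold mu
  refine setIntegral_mono_on (yc_integrableOn h0 h8 hr hW hD hDim hDv le_rfl hs)
    (yc_integrableOn h0 h8 hr hW hD hDim hDv le_rfl (hs.trans hst)) hD fun w hw => ?_
  rw [← yc_add h0 h8 hr hW (hDim w hw) le_rfl hs hst]
  linarith only [yc_nonneg (κ := κ) (r := r) (W := W) (z := w) hs hst]

lemma badCell_ball {z : ℂ} {r : ℝ} (hr : r < z.im) : ∀ w ∈ ball z r, 0 < w.im := by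
  intro w hw
  rw [mem_ball, dist_eq_norm] at hw
  have h1 := Complex.abs_im_le_norm (w - z)
  rw [Complex.sub_im] at h1
  have h2 := (abs_lt.1 (h1.trans_lt hw)).1
  linarith only [hr, h2]

/-- The events `NG` decrease in time and in the constant. -/
lemma badCell_NG {κ C C' R ε u : ℝ} (h0 : 0 < κ) (h8 : κ < 8) (hε : 0 < ε) (hC : 0 < C)
    (hCC : C ≤ C') (hR : 0 ≤ R) {Ω : Type*} {W : ℝ → Ω → ℝ}
    (hc : ∀ ω, Continuous fun t => W t ω) {z : ℂ} (hz : C' * Real.exp u < z.im) {s t : ℝ}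
    (hs : 0 ≤ s) (hst : s ≤ t) : NG κ C' R ε u W z t ⊆ NG κ C R ε u W z s := by
  intro ω hω
  have hω' : mu κ ε (fun v => W v ω) (ball z (C' * Real.exp u)) 0 t <
    R ^ xx κ * Real.exp (dd κ * u) / C' := hω
  change mu κ ε (fun v => W v ω) (ball z (C * Real.exp u)) 0 s <
    R ^ xx κ * Real.exp (dd κ * u) / C
  have h1 : mu κ ε (fun v => W v ω) (ball z (C * Real.exp u)) 0 s ≤
      mu κ ε (fun v => W v ω) (ball z (C' * Real.exp u)) 0 s :=
    ge_mu_mono h0 h8 hε (hc ω) hs measurableSet_ball (badCell_ball hz) measure_ball_lt_top.ne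
      (ball_subset_ball (mul_le_mul_of_nonneg_right hCC (Real.exp_pos u).le))
  have h2 := badCell_mu_time h0 h8 hε (hc ω) hs hst measurableSet_ball (badCell_ball hz)
    measure_ball_lt_top.ne
  have h3 : R ^ xx κ * Real.exp (dd κ * u) / C' ≤ R ^ xx κ * Real.exp (dd κ * u) / C :=
    div_le_div_of_nonneg_left (by (clear * - hR; positivity)) hC hCC
  linarith only [hω', h1, h2, h3]

/-- Small angle when `U` drops below `u` for the first time on the grid. -/
def badCellA {Ω : Type*} (δ u θ : ℝ) (W : ℝ → Ω → ℝ) (z : ℂ) (l : ℕ) : Set Ω :=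
  {ω | z ∈ loewnerDomain (fun v => W v ω) (l * δ) ∧
      (Zf (fun v => W v ω) z (l * δ), Uf (fun v => W v ω) z (l * δ)) ∈
        {p : ℂ × ℝ | sn p.1 ≤ θ ∧ u - 1 / 4 ≤ p.2 ∧ p.2 ≤ u}} ∩
    ⋂ i ∈ Finset.range l, {ω | z ∈ loewnerDomain (fun v => W v ω) (i * δ) ∧
      (Zf (fun v => W v ω) z (i * δ), Uf (fun v => W v ω) z (i * δ)) ∈
        {p : ℂ × ℝ | u < p.2}}

lemma badCell_sn_meas : Measurable fun p : ℂ × ℝ => sn p.1 := by
  unfold sn
  exact (Complex.measurable_im.comp measurable_fst).div measurable_fst.norm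

lemma badCellA_past {Ω : Type*} [MeasurableSpace Ω] {W : ℝ → Ω → ℝ}
    (hc : ∀ ω, Continuous fun t => W t ω) (hm : ∀ t, Measurable (W t)) {δ : ℝ} (hδ : 0 ≤ δ)
    (u θ : ℝ) (z : ℂ) (l : ℕ) : MeasurableSet[past W (l * δ)] (badCellA δ u θ W z l) := by
  have hS1 : MeasurableSet {p : ℂ × ℝ | sn p.1 ≤ θ ∧ u - 1 / 4 ≤ p.2 ∧ p.2 ≤ u} :=
    (measurableSet_le badCell_sn_meas measurable_const).inter
      ((measurableSet_le measurable_const measurable_snd).inter
        (measurableSet_le measurable_snd measurable_const))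
  have hS2 : MeasurableSet {p : ℂ × ℝ | u < p.2} :=
    measurableSet_lt measurable_const measurable_snd
  refine @MeasurableSet.inter Ω (past W (l * δ)) _ _ (Z_past hc hm (by (clear * - hδ; positivity)) z hS1) ?_
  refine @Finset.measurableSet_biInter Ω ℕ (past W (l * δ)) _ _ fun i hi => ?_
  have hil : (i : ℝ) * δ ≤ l * δ :=
    mul_le_mul_of_nonneg_right (by exact_mod_cast (Finset.mem_range.1 hi).le) hδ
  exact past_mono hil _ (Z_past hc hm (by (clear * - hδ; positivity)) z hS2)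

lemma badCellA_disj {Ω : Type*} {W : ℝ → Ω → ℝ} (δ u θ : ℝ) (z : ℂ) {i j : ℕ} (hij : i < j) :
    Disjoint (badCellA δ u θ W z i) (badCellA δ u θ W z j) := by
  rw [Set.disjoint_left]
  rintro ω ⟨⟨_, h1⟩, _⟩ ⟨_, h2⟩
  rw [mem_iInter₂] at h2
  have h3 := (h2 i (Finset.mem_range.2 hij)).2
  have h1' : Uf (fun v => W v ω) z (i * δ) ≤ u := h1.2.2
  have h3' : u < Uf (fun v => W v ω) z (i * δ) := h3
  linarith only [h1', h3']

/-- Markov inequality for the part with a large angle. -/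
lemma badCell_markov {Ω : Type*} [MeasurableSpace Ω] {P : Measure Ω} {f : Ω → ℝ≥0∞}
    (hf : Measurable f) {a : ℝ} (ha : 0 < a) (S : Set Ω) :
    P (S ∩ {ω | ENNReal.ofReal a ≤ f ω}) ≤ ENNReal.ofReal (1 / a) * ∫⁻ ω in S, f ω ∂P := by
  have h1 : P (S ∩ {ω | ENNReal.ofReal a ≤ f ω}) ≤
      (P.restrict S) {ω | ENNReal.ofReal a ≤ f ω} := by
    rw [inter_comm]
    exact Measure.le_restrict_apply _ _
  have h2 := meas_ge_le_lintegral_div (μ := P.restrict S) hf.aemeasurable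
    (ENNReal.ofReal_pos.2 ha).ne' ENNReal.ofReal_ne_top
  refine (h1.trans h2).trans (le_of_eq ?_)
  rw [one_div, ENNReal.ofReal_inv_of_pos ha, ENNReal.div_eq_inv_mul]

lemma badCell_q {C C1 R : ℝ} (hC1 : 1 ≤ C1) (hCC : C1 ≤ C) :
    0 ≤ 1 - Real.exp (-C1 * R ^ 2) / C1 ∧
      1 - Real.exp (-C1 * R ^ 2) / C1 ≤ 1 - Real.exp (-C * R ^ 2) / C := by
  constructor
  · rw [sub_nonneg, div_le_one (by linarith)]
    exact (Real.exp_le_one_iff.2 (by nlinarith only [hC1])).trans hC1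
  · have : Real.exp (-C * R ^ 2) / C ≤ Real.exp (-C1 * R ^ 2) / C1 := by
      refine div_le_div₀ (Real.exp_pos _).le ?_ (by linarith only [hC1]) hCC
      apply Real.exp_le_exp.2
      nlinarith only [hCC]
    linarith only [this]

end Vale.Agent.P164
end

section

namespace Vale.Agent.P164

open Set Metric Filter Topology MeasureTheory ProbabilityTheory
open scoped NNReal ENNReal

section

variable {Ω : Type*} [MeasurableSpace Ω] {P : Measure Ω} {B : ℝ≥0 → Ω → ℝ} {γ : Ω → ℝ → ℂ}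
  {Q : Set ℂ → Prop} {κ : ℝ}

end

universe u

end Vale.Agent.P164
end

section

namespace Vale.Agent.P164

open Set Metric Filter Topology MeasureTheory ProbabilityTheory
open scoped NNReal ENNReal

universe u

end Vale.Agent.P164
end

section

/-!
# The upper bound: the gauge measure is finite
-/

namespace Vale.Agent.P164

open Set Metric Filter Topology MeasureTheory ProbabilityTheory
open scoped NNReal ENNReal

/-- Markov's inequality with a finite count of (non measurable) events. -/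
lemma upper_markov {Ω : Type*} [MeasurableSpace Ω] {P : Measure Ω} {X f : Ω → ℝ≥0∞}
    (hX : Measurable X) {F : Set ℂ} (hF : F.Finite) {bad : Ω → ℂ → Prop} {p c : ℝ≥0∞}
    (hp : ∀ z ∈ F, P {ω | bad ω z} ≤ p)
    (hf : ∀ᵐ ω ∂P, f ω ≤ X ω + ({z ∈ F | bad ω z}.encard : ℝ≥0∞) * c) {a : ℝ≥0∞} (ha : a ≠ 0)
    (ha' : a ≠ ⊤) :
    P {ω | a < f ω} ≤ (∫⁻ ω, X ω ∂P + F.ncard * p * c) / a := by
  classical
  have hBm : ∀ z, Measurable ((toMeasurable P {ω | bad ω z}).indicator (1 : Ω → ℝ≥0∞)) := fun z =>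
    measurable_one.indicator (measurableSet_toMeasurable _ _)
  have hS : Measurable fun ω => ∑ z ∈ hF.toFinset,
      (toMeasurable P {ω | bad ω z}).indicator (1 : Ω → ℝ≥0∞) ω :=
    Finset.measurable_sum _ fun z _ => hBm z
  have hYm : Measurable fun ω => X ω + (∑ z ∈ hF.toFinset,
      (toMeasurable P {ω | bad ω z}).indicator (1 : Ω → ℝ≥0∞) ω) * c := hX.add (hS.mul_const c)
  have h1 : P {ω | a < f ω} ≤ P {ω | a ≤ X ω + (∑ z ∈ hF.toFinset,
      (toMeasurable P {ω | bad ω z}).indicator (1 : Ω → ℝ≥0∞) ω) * c} := by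
    refine measure_mono_ae ?_
    filter_upwards [hf] with ω hω hlt
    have h2 : ({z ∈ F | bad ω z}.encard : ℝ≥0∞) ≤ ∑ z ∈ hF.toFinset,
        (toMeasurable P {ω | bad ω z}).indicator (1 : Ω → ℝ≥0∞) ω := by
      have hA : {z ∈ F | bad ω z}.Finite := hF.subset (sep_subset _ _)
      rw [hA.encard_eq_coe_toFinset_card, ENat.toENNReal_coe]
      have h3 : hA.toFinset = hF.toFinset.filter (fun z => bad ω z) := by
        ext z
        simp only [Finite.mem_toFinset, mem_ofPred_eq, Finset.mem_filter]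
      rw [h3, Finset.card_filter, Nat.cast_sum]
      refine Finset.sum_le_sum fun z _ => ?_
      split_ifs with hb
      · have h4 : ω ∈ toMeasurable P {ω | bad ω z} := subset_toMeasurable _ _ hb
        simp only [Nat.cast_one, indicator_of_mem h4, Pi.one_apply, Std.le_refl]
      · simp
    exact (le_of_lt hlt).trans (hω.trans (by (clear * - hF h2; gcongr)))
  refine h1.trans ((meas_ge_le_lintegral_div hYm.aemeasurable ha ha').trans ?_)
  refine ENNReal.div_le_div_right ?_ a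
  rw [lintegral_add_left hX, lintegral_mul_const _ hS, lintegral_finsetSum _ fun z _ => hBm z]
  gcongr
  refine (Finset.sum_le_card_nsmul _ _ p fun z hz => ?_).trans (le_of_eq ?_)
  · rw [lintegral_indicator_one (measurableSet_toMeasurable _ _), measure_toMeasurable]
    exact hp z (by simpa using hz)
  · rw [nsmul_eq_mul, Set.ncard_eq_toFinset_card F hF]

/-- The scales tend to `0`. -/
lemma upper_scale {b : ℝ} (hb : 1 ≤ b) (C : ℝ) :
    Tendsto (fun n : ℕ => C * Real.exp (-(b * 2 ^ n))) atTop (𝓝 0) := by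
  have h1 : Tendsto (fun n : ℕ => b * (2 : ℝ) ^ n) atTop atTop :=
    (tendsto_pow_atTop_atTop_of_one_lt (by norm_num : (1 : ℝ) < 2)).const_mul_atTop (by linarith only [hb])
  have h2 := (Real.tendsto_exp_neg_atTop_nhds_zero.comp h1).const_mul C
  simpa only [Function.comp_apply, mul_zero] using h2

end Vale.Agent.P164
end

section

/-!
# The expected content of a disc (`0 < κ < 8`)
-/

namespace Vale.Agent.P164.E8

open Set Metric Filter Topology MeasureTheory ProbabilityTheory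
open scoped NNReal ENNReal

theorem exp_mu {κ : ℝ} (h0 : 0 < κ) (h4 : κ < 8) {Ω : Type*} [MeasurableSpace Ω]
    {P : Measure Ω} {W : ℝ → Ω → ℝ} (hW : IsDrv κ P W) {a ε T : ℝ} (hε : 0 < ε) (hT : 0 < T) :
    ∫⁻ ω, ENNReal.ofReal (mu κ ε (fun u => W u ω) (ball (ctr a) (3 / 4)) 0 T) ∂P ≤
      ENNReal.ofReal 100 := by
  have hP := hW.prob
  have hDim : ∀ z ∈ ball (ctr a) (3 / 4), 1 / 4 < z.im := by
    intro z hz
    rw [mem_ball, dist_eq_norm] at hz
    have h1 := (Complex.abs_im_le_norm (z - (ctr a))).trans_lt hz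
    rw [Complex.sub_im, ctr_im, abs_lt] at h1
    linarith only [h1]
  have hDim' : ∀ z ∈ ball (ctr a) (3 / 4), 0 < z.im := fun z hz => by
    linarith only [hDim z hz]
  have hDm : MeasurableSet (ball (ctr a) (3 / 4)) := measurableSet_ball
  have hDv : volume (ball (ctr a) (3 / 4)) ≠ ⊤ := measure_ball_lt_top.ne
  have h8 : κ < 8 := by linarith
  -- Tonelli
  have e1 : ∀ ω, ENNReal.ofReal (mu κ ε (fun u => W u ω) (ball (ctr a) (3 / 4)) 0 T) =
      ∫⁻ z in ball (ctr a) (3 / 4), ENNReal.ofReal (yc κ ε (fun u => W u ω) z 0 T) := by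
    intro ω
    unfold mu
    rw [ofReal_integral_eq_lintegral_ofReal]
    · exact yc_integrableOn h0 h8 hε (hW.cont ω) hDm hDim' hDv le_rfl hT.le
    · exact Eventually.of_forall fun z => yc_nonneg le_rfl hT.le
  simp only [e1]
  have hmeas : Measurable (fun p : ℂ × Ω => yc κ ε (fun u => W u p.2) p.1 0 T) :=
    timeint_joint hW.cont hW.meas (aR_measurable κ ε) le_rfl hT.le
  have hP' : SFinite P := inferInstance
  rw [lintegral_lintegral_swap]
  swap
  · exact ((hmeas.comp measurable_swap).ennreal_ofReal).aemeasurable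
  have h2 : ∀ z ∈ ball (ctr a) (3 / 4),
      ∫⁻ ω, ENNReal.ofReal (yc κ ε (fun u => W u ω) z 0 T) ∂P ≤ ENNReal.ofReal 4 := by
    intro z hz
    have hz0 := hDim' z hz
    have hz1 := hDim z hz
    have h := first_moment_upper h0 h4 hW hz0 hε le_rfl hT.le (A := univ) MeasurableSet.univ
    rw [Measure.restrict_univ] at h
    refine h.trans ?_
    have h3 : ∀ ω, ENNReal.ofReal (St (MM κ) (fun u => W u ω) z 0) ≤ ENNReal.ofReal 4 := by
      intro ω
      apply ENNReal.ofReal_le_ofReal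
      rw [St_of_mem (dom_zero.2 hz0), Uf_zero]
      unfold MM
      have hZ : 0 < (Zf (fun u => W u ω) z 0).im := Zf_im_pos le_rfl (dom_zero.2 hz0)
      have h5 : sn (Zf (fun u => W u ω) z 0) ^ be κ ≤ 1 :=
        Real.rpow_le_one (sn_pos hZ).le (sn_le_one _) (be_nonneg h0 h4)
      have h6 := FM.snp_nonneg κ hZ
      have hx : 0 < xx κ := by unfold xx; linarith only [h4]
      have hx1 : xx κ ≤ 1 := by unfold xx; linarith only [h0]
      have h7 : Real.exp (-xx κ * Real.log z.im) ≤ 4 := by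
        have hl : -Real.log 4 ≤ Real.log z.im := by
          rw [← Real.log_inv]
          exact Real.log_le_log (by norm_num) (by linarith)
        have h8' : -xx κ * Real.log z.im ≤ Real.log 4 := by
          have h9 : 0 < Real.log 4 := Real.log_pos (by norm_num)
          nlinarith only [hx, hl, hx1, h9]
        calc Real.exp (-xx κ * Real.log z.im) ≤ Real.exp (Real.log 4) := Real.exp_le_exp.2 h8'
          _ = 4 := Real.exp_log (by norm_num)
      calc Real.exp (-xx κ * Real.log z.im) * sn (Zf (fun u => W u ω) z 0) ^ be κ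
          ≤ 4 * 1 := mul_le_mul h7 h5 h6 (by norm_num)
        _ = 4 := by norm_num
    calc ∫⁻ ω, ENNReal.ofReal (St (MM κ) (fun u => W u ω) z 0) ∂P
        ≤ ∫⁻ _ω, ENNReal.ofReal 4 ∂P := lintegral_mono h3
      _ = ENNReal.ofReal 4 := by rw [lintegral_const, measure_univ, mul_one]
  calc ∫⁻ z in ball (ctr a) (3 / 4), ∫⁻ ω, ENNReal.ofReal (yc κ ε (fun u => W u ω) z 0 T) ∂P
      ≤ ∫⁻ _z in ball (ctr a) (3 / 4), ENNReal.ofReal 4 :=
        setLIntegral_mono measurable_const h2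
    _ = ENNReal.ofReal 4 * volume (ball (ctr a) (3 / 4)) := by
        rw [setLIntegral_const]
    _ ≤ ENNReal.ofReal 4 * ENNReal.ofReal 4 := by
        gcongr
        rw [Complex.volume_ball]
        have e3 : (NNReal.pi : ℝ≥0∞) = ENNReal.ofReal Real.pi := by
          rw [ENNReal.ofReal_eq_coe_nnreal Real.pi_pos.le]
          rfl
        rw [e3, ← ENNReal.ofReal_pow (by norm_num), ← ENNReal.ofReal_mul (by positivity)]
        apply ENNReal.ofReal_le_ofReal
        have := Real.pi_le_four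
        nlinarith only [this]
    _ = ENNReal.ofReal 16 := by
        rw [← ENNReal.ofReal_mul (by norm_num)]
        norm_num
    _ ≤ ENNReal.ofReal 100 := ENNReal.ofReal_le_ofReal (by norm_num)

end Vale.Agent.P164.E8
end

section

/-!
# The scale lemma (`0 < κ < 8`)
-/

namespace Vale.Agent.P164.E8

open Set Metric Filter Topology MeasureTheory ProbabilityTheory
open scoped NNReal ENNReal

theorem scale_lemma {κ : ℝ} (h0 : 0 < κ) (h4 : κ < 8) (A₀ : ℝ) :
    ∃ τ₁ C R₀ : ℝ, 0 < τ₁ ∧ 1 ≤ C ∧ 1 ≤ R₀ ∧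
      ∀ {Ω : Type*} [MeasurableSpace Ω] {P : Measure Ω} {W : ℝ → Ω → ℝ} (_ : IsDrv κ P W)
      {z Zs : ℂ} {r R ε t₀ : ℝ} (_ : 0 < Zs.im) (_ : |Zs.re| ≤ A₀ * Zs.im) (_ : 0 < r)
      (_ : C * r < z.im) (_ : R₀ ≤ R) (_ : 0 < ε) (_ : ε ≤ r / (C * R)) (_ : 0 ≤ t₀)
      {A : Set Ω} (_ : MeasurableSet[past W t₀] A)
      (_ : ∀ ω ∈ A, z ∈ loewnerDomain (fun u => W u ω) t₀ ∧
        dist (Zf (fun u => W u ω) z t₀) Zs ≤ Zs.im / 16 ∧
        Real.log r - 1 ≤ Uf (fun u => W u ω) z t₀ ∧ Uf (fun u => W u ω) z t₀ ≤ Real.log r),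
      ∃ S : Set Ω, S ⊆ A ∧ MeasurableSet[past W (t₀ + τ₁ * Zs.im ^ 2)] S ∧
        ENNReal.ofReal (Real.exp (-C * R ^ 2)) * P A ≤ P S ∧ ∀ ω ∈ S,
          z ∈ loewnerDomain (fun u => W u ω) (t₀ + τ₁ * Zs.im ^ 2) ∧
          1 / C ≤ sn (Zf (fun u => W u ω) z (t₀ + τ₁ * Zs.im ^ 2)) ∧
          Real.log r - C ≤ Uf (fun u => W u ω) z (t₀ + τ₁ * Zs.im ^ 2) ∧
          R ^ xx κ * r ^ dd κ / C ≤
            mu κ ε (fun u => W u ω) (ball z (C * r)) t₀ (t₀ + τ₁ * Zs.im ^ 2) := by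
  obtain ⟨ch, cd, c, lam, hch, hcd, hcd1, hc, hc1, hlam, hlam', tube⟩ := tube_content h0 h4
  obtain ⟨τ₁, C₁, R₁, hτ, hC₁, hR₁, cnt⟩ := count_steps h0 A₀ hch hlam
  have h8 : κ < 8 := by linarith only [h4]
  have hlogc : 0 ≤ -Real.log c := by
    have := Real.log_nonpos hc.le hc1
    linarith only [this]
  obtain ⟨b, hb⟩ : ∃ b : ℝ, b = τ₁ * κ * (lam + 4) ^ 2 := ⟨_, rfl⟩
  have hb0 : 0 < b := by rw [hb]; positivity
  obtain ⟨E, hE⟩ : ∃ E : ℝ, E = 2 * b * (-Real.log c) := ⟨_, rfl⟩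
  have hE0 : 0 ≤ E := by rw [hE]; (clear * - hb0 hlogc; positivity)
  have hC10 : 0 < C₁ := by linarith only [hC₁]
  have hpw : 0 < C₁ ^ (1 + dd κ) := Real.rpow_pos_of_pos hC10 _
  have hF0 : 0 < C₁ ^ (1 + dd κ) / c := div_pos hpw hc
  have hG0 : 0 < C₁ / c := div_pos hC10 hc
  obtain ⟨C, hC⟩ : ∃ C : ℝ, C = 3 * C₁ + C₁ / c + E + C₁ ^ (1 + dd κ) / c := ⟨_, rfl⟩
  have hCC₁ : C₁ ≤ C := by linarith only [hC₁, hE0, hF0, hG0, hC]
  have hC0 : 0 < C := by linarith only [hC₁, hE0, hF0, hG0, hC]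
  refine ⟨τ₁, C, R₁ + 1 / b, hτ, by linarith only [hC₁, hE0, hF0, hG0, hC], ?_, ?_⟩
  · have : 0 < 1 / b := by positivity
    linarith only [hR₁, this]
  intro Ω _ P W hW z Zs r R ε t₀ hY hX hr hrz hR hε hε' ht₀ A hA hAω
  have hb1 : 0 < 1 / b := by (clear * - hb0; positivity)
  have hR1 : R₁ ≤ R := by linarith only [hR, hb1]
  have hR1' : 1 ≤ R := hR₁.trans hR1
  have hR0 : 0 < R := by linarith only [hR₁, hR, hb1]
  have hbR : 1 ≤ b * R ^ 2 := by
    have h1 : 1 / b ≤ R := by linarith only [hR₁, hR]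
    rw [div_le_iff₀ hb0] at h1
    have h2 : b * R * 1 ≤ b * R * R := mul_le_mul_of_nonneg_left hR1' (by (clear * - hb0 hR1'; positivity))
    calc (1 : ℝ) ≤ R * b := h1
      _ ≤ b * R ^ 2 := by linarith only [h2]
  obtain ⟨J, a, ha, hJa, ha1, ha2, ha3, hJ⟩ := scale_param h0 hτ hlam hlam' hY hR1'
    (by rwa [← hb])
  obtain ⟨w, hw0, hwL, cnt⟩ := cnt hY hX hR1
  -- the nets
  have he : 0 < r / (C₁ * R) := by (clear * - hr hC₁ hR1'; positivity)
  obtain ⟨Λ, hΛ, hΛ'⟩ := scale_net (isCompact_closedBall z (C₁ * r)) he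
  obtain ⟨Q, hQ, hQ'⟩ := scale_net (isCompact_Icc (a := r / (C₁ * R)) (b := C₁ * r / R))
    (show 0 < r / (C₁ * R) / 2 by (clear * - hr hC₁ hR1'; positivity))
  have hQr : ∀ q ∈ Q, q ≤ C₁ * r := by
    intro q hq
    exact (hQ q hq).2.trans (div_le_self (by positivity) hR1')
  have hCr : C₁ * r + C₁ * r ≤ C * r := by
    have h1 : 2 * C₁ ≤ C := by linarith only [hC₁, hE0, hF0, hG0, hC]
    have h2 := mul_le_mul_of_nonneg_right h1 hr.le
    linarith only [h2]
  have hQ1 : ∀ q ∈ Q, 0 < q ∧ ε ≤ c * q := by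
    intro q hq
    have h1 := (hQ q hq).1
    refine ⟨he.trans_le h1, ?_⟩
    have h2 : r / (C * R) ≤ c * (r / (C₁ * R)) := by
      have h3 : C₁ / c ≤ C := by linarith only [hC₁, hE0, hF0, hC]
      rw [div_le_iff₀ hc] at h3
      rw [← mul_div_assoc, div_le_div_iff₀ (by (clear * - hC0 hR1'; positivity)) (by (clear * - hC₁ hR1'; positivity))]
      have h4 : 0 < r * R := by (clear * - hr hR1'; positivity)
      have h5 := mul_le_mul_of_nonneg_right h3 h4.le
      calc r * (C₁ * R) = C₁ * (r * R) := by ring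
        _ ≤ C * c * (r * R) := h5
        _ = c * r * (C * R) := by ring
    have h5 : c * (r / (C₁ * R)) ≤ c * q := mul_le_mul_of_nonneg_left h1 hc.le
    linarith only [hε', h2, h5]
  have him : ∀ p : ℂ, dist p z ≤ C * r → 0 < p.im := by
    intro p hp
    have h1 : |(z - p).im| ≤ ‖z - p‖ := Complex.abs_im_le_norm _
    rw [← dist_eq_norm, dist_comm, Complex.sub_im] at h1
    have h2 := (abs_le.1 h1).2
    linarith only [hrz, hp, h2]
  have hΛQ : ∀ z' ∈ Λ, ∀ q ∈ Q, q < z'.im := by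
    intro z' hz' q hq
    have h0' : dist z' z ≤ C₁ * r := hΛ z' hz'
    have h1 : |(z - z').im| ≤ ‖z - z'‖ := Complex.abs_im_le_norm _
    rw [← dist_eq_norm, dist_comm, Complex.sub_im] at h1
    have h2 := (abs_le.1 h1).2
    have h3 := hQr q hq
    linarith only [hrz, hCr, h0', h2, h3]
  obtain ⟨S, hSA, hSm, hSP, hSω⟩ := tube hW (Λ := Λ) (Q := Q) (w := w) (t₀ := t₀) (a := a)
    (ε := ε) (J := J) ht₀ ha hQ1 hΛQ hε hw0 (fun u v => (hwL u v).trans
      (mul_le_mul_of_nonneg_right ha3 (abs_nonneg _))) hA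
  rw [hJa] at hSm
  refine ⟨S, hSA, hSm, ?_, ?_⟩
  · refine le_trans (mul_le_mul_left ?_ _) hSP
    refine ENNReal.ofReal_le_ofReal ?_
    rw [← Real.rpow_natCast c J, Real.rpow_def_of_pos hc, Real.exp_le_exp]
    have h1 : (J : ℝ) * (-Real.log c) ≤ (2 * b * R ^ 2) * (-Real.log c) := by
      refine mul_le_mul_of_nonneg_right ?_ hlogc
      rw [hb]
      calc (J : ℝ) ≤ 2 * τ₁ * κ * (lam + 4) ^ 2 * R ^ 2 := hJ
        _ = 2 * (τ₁ * κ * (lam + 4) ^ 2) * R ^ 2 := by ring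
    have h2 : E * R ^ 2 ≤ C * R ^ 2 := mul_le_mul_of_nonneg_right (by linarith only [hC₁, hF0, hG0, hC]) (sq_nonneg _)
    have h3 : E * R ^ 2 = (2 * b * R ^ 2) * (-Real.log c) := by rw [hE]; ring
    calc -C * R ^ 2 = -(C * R ^ 2) := by ring
      _ ≤ -((J : ℝ) * (-Real.log c)) := by linarith only [h1, h2, h3]
      _ = Real.log c * J := by ring
  intro ω hω
  obtain ⟨hz, hd, hU1, hU2⟩ := hAω ω (hSA hω)
  obtain ⟨htube, hstep⟩ := hSω ω hω
  have hWc : Continuous fun u => W u ω := hW.cont ω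
  obtain ⟨⟨g1, g2, g3⟩, I, hIJ, hIc, hI⟩ := cnt hWc (z := z) (t₀ := t₀) (r := r) (a := a)
    (J := J) ht₀ hr ha ha1 ha2 hJa hz (by rwa [Complex.re_add_im]) hU1 hU2 htube
    (Λ := Λ) (fun p hp => by
      obtain ⟨z', hz', hd'⟩ := hΛ' p (ball_subset_closedBall hp)
      exact ⟨z', hz', hd'.le⟩)
    (Q := Q) (fun v hv1 hv2 => by
      obtain ⟨q, hq, hd'⟩ := hQ' v ⟨hv1, hv2⟩
      have hq1 := (hQ q hq).1
      rw [Real.dist_eq, abs_lt] at hd'
      exact ⟨q, hq, by linarith only [hv1, hd'], by linarith only [hv1, hd']⟩)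
  refine ⟨g1, ?_, by linarith only [hC₁, hE0, hF0, hG0, hC, g3], ?_⟩
  · refine le_trans ?_ g2
    exact one_div_le_one_div_of_le hC10 hCC₁
  -- the content
  have hδ0 : 0 ≤ a ^ 2 / κ := by positivity
  obtain ⟨δ, hδ⟩ : ∃ δ : ℝ, δ = a ^ 2 / κ := ⟨_, rfl⟩
  obtain ⟨D, hD⟩ : ∃ D : Set ℂ, D = ball z (C * r) := ⟨_, rfl⟩
  rw [← hδ] at hδ0 hJa hstep hI
  rw [← hD]
  have hDm : MeasurableSet D := by rw [hD]; exact measurableSet_ball
  have hDim : ∀ p ∈ D, 0 < p.im := fun p hp => him p (le_of_lt (by rwa [hD] at hp))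
  have hDv : volume D ≠ ⊤ := by rw [hD]; exact measure_ball_lt_top.ne
  rw [← hJa, ← scale_mu_sum h0 h8 hε hWc hDm hDim hDv ht₀ hδ0 J]
  have hlow : ∀ j ∈ I, c * (r / (C₁ * R)) ^ dd κ ≤
      mu κ ε (fun u => W u ω) D (t₀ + j * δ) (t₀ + (j + 1) * δ) := by
    intro j hj
    obtain ⟨z', hz', q, hq, hmu⟩ := hstep j (hIJ j hj) (hI j hj)
    have hdd : 0 ≤ dd κ := by unfold dd; positivity
    have h1 : c * (r / (C₁ * R)) ^ dd κ ≤ c * q ^ dd κ :=
      mul_le_mul_of_nonneg_left (Real.rpow_le_rpow he.le (hQ q hq).1 hdd) hc.le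
    refine h1.trans (hmu.trans ?_)
    have hjδ : (0 : ℝ) ≤ j * δ := by (clear * - hδ0; positivity)
    refine scale_mu_mono h0 h8 hε hWc hDm hDim hDv (by linarith only [ht₀, hjδ]) (by linarith only [hδ0]) ?_
    rw [hD]
    refine ball_subset_ball' ?_
    have h2 : dist z' z ≤ C₁ * r := hΛ z' hz'
    have h3 := hQr q hq
    have h5 : cd * q ≤ 1 * q := mul_le_mul_of_nonneg_right hcd1 (hQ1 q hq).1.le
    linarith only [hCr, h2, h3, h5]
  have hsum : ∑ j ∈ I, c * (r / (C₁ * R)) ^ dd κ ≤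
      ∑ j ∈ Finset.range J, mu κ ε (fun u => W u ω) D (t₀ + j * δ) (t₀ + (j + 1) * δ) := by
    refine (Finset.sum_le_sum hlow).trans ?_
    refine Finset.sum_le_sum_of_subset_of_nonneg (fun j hj => Finset.mem_range.2 (hIJ j hj)) ?_
    intro j _ _
    have hjδ : (0 : ℝ) ≤ j * δ := by (clear * - hδ0; positivity)
    exact mu_nonneg (by linarith only [ht₀, hjδ]) (by linarith only [hδ0])
  refine le_trans ?_ hsum
  rw [Finset.sum_const, nsmul_eq_mul]
  have hp0 : 0 ≤ c * (r / (C₁ * R)) ^ dd κ := by (clear * - hc hr hC₁ hR1'; positivity)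
  refine le_trans ?_ (mul_le_mul_of_nonneg_right hIc hp0)
  rw [Real.div_rpow hr.le (by positivity), Real.mul_rpow hC10.le hR0.le]
  have hxd : R ^ xx κ * R ^ dd κ = R ^ 2 := by
    rw [← Real.rpow_add hR0, ← Real.rpow_two]
    congr 1
    unfold xx dd
    ring
  have hC1d : C₁ ^ (1 + dd κ) = C₁ * C₁ ^ dd κ := by
    rw [Real.rpow_add hC10, Real.rpow_one]
  have hRd : 0 < R ^ dd κ := Real.rpow_pos_of_pos hR0 _
  have hRx : 0 < R ^ xx κ := Real.rpow_pos_of_pos hR0 _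
  have hrd : 0 < r ^ dd κ := Real.rpow_pos_of_pos hr _
  have hCd : 0 < C₁ ^ dd κ := Real.rpow_pos_of_pos hC10 _
  have hfin : R ^ 2 / C₁ * (c * (r ^ dd κ / (C₁ ^ dd κ * R ^ dd κ))) =
      R ^ xx κ * r ^ dd κ / (C₁ ^ (1 + dd κ) / c) := by
    rw [← hxd, hC1d]
    (clear * - hR1' hC₁ hr hc; field_simp)
  rw [hfin]
  refine div_le_div_of_nonneg_left (by (clear * - hR1' hr; positivity)) hF0 ?_
  linarith only [hC₁, hE0, hG0, hC]

end Vale.Agent.P164.E8
end

section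

/-!
# Recovered angle (`0 < κ < 8`)
-/

namespace Vale.Agent.P164.E8

open Set Metric Filter Topology MeasureTheory ProbabilityTheory
open scoped NNReal ENNReal

theorem recovered {κ : ℝ} (h0 : 0 < κ) (h4 : κ < 8) {L : ℝ} (hL : 0 ≤ L) :
    ∃ b C R₀ τ₁ : ℝ, 0 < τ₁ ∧ L + 3 ≤ b ∧ 1 ≤ C ∧ 1 ≤ R₀ ∧
      ∀ {Ω : Type*} [MeasurableSpace Ω] {P : Measure Ω} {W : ℝ → Ω → ℝ} (_ : IsDrv κ P W)
      {z Zs : ℂ} {u v R ε δ : ℝ} {j m N : ℕ} (_ : 0 < Zs.im) (_ : |Zs.re| ≤ 2 * Zs.im)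
      (_ : C * Real.exp u < z.im) (_ : R₀ ≤ R) (_ : 0 < ε)
      (_ : ε ≤ Real.exp (u - b) / (C * R)) (_ : 0 < δ) (_ : τ₁ * Zs.im ^ 2 = m * δ)
      (_ : u - L - 1 ≤ v) (_ : v ≤ u + 1) {A : Set Ω} (_ : MeasurableSet[past W (j * δ)] A)
      (_ : ∀ ω ∈ A, z ∈ loewnerDomain (fun u => W u ω) (j * δ) ∧
        dist (Zf (fun u => W u ω) z (j * δ)) Zs ≤ Zs.im / 16 ∧
        v - 1 ≤ Uf (fun u => W u ω) z (j * δ) ∧ Uf (fun u => W u ω) z (j * δ) ≤ v),
      ∑ l ∈ Finset.range (N + 1),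
        ∫⁻ ω in A ∩ Fst δ (u - b) W z l ∩ NG κ C R ε u W z (l * δ),
          ENNReal.ofReal (St (MM κ) (fun v => W v ω) z (l * δ)) ∂P ≤
        ENNReal.ofReal (1 - Real.exp (-C * R ^ 2) / C) *
          ∫⁻ ω in A, ENNReal.ofReal (St (MM κ) (fun v => W v ω) z (j * δ)) ∂P := by
  obtain ⟨τ₁, C₁, R₁, hτ, hC1, hR1, hsc⟩ := scale_lemma h0 h4 2
  have h8 : κ < 8 := by linarith only [h4]
  have hx := xx_pos h8
  have hbe := be_nonneg h0 h8
  have hdd : 0 < dd κ := by unfold dd; positivity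
  have hC0 : 0 < C₁ := by linarith only [hC1]
  set C : ℝ := C₁ * Real.exp 1 + C₁ * Real.exp (dd κ * (L + 1)) + C₁ ^ be κ * Real.exp (xx κ) + C₁
    with hC
  have p1 : 0 < C₁ * Real.exp 1 := by positivity
  have p2 : 0 < C₁ * Real.exp (dd κ * (L + 1)) := by positivity
  have p3 : 0 < C₁ ^ be κ * Real.exp (xx κ) := mul_pos (Real.rpow_pos_of_pos hC0 _) (Real.exp_pos _)
  have c1 : C₁ * Real.exp 1 ≤ C := by rw [hC]; linarith only [hC1, p2, p3]
  have c2 : C₁ * Real.exp (dd κ * (L + 1)) ≤ C := by rw [hC]; linarith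
  have c3 : C₁ ^ be κ * Real.exp (xx κ) ≤ C := by rw [hC]; linarith only [hC1, p1, p2]
  have c4 : C₁ ≤ C := by rw [hC]; linarith only [p1, p2, p3]
  have hCpos : 0 < C := by linarith only [hC1, p1, p2, p3]
  refine ⟨L + C₁ + 5, C, R₁, τ₁, hτ, by linarith only [hC1], by linarith only [hC1, p1, p2, p3], hR1, ?_⟩
  intro Ω _ P W hW z Zs u v R ε δ j m N hZ1 hZ2 hzC hR hε hεle hδ hτm hv1 hv2 A hA hAprop
  have hprob := hW.prob
  have hR0 : 0 < R := by linarith only [hR1, hR]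
  -- the scale lemma
  have hj0 : (0 : ℝ) ≤ j * δ := by (clear * - hδ; positivity)
  have hexpv : Real.exp v ≤ Real.exp 1 * Real.exp u := by
    rw [← Real.exp_add, Real.exp_le_exp]; linarith only [hv2]
  have hCr : C₁ * Real.exp v ≤ C * Real.exp u := by
    calc C₁ * Real.exp v ≤ C₁ * (Real.exp 1 * Real.exp u) :=
          mul_le_mul_of_nonneg_left hexpv hC0.le
      _ = (C₁ * Real.exp 1) * Real.exp u := by ring
      _ ≤ C * Real.exp u := mul_le_mul_of_nonneg_right c1 (Real.exp_pos _).le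
  have hεr : ε ≤ Real.exp v / (C₁ * R) := by
    refine hεle.trans ?_
    have h1 : Real.exp (u - (L + C₁ + 5)) ≤ Real.exp v := by
      rw [Real.exp_le_exp]; linarith only [hC1, hv1]
    exact div_le_div₀ (Real.exp_pos _).le h1 (by positivity)
      (mul_le_mul_of_nonneg_right c4 hR0.le)
  obtain ⟨S, hSA, hSm, hSP, hSprop⟩ := hsc hW (z := z) (Zs := Zs) (r := Real.exp v)
    (R := R) (ε := ε) (t₀ := j * δ) hZ1 hZ2 (Real.exp_pos v) (lt_of_le_of_lt hCr hzC) hR hε
    hεr hj0 hA (by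
      intro ω hω
      rw [Real.log_exp]
      exact hAprop ω hω)
  have hjm : (j : ℝ) * δ + τ₁ * Zs.im ^ 2 = ((j + m : ℕ) : ℝ) * δ := by
    rw [hτm]; push_cast; ring
  rw [hjm] at hSm hSprop
  simp only [Real.log_exp] at hSprop
  set u' := u - (L + C₁ + 5) with hu'
  set V : ℕ → Ω → ℝ≥0∞ := fun l ω => ENNReal.ofReal (St (MM κ) (fun v => W v ω) z (l * δ)) with hV
  have hmono : ∀ i k : ℕ, i ≤ k → (i : ℝ) * δ ≤ k * δ := fun i k h =>
    mul_le_mul_of_nonneg_right (by exact_mod_cast h) hδ.le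
  -- no `RecE` index before `j` on `A`, before `j + m` on `S`
  have hAE : ∀ l ≤ j, Disjoint A (Fst δ u' W z l) := by
    intro l hl
    rw [Set.disjoint_left]
    rintro ω hω ⟨h1, _⟩
    obtain ⟨a1, _, a3, _⟩ := hAprop ω hω
    have h2 := Uf_le (hW.cont ω) (by (clear * - hδ; positivity) : (0 : ℝ) ≤ l * δ) (hmono l j hl) a1
    linarith only [hC1, hv1, h1, a3, h2]
  have hSE : ∀ l ≤ j + m, Disjoint S (Fst δ u' W z l) := by
    intro l hl
    rw [Set.disjoint_left]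
    rintro ω hω ⟨h1, _⟩
    obtain ⟨a1, _, a3, _⟩ := hSprop ω hω
    have h2 := Uf_le (hW.cont ω) (by (clear * - hδ; positivity) : (0 : ℝ) ≤ l * δ) (hmono l (j + m) hl) a1
    linarith only [hv1, h1, a3, h2]
  -- on `S` a good scale has been found
  have hSNG : ∀ l, j + m ≤ l → Disjoint S (NG κ C R ε u W z (l * δ)) := by
    intro l hl
    rw [Set.disjoint_left]
    intro ω hω hng
    obtain ⟨a1, _, _, a4⟩ := hSprop ω hω
    have hng' : mu κ ε (fun v => W v ω) (ball z (C * Real.exp u)) 0 (l * δ) <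
      R ^ xx κ * Real.exp (dd κ * u) / C := hng
    have hmu : mu κ ε (fun v => W v ω) (ball z (C₁ * Real.exp v)) (j * δ) (((j + m : ℕ) : ℝ) * δ) ≤
        mu κ ε (fun v => W v ω) (ball z (C * Real.exp u)) 0 (l * δ) := by
      refine Rec_mu_mono h0 h8 hε (hW.cont ω) hj0 (hmono j (j + m) (by (clear * -; omega)))
        (hmono (j + m) l hl) measurableSet_ball ?_ measure_ball_lt_top.ne (ball_subset_ball hCr)
      intro y hy
      have h1 : |y.im - z.im| ≤ dist y z := by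
        rw [dist_eq_norm, ← Complex.sub_im]
        exact Complex.abs_im_le_norm _
      have h2 := mem_ball.1 hy
      have h3 := (abs_le.1 h1).1
      linarith only [hzC, h2, h3]
    have hval : R ^ xx κ * Real.exp (dd κ * u) / C ≤ R ^ xx κ * Real.exp v ^ dd κ / C₁ :=
      Rec_val hdd hR0 hC0 hCpos hv1 c2
    linarith only [a4, hng', hmu, hval]
  -- optional stopping
  have hstop := Rec_stop (P := P) (A := A) (S := S) (N := N + m) (m₀ := m)
    (V := fun i => V (j + i)) (E := fun i => RecE δ u' W z (j + i))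
    (m := fun i => past W (((j + i : ℕ) : ℝ) * δ)) (by simpa using hA)
    (fun a b hab => past_mono (hmono _ _ (by omega))) (fun i => hW.past_le)
    (fun i => RecE_meas hW hδ z (j + i)) (fun a b hab => RecE_disj (by (clear * - hab; omega))) hSm hSA
    (fun i hi => (hSE (j + i) (by (clear * - hi; omega))).mono_right inter_subset_right) (by omega) (by
      intro i B hB
      have := MM_super h0 hW z (s := ((j + i : ℕ) : ℝ) * δ) (t := ((j + (i + 1) : ℕ) : ℝ) * δ)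
        (by (clear * - hδ; positivity)) (hmono _ _ (by omega)) hB
      exact this)
  -- comparison of the sums
  have hterm : ∀ l, ∫⁻ ω in A ∩ Fst δ u' W z l ∩ NG κ C R ε u W z (l * δ), V l ω ∂P ≤
      ∫⁻ ω in (A \ S) ∩ RecE δ u' W z l, V l ω ∂P := by
    intro l
    have hal : MeasurableSet {ω | z ∈ loewnerDomain (fun u => W u ω) (l * δ)} :=
      hW.past_le _ (alive_past hW.cont hW.meas (by (clear * - hδ; positivity)) z)
    rw [← lintegral_inter_add_sdiff (fun ω => V l ω) (A ∩ Fst δ u' W z l ∩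
      NG κ C R ε u W z (l * δ)) hal]
    have h1 : ∫⁻ ω in (A ∩ Fst δ u' W z l ∩ NG κ C R ε u W z (l * δ)) \
        {ω | z ∈ loewnerDomain (fun u => W u ω) (l * δ)}, V l ω ∂P = 0 := by
      have h2 : ∫⁻ ω in {ω | z ∈ loewnerDomain (fun u => W u ω) (l * δ)}ᶜ, V l ω ∂P = 0 := by
        rw [setLIntegral_congr_fun (g := fun _ => 0) hal.compl]
        · simp only [lintegral_const, MeasurableSet.univ, Measure.restrict_apply, univ_inter, zero_mul]
        · intro ω hω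
          simp only [hV]
          rw [St_of_not_mem hω, ENNReal.ofReal_zero]
      exact le_antisymm ((lintegral_mono_set fun ω hω => hω.2).trans h2.le) zero_le
    rw [h1, add_zero]
    refine lintegral_mono_set fun ω hω => ?_
    refine ⟨⟨hω.1.1.1, fun hS => ?_⟩, hω.2, hω.1.1.2⟩
    rcases le_total l (j + m) with h | h
    · exact Set.disjoint_left.1 (hSE l h) hS hω.1.1.2
    · exact Set.disjoint_left.1 (hSNG l h) hS hω.1.2
  have hsum : ∑ l ∈ Finset.range (N + 1),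
      ∫⁻ ω in A ∩ Fst δ u' W z l ∩ NG κ C R ε u W z (l * δ), V l ω ∂P ≤
      ∑ i ∈ Finset.range (N + m + 1), ∫⁻ ω in (A \ S) ∩ RecE δ u' W z (j + i), V (j + i) ω ∂P := by
    calc ∑ l ∈ Finset.range (N + 1),
        ∫⁻ ω in A ∩ Fst δ u' W z l ∩ NG κ C R ε u W z (l * δ), V l ω ∂P ≤
        ∑ l ∈ Finset.range (N + 1), ∫⁻ ω in (A \ S) ∩ RecE δ u' W z l, V l ω ∂P :=
          Finset.sum_le_sum fun l _ => hterm l
      _ ≤ ∑ l ∈ Finset.range (j + (N + m + 1)), ∫⁻ ω in (A \ S) ∩ RecE δ u' W z l, V l ω ∂P := by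
          refine Finset.sum_le_sum_of_subset (Finset.range_mono (by omega))
      _ = ∑ l ∈ Finset.range j, ∫⁻ ω in (A \ S) ∩ RecE δ u' W z l, V l ω ∂P +
          ∑ i ∈ Finset.range (N + m + 1),
            ∫⁻ ω in (A \ S) ∩ RecE δ u' W z (j + i), V (j + i) ω ∂P :=
          Finset.sum_range_add _ _ _
      _ = _ := by
          have h1 : ∑ l ∈ Finset.range j, ∫⁻ ω in (A \ S) ∩ RecE δ u' W z l, V l ω ∂P = 0 := by
            refine Finset.sum_eq_zero fun l hl => ?_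
            have h2 : (A \ S) ∩ RecE δ u' W z l = ∅ := by
              refine Set.disjoint_iff_inter_eq_empty.1 ?_
              exact ((hAE l (Finset.mem_range.1 hl).le).mono_left sdiff_subset).mono_right
                inter_subset_right
            rw [h2]
            simp only [Measure.restrict_empty, lintegral_zero_measure]
          rw [h1, zero_add]
  -- the mass of `S`
  obtain ⟨hYtop, hmass⟩ := Rec_mass h0 h8 hW (z := z) (v := v) hC0 c4 c3 hj0
    (hmono j (j + m) (by (clear * -; omega))) (hW.past_le _ hA) (hW.past_le _ hSm) hSA hSP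
    (fun ω hω => ⟨(hAprop ω hω).1, (hAprop ω hω).2.2⟩)
    (fun ω hω => ⟨(hSprop ω hω).1, (hSprop ω hω).2.1⟩)
  exact Rec_enn (by positivity) hYtop ((add_le_add hsum le_rfl).trans hstop) hmass

end Vale.Agent.P164.E8
end

section

/-!
# One-scale inequality (`0 < κ < 8`)
-/

namespace Vale.Agent.P164.E8

open Set Metric Filter Topology MeasureTheory ProbabilityTheory
open scoped NNReal ENNReal

/-! ### Measurability -/

/-! ### Sums over pieces -/

/-- Optional stopping on the grid, started at the index `i`. -/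
lemma oneScale_stop {κ : ℝ} (h0 : 0 < κ) (h4 : κ < 8) {Ω : Type*} [mΩ : MeasurableSpace Ω]
    {P : Measure Ω} {W : ℝ → Ω → ℝ} (hW : IsDrv κ P W) (z : ℂ) {δ : ℝ} (hδ : 0 ≤ δ) (i N : ℕ)
    {A : Set Ω} (hA : MeasurableSet[past W (i * δ)] A) {E : ℕ → Set Ω}
    (hE : ∀ l : ℕ, MeasurableSet[past W (l * δ)] (E l))
    (hdisj : Pairwise (fun i j => Disjoint (E i) (E j)))
    (hlow : ∀ l < i, A ∩ E l = ∅) :
    ∑ l ∈ Finset.range (N + 1),
      ∫⁻ ω in A ∩ E l, ENNReal.ofReal (St (MM κ) (fun v => W v ω) z (l * δ)) ∂P ≤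
      ∫⁻ ω in A, ENNReal.ofReal (St (MM κ) (fun v => W v ω) z (i * δ)) ∂P := by
  set F : ℕ → ℝ≥0∞ := fun l =>
    ∫⁻ ω in A ∩ E l, ENNReal.ofReal (St (MM κ) (fun v => W v ω) z (l * δ)) ∂P with hF
  have h1 : ∑ l ∈ Finset.range (N + 1), F l ≤ ∑ l ∈ Finset.range (i + (N + 1)), F l :=
    Finset.sum_le_sum_of_subset (Finset.range_mono (by omega))
  have h2 : ∑ l ∈ Finset.range i, F l = 0 := by
    refine Finset.sum_eq_zero fun l hl => ?_
    simp only [hF]
    rw [hlow l (Finset.mem_range.1 hl)]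
    simp only [Measure.restrict_empty, lintegral_zero_measure]
  have h3 := optional_stopping (P := P) (A := A) (N := N)
    (V := fun k ω => ENNReal.ofReal (St (MM κ) (fun v => W v ω) z ((i + k : ℕ) * δ)))
    (E := fun k => E (i + k)) (m := fun k => past W ((i + k : ℕ) * δ))
    (by simpa using hA)
    (fun k k' hk => past_mono (by (clear * - hk hδ; gcongr)))
    (fun k => hW.past_le)
    (fun k => hE (i + k))
    (fun k k' hk => hdisj (fun h => hk (by omega)))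
    (fun k S hS => MM_super h0 hW z (by (clear * - hδ; positivity)) (by gcongr; omega) hS)
  refine h1.trans ?_
  rw [Finset.sum_range_add, h2, zero_add]
  refine h3.trans (le_of_eq ?_)
  simp only [add_zero]

/-! ### The cells -/

/-! ### Geometry of the stopping index -/

/-- One-scale inequality: the `MM`-mass which reaches the next scale without a good scale is at
most `1 - exp(-C R²)/C` times the initial mass. -/
theorem one_scale {κ : ℝ} (h0 : 0 < κ) (h4 : κ < 8) :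
    ∃ b C R₀ : ℝ, 1 ≤ b ∧ 1 ≤ C ∧ 1 ≤ R₀ ∧
      ∀ {Ω : Type*} [MeasurableSpace Ω] {P : Measure Ω} {W : ℝ → Ω → ℝ} (_ : IsDrv κ P W)
      {z : ℂ} {T u R ε ϰ η : ℝ} (_ : 0 < T) (_ : C * Real.exp u < z.im) (_ : R₀ ≤ R)
      (_ : 0 < ε) (_ : ε ≤ Real.exp (u - b) / (C * R)) (_ : 0 < ϰ) (_ : 0 < η),
      ∃ c₀ > 0, ∃ δ₀ > 0, ∀ c, 0 < c → c ≤ c₀ → ∀ δ, 0 < δ → δ ≤ δ₀ → ∀ N : ℕ, N * δ ≤ T →
        ∀ i ≤ N, ∀ A : Set Ω, MeasurableSet[past W (i * δ)] A → A ⊆ NK ϰ c δ W z i →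
        (∀ ω ∈ A, u - 1 / 4 ≤ Uf (fun v => W v ω) z (i * δ) ∧
          Uf (fun v => W v ω) z (i * δ) ≤ u) →
        ∑ l ∈ Finset.range (N + 1),
          ∫⁻ ω in A ∩ NK ϰ c δ W z l ∩ Fst δ (u - b) W z l ∩ NG κ C R ε u W z (l * δ),
            ENNReal.ofReal (St (MM κ) (fun v => W v ω) z (l * δ)) ∂P ≤
          ENNReal.ofReal (1 - Real.exp (-C * R ^ 2) / C) *
            ∫⁻ ω in A, ENNReal.ofReal (St (MM κ) (fun v => W v ω) z (i * δ)) ∂P +
          ENNReal.ofReal η * P A := by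
  have hLL : 0 ≤ LL κ := by unfold LL; positivity
  obtain ⟨b, C₁, R₀, τ₁, hτ, hb, hC1, hR0, H⟩ := recovered h0 h4 hLL
  refine ⟨b, 2 * C₁, R₀, by linarith, by linarith only [hC1], hR0, ?_⟩
  intro Ω _ P W hW z T u R ε ϰ η hT hz hR hε hε2 hϰ hη
  have heu := Real.exp_pos u
  have hRpos : 0 < R := by linarith only [hR0, hR]
  have hz1 : C₁ * Real.exp u < z.im := lt_of_le_of_lt (by nlinarith only [heu, hC1]) hz
  have hzpos : 0 < z.im := lt_trans (by (clear * - hC1; positivity)) hz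
  have hε1 : ε ≤ Real.exp (u - b) / (C₁ * R) := hε2.trans (by gcongr; linarith only [hC1])
  obtain ⟨c₀, hc₀, δ₀, hδ₀, Hd⟩ := drop h0 hW hzpos hT (u := u) hϰ hη
  refine ⟨c₀, hc₀, min δ₀ (min (ϰ ^ 2 / 16) (τ₁ * ϰ ^ 2 / 1000)), by (clear * - hδ₀ hϰ hτ; positivity), ?_⟩
  intro c hc hcc δ hδ hδδ N hN i hi A hA hAK hAU
  have hd1 : δ ≤ δ₀ := hδδ.trans (min_le_left _ _)
  have hd2 : δ ≤ ϰ ^ 2 / 16 := hδδ.trans ((min_le_right _ _).trans (min_le_left _ _))
  have hd3 : δ ≤ τ₁ * ϰ ^ 2 / 1000 := hδδ.trans ((min_le_right _ _).trans (min_le_right _ _))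
  have Hd' := Hd c hc hcc δ hδ hd1 N hN i hi A hA hAK fun ω hω => (hAU ω hω).1
  set M : ℕ → Ω → ℝ≥0∞ := fun l ω =>
    ENNReal.ofReal (St (MM κ) (fun v => W v ω) z (l * δ)) with hM
  set q₁ : ℝ := Real.exp (-C₁ * R ^ 2) / C₁ with hq₁
  have hq0 : 0 ≤ q₁ := by positivity
  have hq1 : q₁ ≤ 1 := by
    rw [hq₁, div_le_one (by linarith only [hC1])]
    refine le_trans (Real.exp_le_one_iff.2 ?_) hC1
    have : 0 ≤ C₁ * R ^ 2 := by positivity
    linarith only [this]
  set E : ℕ → Set Ω := fun j => NK ϰ c δ W z j ∩ Rho δ (u - LL κ) W z i j with hE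
  set G : ℕ → Set Ω := fun j => {ω | sn (Zf (fun v => W v ω) z (j * δ)) ^ 2 < 1 / 2} with hG
  set D : ℕ → Set Ω := fun j => A ∩ E j ∩ G j with hD
  set B : ℕ → Set Ω := fun j => (A ∩ E j) \ G j with hB
  -- measurability
  have mE : ∀ j : ℕ, MeasurableSet[past W (j * δ)] (E j) := fun j =>
    MeasurableSet.inter (oneScale_NK hW hδ.le ϰ c z j) (oneScale_Rho hW hδ.le _ z i j)
  have mG : ∀ j : ℕ, MeasurableSet[past W (j * δ)] (G j) := fun j =>
    (oneScale_Zf hW (by (clear * - hδ; positivity)) z) (measurableSet_lt (oneScale_meas_sn.pow_const 2)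
      measurable_const)
  have mA : ∀ j, i ≤ j → MeasurableSet[past W (j * δ)] A := fun j hj =>
    past_mono (by (clear * - hj hδ; gcongr)) _ hA
  have mD : ∀ j, i ≤ j → MeasurableSet[past W (j * δ)] (D j) := fun j hj =>
    MeasurableSet.inter (MeasurableSet.inter (mA j hj) (mE j)) (mG j)
  have mB : ∀ j, i ≤ j → MeasurableSet[past W (j * δ)] (B j) := fun j hj =>
    MeasurableSet.diff (MeasurableSet.inter (mA j hj) (mE j)) (mG j)
  -- emptiness before `i`
  have hEi : ∀ j < i, E j = ∅ := by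
    intro j hj
    refine eq_empty_iff_forall_notMem.2 fun ω hω => ?_
    have := hω.2.1
    omega
  have hDi : ∀ j < i, D j = ∅ := fun j hj => by simp only [hD, hEi j hj]; simp
  have hBi : ∀ j < i, B j = ∅ := fun j hj => by simp only [hB, hEi j hj]; simp
  -- disjointness
  have dE : ∀ j j', j < j' → Disjoint (E j) (E j') := by
    intro j j' hj
    refine Set.disjoint_left.2 fun ω h1 h2 => ?_
    have h3 := h2.2.2.2 j h1.2.1 hj
    rcases h1.2.2.1 with h | h
    · exact absurd h3.1 (not_lt.2 h)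
    · exact absurd h3.2 (not_lt.2 h)
  have dE' : Pairwise (fun i j => Disjoint (E i) (E j)) := by
    intro j j' hj
    rcases lt_or_gt_of_ne hj with h | h
    · exact dE j j' h
    · exact (dE j' j h).symm
  have dF : Pairwise (fun i j => Disjoint (Fst δ (u - b) W z i) (Fst δ (u - b) W z j)) := by
    have key : ∀ j j', j < j' → Disjoint (Fst δ (u - b) W z j) (Fst δ (u - b) W z j') := by
      intro j j' hj
      refine Set.disjoint_left.2 fun ω h1 h2 => ?_
      exact absurd (h2.2 j hj) (not_lt.2 h1.1)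
    intro j j' hj
    rcases lt_or_gt_of_ne hj with h | h
    · exact key j j' h
    · exact (key j' j h).symm
  -- `U` is above `u - b` before `i` and above `u - L` between `i` and the stopping index
  have hUi : ∀ ω ∈ A, ∀ l < i, u - 1 / 4 ≤ Uf (fun v => W v ω) z (l * δ) := by
    intro ω hω l hl
    exact (hAU ω hω).1.trans (Uf_le (hW.cont ω) (by (clear * - hδ; positivity)) (by (clear * - hl hδ; gcongr))
      ((hAK hω).1 i le_rfl).1)
  have hlow : ∀ j, ∀ l < j, ∀ ω ∈ A ∩ E j, ω ∉ Fst δ (u - b) W z l := by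
    rintro j l hl ω ⟨hωA, hωE⟩ hωF
    have h1 := hωF.1
    rcases lt_or_ge l i with h | h
    · have := hUi ω hωA l h
      linarith only [hLL, hb, h1, this]
    · have := (hωE.2.2.2 l h hl).2
      linarith only [hb, h1, this]
  -- the part which drops
  have F5 : ∀ j, ∑ l ∈ Finset.range (N + 1), ∫⁻ ω in D j ∩ Fst δ (u - b) W z l, M l ω ∂P ≤
      ∫⁻ ω in D j, M j ω ∂P := by
    intro j
    rcases lt_or_ge j i with h | h
    · rw [hDi j h]
      simp only [empty_inter, Measure.restrict_empty, lintegral_zero_measure, Finset.sum_const_zero, Std.le_refl]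
    · refine oneScale_stop h0 h4 hW z hδ.le j N (mD j h) (fun l => oneScale_Fst hW hδ.le _ z l) dF
        fun l hl => ?_
      refine eq_empty_iff_forall_notMem.2 fun ω hω => ?_
      exact hlow j l hl ω hω.1.1 hω.2
  -- the recovered part
  have F6 : ∀ j, ∑ l ∈ Finset.range (N + 1),
      ∫⁻ ω in B j ∩ (Fst δ (u - b) W z l ∩ NG κ C₁ R ε u W z (l * δ)), M l ω ∂P ≤
      ENNReal.ofReal (1 - q₁) * ∫⁻ ω in B j, M j ω ∂P := by
    intro j
    rcases lt_or_ge j i with h | h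
    · rw [hBi j h]
      simp only [empty_inter, Measure.restrict_empty, lintegral_zero_measure, Finset.sum_const_zero, mul_zero, Std.le_refl]
    · have mf : Measurable[past W (j * δ)] (fun ω => oneScale_idx τ₁ δ
          (Zf (fun v => W v ω) z (j * δ), Uf (fun v => W v ω) z (j * δ))) :=
        (oneScale_idx_meas τ₁ δ).comp (oneScale_state hW (by (clear * - hδ; positivity)) z)
      have mq : ∀ q, MeasurableSet[past W (j * δ)] (B j ∩ {ω | oneScale_idx τ₁ δ
          (Zf (fun v => W v ω) z (j * δ), Uf (fun v => W v ω) z (j * δ)) = q}) := fun q =>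
        MeasurableSet.inter (mB j h) (mf (measurableSet_singleton q))
      refine oneScale_split (fun q => hW.past_le _ (mq q)) fun q => ?_
      rcases (B j ∩ {ω | oneScale_idx τ₁ δ
          (Zf (fun v => W v ω) z (j * δ), Uf (fun v => W v ω) z (j * δ)) = q}).eq_empty_or_nonempty
        with he | ⟨ω₀, hω₀⟩
      · rw [he]
        simp only [empty_inter, Measure.restrict_empty, lintegral_zero_measure, Finset.sum_const_zero, mul_zero, Std.le_refl]
      · have cell : ∀ ω ∈ B j ∩ {ω | oneScale_idx τ₁ δ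
            (Zf (fun v => W v ω) z (j * δ), Uf (fun v => W v ω) z (j * δ)) = q}, _ :=
          fun ω hω => oneScale_cell hτ hδ hϰ hd3 (hω.1.1.2.1.1 j le_rfl).2.1
            (not_lt.1 hω.1.2) hω.2
        have win := oneScale_window hW hδ hϰ hd2 hLL hω₀.1.1.2.1 hω₀.1.1.2.2
          (hAU ω₀ hω₀.1.1.1).1 (hAU ω₀ hω₀.1.1.1).2
        obtain ⟨c1, c2, c3, c4, c5, c6⟩ := cell ω₀ hω₀
        have H' := H hW (Zs := oneScale_ctr τ₁ δ q) (v := q.2.2) (j := j) (m := q.1) (N := N)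
          c1 c2 hz1 hR hε hε1 hδ c3 (by linarith only [win, c6]) (by linarith only [win, c5]) (mq q)
          (fun ω hω => ⟨(hω.1.1.2.1.1 j le_rfl).1, (cell ω hω).2.2.2.1, (cell ω hω).2.2.2.2.1,
            (cell ω hω).2.2.2.2.2⟩)
        simpa only [← inter_assoc] using H'
  -- the covering
  have F7 : ∀ l ∈ Finset.range (N + 1),
      ∫⁻ ω in A ∩ NK ϰ c δ W z l ∩ Fst δ (u - b) W z l ∩ NG κ (2 * C₁) R ε u W z (l * δ),
        M l ω ∂P ≤
      ∑ j ∈ Finset.range (N + 1), (∫⁻ ω in D j ∩ Fst δ (u - b) W z l, M l ω ∂P +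
        ∫⁻ ω in B j ∩ (Fst δ (u - b) W z l ∩ NG κ C₁ R ε u W z (l * δ)), M l ω ∂P) := by
    intro l hl
    refine (oneScale_cover (Finset.range (N + 1)) (fun j => D j ∩ Fst δ (u - b) W z l ∪
      B j ∩ (Fst δ (u - b) W z l ∩ NG κ C₁ R ε u W z (l * δ))) (M l) ?_).trans
      (Finset.sum_le_sum fun j _ => lintegral_union_le _ _ _)
    rintro ω ⟨⟨⟨hωA, hωN⟩, hωF⟩, hωG⟩
    have hωG' := oneScale_NG h0 (by linarith only [h4]) hW hC1 hz hRpos hε (by (clear * - hδ; positivity)) hωG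
    have hil : i ≤ l := by
      by_contra hcon
      have h1 := hUi ω hωA l (not_le.1 hcon)
      have h2 := hωF.1
      linarith only [hLL, hb, h1, h2]
    classical
    have hex : ∃ j, i ≤ j ∧ (1 / 2 ≤ sn (Zf (fun v => W v ω) z (j * δ)) ^ 2 ∨
        Uf (fun v => W v ω) z (j * δ) ≤ u - LL κ) := ⟨l, hil, Or.inr (by
          have h2 := hωF.1
          linarith only [hb, h2])⟩
    have hjl : Nat.find hex ≤ l := Nat.find_min' hex ⟨hil, Or.inr (by
          have h2 := hωF.1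
          linarith only [hb, h2])⟩
    have hωE : ω ∈ E (Nat.find hex) := by
      refine ⟨⟨fun k hk => hωN.1 k (hk.trans hjl), fun k hk => hωN.2 k (hk.trans_le hjl)⟩,
        (Nat.find_spec hex).1, (Nat.find_spec hex).2, fun k hk hk' => ?_⟩
      have h3 := Nat.find_min hex hk'
      rw [not_and, not_or, not_le, not_le] at h3
      exact h3 hk
    rw [mem_iUnion₂]
    refine ⟨Nat.find hex, Finset.mem_range.2 (lt_of_le_of_lt hjl (Finset.mem_range.1 hl)), ?_⟩
    by_cases hg : ω ∈ G (Nat.find hex)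
    · exact Or.inl ⟨⟨⟨hωA, hωE⟩, hg⟩, hωF⟩
    · exact Or.inr ⟨⟨⟨hωA, hωE⟩, hg⟩, hωF, hωG'⟩
  -- the sums
  have S1 : ∑ j ∈ Finset.range (N + 1), ∫⁻ ω in D j, M j ω ∂P +
      ∑ j ∈ Finset.range (N + 1), ∫⁻ ω in B j, M j ω ∂P ≤ ∫⁻ ω in A, M i ω ∂P := by
    have h1 := oneScale_stop h0 h4 hW z hδ.le i N hA mE dE' fun l hl => by rw [hEi l hl]; simp
    refine le_trans (le_of_eq ?_) h1
    rw [← Finset.sum_add_distrib]
    exact Finset.sum_congr rfl fun j _ =>
      lintegral_inter_add_sdiff _ _ (hW.past_le _ (mG j))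
  have S2 : ∑ j ∈ Finset.range (N + 1), ∫⁻ ω in D j, M j ω ∂P ≤
      ENNReal.ofReal (1 / 2) * ∫⁻ ω in A, M i ω ∂P + ENNReal.ofReal η * P A := by
    refine le_trans (le_of_eq ?_) Hd'
    refine Finset.sum_congr rfl fun j _ => ?_
    simp only [hD, hE, hG, inter_assoc, hM]
  have S3 := oneScale_arith hq0 hq1 S1 S2
  calc ∑ l ∈ Finset.range (N + 1),
        ∫⁻ ω in A ∩ NK ϰ c δ W z l ∩ Fst δ (u - b) W z l ∩ NG κ (2 * C₁) R ε u W z (l * δ),
          M l ω ∂P
      ≤ ∑ l ∈ Finset.range (N + 1), ∑ j ∈ Finset.range (N + 1),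
          (∫⁻ ω in D j ∩ Fst δ (u - b) W z l, M l ω ∂P +
            ∫⁻ ω in B j ∩ (Fst δ (u - b) W z l ∩ NG κ C₁ R ε u W z (l * δ)), M l ω ∂P) :=
        Finset.sum_le_sum F7
    _ = ∑ j ∈ Finset.range (N + 1), (∑ l ∈ Finset.range (N + 1),
          ∫⁻ ω in D j ∩ Fst δ (u - b) W z l, M l ω ∂P + ∑ l ∈ Finset.range (N + 1),
            ∫⁻ ω in B j ∩ (Fst δ (u - b) W z l ∩ NG κ C₁ R ε u W z (l * δ)), M l ω ∂P) := by
        rw [Finset.sum_comm]
        exact Finset.sum_congr rfl fun j _ => Finset.sum_add_distrib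
    _ ≤ ∑ j ∈ Finset.range (N + 1), (∫⁻ ω in D j, M j ω ∂P +
          ENNReal.ofReal (1 - q₁) * ∫⁻ ω in B j, M j ω ∂P) :=
        Finset.sum_le_sum fun j _ => add_le_add (F5 j) (F6 j)
    _ = ∑ j ∈ Finset.range (N + 1), ∫⁻ ω in D j, M j ω ∂P +
          ENNReal.ofReal (1 - q₁) * ∑ j ∈ Finset.range (N + 1), ∫⁻ ω in B j, M j ω ∂P := by
        rw [Finset.sum_add_distrib, Finset.mul_sum]
    _ ≤ ENNReal.ofReal (1 - q₁ / 2) * ∫⁻ ω in A, M i ω ∂P + ENNReal.ofReal η * P A := S3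
    _ ≤ ENNReal.ofReal (1 - Real.exp (-(2 * C₁) * R ^ 2) / (2 * C₁)) * ∫⁻ ω in A, M i ω ∂P +
          ENNReal.ofReal η * P A := by
        have h1 : Real.exp (-(2 * C₁) * R ^ 2) ≤ Real.exp (-C₁ * R ^ 2) := by
          refine Real.exp_le_exp.2 ?_
          have : 0 ≤ C₁ * R ^ 2 := by positivity
          linarith only [this]
        have h2 : Real.exp (-(2 * C₁) * R ^ 2) / (2 * C₁) ≤ q₁ / 2 :=
          calc Real.exp (-(2 * C₁) * R ^ 2) / (2 * C₁) ≤ Real.exp (-C₁ * R ^ 2) / (2 * C₁) := by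
                (clear * - h1 hC1; gcongr)
            _ = q₁ / 2 := by
                rw [hq₁]
                ring
        refine add_le_add (mul_le_mul_left ?_ _) le_rfl
        exact ENNReal.ofReal_le_ofReal (by linarith only [h2])

end Vale.Agent.P164.E8
end

section

/-!
# Iteration over scales (`0 < κ < 8`)
-/

namespace Vale.Agent.P164.E8

open Set Metric Filter Topology MeasureTheory ProbabilityTheory
open scoped NNReal ENNReal

section

variable {Ω : Type*} [mΩ : MeasurableSpace Ω] {P : Measure Ω} {W : ℝ → Ω → ℝ} {κ : ℝ}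

lemma iterate_NG_anti (h0 : 0 < κ) (h4 : κ < 8) (hW : IsDrv κ P W) {C R ε u s t : ℝ}
    (hε : 0 < ε) {z : ℂ} (hz : C * Real.exp u < z.im) (hs : 0 ≤ s) (hst : s ≤ t) :
    NG κ C R ε u W z t ⊆ NG κ C R ε u W z s := by
  intro ω hω
  have hω' : mu κ ε (fun v => W v ω) (ball z (C * Real.exp u)) 0 t <
    R ^ xx κ * Real.exp (dd κ * u) / C := hω
  change mu κ ε (fun v => W v ω) (ball z (C * Real.exp u)) 0 s <
    R ^ xx κ * Real.exp (dd κ * u) / C
  refine lt_of_le_of_lt ?_ hω'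
  have hW' := hW.cont ω
  have him : ∀ w ∈ ball z (C * Real.exp u), 0 < w.im := by
    intro w hw
    rw [mem_ball, Complex.dist_eq] at hw
    have h1 := (abs_le.1 (Complex.abs_im_le_norm (w - z))).1
    rw [Complex.sub_im] at h1
    linarith only [hz, hw, h1]
  have hv : volume (ball z (C * Real.exp u)) ≠ ⊤ := measure_ball_lt_top.ne
  refine setIntegral_mono_on (yc_integrableOn h0 (by linarith only [h4]) hε hW' measurableSet_ball him hv
    le_rfl hs) (yc_integrableOn h0 (by linarith only [h4]) hε hW' measurableSet_ball him hv le_rfl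
    (hs.trans hst)) measurableSet_ball fun w hw => ?_
  have h1 := yc_add (κ := κ) (r := ε) (W := fun u => W u ω) h0 (by linarith only [h4]) hε hW' (him w hw)
    (le_refl 0) hs hst
  have h2 := yc_nonneg (κ := κ) (r := ε) (W := fun u => W u ω) (z := w) hs hst
  linarith only [h1, h2]

/-- The induction over the scales. -/
lemma iterate_claim (h0 : 0 < κ) (h4 : κ < 8) (hW : IsDrv κ P W) {z : ℂ}
    {b C R ε ϰ c δ η p u₀ : ℝ} {K N : ℕ} (hb : 1 ≤ b) (hC : 1 ≤ C) (hε : 0 < ε) (hϰ : 0 < ϰ)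
    (hδ : 0 < δ) (hδϰ : δ ≤ ϰ ^ 2 / 16) (hη : 0 ≤ η) (hp0 : 0 ≤ p) (hp1 : p ≤ 1)
    (hz : C * Real.exp u₀ < z.im)
    (hone : ∀ k < K, ∀ i ≤ N, ∀ A : Set Ω, MeasurableSet[past W (i * δ)] A →
      A ⊆ NK ϰ c δ W z i →
      (∀ ω ∈ A, u₀ - b * k - 1 / 4 ≤ Uf (fun v => W v ω) z (i * δ) ∧
        Uf (fun v => W v ω) z (i * δ) ≤ u₀ - b * k) →
      ∑ l ∈ Finset.range (N + 1),
        ∫⁻ ω in A ∩ NK ϰ c δ W z l ∩ Fst δ (u₀ - b * k - b) W z l ∩
            NG κ C R ε (u₀ - b * k) W z (l * δ),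
          ENNReal.ofReal (St (MM κ) (fun v => W v ω) z (l * δ)) ∂P ≤
        ENNReal.ofReal (1 - p) *
          ∫⁻ ω in A, ENNReal.ofReal (St (MM κ) (fun v => W v ω) z (i * δ)) ∂P +
        ENNReal.ofReal η * P A) :
    ∀ m k : ℕ, k + m = K → ∀ i ≤ N, ∀ A : Set Ω, MeasurableSet[past W (i * δ)] A →
      A ⊆ NK ϰ c δ W z i → A ⊆ Fst δ (u₀ - b * k) W z i →
      (∀ ω ∈ A, u₀ - b * k - 1 / 4 ≤ Uf (fun v => W v ω) z (i * δ)) →
      ∑ l ∈ Finset.range (N + 1),
        ∫⁻ ω in A ∩ (NK ϰ c δ W z l ∩ Fst δ (u₀ - b * K) W z l ∩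
            ⋂ k' ∈ Finset.Ico k K, NG κ C R ε (u₀ - b * k') W z (l * δ)),
          ENNReal.ofReal (St (MM κ) (fun v => W v ω) z (l * δ)) ∂P ≤
        ENNReal.ofReal ((1 - p) ^ m) *
          ∫⁻ ω in A, ENNReal.ofReal (St (MM κ) (fun v => W v ω) z (i * δ)) ∂P +
        ENNReal.ofReal (m * η) * P A := by
  intro m
  induction m with
  | zero =>
    intro k hk i hi A hA hAN hAF hAU
    have hkK : k = K := by omega
    subst hkK
    have h1 : ∀ l ∈ Finset.range (N + 1), l ≠ i →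
        ∫⁻ ω in A ∩ (NK ϰ c δ W z l ∩ Fst δ (u₀ - b * k) W z l ∩
            ⋂ k' ∈ Finset.Ico k k, NG κ C R ε (u₀ - b * k') W z (l * δ)),
          ENNReal.ofReal (St (MM κ) (fun v => W v ω) z (l * δ)) ∂P = 0 := by
      intro l _ hl
      have : A ∩ (NK ϰ c δ W z l ∩ Fst δ (u₀ - b * k) W z l ∩
            ⋂ k' ∈ Finset.Ico k k, NG κ C R ε (u₀ - b * k') W z (l * δ)) = ∅ := by
        refine Set.eq_empty_iff_forall_notMem.2 ?_
        rintro ω ⟨hω, ⟨-, h2⟩, -⟩
        exact hl (iterate_Fst_eq h2 (hAF hω))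
      rw [this]
      simp only [Measure.restrict_empty, lintegral_zero_measure]
    rw [Finset.sum_eq_single_of_mem i (Finset.mem_range.2 (by omega)) h1]
    simp only [pow_zero, ENNReal.ofReal_one, one_mul, Nat.cast_zero, zero_mul,
      ENNReal.ofReal_zero, add_zero]
    exact lintegral_mono_set inter_subset_left
  | succ m ih =>
    intro k hk i hi A hA hAN hAF hAU
    have hkK : k < K := by omega
    have hexp : ∀ k' : ℕ, C * Real.exp (u₀ - b * k') < z.im := by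
      intro k'
      refine lt_of_le_of_lt ?_ hz
      have : (0 : ℝ) ≤ b * k' := by (clear * - hb; positivity)
      gcongr
      linarith only [this]
    set AA : ℕ → Set Ω := fun l => A ∩ NK ϰ c δ W z l ∩ Fst δ (u₀ - b * k - b) W z l ∩
            NG κ C R ε (u₀ - b * k) W z (l * δ) with hAA
    have hub : u₀ - b * ((k + 1 : ℕ) : ℝ) = u₀ - b * k - b := by push_cast; ring
    have halive : ∀ ω ∈ A, z ∈ loewnerDomain (fun v => W v ω) (i * δ) := fun ω hω =>
      ((hAN hω).1 i le_rfl).1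
    -- the first index is larger than `i`
    have hgt : ∀ l, ∀ ω ∈ A, ω ∈ Fst δ (u₀ - b * k - b) W z l → i < l := by
      intro l ω hω hF
      by_contra hcon
      have hli : (l : ℝ) * δ ≤ i * δ :=
        mul_le_mul_of_nonneg_right (by exact_mod_cast not_lt.1 hcon) hδ.le
      have h1 := Uf_le (hW.cont ω) (by (clear * - hδ; positivity)) hli (halive ω hω)
      have h2 := hAU ω hω
      have h3 := hF.1
      linarith only [hb, h1, h2, h3]
    have hAAmeas : ∀ l : ℕ, MeasurableSet[past W (l * δ)] (AA l) := by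
      intro l
      by_cases hil : i < l
      · have hli : (i : ℝ) * δ ≤ l * δ :=
          mul_le_mul_of_nonneg_right (by exact_mod_cast hil.le) hδ.le
        have m1 : MeasurableSet[past W (l * δ)] A := past_mono hli _ hA
        have m2 : MeasurableSet[past W (l * δ)] (NK ϰ c δ W z l) := iterate_NK_meas hW hδ.le z l
        have m3 : MeasurableSet[past W (l * δ)] (Fst δ (u₀ - b * k - b) W z l) :=
          iterate_Fst_meas hW hδ.le _ z l
        have m4 : MeasurableSet[past W (l * δ)] (NG κ C R ε (u₀ - b * k) W z (l * δ)) :=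
          iterate_NG_meas hW (by (clear * - hδ; positivity)) z
        exact @MeasurableSet.inter Ω (past W (l * δ)) _ _ (@MeasurableSet.inter Ω (past W (l * δ))
          _ _ (@MeasurableSet.inter Ω (past W (l * δ)) _ _ m1 m2) m3) m4
      · have : AA l = ∅ := by
          refine Set.eq_empty_iff_forall_notMem.2 ?_
          rintro ω ⟨⟨⟨hω, -⟩, hF⟩, -⟩
          exact absurd (hgt l ω hω hF) hil
        rw [this]
        exact @MeasurableSet.empty Ω (past W (l * δ))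
    have hAAmeas' : ∀ l, MeasurableSet (AA l) := fun l => hW.past_le _ (hAAmeas l)
    -- the induction hypothesis applied to each piece
    have hI : ∀ l ∈ Finset.range (N + 1),
        ∑ l' ∈ Finset.range (N + 1),
          ∫⁻ ω in AA l ∩ (A ∩ (NK ϰ c δ W z l' ∩ Fst δ (u₀ - b * K) W z l' ∩
            ⋂ k' ∈ Finset.Ico k K, NG κ C R ε (u₀ - b * k') W z (l' * δ))),
          ENNReal.ofReal (St (MM κ) (fun v => W v ω) z (l' * δ)) ∂P ≤
        ENNReal.ofReal ((1 - p) ^ m) *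
          ∫⁻ ω in AA l, ENNReal.ofReal (St (MM κ) (fun v => W v ω) z (l * δ)) ∂P +
        ENNReal.ofReal (m * η) * P (AA l) := by
      intro l hl
      refine le_trans (Finset.sum_le_sum fun l' _ => lintegral_mono_set ?_)
        (ih (k + 1) (by omega) l (Nat.lt_succ_iff.1 (Finset.mem_range.1 hl)) (AA l) (hAAmeas l)
          (fun ω hω => hω.1.1.2) (fun ω hω => by rw [hub]; exact hω.1.2) ?_)
      · rintro ω ⟨h1, -, ⟨h2, h3⟩, h5⟩
        refine ⟨h1, ⟨h2, h3⟩, ?_⟩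
        simp only [Finset.mem_Ico, mem_iInter] at h5 ⊢
        exact fun k' hk' => h5 k' ⟨by omega, hk'.2⟩
      · intro ω hω
        rw [hub]
        have h1 := hgt l ω hω.1.1.1 hω.1.2
        obtain ⟨l0, rfl⟩ : ∃ l0, l = l0 + 1 := ⟨l - 1, by omega⟩
        have h2 := iterate_step hW hϰ hδ.le hδϰ hω.1.1.2
        have h3 := hω.1.2.2 l0 (by omega)
        linarith only [h2, h3]
    -- decomposition
    have hdec := iterate_decomp (P := P)
      (fun l ω => ENNReal.ofReal (St (MM κ) (fun v => W v ω) z (l * δ))) N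
      (fun l => A ∩ (NK ϰ c δ W z l ∩ Fst δ (u₀ - b * K) W z l ∩
            ⋂ k' ∈ Finset.Ico k K, NG κ C R ε (u₀ - b * k') W z (l * δ))) AA (by
        rintro l hl ω ⟨hω, ⟨h2, h3⟩, h5⟩
        have hKk : u₀ - b * K ≤ u₀ - b * k - b := by
          rw [← hub]
          have : ((k + 1 : ℕ) : ℝ) ≤ K := by exact_mod_cast hkK
          nlinarith only [this, hb]
        obtain ⟨l', hl', hF⟩ := iterate_Fst_exists (u := u₀ - b * k - b) (h3.1.trans hKk)
        simp only [mem_iUnion, Finset.mem_range]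
        refine ⟨l', by omega, ⟨⟨hω, iterate_NK_anti hl' h2⟩, hF⟩, ?_⟩
        simp only [mem_iInter, Finset.mem_Ico] at h5
        have hl'' : (l' : ℝ) * δ ≤ l * δ :=
          mul_le_mul_of_nonneg_right (by exact_mod_cast hl') hδ.le
        exact iterate_NG_anti h0 h4 hW hε (hexp k) (by (clear * - hδ; positivity)) hl'' (h5 k ⟨le_rfl, hkK⟩))
    have hsum1 := hone k hkK i hi A hA hAN fun ω hω => ⟨hAU ω hω, (hAF hω).1⟩
    have hdisj : ∑ l ∈ Finset.range (N + 1), P (AA l) ≤ P A := by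
      rw [← measure_biUnion_finset (fun l _ l' _ hne => ?_) (fun l _ => hAAmeas' l)]
      · refine measure_mono (iUnion₂_subset fun l _ ω hω => hω.1.1.1)
      · refine Set.disjoint_left.2 fun ω hω hω' => hne ?_
        exact iterate_Fst_eq hω.1.2 hω'.1.2
    have hq0 : 0 ≤ 1 - p := by linarith only [hp1]
    have hqm : (1 - p) ^ m ≤ 1 := pow_le_one₀ hq0 (by linarith only [hp0])
    calc _ ≤ ∑ l ∈ Finset.range (N + 1), (ENNReal.ofReal ((1 - p) ^ m) *
          ∫⁻ ω in AA l, ENNReal.ofReal (St (MM κ) (fun v => W v ω) z (l * δ)) ∂P +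
        ENNReal.ofReal (m * η) * P (AA l)) := hdec.trans (Finset.sum_le_sum hI)
      _ = ENNReal.ofReal ((1 - p) ^ m) * (∑ l ∈ Finset.range (N + 1),
          ∫⁻ ω in AA l, ENNReal.ofReal (St (MM κ) (fun v => W v ω) z (l * δ)) ∂P) +
        ENNReal.ofReal (m * η) * ∑ l ∈ Finset.range (N + 1), P (AA l) := by
          rw [Finset.sum_add_distrib, Finset.mul_sum, Finset.mul_sum]
      _ ≤ ENNReal.ofReal ((1 - p) ^ m) * (ENNReal.ofReal (1 - p) *
          ∫⁻ ω in A, ENNReal.ofReal (St (MM κ) (fun v => W v ω) z (i * δ)) ∂P +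
        ENNReal.ofReal η * P A) + ENNReal.ofReal (m * η) * P A := by (clear * - hsum1 hdisj; gcongr)
      _ ≤ ENNReal.ofReal ((1 - p) ^ (m + 1)) *
          ∫⁻ ω in A, ENNReal.ofReal (St (MM κ) (fun v => W v ω) z (i * δ)) ∂P +
        ENNReal.ofReal ((m + 1 : ℕ) * η) * P A := by
          have e1 : ENNReal.ofReal ((1 - p) ^ (m + 1)) =
              ENNReal.ofReal ((1 - p) ^ m) * ENNReal.ofReal (1 - p) := by
            rw [← ENNReal.ofReal_mul (by (clear * - hp1; positivity)), pow_succ]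
          have e2 : ENNReal.ofReal ((m + 1 : ℕ) * η) = ENNReal.ofReal η +
              ENNReal.ofReal (m * η) := by
            rw [← ENNReal.ofReal_add hη (by (clear * - hη; positivity))]
            congr 1
            push_cast
            ring
          have e3 : ENNReal.ofReal ((1 - p) ^ m) ≤ 1 := by
            rw [← ENNReal.ofReal_one]
            exact ENNReal.ofReal_le_ofReal hqm
          have e4 : ENNReal.ofReal ((1 - p) ^ m) * (ENNReal.ofReal η * P A) ≤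
              ENNReal.ofReal η * P A := by
            calc ENNReal.ofReal ((1 - p) ^ m) * (ENNReal.ofReal η * P A)
                ≤ 1 * (ENNReal.ofReal η * P A) := mul_le_mul_left e3 _
              _ = _ := one_mul _
          rw [e1, e2]
          calc _ = ENNReal.ofReal ((1 - p) ^ m) * ENNReal.ofReal (1 - p) *
                ∫⁻ ω in A, ENNReal.ofReal (St (MM κ) (fun v => W v ω) z (i * δ)) ∂P +
              ENNReal.ofReal ((1 - p) ^ m) * (ENNReal.ofReal η * P A) +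
              ENNReal.ofReal (m * η) * P A := by ring
            _ ≤ ENNReal.ofReal ((1 - p) ^ m) * ENNReal.ofReal (1 - p) *
                ∫⁻ ω in A, ENNReal.ofReal (St (MM κ) (fun v => W v ω) z (i * δ)) ∂P +
              ENNReal.ofReal η * P A +
              ENNReal.ofReal (m * η) * P A := add_le_add (add_le_add le_rfl e4) le_rfl
            _ = _ := by ring

end

/-- Iteration of the one-scale inequality over `K` scales `u₀ - b k`, `k < K`, from time `0`. -/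
theorem iterate_scales {κ : ℝ} (h0 : 0 < κ) (h4 : κ < 8) :
    ∃ b C R₀ : ℝ, 1 ≤ b ∧ 1 ≤ C ∧ 1 ≤ R₀ ∧
      ∀ {Ω : Type*} [MeasurableSpace Ω] {P : Measure Ω} {W : ℝ → Ω → ℝ} (_ : IsDrv κ P W)
      {z : ℂ} {T u₀ R ε ϰ η : ℝ} {K : ℕ} (_ : 0 < T) (_ : C * Real.exp u₀ < z.im) (_ : R₀ ≤ R)
      (_ : 0 < ε) (_ : ε ≤ Real.exp (u₀ - b * K) / (C * R)) (_ : 0 < ϰ) (_ : 0 < η),
      ∃ c₀ > 0, ∃ δ₀ > 0, ∀ c, 0 < c → c ≤ c₀ → ∀ δ, 0 < δ → δ ≤ δ₀ → ∀ N : ℕ, N * δ ≤ T →
        ∑ l ∈ Finset.range (N + 1),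
          ∫⁻ ω in NK ϰ c δ W z l ∩ Fst δ (u₀ - b * K) W z l ∩
              ⋂ k ∈ Finset.range K, NG κ C R ε (u₀ - b * k) W z (l * δ),
            ENNReal.ofReal (St (MM κ) (fun v => W v ω) z (l * δ)) ∂P ≤
          ENNReal.ofReal ((1 - Real.exp (-C * R ^ 2) / C) ^ K) *
            ENNReal.ofReal (Real.exp (-xx κ * Real.log z.im)) + ENNReal.ofReal η := by
  obtain ⟨b, C, R₀, hb, hC, hR₀, H⟩ := one_scale h0 h4
  refine ⟨b, C, R₀, hb, hC, hR₀, ?_⟩
  intro Ω _ P W hW z T u₀ R ε ϰ η K hT hz hR hε hε2 hϰ hη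
  have hprob := hW.prob
  have hC0 : 0 < C := by linarith only [hC]
  have hR0 : 0 < R := by linarith only [hR₀, hR]
  have hexp : ∀ k : ℕ, C * Real.exp (u₀ - b * k) < z.im := by
    intro k
    refine lt_of_le_of_lt ?_ hz
    have : (0 : ℝ) ≤ b * k := by (clear * - hb; positivity)
    gcongr
    linarith only [this]
  have hη' : 0 < η / (K + 1) := by (clear * - hη; positivity)
  have h1 := iterate_min (K := K) fun k hk => H hW (z := z) (T := T) (u := u₀ - b * k)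
    (R := R) (ε := ε) (ϰ := ϰ) (η := η / (K + 1)) hT (hexp k) hR hε (hε2.trans (by
      have : ((k + 1 : ℕ) : ℝ) ≤ K := by exact_mod_cast hk
      push_cast at this
      refine div_le_div_of_nonneg_right (Real.exp_le_exp.2 ?_) (by (clear * - hC hR0; positivity))
      nlinarith only [this, hb])) hϰ hη'
  obtain ⟨c₀, hc₀, δ₁, hδ₁, H1⟩ := h1
  refine ⟨c₀, hc₀, min δ₁ (ϰ ^ 2 / 16), by (clear * - hδ₁ hϰ; positivity), ?_⟩
  intro c hc hcc δ hδ hδδ N hN
  have H2 := H1 c hc hcc δ hδ (hδδ.trans (min_le_left _ _))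
  have hδϰ : δ ≤ ϰ ^ 2 / 16 := hδδ.trans (min_le_right _ _)
  set p : ℝ := Real.exp (-C * R ^ 2) / C with hp
  have hp0 : 0 ≤ p := by rw [hp]; positivity
  have hp1 : p ≤ 1 := by
    rw [hp, div_le_one hC0]
    refine le_trans (Real.exp_le_one_iff.2 ?_) hC
    have : 0 ≤ C * R ^ 2 := by positivity
    linarith only [this]
  have hzpos : 0 < z.im := lt_trans (by positivity) hz
  have hlogz : u₀ < Real.log z.im := by
    rw [Real.lt_log_iff_exp_lt hzpos]
    refine lt_of_le_of_lt ?_ hz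
    exact le_mul_of_one_le_left (Real.exp_pos _).le hC
  have claim := iterate_claim (N := N) h0 h4 hW hb hC hε hϰ hδ hδϰ hη'.le hp0 hp1 hz
    (fun k hk i hi A hA hAN hAU => H2 k hk N hN i hi A hA hAN hAU) K 0 (by omega)
  -- decomposition at the first index with `U ≤ u₀`
  set BB : ℕ → Set Ω := fun l => NK ϰ c δ W z l ∩ Fst δ u₀ W z l with hBB
  have hBBmeas : ∀ l : ℕ, MeasurableSet[past W (l * δ)] (BB l) := by
    intro l
    have m2 : MeasurableSet[past W (l * δ)] (NK ϰ c δ W z l) := iterate_NK_meas hW hδ.le z l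
    have m3 : MeasurableSet[past W (l * δ)] (Fst δ u₀ W z l) :=
      iterate_Fst_meas hW hδ.le _ z l
    exact @MeasurableSet.inter Ω (past W (l * δ)) _ _ m2 m3
  have hBBmeas' : ∀ l, MeasurableSet (BB l) := fun l => hW.past_le _ (hBBmeas l)
  have hBdisj : Pairwise fun i j => Disjoint (BB i) (BB j) := by
    intro l l' hne
    refine Set.disjoint_left.2 fun ω hω hω' => hne ?_
    exact iterate_Fst_eq hω.2 hω'.2
  have hu0 : u₀ - b * ((0 : ℕ) : ℝ) = u₀ := by simp only [CharP.cast_eq_zero, mul_zero, sub_zero]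
  have hI : ∀ l ∈ Finset.range (N + 1),
      ∑ l' ∈ Finset.range (N + 1),
        ∫⁻ ω in BB l ∩ (NK ϰ c δ W z l' ∩ Fst δ (u₀ - b * K) W z l' ∩
          ⋂ k' ∈ Finset.range K, NG κ C R ε (u₀ - b * k') W z (l' * δ)),
        ENNReal.ofReal (St (MM κ) (fun v => W v ω) z (l' * δ)) ∂P ≤
      ENNReal.ofReal ((1 - p) ^ K) *
        ∫⁻ ω in BB l, ENNReal.ofReal (St (MM κ) (fun v => W v ω) z (l * δ)) ∂P +
      ENNReal.ofReal (K * (η / (K + 1))) * P (BB l) := by
    intro l hl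
    refine le_trans (Finset.sum_le_sum fun l' _ => lintegral_mono_set ?_)
      (claim l (Nat.lt_succ_iff.1 (Finset.mem_range.1 hl)) (BB l) (hBBmeas l)
        (fun ω hω => hω.1) (fun ω hω => by rw [hu0]; exact hω.2) ?_)
    · rintro ω ⟨h1, ⟨h2, h3⟩, h5⟩
      refine ⟨h1, ⟨h2, h3⟩, ?_⟩
      simp only [mem_iInter, Finset.mem_Ico, Finset.mem_range] at h5 ⊢
      exact fun k' hk' => h5 k' hk'.2
    · intro ω hω
      rw [hu0]
      rcases Nat.eq_zero_or_pos l with rfl | hl0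
      · exfalso
        have h2 := hω.2.1
        simp only [Nat.cast_zero, zero_mul, Uf_zero] at h2
        linarith only [hlogz, h2]
      obtain ⟨l0, rfl⟩ : ∃ l0, l = l0 + 1 := ⟨l - 1, by omega⟩
      have h2 := iterate_step hW hϰ hδ.le hδϰ hω.1
      have h3 := hω.2.2 l0 (by omega)
      linarith only [h2, h3]
  have hdec := iterate_decomp (P := P)
    (fun l ω => ENNReal.ofReal (St (MM κ) (fun v => W v ω) z (l * δ))) N
    (fun l => NK ϰ c δ W z l ∩ Fst δ (u₀ - b * K) W z l ∩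
          ⋂ k' ∈ Finset.range K, NG κ C R ε (u₀ - b * k') W z (l * δ)) BB (by
      rintro l hl ω ⟨⟨h2, h3⟩, h5⟩
      have hKk : u₀ - b * K ≤ u₀ := by
        have : (0 : ℝ) ≤ b * K := by (clear * - hb; positivity)
        linarith only [this]
      obtain ⟨l', hl', hF⟩ := iterate_Fst_exists (u := u₀) (h3.1.trans hKk)
      simp only [Finset.mem_range, mem_iUnion]
      exact ⟨l', by omega, iterate_NK_anti hl' h2, hF⟩)
  have hsum : ∑ l ∈ Finset.range (N + 1), P (BB l) ≤ 1 := by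
    rw [← measure_biUnion_finset (fun l _ l' _ hne => hBdisj hne) (fun l _ => hBBmeas' l)]
    exact prob_le_one
  have hopt : ∑ l ∈ Finset.range (N + 1),
      ∫⁻ ω in BB l, ENNReal.ofReal (St (MM κ) (fun v => W v ω) z (l * δ)) ∂P ≤
      ENNReal.ofReal (Real.exp (-xx κ * Real.log z.im)) := by
    have hop := optional_stopping (P := P) (A := Set.univ) (N := N)
      (V := fun i ω => ENNReal.ofReal (St (MM κ) (fun v => W v ω) z (i * δ)))
      (E := BB) (m := fun i : ℕ => past W (i * δ)) (@MeasurableSet.univ Ω _)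
      (fun i j hij => past_mono (mul_le_mul_of_nonneg_right (by exact_mod_cast hij) hδ.le))
      (fun i => hW.past_le) hBBmeas hBdisj (fun i S hS => by
        have : (i : ℝ) * δ ≤ ((i + 1 : ℕ) : ℝ) * δ := by push_cast; nlinarith only [hδ]
        exact MM_super h0 hW z (by (clear * - hδ; positivity)) this hS)
    simp only [univ_inter, Nat.cast_zero, zero_mul] at hop
    refine hop.trans ?_
    calc ∫⁻ ω in Set.univ, ENNReal.ofReal (St (MM κ) (fun v => W v ω) z 0) ∂P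
        ≤ ∫⁻ _ in Set.univ, ENNReal.ofReal (Real.exp (-xx κ * Real.log z.im)) ∂P := by
          refine lintegral_mono fun ω => ENNReal.ofReal_le_ofReal ?_
          rw [St_of_mem (dom_zero.2 hzpos), Uf_zero, MM]
          refine mul_le_of_le_one_right (Real.exp_pos _).le ?_
          refine Real.rpow_le_one ?_ (sn_le_one _) (be_nonneg h0 (by linarith only [h4]))
          exact (sn_pos (Zf_im_pos le_rfl (dom_zero.2 hzpos))).le
      _ = ENNReal.ofReal (Real.exp (-xx κ * Real.log z.im)) := by simp only [Measure.restrict_univ, neg_mul, lintegral_const, measure_univ, mul_one]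
  calc _ ≤ ∑ l ∈ Finset.range (N + 1), (ENNReal.ofReal ((1 - p) ^ K) *
        ∫⁻ ω in BB l, ENNReal.ofReal (St (MM κ) (fun v => W v ω) z (l * δ)) ∂P +
      ENNReal.ofReal (K * (η / (K + 1))) * P (BB l)) := hdec.trans (Finset.sum_le_sum hI)
    _ = ENNReal.ofReal ((1 - p) ^ K) * (∑ l ∈ Finset.range (N + 1),
        ∫⁻ ω in BB l, ENNReal.ofReal (St (MM κ) (fun v => W v ω) z (l * δ)) ∂P) +
      ENNReal.ofReal (K * (η / (K + 1))) * ∑ l ∈ Finset.range (N + 1), P (BB l) := by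
        rw [Finset.sum_add_distrib, Finset.mul_sum, Finset.mul_sum]
    _ ≤ ENNReal.ofReal ((1 - p) ^ K) * ENNReal.ofReal (Real.exp (-xx κ * Real.log z.im)) +
      ENNReal.ofReal (K * (η / (K + 1))) * 1 := by (clear * - hopt hsum; gcongr)
    _ ≤ ENNReal.ofReal ((1 - p) ^ K) * ENNReal.ofReal (Real.exp (-xx κ * Real.log z.im)) +
      ENNReal.ofReal η := by
        rw [mul_one]
        gcongr
        rw [mul_div_assoc', div_le_iff₀ (by (clear * -; positivity))]
        nlinarith only [hη]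

end Vale.Agent.P164.E8
end

section

/-!
# Probability that a cell is visited and has no good scale (`0 < κ < 8`)
-/

namespace Vale.Agent.P164.E8

open Set Metric Filter Topology MeasureTheory ProbabilityTheory
open scoped NNReal ENNReal

/-- Decomposition according to the first grid time with `U ≤ u`. -/
lemma BadCell_cover {κ : ℝ} (h8 : κ < 8) (h0 : 0 < κ) {Ω : Type*} {W : ℝ → Ω → ℝ}
    (hc : ∀ ω, Continuous fun t => W t ω) {z : ℂ} {T u ϰ c δ θ : ℝ} {N : ℕ}
    (hN : N * δ = T) (hδ : 0 < δ) (hϰ : 0 < ϰ) (hδϰ : 4 * δ / ϰ ^ 2 ≤ 1 / 4)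
    (hu : u < Real.log z.im) (hθ : 0 < θ) {G : ℝ → Set Ω}
    (hG : ∀ s t, 0 ≤ s → s ≤ t → G t ⊆ G s) :
    {ω | ∃ t ∈ Icc 0 T, z ∈ loewnerDomain (fun v => W v ω) t ∧
        Uf (fun v => W v ω) z t < u - 1} ∩ G T ⊆
      ({ω | ∃ t ∈ Icc 0 T, z ∈ loewnerDomain (fun v => W v ω) t ∧
        Uf (fun v => W v ω) z t < u - 1} \ ⋃ l ∈ Finset.range (N + 1),
          (NK ϰ c δ W z l ∩ {ω | Uf (fun v => W v ω) z (l * δ) ≤ u - 1})) ∪
      ⋃ l ∈ Finset.range (N + 1), (((NK ϰ c δ W z l ∩ Fst δ u W z l ∩ G (l * δ)) ∩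
          {ω | ENNReal.ofReal (Real.exp (-xx κ * u) * θ ^ be κ) ≤
            ENNReal.ofReal (St (MM κ) (fun v => W v ω) z (l * δ))}) ∪
        (badCellA δ u θ W z l ∩ {ω | ∃ t ∈ (Finset.Icc l N).image fun i : ℕ => (i : ℝ) * δ,
          z ∈ loewnerDomain (fun v => W v ω) t ∧ Uf (fun v => W v ω) z t ≤ u - 1})) := by
  rintro ω ⟨hS, hGT⟩
  by_cases hNK : ω ∈ ⋃ l ∈ Finset.range (N + 1),
      (NK ϰ c δ W z l ∩ {ω | Uf (fun v => W v ω) z (l * δ) ≤ u - 1})
  swap
  · exact Or.inl ⟨hS, hNK⟩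
  right
  rw [mem_iUnion₂] at hNK
  obtain ⟨m, hm, hNK, hUm⟩ := hNK
  have hUm' : Uf (fun v => W v ω) z (m * δ) ≤ u - 1 := hUm
  have hmN : m ≤ N := Nat.lt_succ_iff.1 (Finset.mem_range.1 hm)
  have hex : ∃ l : ℕ, Uf (fun v => W v ω) z (l * δ) ≤ u := ⟨m, by linarith only [hUm']⟩
  classical
  set l := Nat.find hex with hl
  have hl1 : Uf (fun v => W v ω) z (l * δ) ≤ u := Nat.find_spec hex
  have hl2 : ∀ i < l, u < Uf (fun v => W v ω) z (i * δ) := fun i hi =>
    not_le.1 (Nat.find_min hex hi)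
  have hlm : l ≤ m := Nat.find_min' hex (by linarith only [hUm'])
  have hlN : l ≤ N := hlm.trans hmN
  have hlT : (l : ℝ) * δ ≤ T := by
    rw [← hN]
    exact mul_le_mul_of_nonneg_right (by exact_mod_cast hlN) hδ.le
  have hl0 : l ≠ 0 := by
    intro h
    rw [h, Nat.cast_zero, zero_mul, Uf_zero] at hl1
    linarith only [hu, hl1]
  have hlge : u - 1 / 4 ≤ Uf (fun v => W v ω) z (l * δ) := by
    obtain ⟨k, hk⟩ := Nat.exists_eq_succ_of_ne_zero hl0
    have h1 := hl2 k (by omega)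
    have h2 := (hNK.1 l hlm)
    have h3 := badCell_step (hc ω) (s := k * δ) (t := l * δ) (by (clear * - hδ; positivity))
      (by rw [hk]; push_cast; nlinarith only [hδ]) h2.1 hϰ h2.2.1
    have h4 : 4 * ((l : ℝ) * δ - k * δ) / ϰ ^ 2 = 4 * δ / ϰ ^ 2 := by
      rw [hk]; push_cast; ring
    rw [h4] at h3
    linarith only [hδϰ, h1, h3]
  have hall : z ∈ loewnerDomain (fun v => W v ω) (l * δ) := (hNK.1 l hlm).1
  rw [mem_iUnion₂]
  refine ⟨l, Finset.mem_range.2 (by omega), ?_⟩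
  by_cases hsn : sn (Zf (fun v => W v ω) z (l * δ)) ≤ θ
  · right
    refine ⟨⟨⟨hall, hsn, hlge, hl1⟩, ?_⟩, m * δ,
      Finset.mem_image_of_mem (fun i : ℕ => (i : ℝ) * δ) (Finset.mem_Icc.2 ⟨hlm, hmN⟩),
      (hNK.1 m le_rfl).1, hUm'⟩
    rw [mem_iInter₂]
    intro i hi
    have hil := Finset.mem_range.1 hi
    exact ⟨(hNK.1 i (by omega)).1, hl2 i hil⟩
  · left
    refine ⟨⟨⟨⟨fun i hi => hNK.1 i (by omega), fun i hi => hNK.2 i (by omega)⟩, hl1, hl2⟩,
      hG _ _ (by positivity) hlT hGT⟩, ?_⟩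
    apply ENNReal.ofReal_le_ofReal
    rw [St_of_mem hall, MM]
    refine mul_le_mul ?_ ?_ (by positivity) (by positivity)
    · apply Real.exp_le_exp.2
      have := xx_pos h8
      nlinarith only [hl1, this]
    · exact Real.rpow_le_rpow hθ.le (not_le.1 hsn).le (be_nonneg h0 h8)

lemma BadCell_main {κ : ℝ} (h0 : 0 < κ) (h8 : κ < 8) {Ω : Type*} [MeasurableSpace Ω]
    {P : Measure Ω} {W : ℝ → Ω → ℝ} (hW : IsDrv κ P W) {z : ℂ}
    {T u θ : ℝ} {Q Ra Rη Rs : ℝ≥0∞} (hT : 0 < T) (hu : u < Real.log z.im) (hθ : 0 < θ)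
    {G : ℝ → Set Ω} (hG : ∀ s t, 0 ≤ s → s ≤ t → G t ⊆ G s)
    (hI : ∀ ϰ, 0 < ϰ → ∃ c₀ > 0, ∃ δ₀ > 0, ∀ c, 0 < c → c ≤ c₀ → ∀ δ, 0 < δ → δ ≤ δ₀ →
      ∀ N : ℕ, N * δ ≤ T → ∑ l ∈ Finset.range (N + 1),
        ∫⁻ ω in NK ϰ c δ W z l ∩ Fst δ u W z l ∩ G (l * δ),
          ENNReal.ofReal (St (MM κ) (fun v => W v ω) z (l * δ)) ∂P ≤ Q)
    (hsa : ∀ s : ℝ, 0 ≤ s → ∀ A : Set Ω, MeasurableSet[past W s] A →
      (∀ ω ∈ A, z ∈ loewnerDomain (fun v => W v ω) s ∧ sn (Zf (fun v => W v ω) z s) ≤ θ ∧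
        u - 1 / 4 ≤ Uf (fun v => W v ω) z s) → ∀ S : Finset ℝ, (∀ t ∈ S, s ≤ t) →
      P (A ∩ {ω | ∃ t ∈ S, z ∈ loewnerDomain (fun v => W v ω) t ∧
        Uf (fun v => W v ω) z t ≤ u - 1}) ≤ Rs * P A)
    (hap : ∀ S : Finset ℝ, (∀ t ∈ S, 0 ≤ t) →
      P {ω | ∃ t ∈ S, z ∈ loewnerDomain (fun v => W v ω) t ∧ Uf (fun v => W v ω) z t ≤ u} ≤ Ra)
    (hnk : ∃ ϰ > 0, ∀ c, 0 < c → ∃ δ₁ > 0, ∀ δ, 0 < δ → δ ≤ δ₁ → ∀ N : ℕ, N * δ ≤ T →
      T < (N + 1) * δ →
      P ({ω | ∃ t ∈ Icc 0 T, z ∈ loewnerDomain (fun v => W v ω) t ∧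
          Uf (fun v => W v ω) z t < u - 1} \
        ⋃ l ∈ Finset.range (N + 1),
          (NK ϰ c δ W z l ∩ {ω | Uf (fun v => W v ω) z (l * δ) ≤ u - 1})) ≤ Rη) :
    P ({ω | ∃ t ∈ Icc 0 T, z ∈ loewnerDomain (fun v => W v ω) t ∧
        Uf (fun v => W v ω) z t < u - 1} ∩ G T) ≤
      Rη + (ENNReal.ofReal (1 / (Real.exp (-xx κ * u) * θ ^ be κ)) * Q + Rs * Ra) := by
  obtain ⟨ϰ, hϰ, hnk⟩ := hnk
  obtain ⟨c, hc, δ₀, hδ₀, hI⟩ := hI ϰ hϰ
  obtain ⟨δ₁, hδ₁, hnk⟩ := hnk c hc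
  set m := min δ₀ (min δ₁ (ϰ ^ 2 / 16)) with hm
  have hmpos : 0 < m := lt_min hδ₀ (lt_min hδ₁ (by (clear * - hϰ; positivity)))
  obtain ⟨N, hN⟩ := exists_nat_ge (T / m)
  have hN0 : (0 : ℝ) < N := lt_of_lt_of_le (by (clear * - hT hδ₀ hδ₁ hϰ; positivity)) hN
  set δ := T / N with hδdef
  have hδ : 0 < δ := by (clear * - hT hN0; positivity)
  have hδm : δ ≤ m := by
    rw [hδdef, div_le_iff₀ hN0]
    rwa [div_le_iff₀ hmpos, mul_comm] at hN
  have hNδ : (N : ℝ) * δ = T := by rw [hδdef]; (clear * - hN0 hT; field_simp)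
  have hδ0' : δ ≤ δ₀ := hδm.trans (min_le_left _ _)
  have hδ1' : δ ≤ δ₁ := hδm.trans ((min_le_right _ _).trans (min_le_left _ _))
  have hδ2' : δ ≤ ϰ ^ 2 / 16 := hδm.trans ((min_le_right _ _).trans (min_le_right _ _))
  have hδϰ : 4 * δ / ϰ ^ 2 ≤ 1 / 4 := by
    rw [div_le_iff₀ (by (clear * - hϰ; positivity))]
    linarith
  have hcov := BadCell_cover (κ := κ) h8 h0 hW.cont (z := z) (c := c) hNδ hδ hϰ hδϰ hu hθ hG
  set a := Real.exp (-xx κ * u) * θ ^ be κ with ha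
  have hapos : 0 < a := by positivity
  refine (measure_mono hcov).trans ((measure_union_le _ _).trans (add_le_add ?_ ?_))
  · exact hnk δ hδ hδ1' N hNδ.le (by linarith only [hδ, hNδ])
  refine (measure_biUnion_finset_le _ _).trans ?_
  refine (Finset.sum_le_sum fun l _ => measure_union_le _ _).trans ?_
  rw [Finset.sum_add_distrib]
  refine add_le_add ?_ ?_
  · refine le_trans (Finset.sum_le_sum fun l _ => badCell_markov
      (((St_past hW.cont hW.meas (FM.MM_measurable κ) (by (clear * - hT hN0; positivity)) z).mono hW.past_le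
        le_rfl).ennreal_ofReal) hapos _) ?_
    rw [← Finset.mul_sum]
    gcongr
    exact hI c hc le_rfl δ hδ hδ0' N hNδ.le
  · refine le_trans (Finset.sum_le_sum fun l hl => hsa (l * δ) (by (clear * - hT hN0; positivity))
      (badCellA δ u θ W z l) (badCellA_past hW.cont hW.meas hδ.le u θ z l)
      (fun ω hω => ⟨hω.1.1, hω.1.2.1, hω.1.2.2.1⟩)
      ((Finset.Icc l N).image fun i : ℕ => (i : ℝ) * δ) ?_) ?_
    · intro t ht
      obtain ⟨i, hi, rfl⟩ := Finset.mem_image.1 ht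
      exact mul_le_mul_of_nonneg_right (by exact_mod_cast (Finset.mem_Icc.1 hi).1) hδ.le
    rw [← Finset.mul_sum]
    gcongr
    rw [← measure_biUnion_finset]
    · refine le_trans (measure_mono ?_) (hap ((Finset.range (N + 1)).image fun l : ℕ => (l : ℝ) * δ) ?_)
      · intro ω hω
        rw [mem_iUnion₂] at hω
        obtain ⟨l, hl, hω⟩ := hω
        exact ⟨l * δ, Finset.mem_image_of_mem _ hl, hω.1.1, hω.1.2.2.2⟩
      · intro t ht
        obtain ⟨l, _, rfl⟩ := Finset.mem_image.1 ht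
        (clear * - hT hN0; positivity)
    · intro i _ j _ hij
      rcases lt_or_gt_of_ne hij with h | h
      · exact badCellA_disj δ u θ z h
      · exact (badCellA_disj δ u θ z h).symm
    · intro l _
      exact hW.past_le _ (badCellA_past hW.cont hW.meas hδ.le u θ z l)

/-- The numerical facts about a cell. -/
lemma BadCell_num {x C u₀ b : ℝ} {z : ℂ} (hx0 : 0 < x) (hx1 : x ≤ 1) (hC : 4 ≤ C) (hb : 1 ≤ b)
    (K : ℕ) (hz1 : 1 / 4 ≤ z.im) (hz2 : z.im ≤ 7 / 4) (hCu : C * Real.exp u₀ < 1 / 4) :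
    0 < z.im ∧ (∀ k : ℕ, C * Real.exp (u₀ - b * k) < z.im) ∧ u₀ - b * K < Real.log z.im ∧
      Real.exp (u₀ - b * K) / z.im ≤ Real.exp (-1) ∧ Real.log z.im ≤ 1 ∧
      Real.exp (-x * Real.log z.im) ≤ 4 := by
  have himp : 0 < z.im := by linarith only [hz1]
  have hbk : ∀ k : ℕ, C * Real.exp (u₀ - b * k) < z.im := by
    intro k
    have h1 : Real.exp (u₀ - b * k) ≤ Real.exp u₀ :=
      Real.exp_le_exp.2 (by have : 0 ≤ b * k := by (clear * - hb; positivity)
                            linarith only [this])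
    nlinarith only [hz1, hCu, h1, hC]
  have hK := hbk K
  have hKp := Real.exp_pos (u₀ - b * K)
  have hK4 : 4 * Real.exp (u₀ - b * K) < z.im :=
    lt_of_le_of_lt (mul_le_mul_of_nonneg_right hC hKp.le) hK
  refine ⟨himp, hbk, ?_, ?_, ?_, ?_⟩
  · rw [Real.lt_log_iff_exp_lt himp]
    linarith only [hKp, hK4]
  · have h1 : Real.exp (u₀ - b * K) / z.im ≤ 1 / 4 := by
      rw [div_le_iff₀ himp]
      linarith only [hK4]
    have h2 : (1 : ℝ) / 4 ≤ Real.exp (-1) := by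
      rw [Real.exp_neg, one_div]
      apply inv_anti₀ (Real.exp_pos 1)
      linarith only [Real.exp_one_lt_d9]
    exact h1.trans h2
  · have := Real.log_le_sub_one_of_pos himp
    linarith only [hz2, this]
  · have h1 : -Real.log 4 ≤ Real.log z.im := by
      rw [← Real.log_inv]
      apply Real.log_le_log (by norm_num)
      linarith only [hz1]
    have h2 : -x * Real.log z.im ≤ Real.log 4 := by
      have : 0 < Real.log 4 := Real.log_pos (by norm_num)
      nlinarith only [hx0, h1, hx1, this]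
    calc Real.exp (-x * Real.log z.im) ≤ Real.exp (Real.log 4) := Real.exp_le_exp.2 h2
      _ = 4 := Real.exp_log (by norm_num)

/-- The final computation. -/
lemma BadCell_calc {x β C Cs Ca u y θ τ q1 q B : ℝ} {K : ℕ} (hC : 4 ≤ C) (hCs : 0 < Cs)
    (hCa : 0 < Ca) (hCsa : 4 * Cs * Ca ≤ C) (hy : 0 < y) (hθ : 0 < θ) (hτ : 0 < τ)
    (hexpdiv : Real.exp u / y ≤ Real.exp (-1)) (hlogle : Real.log y ≤ 1)
    (hpow4 : Real.exp (-x * Real.log y) ≤ 4) (hq10 : 0 ≤ q1) (hq1q : q1 ≤ q)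
    (hB : 1 - u = B) :
    ENNReal.ofReal (1 / (Real.exp (-x * u) * θ ^ β)) * (ENNReal.ofReal (q1 ^ K) *
            ENNReal.ofReal (Real.exp (-x * Real.log y))) +
          ENNReal.ofReal (Cs * τ) * ENNReal.ofReal (Ca * Real.log (1 / (Real.exp u / y)) *
            (Real.exp u / y) ^ x) ≤
        ENNReal.ofReal (Real.exp (x * u) *
          (C * θ ^ (-β) * q ^ K + C * τ * B)) := by
  have hL0 : 0 ≤ Real.log (1 / (Real.exp u / y)) := by
    rw [one_div, Real.log_inv]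
    have := Real.log_le_log (by positivity) hexpdiv
    rw [Real.log_exp] at this
    linarith only [this]
  have hL : Real.log (1 / (Real.exp u / y)) ≤ B := by
    rw [one_div, Real.log_inv, Real.log_div (Real.exp_pos u).ne' hy.ne', Real.log_exp]
    linarith only [hlogle, hB]
  have hA1eq : 1 / (Real.exp (-x * u) * θ ^ β) = Real.exp (x * u) * θ ^ (-β) := by
    rw [Real.rpow_neg hθ.le, one_div, mul_inv, ← Real.exp_neg]
    ring_nf
  have hpw : (Real.exp u / y) ^ x ≤ 4 * Real.exp (x * u) := by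
    rw [Real.div_rpow (Real.exp_pos u).le hy.le, ← Real.exp_mul, div_eq_mul_inv,
      ← Real.rpow_neg hy.le, Real.rpow_def_of_pos hy, mul_comm u, mul_comm (Real.log y)]
    nlinarith only [hpow4, Real.exp_pos (x * u)]
  have hC0 : 0 < C := by linarith only [hC]
  rw [← ENNReal.ofReal_mul (by (clear * - hq10; positivity)), ← ENNReal.ofReal_mul (by positivity),
    ← ENNReal.ofReal_mul (by positivity), ← ENNReal.ofReal_add (by (clear * - hθ hq10; positivity)) (by (clear * - hCs hτ hCa hL0 hy; positivity))]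
  apply ENNReal.ofReal_le_ofReal
  rw [hA1eq, mul_add]
  refine add_le_add ?_ ?_
  · have h1 : q1 ^ K ≤ q ^ K := pow_le_pow_left₀ hq10 hq1q K
    have h3 : 0 ≤ q1 ^ K := pow_nonneg hq10 K
    have h2 : q1 ^ K * Real.exp (-x * Real.log y) ≤ C * q ^ K := by
      calc q1 ^ K * Real.exp (-x * Real.log y) ≤ q ^ K * 4 :=
            mul_le_mul h1 hpow4 (Real.exp_pos _).le (h3.trans h1)
        _ = 4 * q ^ K := by ring
        _ ≤ C * q ^ K := mul_le_mul_of_nonneg_right hC (h3.trans h1)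
    calc Real.exp (x * u) * θ ^ (-β) * (q1 ^ K * Real.exp (-x * Real.log y))
        ≤ Real.exp (x * u) * θ ^ (-β) * (C * q ^ K) := by (clear * - h2 hθ; gcongr)
      _ = Real.exp (x * u) * (C * θ ^ (-β) * q ^ K) := by ring
  · calc Cs * τ * (Ca * Real.log (1 / (Real.exp u / y)) * (Real.exp u / y) ^ x)
        ≤ Cs * τ * (Ca * B * (4 * Real.exp (x * u))) := by
          have : 0 ≤ Ca * B := mul_nonneg hCa.le (hL0.trans hL)
          (clear * - hL hCa hpw hy this hCs hτ; gcongr)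
      _ = Real.exp (x * u) * (4 * Cs * Ca * τ * B) := by ring
      _ ≤ Real.exp (x * u) * (C * τ * B) := by
          have : 0 ≤ B := hL0.trans hL
          (clear * - hCsa hτ this; gcongr)

/-- Proof: adapt `bad_cell` of H/BadCell.lean (most auxiliary lemmas there can be used as they
are: `badCell_NG`, `badCellA`, `badCellA_past`, `badCellA_disj`, `badCell_markov`, `badCell_q`,
`badCell_num` with `1/4 ≤ Im z ≤ 7/4` instead of `dist z I ≤ 3/4`, `badCell_calc` with `θ^p` in the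
second term). Write `u = u₀ - b K`. The event is contained in `{∃ t ≤ T, alive, U_t < u - 1}`, so
by `E8.nk_limit` (with `u - 1`) up to probability `η` there is `l ≤ N` with `NK l` and
`U(lδ) ≤ u - 1`. Let `l' ≤ l` be the first grid index with `U(l'δ) ≤ u`; then `NK l'`,
`Fst δ u l'`, `G(l'δ) ⊇ G(T)`, and `U(l'δ) ≥ u - 1/4`. If `sn > θ` at `l'δ` use Markov and
`iterate_scales`; if `sn ≤ θ` then `ω ∈ badCellA δ u θ W z l'` and `z` is alive with `U ≤ u - 1` at
the grid time `lδ ≥ l'δ`: use `E8.small_angle` with the finite set of grid times in `[l'δ, T]` and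
disjointness of the `badCellA`, together with `E8.approach` for
`P(∃ grid time with U ≤ u)`. The conclusion for the event `U_t < u - 1` with existential time. -/
theorem bad_cell {κ : ℝ} (h0 : 0 < κ) (h8 : κ < 8) :
    ∃ b C R₀ : ℝ, 1 ≤ b ∧ 1 ≤ C ∧ 1 ≤ R₀ ∧
      ∀ {Ω : Type*} [MeasurableSpace Ω] {P : Measure Ω} {W : ℝ → Ω → ℝ} (_ : IsDrv κ P W)
      {z : ℂ} {T u₀ R ε θ : ℝ} {K : ℕ} (_ : 0 < T) (_ : 1 / 4 ≤ z.im) (_ : z.im ≤ 7 / 4)
      (_ : C * Real.exp u₀ < 1 / 4) (_ : R₀ ≤ R) (_ : 1 ≤ K)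
      (_ : 0 < ε) (_ : ε ≤ Real.exp (u₀ - b * K) / (C * R)) (_ : 0 < θ) (_ : θ ≤ 1),
      P ({ω | ∃ t ∈ Icc 0 T, z ∈ loewnerDomain (fun v => W v ω) t ∧
          Uf (fun v => W v ω) z t < u₀ - b * K - 1} ∩
          ⋂ k ∈ Finset.range K, NG κ C R ε (u₀ - b * k) W z T) ≤
        ENNReal.ofReal (Real.exp (xx κ * (u₀ - b * K)) *
          (C * θ ^ (-be κ) * (1 - Real.exp (-C * R ^ 2) / C) ^ K +
            C * θ ^ pa κ * (b * K - u₀ + 1))) := by
  obtain ⟨b, C1, R0, hb, hC1, hR0, hI⟩ := iterate_scales h0 h8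
  obtain ⟨Cs, hCs, hsa⟩ := small_angle h0 h8
  obtain ⟨Ca, hCa, hap⟩ := approach h0 h8
  obtain ⟨C, hC4, hCC1, hCsa⟩ : ∃ C : ℝ, 4 ≤ C ∧ C1 ≤ C ∧ 4 * Cs * Ca ≤ C :=
    ⟨max 4 (max C1 (4 * Cs * Ca)), le_max_left _ _, (le_max_left _ _).trans (le_max_right _ _),
      (le_max_right _ _).trans (le_max_right _ _)⟩
  have hC0 : 0 < C := by linarith only [hC4]
  refine ⟨b, C, R0, hb, by linarith only [hC4], hR0, ?_⟩
  intro Ω _ P W hW z T u₀ R ε θ K hT hz1 hz2 hCu hR hK hε hεle hθ hθ1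
  have hprob := hW.prob
  obtain ⟨himp, hbk, hlogu, hexpdiv, hlogle, hpow4⟩ :=
    BadCell_num (xx_pos h8) (by unfold xx; linarith only [h0]) hC4 hb K hz1 hz2 hCu
  have hRpos : 0 < R := by linarith only [hR0, hR]
  obtain ⟨hq10, hq1q⟩ := badCell_q (R := R) hC1 hCC1
  have hGm : ∀ s t, 0 ≤ s → s ≤ t → (⋂ k ∈ Finset.range K, NG κ C R ε (u₀ - b * k) W z t) ⊆
      ⋂ k ∈ Finset.range K, NG κ C R ε (u₀ - b * k) W z s := by
    intro s t hs hst
    exact iInter₂_mono fun k _ => badCell_NG h0 h8 hε hC0 le_rfl hRpos.le hW.cont (hbk k) hs hst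
  have key : ∀ η : ℝ, 0 < η →
      P ({ω | ∃ t ∈ Icc 0 T, z ∈ loewnerDomain (fun v => W v ω) t ∧
          Uf (fun v => W v ω) z t < u₀ - b * K - 1} ∩
          ⋂ k ∈ Finset.range K, NG κ C R ε (u₀ - b * k) W z T) ≤
        ENNReal.ofReal η + (ENNReal.ofReal (1 / (Real.exp (-xx κ * (u₀ - b * K)) * θ ^ be κ)) *
          (ENNReal.ofReal ((1 - Real.exp (-C1 * R ^ 2) / C1) ^ K) *
            ENNReal.ofReal (Real.exp (-xx κ * Real.log z.im)) + ENNReal.ofReal η) +
          ENNReal.ofReal (Cs * θ ^ pa κ) * ENNReal.ofReal (Ca *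
            Real.log (1 / (Real.exp (u₀ - b * K) / z.im)) *
            (Real.exp (u₀ - b * K) / z.im) ^ xx κ)) := by
    intro η hη
    refine BadCell_main h0 h8 hW hT hlogu hθ hGm ?_ ?_ ?_ ?_
    · intro ϰ hϰ
      obtain ⟨c₀, hc₀, δ₀, hδ₀, h⟩ := hI hW (z := z) (T := T) (u₀ := u₀) (R := R) (ε := ε)
        (ϰ := ϰ) (η := η) (K := K) hT (lt_of_le_of_lt
          (mul_le_mul_of_nonneg_right hCC1 (Real.exp_pos _).le)
          (by have := hbk 0; simpa only [gt_iff_lt, CharP.cast_eq_zero, mul_zero, sub_zero] using this)) hR hε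
        (hεle.trans (div_le_div_of_nonneg_left (Real.exp_pos _).le (by (clear * - hC1 hRpos; positivity))
          (mul_le_mul_of_nonneg_right hCC1 hRpos.le))) hϰ hη
      refine ⟨c₀, hc₀, δ₀, hδ₀, fun c hc hcc δ hδ hδδ N hN => le_trans ?_
        (h c hc hcc δ hδ hδδ N hN)⟩
      refine Finset.sum_le_sum fun l _ => lintegral_mono_set ?_
      exact inter_subset_inter_right _ (iInter₂_mono fun k _ =>
        badCell_NG h0 h8 hε (by linarith only [hC1]) hCC1 hRpos.le hW.cont (hbk k) (by (clear * - hδ; positivity)) le_rfl)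
    · intro s hs A hA hA2 S hS
      exact hsa hW hs hθ.le hA hA2 S hS
    · intro S hS
      have h1 := hap hW (z := z) (t₀ := 0) (ρ₀ := z.im) (ε := Real.exp (u₀ - b * K) / z.im)
        le_rfl himp
        (by positivity) hexpdiv (A := univ) (@MeasurableSet.univ _ (past W 0))
        (fun ω _ => ⟨dom_zero.2 himp, by rw [Uf_zero]⟩) S hS
      have h2 : Real.log (Real.exp (u₀ - b * K) / z.im * z.im) = u₀ - b * K := by
        rw [div_mul_cancel₀ _ himp.ne', Real.log_exp]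
      rw [h2, univ_inter, measure_univ, mul_one] at h1
      exact h1
    · exact nk_limit h0 hW himp (u₀ - b * K - 1) hT hη
  have hF := BadCell_calc (x := xx κ) (β := be κ) (τ := θ ^ pa κ) (K := K) hC4 hCs hCa hCsa himp
    hθ (Real.rpow_pos_of_pos hθ _) hexpdiv
    hlogle hpow4 hq10 hq1q (B := b * K - u₀ + 1) (by ring)
  refine ENNReal.le_of_forall_pos_le_add fun e he _ => ?_
  obtain ⟨A1, hA1, hA1pos⟩ : ∃ A1 : ℝ, A1 = 1 / (Real.exp (-xx κ * (u₀ - b * K)) * θ ^ be κ) ∧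
    0 < A1 := ⟨_, rfl, by positivity⟩
  rw [← hA1] at key hF
  have he' : (0 : ℝ) < e := he
  have hηpos : (0 : ℝ) < e / (1 + A1) := by (clear * - he hA1pos; positivity)
  refine (key _ hηpos).trans ?_
  have he2 : ENNReal.ofReal (e / (1 + A1)) + ENNReal.ofReal A1 * ENNReal.ofReal (e / (1 + A1)) =
      e := by
    rw [← ENNReal.ofReal_mul hA1pos.le, ← ENNReal.ofReal_add hηpos.le (by (clear * - hA1pos he; positivity))]
    have : (e : ℝ) / (1 + A1) + A1 * (e / (1 + A1)) = e := by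
      (clear * - hA1pos he; field_simp)
    rw [this, ENNReal.ofReal_coe_nnreal]
  rw [mul_add, ← he2]
  refine le_trans (le_of_eq ?_) (add_le_add_left hF _)
  ring

end Vale.Agent.P164.E8
end

section

/-!
# Tail of the measure of the trace in a disc (`0 < κ < 8`)
-/

namespace Vale.Agent.P164.E8

open Set Metric Filter Topology MeasureTheory ProbabilityTheory
open scoped NNReal ENNReal

/-- One level of the covering. -/
lemma upper_level {κ : ℝ} (h0 : 0 < κ) (h4 : κ < 8)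
    {Ω : Type*} [MeasurableSpace Ω] {P : Measure Ω} {W : ℝ → Ω → ℝ} (hW : IsDrv κ P W)
    {γ : Ω → ℝ → ℂ} (hγ : ∀ᵐ ω ∂P, IsTrace (fun u => W u ω) (γ ω)) {a T : ℝ} (hT : 0 < T)
    {h : ℝ → ℝ} {C' b u₀ ε Ch q H δ : ℝ} {K : ℕ} (hC' : 0 < C') (hε : 0 < ε) (hCh : 0 < Ch)
    (hv : u₀ - b * K ≤ 0) (hq : 0 ≤ q)
    {bad : Ω → ℂ → Prop}
    (hcov : ∀ ω, IsTrace (fun u => W u ω) (γ ω) →
      pre h δ (γ ω '' Icc 0 T ∩ closedBall (ctr a) (3 / 5)) ≤
        ENNReal.ofReal (C' * Ch * mu κ ε (fun u => W u ω) (ball (ctr a) (3 / 4)) 0 T) +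
        ({z ∈ lattA a (Real.exp (u₀ - b * K - 1) / 20) | bad ω z}.encard : ℝ≥0∞) *
          ENNReal.ofReal (h (Real.exp (u₀ - b * K))))
    (hbad : ∀ z ∈ lattA a (Real.exp (u₀ - b * K - 1) / 20), P {ω | bad ω z} ≤
      ENNReal.ofReal (Real.exp (xx κ * (u₀ - b * K)) * q))
    (hH : h (Real.exp (u₀ - b * K)) ≤ H * Real.exp (dd κ * (u₀ - b * K))) (hH0 : 0 ≤ H)
    {M : ℝ} (hM : 0 < M) :
    P {ω | ENNReal.ofReal M < pre h δ (γ ω '' Icc 0 T ∩ closedBall (ctr a) (3 / 5))} ≤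
      ENNReal.ofReal ((100 * (C' * Ch) + 40000 * Real.exp 2 * (H * q)) / M) := by
  have hP : IsProbabilityMeasure P := hW.prob
  set v : ℝ := u₀ - b * K with hvdef
  set e : ℝ := Real.exp (v - 1) / 20 with he
  have he0 : 0 < e := by positivity
  have he1 : e ≤ 1 := by
    have : Real.exp (v - 1) ≤ 1 := Real.exp_le_one_iff.2 (by linarith only [hv])
    rw [he]
    linarith only [this]
  have hX : Measurable fun ω => ENNReal.ofReal (C' * Ch * mu κ ε (fun u => W u ω)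
      (ball (ctr a) (3 / 4)) 0 T) :=
    ((ge_meas hW κ ε hT.le _).const_mul _).ennreal_ofReal
  have hcov' : ∀ᵐ ω ∂P, pre h δ (γ ω '' Icc 0 T ∩ closedBall (ctr a) (3 / 5)) ≤
        ENNReal.ofReal (C' * Ch * mu κ ε (fun u => W u ω) (ball (ctr a) (3 / 4)) 0 T) +
        ({z ∈ lattA a e | bad ω z}.encard : ℝ≥0∞) * ENNReal.ofReal (h (Real.exp v)) := by
    filter_upwards [hγ] with ω h1
    exact hcov ω h1
  have h1 := upper_markov hX (lattA_finite a he0) hbad hcov' (a := ENNReal.ofReal M)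
    (by simpa only [ne_eq, ENNReal.ofReal_eq_zero, not_le] using hM) ENNReal.ofReal_ne_top
  refine h1.trans ?_
  rw [ENNReal.ofReal_div_of_pos hM]
  refine ENNReal.div_le_div_right ?_ _
  rw [ENNReal.ofReal_add (by (clear * - hC' hCh; positivity)) (by (clear * - hH0 hq; positivity))]
  refine add_le_add ?_ ?_
  · have h2 : ∀ ω, ENNReal.ofReal (C' * Ch * mu κ ε (fun u => W u ω)
        (ball (ctr a) (3 / 4)) 0 T) = ENNReal.ofReal (C' * Ch) *
          ENNReal.ofReal (mu κ ε (fun u => W u ω) (ball (ctr a) (3 / 4)) 0 T) := fun ω =>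
      ENNReal.ofReal_mul (by positivity)
    rw [lintegral_congr h2, lintegral_const_mul _ (ge_meas hW κ ε hT.le _).ennreal_ofReal]
    rw [mul_comm (100 : ℝ), ENNReal.ofReal_mul (p := C' * Ch) (by positivity)]
    exact mul_le_mul_right (exp_mu h0 h4 hW hε hT) _
  · have h3 : ((lattA a e).ncard : ℝ≥0∞) ≤ ENNReal.ofReal (40000 * Real.exp 2 * Real.exp (-2 * v)) := by
      rw [← ENNReal.ofReal_natCast]
      apply ENNReal.ofReal_le_ofReal
      refine (lattA_card a he0 he1).trans (le_of_eq ?_)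
      rw [he, div_pow, ← Real.exp_nat_mul, mul_assoc, ← Real.exp_add, div_div_eq_mul_div,
        div_eq_mul_inv, ← Real.exp_neg]
      have : -((2 : ℕ) * (v - 1)) = 2 + -2 * v := by push_cast; ring
      rw [this]
      norm_num
    calc ((lattA a e).ncard : ℝ≥0∞) * ENNReal.ofReal (Real.exp (xx κ * v) * q) *
          ENNReal.ofReal (h (Real.exp v))
        ≤ ENNReal.ofReal (40000 * Real.exp 2 * Real.exp (-2 * v)) *
          ENNReal.ofReal (Real.exp (xx κ * v) * q) *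
          ENNReal.ofReal (H * Real.exp (dd κ * v)) := by
          (clear * - h3 hH; gcongr)
      _ = ENNReal.ofReal (40000 * Real.exp 2 * (H * q)) := by
          rw [← ENNReal.ofReal_mul (by positivity), ← ENNReal.ofReal_mul (by (clear * - hq; positivity))]
          congr 1
          have h5 : Real.exp (-2 * v) * Real.exp (xx κ * v) * Real.exp (dd κ * v) = 1 := by
            rw [← Real.exp_add, ← Real.exp_add, Real.exp_eq_one_iff]
            unfold xx dd
            ring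
          calc 40000 * Real.exp 2 * Real.exp (-2 * v) * (Real.exp (xx κ * v) * q) *
                (H * Real.exp (dd κ * v)) = 40000 * Real.exp 2 * (H * q) *
                (Real.exp (-2 * v) * Real.exp (xx κ * v) * Real.exp (dd κ * v)) := by ring
            _ = _ := by rw [h5, mul_one]

/-- The probability that the measure of the trace in `closedBall I (3/5)` exceeds `M` is
`O(1/M)`. -/
theorem upper_tail {κ : ℝ} (h0 : 0 < κ) (h4 : κ < 8) {h : ℝ → ℝ} (hh' : IsGauge h)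
    {r₀ : ℝ} (hr₀ : 0 < r₀) (hhr : ∀ r, 0 < r → r < r₀ → h r = hh κ r) :
    ∃ C : ℝ, 0 < C ∧ ∀ {Ω : Type*} [MeasurableSpace Ω] {P : Measure Ω} {W : ℝ → Ω → ℝ}
      (_ : IsDrv κ P W) {γ : Ω → ℝ → ℂ} (_ : ∀ᵐ ω ∂P, IsTrace (fun u => W u ω) (γ ω))
      {a T : ℝ} (_ : 0 < T) {M : ℝ} (_ : 0 < M),
      P {ω | ENNReal.ofReal M <
        gaugeMeasure h (γ ω '' Icc 0 T ∩ closedBall (ctr a) (3 / 5))} ≤
        ENNReal.ofReal (C / M) := by
  obtain ⟨b, C, R₀, hb, hC, -, Hbad⟩ := bad_cell h0 h4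
  obtain ⟨C', hC', Hcov⟩ := cover h0 h4 hb hC
  obtain ⟨c₃, hc₃, hpar⟩ := param_tendsto (b := b) h0 h4 hC
  obtain ⟨Ch, hCh, hhu⟩ := hh_upper h0 h4 hb hC' hc₃
  -- the eventual conditions
  have e1 : ∀ᶠ n : ℕ in atTop, C * Real.exp (-(b * 2 ^ n)) < 1 / 4 :=
    (upper_scale hb C).eventually (gt_mem_nhds (by norm_num))
  have e2 : ∀ᶠ n : ℕ in atTop, C' * Real.exp (-(b * 2 ^ n)) < 1 / 100 :=
    (upper_scale hb C').eventually (gt_mem_nhds (by norm_num))
  have e3 : ∀ᶠ n : ℕ in atTop, C' * Real.exp (-(b * 2 ^ n)) < r₀ :=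
    (upper_scale hb C').eventually (gt_mem_nhds hr₀)
  have e4 : ∀ᶠ n : ℕ in atTop, max R₀ 1 ≤ √(c₃ * n) :=
    ((Real.tendsto_sqrt_atTop.comp
      (tendsto_natCast_atTop_atTop.const_mul_atTop hc₃))).eventually_ge_atTop _
  have e5 : ∀ᶠ n : ℕ in atTop, 40000 * Real.exp 2 * (Ch * (((n : ℝ) + 1) *
      (C * thp κ n ^ (-be κ) * (1 - Real.exp (-C * √(c₃ * n) ^ 2) / C) ^ (2 ^ n) +
        C * thp κ n ^ pa κ * (b * 2 ^ n + b * 2 ^ n + 1)))) < 1 := by
    have h1 := (hpar.const_mul Ch).const_mul (40000 * Real.exp 2)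
    rw [mul_zero, mul_zero] at h1
    exact h1.eventually (gt_mem_nhds one_pos)
  obtain ⟨n₀, hn₀⟩ := eventually_atTop.1
    (hhu.and (e1.and (e2.and (e3.and (e4.and e5)))))
  refine ⟨100 * (C' * Ch) + 1, by positivity, ?_⟩
  intro Ω _ P W hW γ hγ a T hT M hM
  have hP : IsProbabilityMeasure P := hW.prob
  -- the bound at every level
  have key : ∀ n, n₀ ≤ n → P {ω | ENNReal.ofReal M < pre h (C' * Real.exp (-(b * 2 ^ n)))
      (γ ω '' Icc 0 T ∩ closedBall (ctr a) (3 / 5))} ≤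
      ENNReal.ofReal ((100 * (C' * Ch) + 1) / M) := by
    intro n hn
    have hall := hn₀ n hn
    obtain ⟨K, hKn⟩ : ∃ K : ℕ, 2 ^ n = K := ⟨_, rfl⟩
    obtain ⟨B, hB⟩ : ∃ B : ℝ, b * 2 ^ n = B := ⟨_, rfl⟩
    obtain ⟨θ, hθ⟩ : ∃ θ : ℝ, thp κ n = θ := ⟨_, rfl⟩
    obtain ⟨R, hR⟩ : ∃ R : ℝ, √(c₃ * n) = R := ⟨_, rfl⟩
    have hθ0 : 0 < θ := by rw [← hθ]; exact thp_pos κ n
    have hθ1 : θ ≤ 1 := by rw [← hθ]; exact thp_le_one h0 h4 n
    have hK : b * (K : ℝ) = B := by rw [← hKn, ← hB]; push_cast; ring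
    have hK1 : 1 ≤ K := by rw [← hKn]; exact Nat.one_le_two_pow
    have hB0 : 0 < B := by rw [← hB]; positivity
    rw [hB, hR, hθ, hKn] at hall
    rw [hB]
    obtain ⟨⟨g1, g2⟩, a1, a2, a3, a4, a5⟩ := hall
    have hR0 : R₀ ≤ R := (le_max_left _ _).trans a4
    have hR1 : 1 ≤ R := (le_max_right _ _).trans a4
    have hCR : 0 ≤ 1 - Real.exp (-C * R ^ 2) / C := by
      have h1 : Real.exp (-C * R ^ 2) ≤ 1 := Real.exp_le_one_iff.2 (by nlinarith only [hC])
      have h2 : Real.exp (-C * R ^ 2) / C ≤ 1 := by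
        rw [div_le_one (by linarith only [hC])]
        linarith only [hC, h1]
      linarith only [h2]
    have hε : 0 < Real.exp (-B - b * K) / (C * R) := by (clear * - hC hR1; positivity)
    have hvle : Real.exp (-B - b * K) ≤ C' * Real.exp (-B) := by
      have h1 : Real.exp (-B - b * K) ≤ Real.exp (-B) :=
        Real.exp_le_exp.2 (by rw [hK]; linarith only [hB0])
      have h2 : Real.exp (-B) ≤ C' * Real.exp (-B) :=
        le_mul_of_one_le_left (Real.exp_pos _).le hC'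
      exact h1.trans h2
    have hq : 0 ≤ C * θ ^ (-be κ) * (1 - Real.exp (-C * R ^ 2) / C) ^ K +
        C * θ ^ pa κ * (b * K - -B + 1) := by
      rw [hK]
      have p1 := pow_nonneg hCR K
      have p2 : 0 ≤ B - -B + 1 := by linarith only [hB0]
      have p3 : 0 ≤ θ ^ (-be κ) := (Real.rpow_pos_of_pos hθ0 _).le
      have p4 : 0 ≤ θ ^ pa κ := (Real.rpow_pos_of_pos hθ0 _).le
      (clear * - hC hθ0 hCR p2; positivity)
    have hl := upper_level (a := a) h0 h4 hW hγ hT (h := h) (C' := C') (b := b) (u₀ := -B)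
      (ε := Real.exp (-B - b * K) / (C * R)) (Ch := Ch)
      (q := C * θ ^ (-be κ) * (1 - Real.exp (-C * R ^ 2) / C) ^ K + C * θ ^ pa κ * (b * K - -B + 1))
      (H := Ch * ((n : ℝ) + 1)) (δ := C' * Real.exp (-B)) (K := K)
      (bad := fun ω z => (∃ t ∈ Icc 0 T, z ∈ loewnerDomain (fun v => W v ω) t ∧
          Uf (fun v => W v ω) z t < -B - b * K - 1) ∧
        ∀ k < K, mu κ (Real.exp (-B - b * K) / (C * R))
          (fun v => W v ω) (ball z (C * Real.exp (-B - b * k))) 0 T <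
            R ^ xx κ * Real.exp (dd κ * (-B - b * k)) / C)
      (by linarith only [hC']) hε hCh (by rw [hK]; linarith only [hB0]) hq ?_ ?_ ?_ (by (clear * - hCh; positivity)) hM
    · refine hl.trans (ENNReal.ofReal_le_ofReal ?_)
      gcongr
      refine le_trans (le_of_eq ?_) a5.le
      rw [hK]
      ring
    · intro ω hω
      refine Hcov hh' (hW.cont ω) hω hT a2.le hR1 hε hCh ?_
      intro r hr hr1 hr2
      rw [hhr r hr (lt_of_le_of_lt hr1 a3)]
      rw [hK] at hr2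
      exact g1 r hr hr1 hr2
    · intro z hz
      have him := lattA_im hz
      have hbad := Hbad hW (z := z) (T := T) (u₀ := -B) (R := R)
        (ε := Real.exp (-B - b * K) / (C * R)) (θ := θ)
        (K := K) hT (by linarith only [him]) (by linarith only [him]) a1 hR0 hK1 hε le_rfl hθ0 hθ1
      refine le_trans (measure_mono ?_) hbad
      intro ω hb'
      refine ⟨hb'.1, mem_iInter₂.2 fun k hk => ?_⟩
      exact hb'.2 k (Finset.mem_range.1 hk)
    · rw [hhr _ (Real.exp_pos _) (lt_of_le_of_lt hvle a3), hK]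
      exact g2
  -- the union over the levels
  have hmono : Monotone fun n : ℕ => {ω | ENNReal.ofReal M <
      pre h (C' * Real.exp (-(b * 2 ^ (n + n₀)))) (γ ω '' Icc 0 T ∩ closedBall (ctr a) (3 / 5))} := by
    intro m n hmn ω hω
    refine lt_of_lt_of_le hω (pre_anti h ?_ _)
    have h1 : (2 : ℝ) ^ (m + n₀) ≤ 2 ^ (n + n₀) := pow_le_pow_right₀ (by norm_num) (by (clear * - hmn; omega))
    have h2 : Real.exp (-(b * 2 ^ (n + n₀))) ≤ Real.exp (-(b * 2 ^ (m + n₀))) :=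
      Real.exp_le_exp.2 (by nlinarith only [h1, hb])
    exact mul_le_mul_of_nonneg_left h2 (by linarith only [hC'])
  calc P {ω | ENNReal.ofReal M <
        gaugeMeasure h (γ ω '' Icc 0 T ∩ closedBall (ctr a) (3 / 5))}
      ≤ P (⋃ n : ℕ, {ω | ENNReal.ofReal M < pre h (C' * Real.exp (-(b * 2 ^ (n + n₀))))
          (γ ω '' Icc 0 T ∩ closedBall (ctr a) (3 / 5))}) := by
        refine measure_mono fun ω hω => ?_
        rw [mem_ofPred_eq, gaugeMeasure_eq] at hω
        obtain ⟨δ, hδ⟩ := lt_iSup_iff.1 hω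
        obtain ⟨hδ0, hδ1⟩ := lt_iSup_iff.1 hδ
        obtain ⟨N, hN⟩ := eventually_atTop.1
          ((upper_scale hb C').eventually (gt_mem_nhds hδ0))
        exact mem_iUnion.2 ⟨N, lt_of_lt_of_le hδ1 (pre_anti h (hN (N + n₀) (by omega)).le _)⟩
    _ = ⨆ n : ℕ, P {ω | ENNReal.ofReal M < pre h (C' * Real.exp (-(b * 2 ^ (n + n₀))))
          (γ ω '' Icc 0 T ∩ closedBall (ctr a) (3 / 5))} := hmono.measure_iUnion
    _ ≤ _ := iSup_le fun n => key (n + n₀) (by omega)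

end Vale.Agent.P164.E8
end

section

/-!
# Scaling of the gauge measure
-/

namespace Vale.Agent.P164.E8

open Set Metric Filter Topology MeasureTheory
open scoped NNReal ENNReal

/-- Slow variation of the iterated logarithm: for fixed `y > 0` (for `y ≥ 1` it is clear, the
iterated logarithm decreases),
`hh κ (y r) ≤ 2 y^d hh κ r` for all small `r`. Proof: `log log (1/(y r)) / log log (1/r) → 1` as
`r → 0` (for `L = log(1/r)` large, `log(L + log(1/y)) ≤ log L + log(1/y)/L ≤ 2 log L`... ) and the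
exponent `x/2` is in `(0, 1/2)`, `2^{x/2} ≤ 2`. -/
theorem hh_scale {κ : ℝ} (h0 : 0 < κ) (h8 : κ < 8) {y : ℝ} (hy : 0 < y) :
    ∃ r₁ > 0, ∀ r, 0 < r → r < r₁ → hh κ (y * r) ≤ 2 * y ^ dd κ * hh κ r := by
  refine ⟨Real.exp (-(1 + |Real.log y|)), Real.exp_pos _, fun r hr hr1 => ?_⟩
  have hyr : 0 < y * r := mul_pos hy hr
  set L := Real.log (1 / r) with hL
  have hLeq : L = - Real.log r := by rw [hL, one_div, Real.log_inv]
  have hL1 : 1 + |Real.log y| < L := by
    have := Real.log_lt_log hr hr1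
    rw [Real.log_exp] at this
    rw [hLeq]
    linarith only [this]
  have hM : Real.log (1 / (y * r)) = L - Real.log y := by
    rw [one_div, Real.log_inv, Real.log_mul hy.ne' hr.ne', hLeq]
    ring
  have habs1 : Real.log y ≤ |Real.log y| := le_abs_self _
  have habs2 : - Real.log y ≤ |Real.log y| := neg_le_abs _
  have habs0 : 0 ≤ |Real.log y| := abs_nonneg _
  have hM1 : 1 < L - Real.log y := by linarith only [hL1, habs1]
  have hM2 : L - Real.log y ≤ L ^ 2 := by nlinarith only [hL1, habs2, sq_nonneg (L - 1)]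
  have hL0 : 1 < L := by linarith
  have hlogM0 : 0 ≤ Real.log (L - Real.log y) := Real.log_nonneg hM1.le
  have hlogL0 : 0 ≤ Real.log L := Real.log_nonneg hL0.le
  have hlog : Real.log (L - Real.log y) ≤ 2 * Real.log L := by
    have h1 := Real.log_le_log (by linarith only [hL1, habs1]) hM2
    rwa [Real.log_pow, Nat.cast_ofNat] at h1
  have hx0 : 0 ≤ xx κ / 2 := by unfold xx; linarith only [h8]
  have hx1 : xx κ / 2 ≤ 1 := by unfold xx; linarith only [h0]
  have hpow : Real.log (L - Real.log y) ^ (xx κ / 2) ≤ 2 * Real.log L ^ (xx κ / 2) := by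
    calc Real.log (L - Real.log y) ^ (xx κ / 2) ≤ (2 * Real.log L) ^ (xx κ / 2) :=
          Real.rpow_le_rpow hlogM0 hlog hx0
      _ = (2:ℝ) ^ (xx κ / 2) * Real.log L ^ (xx κ / 2) := Real.mul_rpow (by norm_num) hlogL0
      _ ≤ 2 * Real.log L ^ (xx κ / 2) := by
          apply mul_le_mul_of_nonneg_right _ (Real.rpow_nonneg hlogL0 _)
          calc (2:ℝ) ^ (xx κ / 2) ≤ (2:ℝ) ^ (1:ℝ) :=
                Real.rpow_le_rpow_of_exponent_le (by norm_num) hx1
            _ = 2 := Real.rpow_one _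
  unfold hh
  rw [hM, Real.mul_rpow hy.le hr.le]
  calc y ^ dd κ * r ^ dd κ * Real.log (L - Real.log y) ^ (xx κ / 2)
      ≤ y ^ dd κ * r ^ dd κ * (2 * Real.log L ^ (xx κ / 2)) := by
        apply mul_le_mul_of_nonneg_left hpow
        have := Real.rpow_nonneg hy.le (dd κ)
        have := Real.rpow_nonneg hr.le (dd κ)
        positivity
    _ = 2 * y ^ dd κ * (r ^ dd κ * Real.log L ^ (xx κ / 2)) := by ring

open Pointwise in
lemma GaugeScale_diam {y : ℝ} (hy : 0 < y) (U : Set ℂ) :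
    Metric.diam ((fun z => (y : ℂ) * z) '' U) = y * Metric.diam U := by
  have h1 : (fun z => (y : ℂ) * z) '' U = (y : ℂ) • U := rfl
  rw [h1, diam_smul₀, Complex.norm_real, Real.norm_of_nonneg hy.le]

open Pointwise in
lemma GaugeScale_bdd (y : ℝ) {U : Set ℂ} (hU : Bornology.IsBounded U) :
    Bornology.IsBounded ((fun z => (y : ℂ) * z) '' U) := by
  have h1 : (fun z => (y : ℂ) * z) '' U = (y : ℂ) • U := rfl
  rw [h1]
  exact hU.smul₀ _

/-- Scaling of the gauge measure by `y > 0`. Proof: from a cover `U_n` of `E` with diameters `≤ δ`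
(small) one gets the cover `y • U_n` of `y • E`, of diameters `y diam U_n`; sets of diameter `0`
cost `h 0 = 0` in both. Take `δ ↓ 0` (`gaugeMeasure_eq`, `pre`, `pre_anti` in Gauge.lean, see also
`null_of_bigO` in LowerMain.lean for the comparison of covers). -/
theorem gaugeMeasure_scale {κ : ℝ} (h0 : 0 < κ) (h8 : κ < 8) {h : ℝ → ℝ} (hh' : IsGauge h)
    {r₀ : ℝ} (hr₀ : 0 < r₀) (hhr : ∀ r, 0 < r → r < r₀ → h r = hh κ r) {y : ℝ} (hy : 0 < y)
    (E : Set ℂ) :
    gaugeMeasure h ((fun z => (y : ℂ) * z) '' E) ≤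
      ENNReal.ofReal (2 * y ^ dd κ) * gaugeMeasure h E := by
  obtain ⟨r₁, hr₁, H⟩ := hh_scale h0 h8 hy
  have hC : 0 < 2 * y ^ dd κ := by
    have := Real.rpow_pos_of_pos hy (dd κ)
    (clear * - hy; positivity)
  refine gaugeMeasure_le fun δ hδ => ?_
  set δ' : ℝ := min (min (δ / y) (r₀ / (2 * y))) (min (r₀ / 2) (r₁ / 2)) with hδ'
  have hδ'0 : 0 < δ' := by
    have h1 : 0 < δ / y := div_pos hδ hy
    have h2 : 0 < r₀ / (2 * y) := by positivity
    exact lt_min (lt_min h1 h2) (lt_min (half_pos hr₀) (half_pos hr₁))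
  have hd1 : δ' ≤ δ / y := (min_le_left _ _).trans (min_le_left _ _)
  have hd2 : δ' ≤ r₀ / (2 * y) := (min_le_left _ _).trans (min_le_right _ _)
  have hd3 : δ' ≤ r₀ / 2 := (min_le_right _ _).trans (min_le_left _ _)
  have hd4 : δ' ≤ r₁ / 2 := (min_le_right _ _).trans (min_le_right _ _)
  have key : pre h δ ((fun z => (y : ℂ) * z) '' E) / ENNReal.ofReal (2 * y ^ dd κ) ≤
      pre h δ' E := by
    refine le_iInf fun U => le_iInf fun hU => le_iInf fun hU' => ?_
    refine ENNReal.div_le_of_le_mul' ?_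
    rw [← ENNReal.tsum_mul_left]
    have hdiam : ∀ n, Metric.diam ((fun z => (y : ℂ) * z) '' U n) = y * Metric.diam (U n) :=
      fun n => GaugeScale_diam hy (U n)
    refine iInf_le_of_le (fun n => (fun z => (y : ℂ) * z) '' U n)
      (iInf_le_of_le ?_ (iInf_le_of_le ?_ ?_))
    · rw [← image_iUnion]
      exact image_mono hU
    · intro n
      refine ⟨?_, ?_⟩
      · exact GaugeScale_bdd y (hU' n).1
      · rw [hdiam n]
        have h2 := (hU' n).2.trans hd1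
        rw [le_div_iff₀ hy] at h2
        (clear * - h2; linarith)
    · refine ENNReal.tsum_le_tsum fun n => ?_
      rw [← ENNReal.ofReal_mul hC.le, hdiam n]
      apply ENNReal.ofReal_le_ofReal
      rcases eq_or_lt_of_le (Metric.diam_nonneg (s := U n)) with hz | hz
      · rw [← hz, mul_zero, hh'.zero, mul_zero]
      · have e1 : Metric.diam (U n) < r₀ := by
          have := (hU' n).2.trans hd3
          linarith only [hδ'0, hd3, this]
        have e2 : Metric.diam (U n) < r₁ := by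
          have := (hU' n).2.trans hd4
          linarith only [hδ'0, hd4, this]
        have e3 : y * Metric.diam (U n) < r₀ := by
          have h2 := (hU' n).2.trans hd2
          rw [le_div_iff₀ (by positivity)] at h2
          linarith only [hδ'0, hd3, h2]
        rw [hhr _ hz e1, hhr _ (mul_pos hy hz) e3]
        exact H _ hz e2
  rw [ENNReal.div_le_iff_le_mul (Or.inl (ENNReal.ofReal_pos.2 hC).ne')
    (Or.inl ENNReal.ofReal_ne_top)] at key
  refine key.trans ?_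
  rw [mul_comm]
  gcongr
  exact pre_le_gaugeMeasure h hδ'0 E

end Vale.Agent.P164.E8
end

section

/-!
# Scaling of traces
-/

namespace Vale.Agent.P164

open Set Metric Filter Topology MeasureTheory

/-- The trace depends only on the driving function on `[0,∞)`. Proof: `domain_congr` (Law.lean). -/
theorem IsTrace.congr_drive {W W' : ℝ → ℝ} (h : ∀ t, 0 ≤ t → W t = W' t) {γ : ℝ → ℂ}
    (hγ : IsTrace W γ) : IsTrace W' γ := by
  refine ⟨hγ.cont, ?_, hγ.im_nonneg, fun t ht => ?_⟩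
  · rw [hγ.start, h 0 le_rfl]
  · rw [← domain_congr h t]
    exact hγ.domain_eq t ht

lemma TraceMore_isBounded_mul {A : Set ℂ} (c : ℂ) (hA : Bornology.IsBounded A) :
    Bornology.IsBounded ((fun z => c * z) '' A) :=
  (lipschitzWith_smul c).isBounded_image hA

lemma TraceMore_isBounded_mul_iff {A : Set ℂ} {c : ℂ} (hc : c ≠ 0) :
    Bornology.IsBounded ((fun z => c * z) '' A) ↔ Bornology.IsBounded A := by
  refine ⟨fun h => ?_, TraceMore_isBounded_mul c⟩
  have h2 := TraceMore_isBounded_mul c⁻¹ h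
  rw [image_image] at h2
  have e : (fun x => c⁻¹ * (c * x)) = id := by
    funext x
    simp [hc]
  rwa [e, image_id] at h2

lemma TraceMore_unbComp {S : Set ℂ} {c : ℂ} (hc : c ≠ 0) (x : ℂ) :
    c * x ∈ unbComp ((fun z => c * z) '' S) ↔ x ∈ unbComp S := by
  have hmem : c * x ∈ (fun z => c * z) '' S ↔ x ∈ S :=
    (mul_right_injective₀ hc).mem_set_image
  have hcc : x ∈ S → connectedComponentIn ((fun z => c * z) '' S) (c * x)
      = (fun z => c * z) '' connectedComponentIn S x := by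
    intro hx
    exact ((Homeomorph.mulLeft₀ c hc).image_connectedComponentIn hx).symm
  constructor
  · rintro ⟨h1, h2⟩
    have hx := hmem.mp h1
    refine ⟨hx, ?_⟩
    rw [hcc hx, TraceMore_isBounded_mul_iff hc] at h2
    exact h2
  · rintro ⟨h1, h2⟩
    refine ⟨hmem.mpr h1, ?_⟩
    rw [hcc h1, TraceMore_isBounded_mul_iff hc]
    exact h2

/-- Scaling. Proof: `z ∈ loewnerDomain (scaleW r W) t ↔ r z ∈ loewnerDomain W (r² t)`
(`mem_domain_scaleW`), and `unbComp` commutes with multiplication by `r`: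
`Homeomorph.image_connectedComponentIn` for `Homeomorph.mulLeft₀`, multiplication by `r ≠ 0`
preserves boundedness. -/
theorem IsTrace.scale {W : ℝ → ℝ} {γ : ℝ → ℂ} (hγ : IsTrace W γ) {r : ℝ} (hr : 0 < r) :
    IsTrace (scaleW r W) (fun t => (r : ℂ)⁻¹ * γ (r ^ 2 * t)) := by
  have hrc : (r : ℂ) ≠ 0 := by exact_mod_cast hr.ne'
  have hr2 : 0 < r ^ 2 := by positivity
  have him : ∀ z : ℂ, ((r : ℂ) * z).im = r * z.im := fun z => by simp
  refine ⟨?_, ?_, fun t ht => ?_, fun t ht => ?_⟩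
  · refine continuousOn_const.mul (hγ.cont.comp (by fun_prop) ?_)
    intro t ht
    exact mul_nonneg hr2.le ht
  · simp only [mul_zero, hγ.start, scaleW]
    push_cast
    ring
  · have h1 := hγ.im_nonneg (r ^ 2 * t) (mul_nonneg hr2.le ht)
    have h2 : ((r : ℂ)⁻¹ * γ (r ^ 2 * t)).im = r⁻¹ * (γ (r ^ 2 * t)).im := by
      rw [← Complex.ofReal_inv]
      simp only [Complex.ofReal_inv, Complex.mul_im, Complex.inv_re, Complex.ofReal_re, Complex.normSq_ofReal, div_self_mul_self', Complex.inv_im, Complex.ofReal_im, neg_zero, zero_div, zero_mul, add_zero]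
    rw [h2]
    positivity
  · have hset : {z : ℂ | 0 < z.im} \ γ '' Icc 0 (r ^ 2 * t) = (fun z => (r : ℂ) * z) ''
        ({z : ℂ | 0 < z.im} \ (fun t => (r : ℂ)⁻¹ * γ (r ^ 2 * t)) '' Icc 0 t) := by
      ext w
      constructor
      · rintro ⟨h1, h2⟩
        refine ⟨(r : ℂ)⁻¹ * w, ⟨?_, ?_⟩, by simp only [ne_eq, hrc, not_false_eq_true, mul_inv_cancel_left₀]⟩
        · have h3 := him ((r : ℂ)⁻¹ * w)
          rw [mul_inv_cancel_left₀ hrc] at h3
          have h4 : 0 < r * ((r : ℂ)⁻¹ * w).im := by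
            rw [← h3]
            exact h1
          exact (mul_pos_iff_of_pos_left hr).mp h4
        · rintro ⟨s, hs, h3⟩
          apply h2
          refine ⟨r ^ 2 * s, ⟨mul_nonneg hr2.le hs.1, by gcongr; exact hs.2⟩, ?_⟩
          exact mul_left_cancel₀ (inv_ne_zero hrc) h3
      · rintro ⟨z, ⟨h1, h2⟩, rfl⟩
        refine ⟨?_, ?_⟩
        · show 0 < ((r : ℂ) * z).im
          rw [him]
          exact mul_pos hr h1
        · rintro ⟨s, hs, h3⟩
          apply h2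
          refine ⟨s / r ^ 2, ⟨div_nonneg hs.1 hr2.le, ?_⟩, ?_⟩
          · rw [div_le_iff₀ hr2]
            have := hs.2
            linarith only [this]
          · simp only
            rw [mul_div_cancel₀ _ hr2.ne', h3, inv_mul_cancel_left₀ hrc]
    ext z
    rw [mem_domain_scaleW hr, hγ.domain_eq _ (mul_nonneg hr2.le ht), hset]
    exact TraceMore_unbComp hrc z

end Vale.Agent.P164
end

section

/-!
# The gauge measure of the trace is finite (`0 < κ < 8`)
-/

namespace Vale.Agent.P164.E8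

open Set Metric Filter Topology MeasureTheory ProbabilityTheory
open scoped NNReal ENNReal

/-- Scaled box estimate, constant uniform in the position and the scale. Proof: `upper_tail` for the
rescaled driving process `scaleP y W` (`IsDrv.scale`) and the trace `t ↦ y⁻¹ γ(y² t)`
(`IsTrace.scale`) at the time `T / y²`;
`γ[0,T] ∩ closedBall (y (a+i)) (3y/5) = y • (γ'[0,T/y²] ∩ closedBall (a+i) (3/5))`;
`gaugeMeasure_scale`. -/
theorem box_scaled {κ : ℝ} (h0 : 0 < κ) (h8 : κ < 8) {h : ℝ → ℝ} (hh' : IsGauge h)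
    {r₀ : ℝ} (hr₀ : 0 < r₀) (hhr : ∀ r, 0 < r → r < r₀ → h r = hh κ r) :
    ∃ C : ℝ, 0 < C ∧ ∀ {Ω : Type*} [MeasurableSpace Ω] {P : Measure Ω} {W : ℝ → Ω → ℝ}
      (_ : IsDrv κ P W) {γ : Ω → ℝ → ℂ} (_ : ∀ᵐ ω ∂P, IsTrace (fun u => W u ω) (γ ω))
      {a T y : ℝ} (_ : 0 < T) (_ : 0 < y) {M : ℝ} (_ : 0 < M),
      P {ω | ENNReal.ofReal (2 * y ^ dd κ * M) <
        gaugeMeasure h (γ ω '' Icc 0 T ∩ closedBall ((y : ℂ) * ctr a) (3 / 5 * y))} ≤
        ENNReal.ofReal (C / M) := by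
  obtain ⟨C, hC, H⟩ := upper_tail h0 h8 hh' hr₀ hhr
  refine ⟨C, hC, ?_⟩
  intro Ω _ P W hW γ hγ a T y hT hy M hM
  have hγ' : ∀ᵐ ω ∂P, IsTrace (fun u => scaleP y W u ω)
      ((fun ω t => (y : ℂ)⁻¹ * γ ω (y ^ 2 * t)) ω) := by
    filter_upwards [hγ] with ω h1
    exact h1.scale hy
  have hy2 : 0 < y ^ 2 := by (clear * - hy; positivity)
  have hyc : (y : ℂ) ≠ 0 := by exact_mod_cast hy.ne'
  have hyn : ‖(y : ℂ)‖ = y := by rw [Complex.norm_real, Real.norm_of_nonneg hy.le]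
  refine le_trans (measure_mono ?_) (H (hW.scale hy) hγ' (a := a) (div_pos hT hy2) hM)
  intro ω hω
  have hset : γ ω '' Icc 0 T ∩ closedBall ((y : ℂ) * ctr a) (3 / 5 * y) =
      (fun z => (y : ℂ) * z) '' ((fun t => (y : ℂ)⁻¹ * γ ω (y ^ 2 * t)) '' Icc 0 (T / y ^ 2) ∩
        closedBall (ctr a) (3 / 5)) := by
    ext w
    constructor
    · rintro ⟨⟨t, ht, rfl⟩, hb⟩
      refine ⟨(y : ℂ)⁻¹ * γ ω t, ⟨⟨t / y ^ 2, ⟨div_nonneg ht.1 hy2.le,
        div_le_div_of_nonneg_right ht.2 hy2.le⟩, ?_⟩, ?_⟩, mul_inv_cancel_left₀ hyc _⟩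
      · simp only
        rw [mul_div_cancel₀ _ hy2.ne']
      · rw [mem_closedBall, dist_eq_norm] at hb ⊢
        have e : γ ω t - (y : ℂ) * ctr a = (y : ℂ) * ((y : ℂ)⁻¹ * γ ω t - ctr a) := by
          rw [mul_sub, mul_inv_cancel_left₀ hyc]
        rw [e, norm_mul, hyn] at hb
        nlinarith only [hb, hy]
    · rintro ⟨z, ⟨⟨t, ht, rfl⟩, hb⟩, rfl⟩
      refine ⟨⟨y ^ 2 * t, ⟨mul_nonneg hy2.le ht.1, ?_⟩, ?_⟩, ?_⟩
      · have := ht.2
        rw [le_div_iff₀ hy2] at this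
        linarith only [this]
      · simp only
        rw [mul_inv_cancel_left₀ hyc]
      · rw [mem_closedBall, dist_eq_norm] at hb ⊢
        simp only
        rw [← mul_sub, norm_mul, hyn]
        nlinarith only [hy, hb]
  have hω' : ENNReal.ofReal (2 * y ^ dd κ * M) < gaugeMeasure h
      (γ ω '' Icc 0 T ∩ closedBall ((y : ℂ) * ctr a) (3 / 5 * y)) := hω
  rw [hset] at hω'
  change ENNReal.ofReal M < gaugeMeasure h
    ((fun t => (y : ℂ)⁻¹ * γ ω (y ^ 2 * t)) '' Icc 0 (T / y ^ 2) ∩ closedBall (ctr a) (3 / 5))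
  by_contra hcon
  push Not at hcon
  have h1 := gaugeMeasure_scale h0 h8 hh' hr₀ hhr hy
    ((fun t => (y : ℂ)⁻¹ * γ ω (y ^ 2 * t)) '' Icc 0 (T / y ^ 2) ∩ closedBall (ctr a) (3 / 5))
  have h2 : ENNReal.ofReal (2 * y ^ dd κ) * gaugeMeasure h
      ((fun t => (y : ℂ)⁻¹ * γ ω (y ^ 2 * t)) '' Icc 0 (T / y ^ 2) ∩ closedBall (ctr a) (3 / 5)) ≤
      ENNReal.ofReal (2 * y ^ dd κ) * ENNReal.ofReal M := by gcongr
  have hp : 0 ≤ 2 * y ^ dd κ := by
    have := Real.rpow_nonneg hy.le (dd κ)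
    (clear * - hy; positivity)
  rw [← ENNReal.ofReal_mul hp] at h2
  exact absurd (hω'.trans_le (h1.trans h2)) (lt_irrefl _)

/-- Whitney decomposition. Proof: given `0 < Im z ≤ A` choose `j` with
`3/4 ≤ Im z / (A 2^{-j}) ≤ 3/2`, and `k` the integer nearest to `2 Re z / (A 2^{-j})`; then
`|k| ≤ 2^{j+1} + 1 ≤ 2^{j+2}` and the distance to the centre is at most
`A 2^{-j} sqrt(1/4 + 1/16) ≤ (3/5) A 2^{-j}`. -/
theorem whitney {A : ℝ} (hA : 0 < A) {z : ℂ} (hz : 0 < z.im) (hz1 : z.im ≤ A)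
    (hz2 : |z.re| ≤ A) :
    ∃ (j : ℕ) (k : ℤ), |k| ≤ 2 ^ (j + 2) ∧
      z ∈ closedBall (((A / 2 ^ j : ℝ) : ℂ) * ctr (k / 2)) (3 / 5 * (A / 2 ^ j)) := by
  -- choose `j`
  have hex : ∃ j : ℕ, 3 / 4 * A ≤ z.im * 2 ^ j := by
    obtain ⟨n, hn⟩ := pow_unbounded_of_one_lt (3 / 4 * A / z.im) (by norm_num : (1 : ℝ) < 2)
    refine ⟨n, ?_⟩
    rw [div_lt_iff₀ hz] at hn
    linarith
  classical
  set j := Nat.find hex with hj
  have hj1 : 3 / 4 * A ≤ z.im * 2 ^ j := Nat.find_spec hex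
  have hj2 : z.im * 2 ^ j ≤ 3 / 2 * A := by
    rcases Nat.eq_zero_or_pos j with h0 | h0
    · rw [h0, pow_zero, mul_one]
      linarith only [hA, hz1]
    · have h1 := Nat.find_min hex (m := j - 1) (by omega)
      push Not at h1
      obtain ⟨i, hi⟩ : ∃ i, j = i + 1 := ⟨j - 1, by omega⟩
      rw [hi, Nat.add_sub_cancel] at h1
      rw [hi, pow_succ]
      linarith only [h1]
  set y : ℝ := A / 2 ^ j with hy
  have hp : (0 : ℝ) < 2 ^ j := by positivity
  have hy0 : 0 < y := by positivity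
  have hAy : A = y * 2 ^ j := by rw [hy]; field_simp
  have g1 : 3 / 4 * y ≤ z.im := by
    rw [hAy] at hj1
    have : 3 / 4 * y * 2 ^ j ≤ z.im * 2 ^ j := by linarith only [hj1]
    exact le_of_mul_le_mul_right this hp
  have g2 : z.im ≤ 3 / 2 * y := by
    rw [hAy] at hj2
    have : z.im * 2 ^ j ≤ 3 / 2 * y * 2 ^ j := by linarith only [hj2]
    exact le_of_mul_le_mul_right this hp
  refine ⟨j, round (2 * z.re / y), ?_, ?_⟩
  · have h1 := abs_sub_round (2 * z.re / y)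
    have h2 : |2 * z.re / y| ≤ 2 * 2 ^ j := by
      rw [abs_div, abs_of_pos hy0, div_le_iff₀ hy0, abs_mul, abs_of_pos (by norm_num : (0:ℝ) < 2)]
      rw [hAy] at hz2
      linarith only [hz2]
    have h3 : |((round (2 * z.re / y) : ℤ) : ℝ)| ≤ 2 ^ (j + 2) := by
      have h4 : |((round (2 * z.re / y) : ℤ) : ℝ)| ≤ |2 * z.re / y| +
          |2 * z.re / y - round (2 * z.re / y)| := by
        have := abs_sub_abs_le_abs_sub ((round (2 * z.re / y) : ℤ) : ℝ) (2 * z.re / y)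
        rw [abs_sub_comm] at this
        linarith only [this]
      have h5 : (1 : ℝ) ≤ 2 ^ j := one_le_pow₀ (by norm_num)
      have h6 : (2 : ℝ) ^ (j + 2) = 4 * 2 ^ j := by rw [pow_add]; ring
      rw [h6]
      linarith only [h1, h2, h4, h5]
    exact_mod_cast h3
  · have h1 := abs_sub_round (2 * z.re / y)
    have hre : |z.re - y * ((round (2 * z.re / y) : ℤ) / 2)| ≤ y / 4 := by
      have e : z.re - y * ((round (2 * z.re / y) : ℤ) / 2) =
          y / 2 * (2 * z.re / y - round (2 * z.re / y)) := by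
        field_simp
      rw [e, abs_mul, abs_of_pos (by positivity : 0 < y / 2)]
      nlinarith only [hy0, h1]
    have him : |z.im - y| ≤ y / 2 := by
      rw [abs_le]
      constructor <;> linarith only [g2, hz, g1]
    rw [mem_closedBall, dist_eq_norm]
    have e1 : (z - ((y : ℝ) : ℂ) * ctr ((round (2 * z.re / y) : ℤ) / 2)).re =
        z.re - y * ((round (2 * z.re / y) : ℤ) / 2) := by
      simp only [ctr, Complex.ofReal_div, Complex.ofReal_intCast, Complex.ofReal_ofNat, Complex.sub_re, Complex.mul_re, Complex.ofReal_re, Complex.add_re, Complex.div_ofNat_re, Complex.intCast_re, Complex.I_re, add_zero, Complex.ofReal_im, Complex.add_im, Complex.div_ofNat_im, Complex.intCast_im, zero_div, Complex.I_im, zero_add, mul_one, sub_zero]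
    have e2 : (z - ((y : ℝ) : ℂ) * ctr ((round (2 * z.re / y) : ℤ) / 2)).im = z.im - y := by
      simp only [ctr, Complex.ofReal_div, Complex.ofReal_intCast, Complex.ofReal_ofNat, Complex.sub_im, Complex.mul_im, Complex.ofReal_re, Complex.add_im, Complex.div_ofNat_im, Complex.intCast_im, zero_div, Complex.I_im, zero_add, mul_one, Complex.ofReal_im, Complex.add_re, Complex.div_ofNat_re, Complex.intCast_re, Complex.I_re, add_zero, zero_mul]
    refine abs_le_of_sq_le_sq' ?_ (by positivity) |>.2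
    rw [← Complex.normSq_eq_norm_sq, Complex.normSq_apply, e1, e2, ← sq, ← sq]
    have h3 : (z.re - y * ((round (2 * z.re / y) : ℤ) / 2)) ^ 2 ≤ (y / 4) ^ 2 := sq_le_sq' (by linarith only [(abs_le.1 hre).1]) (abs_le.1 hre).2
    have h4 : (z.im - y) ^ 2 ≤ (y / 2) ^ 2 := sq_le_sq' (by linarith only [hz, g1]) (abs_le.1 him).2
    nlinarith only [h3, h4]

/-- The trace has finite measure in bounded boxes. Proof: index type
`ι = {p : ℕ × ℤ // |p.2| ≤ 2^(p.1+2)}`, `y_p = A / 2^p.1`,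
`X_p ω = gaugeMeasure h (γ ω '' Icc 0 T ∩ closedBall (y_p (p.2/2 + i)) (3/5 y_p))`,
`weak_sum` with `a_p = 2 y_p^d`, `k_p = 3 p.1`, `C` of `box_scaled`
(`M = 2^n`): `∑ a_p (1 + k_p) ≤ ∑_j (2^{j+3}+1) 2 A^d 2^{-jd} (1+3j) < ∞` since `d > 1`, and
`∑ 2^{-k_p} ≤ ∑_j (2^{j+3}+1) 2^{-3j} < ∞`. Hence a.s. `∑ X_p < ∞`; by `whitney`, `gaugeMeasure_iUnion_le`
and `gaugeMeasure_real` (X/GaugeMore; the hypothesis there: `h r ≤ ε r` for small `r`, from
`h = hh κ`, `d > 1`) the measure of `γ[0,T] ∩ {0 ≤ Im ≤ A, |Re| ≤ A}` is finite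
(`IsTrace.im_nonneg`). -/
theorem finite_box {κ : ℝ} (h0 : 0 < κ) (h8 : κ < 8) {h : ℝ → ℝ} (hh' : IsGauge h)
    {r₀ : ℝ} (hr₀ : 0 < r₀) (hhr : ∀ r, 0 < r → r < r₀ → h r = hh κ r)
    {Ω : Type*} [MeasurableSpace Ω] {P : Measure Ω} {W : ℝ → Ω → ℝ} (hW : IsDrv κ P W)
    {γ : Ω → ℝ → ℂ} (hγ : ∀ᵐ ω ∂P, IsTrace (fun u => W u ω) (γ ω)) {A T : ℝ} (hA : 0 < A)
    (hT : 0 < T) :
    ∀ᵐ ω ∂P, gaugeMeasure h (γ ω '' Icc 0 T ∩ {z : ℂ | z.im ≤ A ∧ |z.re| ≤ A}) < ⊤ := by
  have hP : IsProbabilityMeasure P := hW.prob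
  obtain ⟨C, hC, H⟩ := box_scaled h0 h8 hh' hr₀ hhr
  exact FiniteSum_box h0 h8 hh' hr₀ hhr hA (hγ.mono fun ω h1 => h1.im_nonneg) hC
    (fun a y hy M hM => H hW hγ hT hy hM) (fun z hz hz1 hz2 => whitney hA hz hz1 hz2)

/-- Almost surely the measure of every segment is finite. Proof: `finite_box` for all
`A, T ∈ ℕ`, and `γ '' Icc 0 T` is bounded (compact image). -/
theorem finite_all {κ : ℝ} (h0 : 0 < κ) (h8 : κ < 8) {h : ℝ → ℝ} (hh' : IsGauge h)
    {r₀ : ℝ} (hr₀ : 0 < r₀) (hhr : ∀ r, 0 < r → r < r₀ → h r = hh κ r)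
    {Ω : Type*} [MeasurableSpace Ω] {P : Measure Ω} {W : ℝ → Ω → ℝ} (hW : IsDrv κ P W)
    {γ : Ω → ℝ → ℂ} (hγ : ∀ᵐ ω ∂P, IsTrace (fun u => W u ω) (γ ω)) :
    ∀ᵐ ω ∂P, ∀ T : ℝ, gaugeMeasure h (γ ω '' Icc 0 T) < ⊤ := by
  have h1 : ∀ᵐ ω ∂P, ∀ n : ℕ, gaugeMeasure h (γ ω '' Icc 0 ((n : ℝ) + 1) ∩
      {z : ℂ | z.im ≤ (n : ℝ) + 1 ∧ |z.re| ≤ (n : ℝ) + 1}) < ⊤ :=
    ae_all_iff.2 fun n => finite_box h0 h8 hh' hr₀ hhr hW hγ (by (clear * -; positivity)) (by (clear * -; positivity))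
  filter_upwards [hγ, h1] with ω h2 h3 T
  exact FiniteSum_all h2.cont h3 T

end Vale.Agent.P164.E8
end

section

/-!
# The exact gauge is good for all `0 < κ < 8`
-/

namespace Vale.Agent.P164

open Set Metric Filter Topology MeasureTheory ProbabilityTheory
open scoped NNReal ENNReal

universe u

/-- The gauge `hh κ` is good. -/
theorem good8 {κ : ℝ} (h0 : 0 < κ) (h8 : κ < 8) {h : ℝ → ℝ} (hg : IsGauge h)
    (hr : ∃ r₀ : ℝ, 0 < r₀ ∧ ∀ r : ℝ, 0 < r → r < r₀ → h r = hh κ r) : Good8.{u} κ h := by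
  obtain ⟨r₀, hr₀, hhr⟩ := hr
  intro Ω _ P γ hγ
  obtain ⟨B, hB, htr⟩ := hγ
  obtain ⟨W, hW, hWB⟩ := exists_drv h0.le hB
  have htr' : ∀ᵐ ω ∂P, IsTrace (fun u => W u ω) (γ ω) := by
    filter_upwards [htr, hWB] with ω h1 h2
    exact h1.congr_drive fun t ht => (h2 t ht).symm
  filter_upwards [E8.pos_segments h0 h8 hg hr₀ hhr hW htr',
    E8.finite_all h0 h8 hg hr₀ hhr hW htr'] with ω h1 h2
  intro s t hs hst
  refine ⟨h1 s t hs.le hst, lt_of_le_of_lt (gaugeMeasure_mono h (image_mono ?_)) (h2 t)⟩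
  exact Icc_subset_Icc_left hs.le

end Vale.Agent.P164
end

section

/-!
# The theorem for simple traces (`0 < κ < 4`) from the full theorem
-/

namespace Vale.Agent.P164

open Set MeasureTheory ProbabilityTheory

universe u

/-- The exact Hausdorff gauge of the SLE trace for `0 < κ < 4`: it is
`r^(1+κ/8) (log log (1/r))^(1/2-κ/16)`. Such a gauge exists and is good; every gauge comparable to
it near `0` is good; every gauge of smaller order gives measure zero and every gauge of larger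
order, in particular Schramm's candidate `r^(1+κ/8) log log (1/r)`, gives infinite measure to all
segments. -/
theorem exact_from_full (κ : ℝ) (h0 : 0 < κ) (h4 : κ < 4) :
    (∃ h : ℝ → ℝ, IsGauge h ∧
      (∃ r₀ : ℝ, 0 < r₀ ∧ ∀ r : ℝ, 0 < r → r < r₀ →
        h r = r ^ (1 + κ / 8) * Real.log (Real.log (1 / r)) ^ (1 / 2 - κ / 16)) ∧
      Good.{u} κ h) ∧
    (∀ k : ℝ → ℝ, IsGauge k →
      ((∃ c C r₀ : ℝ, 0 < c ∧ 0 < r₀ ∧ ∀ r : ℝ, 0 < r → r < r₀ →
          c * (r ^ (1 + κ / 8) * Real.log (Real.log (1 / r)) ^ (1 / 2 - κ / 16)) ≤ k r ∧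
          k r ≤ C * (r ^ (1 + κ / 8) * Real.log (Real.log (1 / r)) ^ (1 / 2 - κ / 16))) →
        Good.{u} κ k) ∧
      ((∀ ε : ℝ, 0 < ε → ∃ δ : ℝ, 0 < δ ∧ ∀ r : ℝ, 0 < r → r ≤ δ →
          k r ≤ ε * (r ^ (1 + κ / 8) * Real.log (Real.log (1 / r)) ^ (1 / 2 - κ / 16))) →
        AllNull.{u} κ k) ∧
      ((∀ ε : ℝ, 0 < ε → ∃ δ : ℝ, 0 < δ ∧ ∀ r : ℝ, 0 < r → r ≤ δ →
          r ^ (1 + κ / 8) * Real.log (Real.log (1 / r)) ^ (1 / 2 - κ / 16) ≤ ε * k r) →
        AllInfinite.{u} κ k) ∧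
      ((∃ r₀ : ℝ, 0 < r₀ ∧ ∀ r : ℝ, 0 < r → r < r₀ →
          k r = r ^ (1 + κ / 8) * Real.log (Real.log (1 / r))) →
        AllInfinite.{u} κ k)) := by
  obtain ⟨⟨h, hg, hr, hgood⟩, H⟩ :=
    full_of_core.{u} h0 (by linarith : κ < 8) fun _ hg hr => good8 h0 (by linarith only [h4]) hg hr
  refine ⟨⟨h, hg, hr, fun Ω _ P γ hγ => hgood Ω P γ (isSLE_of_isSLETrace h0.le hγ)⟩,
    fun k hk => ?_⟩
  obtain ⟨H1, H2, H3, H4⟩ := H k hk
  exact ⟨fun hc Ω _ P γ hγ => H1 hc Ω P γ (isSLE_of_isSLETrace h0.le hγ),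
    fun hc Ω _ P γ hγ => H2 hc Ω P γ (isSLE_of_isSLETrace h0.le hγ),
    fun hc Ω _ P γ hγ => H3 hc Ω P γ (isSLE_of_isSLETrace h0.le hγ),
    fun hc Ω _ P γ hγ => H4 hc Ω P γ (isSLE_of_isSLETrace h0.le hγ)⟩

end Vale.Agent.P164
end
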